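import Crest.Agent.R326.DBase

/-!
# Row 326, rational approximation of roots of unity (task R326-Approx)

PLAN.  Complex rationals are pairs `ℚ × ℚ` (`cQ`).  (1) `π`: `π / 4 = arctan (1/2) + arctan (1/3)`
(or Machin, `Real.four_mul_arctan_inv_5_sub_arctan_inv_239`) with `Real.hasSum_arctan`; the tail of
the series is geometric; the partial sums are `PT.sum_range`.  (2) reduce `θ` to `Int.fract θ`
(`eC_int`), `x = 2 π' θ ∈ [0, 7]`, `‖exp (i x) - exp (i x')‖ ≤ |x - x'|`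
(`Complex.norm_exp_I_mul_ofReal_sub_one_le`), Taylor polynomial with `n ≥ f + 30` terms
(`Complex.exp_bound'`; real and imaginary parts as `PT.sum_range` of `± x^k / k!` with
`PT.prod_range` for the factorial).  No rounding is needed: exact rational arithmetic on
polynomially many bits.
-/

set_option autoImplicit false

namespace Crest.Agent.R326

open Crest.Agent.PTime

/-- complex rationals -/
def cQ (z : ℚ × ℚ) : ℂ := ⟨z.1, z.2⟩

/-- partial sums of the arctangent series -/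
def apAtan (x : ℚ) (n : ℕ) : ℚ :=
  ∑ k ∈ Finset.range n, (-1) ^ k * x ^ (2 * k + 1) / ((2 * k + 1 : ℕ) : ℚ)

theorem pt_apAtan (x : ℚ) : PT (fun u : U => apAtan x (u.val + 3)) := by
  unfold apAtan
  fun_prop

theorem apAtan_spec {x : ℚ} (h0 : 0 ≤ x) (h1 : x ≤ 1 / 2) (n : ℕ) :
    |(apAtan x n : ℝ) - Real.arctan x| ≤ 1 / 2 ^ n := by
  have h0' : (0 : ℝ) ≤ x := by exact_mod_cast h0
  have h1' : (x : ℝ) ≤ 1 / 2 := by
    have : ((x : ℚ) : ℝ) ≤ ((1 / 2 : ℚ) : ℝ) := by exact_mod_cast h1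
    simpa using this
  have hs := Real.hasSum_arctan (x := (x : ℝ)) (by rw [Real.norm_of_nonneg h0']; linarith)
  have hb := norm_sub_le_of_geometric_bound_of_hasSum (r := 1 / 2) (C := 1 / 2) (by norm_num)
    (fun k => ?_) hs n
  · have e : (apAtan x n : ℝ) =
        ∑ k ∈ Finset.range n, (-1) ^ k * (x : ℝ) ^ (2 * k + 1) / ((2 * k + 1 : ℕ) : ℝ) := by
      unfold apAtan; push_cast; rfl
    rw [e, ← Real.norm_eq_abs]
    refine hb.trans (le_of_eq ?_)
    rw [one_div_pow]; field_simp; norm_num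
  · rw [norm_div, norm_mul, norm_pow, norm_pow, norm_neg, norm_one, one_pow, one_mul,
      Real.norm_of_nonneg h0', Real.norm_natCast]
    have h2 : (1 : ℝ) ≤ ((2 * k + 1 : ℕ) : ℝ) := by exact_mod_cast Nat.le_add_left 1 _
    refine (div_le_self (by positivity) h2).trans ?_
    calc (x : ℝ) ^ (2 * k + 1) ≤ (1 / 2) ^ (2 * k + 1) := by gcongr
      _ ≤ (1 / 2) ^ (k + 1) := pow_le_pow_of_le_one (by norm_num) (by norm_num) (by omega)
      _ = _ := by ring

theorem exists_piQ : ∃ g : ℕ → ℚ, PT (fun u : U => g u.val) ∧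
    ∀ f, |(g f : ℝ) - Real.pi| ≤ 1 / 2 ^ f := by
  refine ⟨fun f => 4 * (apAtan (1 / 2) (f + 3) + apAtan (1 / 3) (f + 3)), ?_, fun f => ?_⟩
  · exact (PT.const 4).rat_mul ((pt_apAtan _).rat_add (pt_apAtan _))
  · have h1 := apAtan_spec (x := 1 / 2) (by norm_num) (by norm_num) (f + 3)
    have h2 := apAtan_spec (x := 1 / 3) (by norm_num) (by norm_num) (f + 3)
    have h3 := Real.arctan_inv_2_add_arctan_inv_3
    have e1 : (((1 / 2 : ℚ)) : ℝ) = 2⁻¹ := by norm_num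
    have e2 : (((1 / 3 : ℚ)) : ℝ) = 3⁻¹ := by norm_num
    rw [e1] at h1
    rw [e2] at h2
    have e3 : (1 : ℝ) / 2 ^ (f + 3) = 1 / 2 ^ f / 8 := by rw [pow_add]; field_simp; norm_num
    rw [e3, abs_le] at h1 h2
    push_cast
    rw [abs_le]
    constructor <;> linarith [h1.1, h1.2, h2.1, h2.2]

/-- Taylor polynomial of `exp (i x)` -/
def apExp (x : ℚ) (n : ℕ) : ℚ × ℚ :=
  (∑ k ∈ Finset.range n, (if k % 2 = 0 then (-1) ^ (k / 2) else 0) * x ^ k /
      ((∏ j ∈ Finset.range k, (j + 1) : ℕ) : ℚ),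
   ∑ k ∈ Finset.range n, (if k % 2 = 0 then 0 else (-1) ^ (k / 2)) * x ^ k /
      ((∏ j ∈ Finset.range k, (j + 1) : ℕ) : ℚ))

theorem pt_apExp : PT (fun z : U × ℚ => apExp z.2 z.1.val) := by
  unfold apExp
  fun_prop

theorem apx_I_pow (k : ℕ) : Complex.I ^ k =
    ((if k % 2 = 0 then (-1) ^ (k / 2) else 0 : ℚ) : ℂ) +
      ((if k % 2 = 0 then 0 else (-1) ^ (k / 2) : ℚ) : ℂ) * Complex.I := by
  conv_lhs => rw [← Nat.div_add_mod k 2, pow_add, pow_mul, Complex.I_sq]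
  rcases Nat.mod_two_eq_zero_or_one k with h | h <;> simp [h]

theorem cQ_eq (z : ℚ × ℚ) : cQ z = (z.1 : ℂ) + (z.2 : ℂ) * Complex.I := by
  apply Complex.ext <;> simp [cQ]

theorem cQ_apExp (x : ℚ) (n : ℕ) :
    cQ (apExp x n) = ∑ k ∈ Finset.range n, (Complex.I * x) ^ k / k.factorial := by
  rw [cQ_eq, apExp]
  simp only [Finset.prod_range_add_one_eq_factorial, Rat.cast_sum, Finset.sum_mul,
    ← Finset.sum_add_distrib]
  refine Finset.sum_congr rfl fun k _ => ?_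
  rw [mul_pow, apx_I_pow]
  simp only [Rat.cast_div, Rat.cast_mul, Rat.cast_pow, Rat.cast_natCast]
  ring

theorem apExp_spec {x : ℚ} (hx : |(x : ℝ)| ≤ 8) (f : ℕ) :
    ‖cQ (apExp x (f + 28)) - Complex.exp (Complex.I * x)‖ ≤ 1 / 2 ^ (f + 1) := by
  have hn : ‖Complex.I * (x : ℂ)‖ ≤ 8 := by
    rw [norm_mul, Complex.norm_I, one_mul, ← Complex.ofReal_ratCast, Complex.norm_real]
    exact hx
  rw [cQ_apExp, norm_sub_rev]
  refine (Complex.exp_bound' ?_).trans ?_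
  · rw [div_le_iff₀ (by positivity)]
    have : (0 : ℝ) ≤ f := Nat.cast_nonneg f
    push_cast; linarith
  · have h1 : (16 : ℝ) ^ (f + 28) / (f + 28).factorial ≤ Real.exp 16 :=
      Real.pow_div_factorial_le_exp 16 (by norm_num) _
    have h2 : Real.exp 16 ≤ 2 ^ 26 := by
      have e : Real.exp 16 = Real.exp 1 ^ 16 := by rw [← Real.exp_nat_mul]; norm_num
      rw [e]
      calc Real.exp 1 ^ 16 ≤ 3 ^ 16 := by
            gcongr; exact (Real.exp_one_lt_d9.trans (by norm_num)).le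
        _ ≤ 2 ^ 26 := by norm_num
    have h3 : (0 : ℝ) < (f + 28).factorial := by exact_mod_cast Nat.factorial_pos _
    calc ‖Complex.I * (x : ℂ)‖ ^ (f + 28) / (f + 28).factorial * 2
        ≤ 8 ^ (f + 28) / (f + 28).factorial * 2 := by gcongr
      _ = (16 : ℝ) ^ (f + 28) / (f + 28).factorial * (2 / 2 ^ (f + 28)) := by
          rw [show (16 : ℝ) = 8 * 2 by norm_num, mul_pow]; field_simp
      _ ≤ 2 ^ 26 * (2 / 2 ^ (f + 28)) := by gcongr; exact h1.trans h2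
      _ = _ := by rw [show f + 28 = f + 1 + 27 by ring, pow_add _ (f + 1)]; field_simp

theorem exists_eQ : ∃ g : ℕ → ℚ → ℚ × ℚ, PT (fun x : U × ℚ => g x.1.val x.2) ∧
    ∀ f θ, ‖cQ (g f θ) - eC θ‖ ≤ 1 / 2 ^ f := by
  obtain ⟨p, hp, hp'⟩ := exists_piQ
  refine ⟨fun f θ => apExp (2 * p (f + 2) * (θ - ⌊θ⌋)) (f + 28), ?_, fun f θ => ?_⟩
  · have h1 : PT (fun x : U × ℚ => p (x.1.val + 2)) :=
      hp.comp (g := fun x : U × ℚ => (⟨x.1.val + 2⟩ : U)) (by fun_prop)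
    exact pt_apExp.comp (g := fun x : U × ℚ =>
      ((⟨x.1.val + 28⟩ : U), 2 * p (x.1.val + 2) * (x.2 - ⌊x.2⌋)))
      (PT.pair (by fun_prop) (((PT.const 2).rat_mul h1).rat_mul (by fun_prop)))
  · set t : ℝ := (θ : ℝ) - ⌊θ⌋ with ht
    have ht0 : 0 ≤ t := by
      have : ((⌊θ⌋ : ℚ) : ℝ) ≤ θ := by exact_mod_cast Int.floor_le θ
      simpa [ht] using this
    have ht1 : t ≤ 1 := by
      have : (θ : ℝ) ≤ ((⌊θ⌋ + 1 : ℚ) : ℝ) := by exact_mod_cast (Int.lt_floor_add_one θ).le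
      push_cast at this; linarith
    have h1 := hp' (f + 2)
    have e3 : (1 : ℝ) / 2 ^ (f + 2) = 1 / 2 ^ (f + 1) / 2 := by rw [pow_succ _ (f + 1)]; field_simp
    have e4 : (1 : ℝ) / 2 ^ f = 1 / 2 ^ (f + 1) + 1 / 2 ^ (f + 1) := by
      rw [pow_succ]; field_simp; norm_num
    have h5 : (1 : ℝ) / 2 ^ (f + 2) ≤ 1 / 4 := by
      rw [pow_add]
      have : (1 : ℝ) ≤ 2 ^ f := one_le_pow₀ (by norm_num)
      rw [div_le_div_iff₀ (by positivity) (by norm_num)]; nlinarith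
    have hx : (((2 * p (f + 2) * (θ - ⌊θ⌋) : ℚ)) : ℝ) = 2 * p (f + 2) * t := by push_cast; rfl
    have hpi := Real.pi_lt_d2
    have hpi0 := Real.pi_pos
    have hab := abs_le.1 (h1.trans h5)
    have h6 := apExp_spec (x := 2 * p (f + 2) * (θ - ⌊θ⌋)) (by
      rw [hx, abs_le]; constructor <;> nlinarith [hab.1, hab.2]) f
    have h7 : eC θ = Complex.exp (Complex.I * ((2 * Real.pi * t : ℝ) : ℂ)) := by
      have : eC θ = eC (θ - ⌊θ⌋) := by
        conv_lhs => rw [show θ = (θ - ⌊θ⌋) + (⌊θ⌋ : ℤ) by ring, eC_add, eC_int, mul_one]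
      rw [this, eC, ht]; congr 1; push_cast; ring
    have h8 : ‖Complex.exp (Complex.I * ((2 * p (f + 2) * (θ - ⌊θ⌋) : ℚ) : ℂ)) - eC θ‖ ≤
        1 / 2 ^ (f + 1) := by
      rw [h7, ← Complex.ofReal_ratCast, hx]
      have e5 : Complex.exp (Complex.I * ((2 * p (f + 2) * t : ℝ) : ℂ)) -
          Complex.exp (Complex.I * ((2 * Real.pi * t : ℝ) : ℂ)) =
          Complex.exp (Complex.I * ((2 * Real.pi * t : ℝ) : ℂ)) *
            (Complex.exp (Complex.I * ((2 * (p (f + 2) - Real.pi) * t : ℝ) : ℂ)) - 1) := by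
        rw [mul_sub_one, ← Complex.exp_add]; congr 2; push_cast; ring
      rw [e5, norm_mul, Complex.norm_exp_I_mul_ofReal, one_mul]
      refine Real.norm_exp_I_mul_ofReal_sub_one_le.trans ?_
      rw [Real.norm_eq_abs, abs_mul, abs_mul, abs_of_nonneg ht0, abs_two]
      rw [e3] at h1
      have : (0 : ℝ) ≤ |(p (f + 2) : ℝ) - Real.pi| := abs_nonneg _
      nlinarith
    rw [e4]
    exact (norm_sub_le_norm_sub_add_norm_sub _ _ _).trans (add_le_add h6 h8)

end Crest.Agent.R326
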