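import Crest.Agent.R326.Approx

/-!
# Row 326, approximation of products of coefficients (task R326-Approx2)

PLAN.  (1) formal sums: with `W = ⌈Σ |q|⌉₊ < 2 ^ size W` use `exists_eQ` at precision
`g + size W` (unary by `PT.toU`, `PB.size`).  (2) inverses: if `‖z⁻¹‖ ≤ 2^b`, `z ≠ 0` and
`‖z' - z‖ ≤ 2^-(g + 2b + 1)` then `‖z'‖ ≥ 2^-(b+1)` and `‖z'⁻¹ - z⁻¹‖ ≤ 2^-g`
(`z'⁻¹ = conj z' / normSq z'` in `ℚ × ℚ`).  (3) products of `d` factors of norm `≤ 2^b`, each
known to `2^-g`: error `≤ d 2^-g (2^b + 1)^d`, take `g = f + (b + 2) d + 1`; the exact product of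
the approximations is a `PT.foldl` with height bounds (`Ht.mul`, `Ht.add`), or round every partial
product.  (4) multiply by `2^f`, take floors of both parts (error `< √2`).
-/

set_option autoImplicit false

namespace Crest.Agent.R326

open Crest.Agent.PTime

theorem ap2_exists_fsQ : ∃ g : ℕ → FS → ℚ × ℚ, PT (fun x : U × FS => g x.1.val x.2) ∧
    ∀ f l, ‖cQ (g f l) - FS.val l‖ ≤ 1 / 2 ^ f := by
  obtain ⟨e, he, he'⟩ := exists_eQ
  obtain ⟨W, hW, hWle⟩ : ∃ W : FS → ℕ, PT W ∧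
      ∀ l, (((l.map fun t => |t.1|).sum : ℚ) : ℝ) ≤ 2 ^ (W l).size := by
    refine ⟨fun l => ⌈(l.map fun t => |t.1|).sum⌉.natAbs, by fun_prop, fun l => ?_⟩
    have h3 : ((l.map fun t => |t.1|).sum : ℚ) ≤
        ((⌈(l.map fun t => |t.1|).sum⌉.natAbs : ℕ) : ℚ) := by
      refine (Int.le_ceil _).trans ?_
      have : ⌈(l.map fun t => |t.1|).sum⌉ ≤ ((⌈(l.map fun t => |t.1|).sum⌉.natAbs : ℕ) : ℤ) :=
        Int.le_natAbs
      have h5 := (Int.cast_le (R := ℚ)).2 this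
      rwa [Int.cast_natCast] at h5
    have h4 : ((⌈(l.map fun t => |t.1|).sum⌉.natAbs : ℕ) : ℝ) ≤
        2 ^ (⌈(l.map fun t => |t.1|).sum⌉.natAbs).size := by
      exact_mod_cast (Nat.lt_size_self _).le
    exact le_trans (by exact_mod_cast h3) h4
  have h0 : PT (fun x : (U × FS) × ℚ × ℚ => (⟨x.1.1.val + (W x.1.2).size⟩ : U)) := by
    have h00 : PT (fun x : (U × FS) × ℚ × ℚ => W x.1.2) := hW.comp (by fun_prop)
    fun_prop
  have h1 : PT (fun x : (U × FS) × ℚ × ℚ => e (x.1.1.val + (W x.1.2).size) x.2.2) :=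
    he.comp (g := fun x : (U × FS) × ℚ × ℚ => ((⟨x.1.1.val + (W x.1.2).size⟩ : U), x.2.2))
      (PT.pair h0 (by fun_prop))
  refine ⟨fun f l => ((l.map fun t => t.1 * (e (f + (W l).size) t.2).1).sum,
    (l.map fun t => t.1 * (e (f + (W l).size) t.2).2).sum), ?_, fun f l => ?_⟩
  · refine PT.pair (PT.rat_list_sum (PT.map ?_ (by fun_prop)))
      (PT.rat_list_sum (PT.map ?_ (by fun_prop)))
    · exact PT.rat_mul (by fun_prop) h1.fst
    · exact PT.rat_mul (by fun_prop) h1.snd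
  · have key : ∀ (n : ℕ) (m : FS), ‖cQ ((m.map fun t => t.1 * (e n t.2).1).sum,
        (m.map fun t => t.1 * (e n t.2).2).sum) - FS.val m‖ ≤
        (((m.map fun t => |t.1|).sum : ℚ) : ℝ) * (1 / 2 ^ n) := by
      intro n m
      induction m with
      | nil => simp [cQ_eq]
      | cons t m ih =>
        obtain ⟨q, θ⟩ := t
        have e1 : cQ ((((q, θ) :: m).map fun t => t.1 * (e n t.2).1).sum,
            (((q, θ) :: m).map fun t => t.1 * (e n t.2).2).sum) - FS.val ((q, θ) :: m) =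
            q * (cQ (e n θ) - eC θ) + (cQ ((m.map fun t => t.1 * (e n t.2).1).sum,
              (m.map fun t => t.1 * (e n t.2).2).sum) - FS.val m) := by
          simp only [cQ_eq, List.map_cons, List.sum_cons, FS.val_cons]
          push_cast; ring
        rw [e1]
        refine (norm_add_le _ _).trans ?_
        rw [norm_mul, List.map_cons, List.sum_cons, Rat.cast_add, add_mul]
        refine add_le_add ?_ ih
        rw [← Complex.ofReal_ratCast, Complex.norm_real, Real.norm_eq_abs, Rat.cast_abs]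
        exact mul_le_mul_of_nonneg_left (he' n θ) (abs_nonneg _)
    refine (key _ l).trans ?_
    have h2 := hWle l
    calc _ ≤ 2 ^ (W l).size * (1 / 2 ^ (f + (W l).size) : ℝ) := by gcongr
      _ = 1 / 2 ^ f := by rw [pow_add]; field_simp

theorem ap2_inv {z z' : ℂ} {f b : ℕ} (hz : z ≠ 0) (hb : ‖z⁻¹‖ ≤ 2 ^ b)
    (h : ‖z' - z‖ ≤ 1 / 2 ^ (f + 2 * b + 1)) : ‖z'⁻¹ - z⁻¹‖ ≤ 1 / 2 ^ f := by
  have hz0 : 0 < ‖z‖ := norm_pos_iff.2 hz
  have h1 : 1 / 2 ^ b ≤ ‖z‖ := by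
    rw [norm_inv, inv_le_comm₀ hz0 (by positivity)] at hb
    rwa [one_div]
  have h2 : (1 : ℝ) / 2 ^ (f + 2 * b + 1) ≤ 1 / 2 ^ (b + 1) :=
    one_div_le_one_div_of_le (by positivity) (pow_le_pow_right₀ (by norm_num) (by omega))
  have h3 : 1 / 2 ^ (b + 1) ≤ ‖z'‖ := by
    have h4 : ‖z‖ ≤ ‖z'‖ + ‖z' - z‖ := by
      calc ‖z‖ = ‖z' - (z' - z)‖ := by congr 1; ring
        _ ≤ _ := norm_sub_le _ _
    have h5 : (1 : ℝ) / 2 ^ b = 1 / 2 ^ (b + 1) + 1 / 2 ^ (b + 1) := by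
      rw [pow_succ]; field_simp; norm_num
    linarith
  have hz'0 : 0 < ‖z'‖ := lt_of_lt_of_le (by positivity) h3
  have hz' : z' ≠ 0 := norm_pos_iff.1 hz'0
  have e : z'⁻¹ - z⁻¹ = -(z' - z) * z⁻¹ * z'⁻¹ := by field_simp; ring
  have h6 : ‖z'⁻¹‖ ≤ 2 ^ (b + 1) := by
    rw [norm_inv, inv_le_comm₀ hz'0 (by positivity)]
    rwa [one_div] at h3
  rw [e, norm_mul, norm_mul, norm_neg]
  calc _ ≤ (1 : ℝ) / 2 ^ (f + 2 * b + 1) * 2 ^ b * 2 ^ (b + 1) := by gcongr
    _ = 1 / 2 ^ f := by rw [show f + 2 * b + 1 = f + b + (b + 1) by ring, pow_add, pow_add]; field_simp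

theorem ap2_cQ_inv (z : ℚ × ℚ) :
    cQ (z.1 / (z.1 * z.1 + z.2 * z.2), -z.2 / (z.1 * z.1 + z.2 * z.2)) = (cQ z)⁻¹ := by
  apply Complex.ext <;> simp [cQ, Complex.normSq_apply]

theorem exists_coefQ : ∃ g : ℕ → ℕ → Coef → ℚ × ℚ,
    PT (fun x : U × U × Coef => g x.1.val x.2.1.val x.2.2) ∧
    ∀ f b c, Coef.Ok (2 ^ b) c → ‖cQ (g f b c) - Coef.val c‖ ≤ 1 / 2 ^ f := by
  obtain ⟨e, he, he'⟩ := ap2_exists_fsQ
  have h1 : PT (fun x : U × U × Coef => e (x.1.val + 2 * x.2.1.val + 1) x.2.2.1) :=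
    he.comp (g := fun x : U × U × Coef => ((⟨x.1.val + 2 * x.2.1.val + 1⟩ : U), x.2.2.1))
      (by fun_prop)
  let iv : ℚ × ℚ → ℚ × ℚ := fun z =>
    (z.1 / (z.1 * z.1 + z.2 * z.2), -z.2 / (z.1 * z.1 + z.2 * z.2))
  have hiv : PT iv := by unfold iv; fun_prop
  refine ⟨fun f b c => cond c.2 (iv (e (f + 2 * b + 1) c.1)) (e (f + 2 * b + 1) c.1), ?_, ?_⟩
  · exact PT.cond (by fun_prop) (hiv.comp h1) h1
  · rintro f b ⟨l, c⟩ hc
    cases c with
    | false =>
      refine (he' _ l).trans ?_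
      exact one_div_le_one_div_of_le (by positivity) (pow_le_pow_right₀ (by norm_num) (by omega))
    | true =>
      have h2 := hc.1
      have h3 := hc.2 rfl
      simp only [Coef.val, cond_true] at h2 h3 ⊢
      rw [ap2_cQ_inv]
      exact ap2_inv h3 (by exact_mod_cast h2) (he' _ l)

/-- a pair of integers as a complex number -/
noncomputable def ap2I (z : ℤ × ℤ) : ℂ := ((⟨z.1, z.2⟩ : GaussianInt) : ℂ)

theorem ap2I_eq (z : ℤ × ℤ) : ap2I z = (z.1 : ℂ) + (z.2 : ℂ) * Complex.I := by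
  simp [ap2I, GaussianInt.toComplex_def]

/-- rounding -/
def ap2Fl (z : ℚ × ℚ) : ℤ × ℤ := (⌊z.1⌋, ⌊z.2⌋)

/-- multiplication -/
def ap2Mul (z w : ℤ × ℤ) : ℤ × ℤ := (z.1 * w.1 - z.2 * w.2, z.1 * w.2 + z.2 * w.1)

theorem ap2I_mul (z w : ℤ × ℤ) : ap2I (ap2Mul z w) = ap2I z * ap2I w := by
  simp only [ap2I_eq, ap2Mul]
  push_cast
  linear_combination (-(z.2 : ℂ) * w.2) * Complex.I_mul_I

theorem ap2I_foldl (l : List (ℤ × ℤ)) (z : ℤ × ℤ) :
    ap2I (l.foldl ap2Mul z) = ap2I z * (l.map ap2I).prod := by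
  induction l generalizing z with
  | nil => simp
  | cons w l ih => rw [List.foldl_cons, ih, ap2I_mul, List.map_cons, List.prod_cons, mul_assoc]

theorem ap2Fl_spec (z : ℚ × ℚ) : ‖ap2I (ap2Fl z) - cQ z‖ ≤ 3 / 2 := by
  have h : ∀ x : ℚ, ((⌊x⌋ : ℝ) - x) ^ 2 ≤ 1 := by
    intro x
    have h1 : ((⌊x⌋ : ℚ) : ℝ) ≤ x := by exact_mod_cast Int.floor_le x
    have h2 : (x : ℝ) ≤ ((⌊x⌋ + 1 : ℚ) : ℝ) := by exact_mod_cast (Int.lt_floor_add_one x).le
    push_cast at h1 h2
    nlinarith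
  have h1 := h z.1
  have h2 := h z.2
  refine abs_le_of_sq_le_sq' ?_ (by norm_num) |>.2
  rw [Complex.sq_norm, Complex.normSq_apply]
  simp only [ap2I_eq, ap2Fl, cQ, Complex.sub_re, Complex.sub_im, Complex.add_re, Complex.add_im,
    Complex.mul_re, Complex.mul_im, Complex.I_re, Complex.I_im, Complex.intCast_re,
    Complex.intCast_im]
  nlinarith

theorem pt_ap2Prod : PT (fun l : List (ℤ × ℤ) => l.foldl ap2Mul (1, 0)) := by
  have key : ∀ (k : ℕ) (m : List (ℤ × ℤ)) (z : ℤ × ℤ) (n : ℕ),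
      (∀ w ∈ m, w.1.natAbs ≤ 2 ^ k ∧ w.2.natAbs ≤ 2 ^ k) → z.1.natAbs ≤ 2 ^ n →
      z.2.natAbs ≤ 2 ^ n → (m.foldl ap2Mul z).1.natAbs ≤ 2 ^ (n + m.length * (k + 1)) ∧
        (m.foldl ap2Mul z).2.natAbs ≤ 2 ^ (n + m.length * (k + 1)) := by
    intro k m
    induction m with
    | nil => intro z n _ h1 h2; simpa using ⟨h1, h2⟩
    | cons w m ih =>
      intro z n hm h1 h2
      obtain ⟨h3, h4⟩ := hm w List.mem_cons_self
      have a1 := Nat.mul_le_mul h1 h3
      have a2 := Nat.mul_le_mul h2 h4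
      have a3 := Nat.mul_le_mul h1 h4
      have a4 := Nat.mul_le_mul h2 h3
      have e : 2 ^ (n + (k + 1)) = 2 ^ n * 2 ^ k + 2 ^ n * 2 ^ k := by ring
      have := ih (ap2Mul z w) (n + (k + 1)) (fun w' hw' => hm w' (List.mem_cons_of_mem _ hw'))
        (by
          refine (Int.natAbs_sub_le _ _).trans ?_
          rw [Int.natAbs_mul, Int.natAbs_mul, e]; omega)
        (by
          refine (Int.natAbs_add_le _ _).trans ?_
          rw [Int.natAbs_mul, Int.natAbs_mul, e]; omega)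
      rw [List.foldl_cons, List.length_cons,
        show n + (m.length + 1) * (k + 1) = n + (k + 1) + m.length * (k + 1) by ring]
      exact this
  refine PT.foldl (f := fun (_ : List (ℤ × ℤ)) z w => ap2Mul z w) (init := fun _ => (1, 0))
    (by unfold ap2Mul; fun_prop) (PT.const _) PT.id
    (B := fun l => 8 * (l.length * (sz l + 1) + 1) + 11) (by fun_prop) fun l i => ?_
  obtain ⟨h1, h2⟩ := key (sz l) (l.take i) (1, 0) 0 (fun w hw => by
    have h3 := sz_mem (List.mem_of_mem_take hw)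
    have h4 : sz w = sz w.1 + sz w.2 + 1 := by cases w; simp
    exact ⟨(natAbs_lt_two_pow_sz _).le.trans (Nat.pow_le_pow_right (by norm_num) (by omega)),
      (natAbs_lt_two_pow_sz _).le.trans (Nat.pow_le_pow_right (by norm_num) (by omega))⟩)
    (by simp) (by simp)
  have h3 : 2 ^ (0 + (l.take i).length * (sz l + 1)) < 2 ^ (l.length * (sz l + 1) + 1) := by
    refine Nat.pow_lt_pow_right (by norm_num) ?_
    have : (l.take i).length ≤ l.length := by simp
    have := Nat.mul_le_mul_right (sz l + 1) this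
    omega
  have h4 := sz_int_le (h1.trans_lt h3)
  have h5 := sz_int_le (h2.trans_lt h3)
  have h6 : ∀ w : ℤ × ℤ, sz w = sz w.1 + sz w.2 + 1 := fun w => by cases w; simp
  change sz (List.foldl ap2Mul (1, 0) (List.take i l)) ≤ _
  rw [h6]
  omega

theorem ap2_prod_err {ι : Type*} (l : List ι) (u v : ι → ℂ) {B ε : ℝ} (hB : 0 ≤ B) (hε : 0 ≤ ε)
    (hε1 : ε ≤ 1) (h : ∀ c ∈ l, ‖v c‖ ≤ B ∧ ‖u c - v c‖ ≤ ε) :
    ‖(l.map u).prod‖ ≤ (B + 1) ^ l.length ∧
      ‖(l.map u).prod - (l.map v).prod‖ ≤ l.length * ε * (B + 1) ^ l.length := by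
  induction l with
  | nil => simp
  | cons c l ih =>
    obtain ⟨h1, h2⟩ := ih fun c' hc' => h c' (List.mem_cons_of_mem _ hc')
    obtain ⟨h3, h4⟩ := h c List.mem_cons_self
    have h5 : ‖u c‖ ≤ B + 1 := by
      calc ‖u c‖ = ‖v c + (u c - v c)‖ := by congr 1; ring
        _ ≤ _ := (norm_add_le _ _).trans (by linarith)
    have h6 : 0 ≤ (B + 1) ^ l.length := by positivity
    simp only [List.map_cons, List.prod_cons, List.length_cons]
    constructor
    · rw [norm_mul, pow_succ']; gcongr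
    · have e : u c * (l.map u).prod - v c * (l.map v).prod =
          (u c - v c) * (l.map u).prod + v c * ((l.map u).prod - (l.map v).prod) := by ring
      rw [e]
      refine (norm_add_le _ _).trans ?_
      rw [norm_mul, norm_mul]
      have h7 : ‖u c - v c‖ * ‖(l.map u).prod‖ ≤ ε * (B + 1) ^ l.length := by gcongr
      have h8 : ‖v c‖ * ‖(l.map u).prod - (l.map v).prod‖ ≤
          B * (l.length * ε * (B + 1) ^ l.length) := by gcongr
      have h9 : 0 ≤ ε * (B + 1) ^ l.length := by positivity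
      have h10 : (0 : ℝ) ≤ l.length := Nat.cast_nonneg _
      push_cast
      rw [pow_succ]
      nlinarith [mul_nonneg h9 hB, mul_nonneg h10 h9]

theorem ap2_cQ_smul (r : ℚ) (z : ℚ × ℚ) : cQ (r * z.1, r * z.2) = r * cQ z := by
  simp only [cQ_eq]; push_cast; ring

theorem exists_apx : ∃ g : ℕ → ℕ → List Coef → ℤ × ℤ,
    PT (fun x : U × U × List Coef => g x.1.val x.2.1.val x.2.2) ∧
    ∀ f b l, (∀ c ∈ l, Coef.Ok (2 ^ b) c) →
      ‖((⟨(g f b l).1, (g f b l).2⟩ : GaussianInt) : ℂ) - 2 ^ f * (l.map Coef.val).prod‖ ≤ 2 := by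
  obtain ⟨e, he, he'⟩ := exists_coefQ
  let G : ℕ → ℕ → ℕ → ℕ := fun f b d => f + (b + 2) * d + 3
  let Z : ℕ → ℕ → Coef → ℤ × ℤ := fun g b c => ap2Fl (2 ^ g * (e g b c).1, 2 ^ g * (e g b c).2)
  have hZ : PT (fun x : U × U × Coef => Z x.1.val x.2.1.val x.2.2) := by
    have h1 := he.fst
    have h2 := he.snd
    unfold Z ap2Fl
    fun_prop
  let P : ℕ → ℕ → List Coef → ℤ × ℤ := fun f b l =>
    (l.map (Z (G f b l.length) b)).foldl ap2Mul (1, 0)
  have hP : PT (fun x : U × U × List Coef => P x.1.val x.2.1.val x.2.2) := by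
    refine pt_ap2Prod.comp (PT.map ?_ (by fun_prop))
    exact hZ.comp (g := fun y : (U × U × List Coef) × Coef =>
      ((⟨y.1.1.val + (y.1.2.1.val + 2) * y.1.2.2.length + 3⟩ : U), y.1.2.1, y.2)) (by fun_prop)
  refine ⟨fun f b l => ap2Fl (2 ^ f / 2 ^ (G f b l.length * l.length) * ((P f b l).1 : ℚ),
    2 ^ f / 2 ^ (G f b l.length * l.length) * ((P f b l).2 : ℚ)), ?_, fun f b l hl => ?_⟩
  · have h1 := hP.fst
    have h2 := hP.snd
    unfold ap2Fl G
    fun_prop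
  · set g := G f b l.length with hg
    set d := l.length with hd
    let u : Coef → ℂ := fun c => ap2I (Z g b c) / 2 ^ g
    have hu : ∀ c ∈ l, ‖Coef.val c‖ ≤ 2 ^ b ∧ ‖u c - Coef.val c‖ ≤ 3 / 2 ^ g := by
      intro c hc
      refine ⟨by exact_mod_cast (hl c hc).1, ?_⟩
      have h1 := he' g b c (hl c hc)
      have h2 := ap2Fl_spec (2 ^ g * (e g b c).1, 2 ^ g * (e g b c).2)
      rw [ap2_cQ_smul] at h2
      have e1 : u c - Coef.val c = (ap2I (Z g b c) - ((2 ^ g : ℚ) : ℂ) * cQ (e g b c)) / 2 ^ g +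
          (cQ (e g b c) - Coef.val c) := by
        simp only [u]; push_cast; field_simp; ring
      rw [e1]
      refine (norm_add_le _ _).trans ?_
      rw [norm_div, norm_pow, Complex.norm_ofNat]
      calc _ ≤ (3 : ℝ) / 2 / 2 ^ g + 1 / 2 ^ g := by gcongr
        _ ≤ 3 / 2 ^ g := by rw [← add_div]; gcongr; norm_num
    have hg3 : (8 : ℝ) ≤ 2 ^ g := by
      calc (8 : ℝ) = 2 ^ 3 := by norm_num
        _ ≤ _ := pow_le_pow_right₀ (by norm_num) (by simp only [hg, G]; omega)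
    have h1 := (ap2_prod_err l u Coef.val (B := 2 ^ b) (ε := 3 / 2 ^ g) (by positivity)
      (by positivity) (by rw [div_le_one (by positivity)]; linarith) hu).2
    have h2 : ap2I (P f b l) = (2 ^ g) ^ d * (l.map u).prod := by
      simp only [P]
      rw [ap2I_foldl, List.map_map, ← hd, ← hg]
      have : ap2I (1, 0) = 1 := by simp [ap2I_eq]
      rw [this, one_mul, hd]
      clear_value g
      clear h1 hu hg hd hl
      induction l with
      | nil => simp
      | cons c l ih =>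
        simp only [List.map_cons, List.prod_cons, List.length_cons, Function.comp] at ih ⊢
        rw [ih, pow_succ]
        simp only [u]
        field_simp
    have h3 := ap2Fl_spec (2 ^ f / 2 ^ (g * d) * ((P f b l).1 : ℚ),
      2 ^ f / 2 ^ (g * d) * ((P f b l).2 : ℚ))
    have h4 : cQ (2 ^ f / 2 ^ (g * d) * ((P f b l).1 : ℚ),
        2 ^ f / 2 ^ (g * d) * ((P f b l).2 : ℚ)) = 2 ^ f * (l.map u).prod := by
      have := ap2_cQ_smul (2 ^ f / 2 ^ (g * d)) (((P f b l).1 : ℚ), ((P f b l).2 : ℚ))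
      rw [this]
      have e2 : cQ (((P f b l).1 : ℚ), ((P f b l).2 : ℚ)) = ap2I (P f b l) := by
        rw [cQ_eq, ap2I_eq]; push_cast; rfl
      rw [e2, h2, ← pow_mul]
      push_cast
      field_simp
    rw [h4] at h3
    have h5 : ‖2 ^ f * (l.map u).prod - 2 ^ f * (l.map Coef.val).prod‖ ≤ 1 / 2 := by
      rw [← mul_sub, norm_mul, norm_pow, Complex.norm_ofNat]
      have a1 : (d : ℝ) ≤ 2 ^ d := by exact_mod_cast Nat.lt_two_pow_self.le
      have a2 : ((2 : ℝ) ^ b + 1) ^ d ≤ (2 ^ (b + 1)) ^ d := by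
        gcongr
        have : (1 : ℝ) ≤ 2 ^ b := one_le_pow₀ (by norm_num)
        rw [pow_succ]; linarith
      calc _ ≤ (2 : ℝ) ^ f * (2 ^ d * (3 / 2 ^ g) * (2 ^ (b + 1)) ^ d) := by
            refine mul_le_mul_of_nonneg_left (h1.trans ?_) (by positivity)
            gcongr
        _ = 3 / 8 := by
            have : (2 : ℝ) ^ g = 2 ^ f * 2 ^ d * (2 ^ (b + 1)) ^ d * 8 := by
              simp only [hg, G]; ring
            rw [this]; field_simp
        _ ≤ 1 / 2 := by norm_num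
    exact (norm_sub_le_norm_sub_add_norm_sub _ _ _).trans
      ((add_le_add h3 h5).trans (by norm_num))

/-- fixed-point approximation of a product of coefficients -/
noncomputable def apx : ℕ → ℕ → List Coef → ℤ × ℤ := exists_apx.choose

theorem pt_apx : PT (fun x : U × U × List Coef => apx x.1.val x.2.1.val x.2.2) :=
  exists_apx.choose_spec.1

theorem apx_spec (f b : ℕ) (l : List Coef) (h : ∀ c ∈ l, Coef.Ok (2 ^ b) c) :
    ‖((⟨(apx f b l).1, (apx f b l).2⟩ : GaussianInt) : ℂ) - 2 ^ f * (l.map Coef.val).prod‖ ≤ 2 :=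
  exists_apx.choose_spec.2 f b l h

end Crest.Agent.R326
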