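import Crest.Agent.R326.Par

/-!
# Row 326, asymptotic estimates (task R326-Asym)

PLAN.  `cost_main`: `L = size n`, `M = mT ^ t` with `t = pT n`: `M ^ EE ≤ L < (M mT) ^ EE`-type
bounds (`Nat.pow_log_le_self`, `Nat.lt_pow_succ_log_self`, `Nat.div_add_mod`), i.e.
`M ≤ L^(1/E)` and `L^(1/E) ≤ mT M` (keep `E` symbolic, `1/E = 10^-11`).  `pL ≤ 3L / M + 1`,
`gT t ≤ C M^(1-10^-9)`, `gP k ≤ C (3L+1)^(1 - 2·10^-11)`.  So
`gT * pL ≤ C' L^(1 - 10^-20) `, `gT * gP ≤ C' L^(1 - 10^-11)`, and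
`KK y ≤ 4·10^5 (log₂ (3L) + 1) ≤ C'' L^(10^-21)` (`Real.log_le_rpow_div`/`isLittleO_log_rpow`).
`cost_tbl`: `S³ ≤ 640 n`, `(y + p + 1)^e ≤ (5 L^10)^e`; cube both sides or use `S² ≤ (640 n)^(2/3)`
and `L^c ≤ C n^(1/3)` (`exists_sz_pow_le`-like: `size n ^ (3c) ≤ K (n+1)`).
-/

set_option autoImplicit false

namespace Crest.Agent.R326

/-- the main factor `(log n)^(1 - 10^-21)` -/
noncomputable def GG (n : ℕ) : ℕ := ⌈((n.size : ℝ) + 1) ^ (1 - 1 / 10 ^ 21 : ℝ)⌉₊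

namespace AsymA

theorem two_pow_size {m : ℕ} (hm : 0 < m) : 2 ^ m.size ≤ 2 * m := by
  have h1 : 0 < m.size := Nat.size_pos.2 hm
  have h2 : 2 ^ (m.size - 1) ≤ m := Nat.lt_size.1 (by omega)
  obtain ⟨s, hs⟩ : ∃ s, m.size = s + 1 := ⟨m.size - 1, by omega⟩
  rw [hs] at h2 ⊢
  rw [pow_succ, mul_comm]
  exact Nat.mul_le_mul_left _ h2

theorem size_rpow {δ : ℝ} (hδ : 0 < δ) :
    ∃ C : ℝ, 0 ≤ C ∧ ∀ m : ℕ, (m.size : ℝ) + 1 ≤ C * ((m : ℝ) + 1) ^ δ := by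
  refine ⟨2 + 2 / δ, by positivity, fun m => ?_⟩
  have hm : (0 : ℝ) ≤ m := Nat.cast_nonneg m
  have h1 : (2 : ℝ) ^ m.size ≤ 2 * ((m : ℝ) + 1) := by
    rcases Nat.eq_zero_or_pos m with rfl | h
    · simp
    · have : ((2 ^ m.size : ℕ) : ℝ) ≤ ((2 * m : ℕ) : ℝ) := by exact_mod_cast two_pow_size h
      push_cast at this
      linarith
  have h2 := Real.log_le_log (by positivity) h1
  rw [Real.log_pow, Real.log_mul (by norm_num) (by positivity)] at h2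
  have h3 := Real.log_le_rpow_div (x := (m : ℝ) + 1) (by positivity) hδ
  have h4 := Real.log_two_gt_d9
  have h5 : 1 ≤ ((m : ℝ) + 1) ^ δ := Real.one_le_rpow (by linarith) hδ.le
  have h6 : 0 ≤ Real.log ((m : ℝ) + 1) := Real.log_nonneg (by linarith)
  have h7 : (m.size : ℝ) ≤ 1 + 2 * Real.log ((m : ℝ) + 1) := by
    by_contra h
    push Not at h
    nlinarith
  have e : (2 + 2 / δ) * ((m : ℝ) + 1) ^ δ = 2 * ((m : ℝ) + 1) ^ δ + 2 * (((m : ℝ) + 1) ^ δ / δ) := by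
    ring
  rw [e]
  linarith

theorem size_pow_rpow (c : ℕ) {δ : ℝ} (hδ : 0 < δ) :
    ∃ C : ℝ, 0 ≤ C ∧ ∀ m : ℕ, ((m.size : ℝ) + 1) ^ c ≤ C * ((m : ℝ) + 1) ^ δ := by
  obtain ⟨C, h0, h⟩ := size_rpow (δ := δ / (c + 1 : ℕ)) (by positivity)
  refine ⟨C ^ (c + 1), by positivity, fun m => ?_⟩
  have h1 : (1 : ℝ) ≤ (m.size : ℝ) + 1 := by linarith [Nat.cast_nonneg (α := ℝ) m.size]
  refine (pow_le_pow_right₀ h1 (Nat.le_succ c)).trans
    ((pow_le_pow_left₀ (by linarith) (h m) _).trans (le_of_eq ?_))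
  rw [mul_pow, ← Real.rpow_mul_natCast (by positivity), div_mul_cancel₀ _ (by positivity)]

theorem size_pow (c : ℕ) : ∃ K : ℕ, ∀ m : ℕ, (m.size + 1) ^ c ≤ K * (m + 1) := by
  obtain ⟨C, -, h⟩ := size_pow_rpow c one_pos
  refine ⟨⌈C⌉₊, fun m => ?_⟩
  have := (h m).trans (mul_le_mul_of_nonneg_right (Nat.le_ceil C) (by positivity))
  rw [Real.rpow_one] at this
  exact_mod_cast this

theorem le_GG (n : ℕ) {a : ℝ} (ha : a ≤ 1 - 1 / 10 ^ 21) : ((n.size : ℝ) + 1) ^ a ≤ GG n :=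
  (Real.rpow_le_rpow_of_exponent_le (by linarith [Nat.cast_nonneg (α := ℝ) n.size]) ha).trans
    (Nat.le_ceil _)

theorem KK_size {n : ℕ} (h : ParOk n) : KK (pY n) ≤ 1200000 * n.size.size := by
  have h1 := KK_le (pY n)
  have h2 := h.y81
  have h3 := h.y_le
  have h4 : Nat.log 2 (pY n) < (pY n).size := Nat.lt_size.2 (Nat.pow_log_le_self 2 (by omega))
  have h5 : (pY n).size ≤ n.size.size + 2 := by
    have := Nat.lt_size_self n.size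
    rw [Nat.size_le, pow_add]
    omega
  have h6 : 0 < n.size.size := Nat.size_pos.2 (by omega)
  omega

theorem M_bounds {n : ℕ} (h : 0 < n.size) :
    (mT : ℝ) ^ pT n ≤ ((n.size : ℝ) + 1) ^ (1 / 10 ^ 11 : ℝ) ∧
      ((n.size : ℝ) + 1) ^ (1 / 10 ^ 11 : ℝ) ≤ (mT : ℝ) ^ pT n * mT := by
  have hE : 0 < EE := by rw [EE_eq]; positivity
  have hE' : (1 / 10 ^ 11 : ℝ) = ((EE : ℕ) : ℝ)⁻¹ := by rw [EE_eq]; norm_num
  have hm : 1 < mT := by unfold mT; norm_num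
  have h1 : (mT ^ pT n) ^ EE ≤ n.size + 1 := by
    rw [← pow_mul]
    exact ((Nat.pow_le_pow_right (by omega) (Nat.div_mul_le_self _ _)).trans
      (Nat.pow_log_le_self mT h.ne')).trans (Nat.le_succ _)
  have h2 : n.size + 1 ≤ (mT ^ pT n * mT) ^ EE := by
    rw [← pow_succ, ← pow_mul]
    refine (Nat.lt_pow_succ_log_self hm n.size).trans_le' le_rfl |>.succ_le.trans
      (Nat.pow_le_pow_right (by omega) ?_)
    have := Nat.lt_div_mul_add (a := Nat.log mT n.size) hE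
    rw [add_mul, one_mul]
    exact this
  rw [hE']
  constructor
  · rw [← Real.pow_rpow_inv_natCast (x := (mT : ℝ) ^ pT n) (by positivity) hE.ne']
    exact Real.rpow_le_rpow (by positivity) (by exact_mod_cast h1) (by positivity)
  · rw [← Real.pow_rpow_inv_natCast (x := (mT : ℝ) ^ pT n * mT) (by positivity) hE.ne']
    exact Real.rpow_le_rpow (by positivity) (by exact_mod_cast h2) (by positivity)

theorem main_real {x M m C1 C2 g l g' : ℝ} (hx : 1 ≤ x) (hM : 1 ≤ M) (hm : 1 ≤ m) (h1 : 0 ≤ C1)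
    (h2 : 0 ≤ C2) (hl0 : 0 ≤ l) (hg0 : 0 ≤ g') (a1 : M ≤ x ^ (1 / 10 ^ 11 : ℝ))
    (a2 : x ^ (1 / 10 ^ 11 : ℝ) ≤ M * m) (hg : g ≤ C1 * M ^ (1 - 1 / 10 ^ 9 : ℝ))
    (hl : l ≤ 3 * x / M + 1) (hg' : g' ≤ C2 * (3 * x) ^ (1 - 2 / 10 ^ 11 : ℝ)) :
    g * (l + g') ≤ C1 * (3 * m + 1 + 3 * C2) * x ^ (1 - 1 / 10 ^ 20 : ℝ) := by
  have hx0 : 0 < x := by linarith
  have hM0 : 0 < M := by linarith
  have b1 : M ^ (1 - 1 / 10 ^ 9 : ℝ) ≤ x ^ (1 / 10 ^ 11 : ℝ) :=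
    (Real.rpow_le_self_of_one_le hM (by norm_num)).trans a1
  have b2 : x ^ (1 / 10 ^ 20 : ℝ) ≤ M ^ (1 / 10 ^ 9 : ℝ) * m := by
    have := Real.rpow_le_rpow (by positivity) a2 (show (0 : ℝ) ≤ 1 / 10 ^ 9 by norm_num)
    rw [← Real.rpow_mul hx0.le, Real.mul_rpow hM0.le (by linarith),
      show (1 / 10 ^ 11 * (1 / 10 ^ 9) : ℝ) = 1 / 10 ^ 20 by norm_num] at this
    exact this.trans (mul_le_mul_of_nonneg_left (Real.rpow_le_self_of_one_le hm (by norm_num))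
      (by positivity))
  have b3 : M ^ (1 - 1 / 10 ^ 9 : ℝ) * (3 * x / M) ≤ 3 * m * x ^ (1 - 1 / 10 ^ 20 : ℝ) := by
    rw [Real.rpow_sub hM0, Real.rpow_sub hx0, Real.rpow_one, Real.rpow_one]
    have p1 : 0 < M ^ (1 / 10 ^ 9 : ℝ) := by positivity
    have p2 : 0 < x ^ (1 / 10 ^ 20 : ℝ) := by positivity
    have e : M / M ^ (1 / 10 ^ 9 : ℝ) * (3 * x / M) = 3 * x / M ^ (1 / 10 ^ 9 : ℝ) := by
      field_simp
    rw [e, ← mul_div_assoc, div_le_div_iff₀ p1 p2]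
    nlinarith
  have b4 : x ^ (1 / 10 ^ 11 : ℝ) ≤ x ^ (1 - 1 / 10 ^ 20 : ℝ) :=
    Real.rpow_le_rpow_of_exponent_le hx (by norm_num)
  have b5 : x ^ (1 / 10 ^ 11 : ℝ) * (3 * x) ^ (1 - 2 / 10 ^ 11 : ℝ) ≤
      3 * x ^ (1 - 1 / 10 ^ 20 : ℝ) := by
    rw [Real.mul_rpow (by norm_num) hx0.le, mul_left_comm, ← Real.rpow_add hx0]
    exact mul_le_mul (Real.rpow_le_self_of_one_le (by norm_num) (by norm_num))
      (Real.rpow_le_rpow_of_exponent_le hx (by norm_num)) (by positivity) (by norm_num)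
  have b6 : M ^ (1 - 1 / 10 ^ 9 : ℝ) * (3 * x) ^ (1 - 2 / 10 ^ 11 : ℝ) ≤
      3 * x ^ (1 - 1 / 10 ^ 20 : ℝ) :=
    (mul_le_mul_of_nonneg_right b1 (by positivity)).trans b5
  calc g * (l + g') ≤ C1 * M ^ (1 - 1 / 10 ^ 9 : ℝ) *
        (3 * x / M + 1 + C2 * (3 * x) ^ (1 - 2 / 10 ^ 11 : ℝ)) :=
        mul_le_mul hg (add_le_add hl hg') (by positivity) (by positivity)
    _ = C1 * (M ^ (1 - 1 / 10 ^ 9 : ℝ) * (3 * x / M) + M ^ (1 - 1 / 10 ^ 9 : ℝ) +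
        C2 * (M ^ (1 - 1 / 10 ^ 9 : ℝ) * (3 * x) ^ (1 - 2 / 10 ^ 11 : ℝ))) := by ring
    _ ≤ C1 * (3 * m * x ^ (1 - 1 / 10 ^ 20 : ℝ) + x ^ (1 - 1 / 10 ^ 20 : ℝ) +
        C2 * (3 * x ^ (1 - 1 / 10 ^ 20 : ℝ))) := by
        gcongr
        exact b1.trans b4
    _ = _ := by ring

end AsymA

open AsymA

theorem cost_main : ∃ C : ℕ, ∀ n, ParOk n →
    KK (pY n) * (gT (pT n) * (pL n + gP (pK n))) ≤ C * GG n := by
  obtain ⟨C1, h1, hT⟩ := gT_le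
  obtain ⟨C2, h2, hP⟩ := gP_le
  obtain ⟨C3, h3, hS⟩ := size_rpow (δ := 1 / 10 ^ 21) (by norm_num)
  refine ⟨⌈1200000 * C3 * (C1 * (3 * mT + 1 + 3 * C2))⌉₊, fun n h => ?_⟩
  have y1 := h.y81
  have y2 := h.y_le
  have hm : (1 : ℝ) ≤ mT := by unfold mT; norm_num
  have hL : (0 : ℝ) ≤ n.size := Nat.cast_nonneg _
  obtain ⟨a1, a2⟩ := M_bounds (n := n) (by omega)
  have hM : (1 : ℝ) ≤ (mT : ℝ) ^ pT n := one_le_pow₀ hm
  have hl : (pL n : ℝ) ≤ 3 * ((n.size : ℝ) + 1) / (mT : ℝ) ^ pT n + 1 := by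
    have b1 : pL n * mT ^ pT n ≤ 3 * (n.size + 1) + mT ^ pT n := by
      have := length_moduli_le (pY n)
      exact (Nat.div_mul_le_self _ _).trans (by omega)
    have b2 : (pL n : ℝ) * (mT : ℝ) ^ pT n ≤ 3 * ((n.size : ℝ) + 1) + (mT : ℝ) ^ pT n := by
      exact_mod_cast b1
    rw [div_add_one (by positivity), le_div_iff₀ (by positivity)]
    exact b2
  have hg' : (gP (pK n) : ℝ) ≤ C2 * (3 * ((n.size : ℝ) + 1)) ^ (1 - 2 / 10 ^ 11 : ℝ) := by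
    refine (hP _).trans (mul_le_mul_of_nonneg_left
      (Real.rpow_le_rpow (by positivity) ?_ (by norm_num)) h2)
    have : (pK n : ℝ) ≤ 3 * n.size := by exact_mod_cast h.k_le
    linarith
  have k1 := main_real (by linarith) hM hm h1 h2 (Nat.cast_nonneg _) (Nat.cast_nonneg _) a1 a2
    (hT (pT n)) hl hg'
  have k2 : (KK (pY n) : ℝ) ≤ 1200000 * (C3 * ((n.size : ℝ) + 1) ^ (1 / 10 ^ 21 : ℝ)) := by
    have : (KK (pY n) : ℝ) ≤ 1200000 * n.size.size := by exact_mod_cast KK_size h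
    linarith [hS n.size]
  have k3 := mul_le_mul k2 k1 (by positivity) (by positivity)
  have k4 := le_GG n (a := 1 / 10 ^ 21 + (1 - 1 / 10 ^ 20)) (by norm_num)
  rw [Real.rpow_add (by positivity)] at k4
  have k5 := mul_le_mul (Nat.le_ceil (1200000 * C3 * (C1 * (3 * mT + 1 + 3 * C2)))) k4
    (by positivity) (by positivity)
  have k6 : (KK (pY n) : ℝ) * (gT (pT n) * (pL n + gP (pK n))) ≤
      (⌈1200000 * C3 * (C1 * (3 * mT + 1 + 3 * C2))⌉₊ : ℝ) * GG n :=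
    k3.trans (le_of_eq_of_le (by ring) k5)
  exact_mod_cast k6

theorem cost_KK : ∃ C : ℕ, ∀ n, ParOk n → KK (pY n) ≤ C * n.size.size := by
  exact ⟨1200000, fun n h => KK_size h⟩

theorem cost_tbl (e : ℕ) : ∃ C : ℕ, ∀ n, ParOk n →
    pS n * pS n * (pY n + pP n + 1) ^ e ≤ C * n := by
  obtain ⟨K, hK⟩ := size_pow (30 * e)
  refine ⟨640 * 5 ^ e * (2 * K + 1), fun n h => ?_⟩
  have y1 := h.y81
  have y2 := h.y_le
  have hn : 0 < n := Nat.size_pos.1 (by omega)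
  have a1 : pS n ^ 3 ≤ 640 * n :=
    (Nat.le_mul_of_pos_right _ (by have := h.marg; omega)).trans h.vol
  have a2 : pY n + pP n + 1 ≤ 5 * (n.size + 1) ^ 10 := by
    have b1 : n.size + 1 ≤ (n.size + 1) ^ 10 := Nat.le_self_pow (by norm_num) _
    have b2 : n.size ^ 10 ≤ (n.size + 1) ^ 10 := Nat.pow_le_pow_left (Nat.le_succ _) _
    have := h.p_le
    omega
  have a3 : ((pY n + pP n + 1) ^ e) ^ 3 ≤ (5 ^ e) ^ 3 * ((2 * K + 1) * n) := by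
    refine (Nat.pow_le_pow_left (Nat.pow_le_pow_left a2 e) 3).trans ?_
    rw [mul_pow, mul_pow, ← pow_mul _ 10, ← pow_mul _ (10 * e), show 10 * e * 3 = 30 * e by ring]
    refine Nat.mul_le_mul_left _ ((hK n).trans ?_)
    nlinarith
  refine (Nat.pow_le_pow_iff_left (n := 3) (by norm_num)).1 ?_
  calc _ = (pS n ^ 3) ^ 2 * ((pY n + pP n + 1) ^ e) ^ 3 := by ring
    _ ≤ (640 * n) ^ 2 * ((5 ^ e) ^ 3 * ((2 * K + 1) * n)) :=
        Nat.mul_le_mul (Nat.pow_le_pow_left a1 2) a3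
    _ = 640 ^ 2 * (2 * K + 1) * ((5 ^ e) ^ 3 * n ^ 3) := by ring
    _ ≤ 640 ^ 3 * (2 * K + 1) ^ 3 * ((5 ^ e) ^ 3 * n ^ 3) :=
        Nat.mul_le_mul_right _ (Nat.mul_le_mul (by norm_num) (Nat.le_self_pow (by norm_num) _))
    _ = _ := by ring

theorem first_step (e : ℕ) : ∃ e' K : ℕ, ∀ n : ℕ,
    GG n + n.size.size * (n.size ^ 10 + 1) ^ e ≤ K * ((n.size + 1) ^ e' + 1) := by
  refine ⟨10 * e + 1, 2, fun n => ?_⟩
  have a1 : GG n ≤ n.size + 1 := by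
    refine Nat.ceil_le.2 ?_
    push_cast
    exact Real.rpow_le_self_of_one_le (by linarith [Nat.cast_nonneg (α := ℝ) n.size]) (by norm_num)
  have a2 : n.size.size ≤ n.size + 1 := (Nat.size_le.2 Nat.lt_two_pow_self).trans (Nat.le_succ _)
  have a3 : n.size ^ 10 + 1 ≤ (n.size + 1) ^ 10 :=
    Nat.pow_lt_pow_left (Nat.lt_succ_self _) (by norm_num)
  have a4 := Nat.mul_le_mul a2 (Nat.pow_le_pow_left a3 e)
  rw [← pow_mul, ← pow_succ'] at a4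
  have a5 : n.size + 1 ≤ (n.size + 1) ^ (10 * e + 1) := Nat.le_self_pow (by omega) _
  omega

theorem second_step (e : ℕ) : ∃ K : ℕ, ∀ n : ℕ,
    GG n + n.size.size * ((n.size ^ 10).size + 1) ^ e ≤ K * (GG n + 1) := by
  obtain ⟨C, h0, h⟩ := size_pow_rpow (e + 1) (δ := 1 / 2) (by norm_num)
  refine ⟨10 ^ e * ⌈C⌉₊ + 1, fun n => ?_⟩
  have a1 : (n.size ^ 10).size + 1 ≤ 10 * (n.size.size + 1) := by
    have : (n.size ^ 10).size ≤ n.size.size * 10 := by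
      rw [Nat.size_le, pow_mul]
      exact Nat.pow_lt_pow_left (Nat.lt_size_self _) (by norm_num)
    omega
  have a2 : (n.size.size + 1) ^ (e + 1) ≤ ⌈C⌉₊ * GG n := by
    have := (h n.size).trans (mul_le_mul (Nat.le_ceil C) (le_GG n (by norm_num)) (by positivity)
      (by positivity))
    exact_mod_cast this
  have a3 := Nat.mul_le_mul (Nat.le_succ n.size.size) (Nat.pow_le_pow_left a1 e)
  rw [mul_pow, mul_left_comm, Nat.succ_eq_add_one, ← pow_succ'] at a3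
  have a4 := Nat.mul_le_mul_left (10 ^ e) a2
  nlinarith [Nat.zero_le (10 ^ e * ⌈C⌉₊)]

theorem final_bound (K : ℕ) : ∃ c : ℕ, ∀ N : ℕ, K * (N / 2 * GG (N / 2) + N + 1) ≤
    c * ⌈(N : ℝ) * (Real.logb 2 N) ^ (1 - 1 / (2 : ℝ) ^ 182)⌉₊ + c := by
  refine ⟨4 * K, fun N => ?_⟩
  rcases lt_or_ge N 2 with hN | hN
  · rw [Nat.div_eq_of_lt hN]
    nlinarith [Nat.zero_le (4 * K * ⌈(N : ℝ) * (Real.logb 2 N) ^ (1 - 1 / (2 : ℝ) ^ 182)⌉₊)]
  have hN' : (2 : ℝ) ≤ N := by exact_mod_cast hN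
  have a0 : 1 ≤ Real.logb 2 N := by
    rw [Real.le_logb_iff_rpow_le (by norm_num) (by linarith), Real.rpow_one]
    exact hN'
  have a1 : ((N / 2).size : ℝ) ≤ Real.logb 2 N := by
    rw [Real.le_logb_iff_rpow_le (by norm_num) (by linarith), Real.rpow_natCast]
    exact_mod_cast (two_pow_size (m := N / 2) (by omega)).trans (by omega)
  set y := Real.logb 2 N ^ (1 - 1 / (2 : ℝ) ^ 182) with hy
  have a2 : 1 ≤ y := Real.one_le_rpow a0 (by norm_num)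
  have a3 : (GG (N / 2) : ℝ) ≤ 3 * y := by
    have b1 : (((N / 2).size : ℝ) + 1) ^ (1 - 1 / 10 ^ 21 : ℝ) ≤ 2 * y := by
      refine (Real.rpow_le_rpow (y := 2 * Real.logb 2 N) (by positivity) (by linarith)
        (by norm_num)).trans ?_
      rw [Real.mul_rpow (by norm_num) (by linarith)]
      exact mul_le_mul (Real.rpow_le_self_of_one_le (by norm_num) (by norm_num))
        (Real.rpow_le_rpow_of_exponent_le a0 (by norm_num)) (by positivity) (by norm_num)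
    have b2 := Nat.ceil_lt_add_one (a := (((N / 2).size : ℝ) + 1) ^ (1 - 1 / 10 ^ 21 : ℝ))
      (by positivity)
    unfold GG
    linarith
  have a4 : ((N / 2 : ℕ) : ℝ) ≤ N := by exact_mod_cast Nat.div_le_self N 2
  have a5 := mul_le_mul a4 a3 (by positivity) (by positivity)
  have a6 := Nat.le_ceil ((N : ℝ) * y)
  have a7 : ((N / 2 : ℕ) : ℝ) * GG (N / 2) + N ≤ 4 * ⌈(N : ℝ) * y⌉₊ := by nlinarith
  have a8 : N / 2 * GG (N / 2) + N ≤ 4 * ⌈(N : ℝ) * y⌉₊ := by exact_mod_cast a7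
  nlinarith [Nat.mul_le_mul_left K a8]

end Crest.Agent.R326
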