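import Crest.Agent.R326.GArr

/-!
# Row 326, cells: Gaussian numbers modulo `2^p - 1` (task R326-Cell)

`LL` is the product over all `p` of the rings `ZMod (2^p - 1)[i]`; a cell `Cl.mk p x` is coded by
the two `p`-bit lists (least significant bit first) of the canonical residues of the `p`-th
component of `x`.
PLAN.  Work with one coordinate: `zb p r = bitsN p (r p).val` for `r : R0`.  On bit lists of equal
length: `addC` = ripple-carry addition by `mapAcc` over the zip (state = carry bit), `inc` =
add the carry again (end-around carry), `norm` = replace the all-ones list by zeros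
(`TC.all`, `TC.map`).  Key lemma: a list `l` of length `p` with `ofBits l < md p` (or `p = 0`)
equals `bitsN p (ofBits l)` (`bitsN_ofBits`), so it suffices to compute values modulo `md p`.
`addM x y` is correct for ANY two lists of length `p` (`zb_addM`, also used by `MulR.lean`).
Negation = complement, then `norm`; multiplication by `2 ^ e` (`e ≤ p`) = rotation
`drop (p - e) ++ take (p - e)`; `hf = 2 ^ (p-1)` = `tail ++ take 1`.
-/

set_option autoImplicit false

namespace Crest.Agent.R326

open Crest.Agent.PTime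

/-- the `p` lowest bits, least significant first -/
def bitsN (p n : ℕ) : List Bool := (List.range p).map n.testBit

@[simp] theorem length_bitsN (p n : ℕ) : (bitsN p n).length = p := by simp [bitsN]

namespace CellA

theorem bitsN_succ (p n : ℕ) : bitsN (p + 1) n = decide (n % 2 = 1) :: bitsN p (n / 2) := by
  rw [bitsN, List.range_succ_eq_map, List.map_cons, List.map_map, Nat.testBit_zero]
  congr 1
  exact List.map_congr_left fun i _ => Nat.testBit_succ _ _

theorem bitsN_mod (p n : ℕ) : bitsN p (n % 2 ^ p) = bitsN p n :=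
  List.map_congr_left fun i hi => by simp [List.mem_range.1 hi]

end CellA
open CellA

theorem ofBits_bitsN (p n : ℕ) : ofBits (bitsN p n) = n % 2 ^ p := by
  induction p generalizing n with
  | zero => simp [bitsN, Nat.mod_one]
  | succ p ih =>
    rw [bitsN_succ, ofBits_cons, ih, pow_succ', Nat.mod_mul]
    rcases Nat.mod_two_eq_zero_or_one n with h | h <;> simp [h, add_comm]

theorem bitsN_ofBits (l : List Bool) : bitsN l.length (ofBits l) = l := by
  induction l with
  | nil => rfl
  | cons b l ih =>
    rw [List.length_cons, bitsN_succ, ofBits_cons,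
      show (2 * ofBits l + b.toNat) / 2 = ofBits l by cases b <;> simp; omega, ih]
    cases b <;> simp

theorem ofBits_append (l m : List Bool) : ofBits (l ++ m) = ofBits l + 2 ^ l.length * ofBits m := by
  induction l with
  | nil => simp
  | cons b l ih => rw [List.cons_append, ofBits_cons, ofBits_cons, ih, List.length_cons]; ring

theorem ofBits_drop (l : List Bool) (k : ℕ) : ofBits (l.drop k) = ofBits l / 2 ^ k := by
  induction k generalizing l with
  | zero => simp
  | succ k ih =>
    cases l with
    | nil => simp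
    | cons b l =>
      rw [List.drop_succ_cons, ih, ofBits_cons, pow_succ', ← Nat.div_div_eq_div_mul]
      congr 1
      cases b <;> simp; omega

theorem ofBits_take (l : List Bool) (k : ℕ) : ofBits (l.take k) = ofBits l % 2 ^ k := by
  induction k generalizing l with
  | zero => simp [Nat.mod_one]
  | succ k ih =>
    cases l with
    | nil => simp
    | cons b l =>
      rw [List.take_succ_cons, ofBits_cons, ih, ofBits_cons, pow_succ', Nat.mod_mul,
        show (2 * ofBits l + b.toNat) / 2 = ofBits l by cases b <;> simp; omega]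
      cases b <;> simp [add_comm]

theorem ofBits_replicate_false (k : ℕ) : ofBits (List.replicate k false) = 0 := by
  induction k with
  | zero => rfl
  | succ k ih => simp [List.replicate_succ, ih]

/-- cutting or padding a bit list to length `p` -/
theorem bitsN_eq_take (p : ℕ) (l : List Bool) :
    bitsN p (ofBits l) = (l ++ List.replicate p false).take p := by
  have := bitsN_ofBits ((l ++ List.replicate p false).take p)
  rwa [List.length_take_of_le (by simp), ofBits_take, ofBits_append, ofBits_replicate_false,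
    mul_zero, add_zero, bitsN_mod] at this

/-- the modulus `2^p - 1` (and `1` for `p = 0`) -/
def md (p : ℕ) : ℕ := 2 ^ p - 2 + 1

instance (p : ℕ) : NeZero (md p) := ⟨Nat.succ_ne_zero _⟩

theorem md_eq {p : ℕ} (hp : 0 < p) : md p + 1 = 2 ^ p := by
  have : 2 ^ 1 ≤ 2 ^ p := Nat.pow_le_pow_right (by norm_num) hp
  rw [md]
  omega

namespace CellA

theorem md_le (p : ℕ) : md p ≤ 2 ^ p := by
  rcases Nat.eq_zero_or_pos p with rfl | hp
  · exact le_rfl
  · exact md_eq hp ▸ Nat.le_succ _

theorem two_pow (p : ℕ) : (2 : ZMod (md p)) ^ p = 1 := by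
  rcases Nat.eq_zero_or_pos p with rfl | hp
  · exact pow_zero _
  · have := congrArg (Nat.cast : ℕ → ZMod (md p)) (md_eq hp)
    simpa using this.symm

end CellA

/-- the product of the residue rings -/
abbrev R0 : Type := ∀ p : ℕ, ZMod (md p)

/-- the ring of cell values -/
abbrev LL : Type := QuadraticAlgebra R0 (-1) 0

/-- the imaginary unit -/
def ii : LL := ⟨0, 1⟩

/-- one half -/
def hf : LL := ⟨fun p => 2 ^ (p - 1), 0⟩

theorem ii_mul_ii : ii * ii = -1 := by
  ext <;> simp [ii, QuadraticAlgebra.re_one, QuadraticAlgebra.im_one]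

theorem two_mul_hf : 2 * hf = 1 := by
  ext p
  · simp only [hf, QuadraticAlgebra.re_mul, QuadraticAlgebra.re_ofNat, QuadraticAlgebra.re_one,
      mul_zero, add_zero, Pi.mul_apply, Pi.ofNat_apply]
    cases p with
    | zero => exact Subsingleton.elim (α := ZMod 1) _ _
    | succ p => rw [Nat.add_sub_cancel, ← pow_succ', two_pow]
  · simp [hf, QuadraticAlgebra.im_ofNat, QuadraticAlgebra.im_one]

/-- Gaussian integers in `LL` -/
def ιL : GaussianInt →+* LL := Zsqrtd.lift ⟨ii, by simpa using ii_mul_ii⟩

theorem ιL_re (z : GaussianInt) (p : ℕ) : (ιL z).re p = (z.re : ZMod (md p)) := by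
  simp [ιL, ii]

theorem ιL_im (z : GaussianInt) (p : ℕ) : (ιL z).im p = (z.im : ZMod (md p)) := by
  simp [ιL, ii]

theorem ιL_I : ιL ⟨0, 1⟩ = ii := by
  simp [ιL]

/-- bits of one coordinate -/
def zb (p : ℕ) (r : R0) : List Bool := bitsN p (r p).val

/-- cells -/
structure Cl where
  p : ℕ
  x : LL

instance : Enc Cl := ⟨fun z => enc (zb z.p z.x.re, zb z.p z.x.im)⟩

theorem enc_cl (p : ℕ) (x : LL) : enc (Cl.mk p x) = enc (zb p x.re, zb p x.im) := rfl

namespace CellA

theorem le_sz (l : List Bool) : 2 * l.length + 1 ≤ sz l := by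
  induction l with
  | nil => simp
  | cons b l ih => have := sz_pos b; simp; omega

theorem length_zb (p : ℕ) (r : R0) : (zb p r).length = p := length_bitsN _ _

theorem ofBits_zb (p : ℕ) (r : R0) : ((ofBits (zb p r) : ℕ) : ZMod (md p)) = r p := by
  rw [zb, ofBits_bitsN, Nat.mod_eq_of_lt ((ZMod.val_lt _).trans_le (md_le p)),
    ZMod.natCast_zmod_val]

theorem ofBits_not (l : List Bool) : ofBits (l.map (!·)) + ofBits l + 1 = 2 ^ l.length := by
  induction l with
  | nil => rfl
  | cons b l ih => cases b <;> simp [pow_succ] <;> omega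

theorem all_iff (l : List Bool) : l.all (fun b => b) = true ↔ ofBits l + 1 = 2 ^ l.length := by
  induction l with
  | nil => simp
  | cons b l ih =>
    have := ofBits_lt l
    rw [List.all_cons, Bool.and_eq_true, ih]
    cases b <;> simp [pow_succ] <;> omega

theorem bitsN_zero (p : ℕ) : bitsN p 0 = List.replicate p false := by
  have := bitsN_ofBits (List.replicate p false)
  rwa [List.length_replicate, ofBits_replicate_false] at this

theorem lin_norm : Lin fun l : List Bool => bitsN l.length (ofBits l % md l.length) := by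
  refine ((TC.all (f := fun b => b) TC.id TC.id).cond
    (TC.replicate_const false (TU.length TC.id)) TC.id).congr fun l _ => ?_
  rcases Nat.eq_zero_or_pos l.length with h | h
  · obtain rfl := List.length_eq_zero_iff.1 h
    rfl
  · have h1 := md_eq h
    have h2 := ofBits_lt l
    cases h3 : l.all (fun b => b)
    · have h4 : ofBits l + 1 ≠ 2 ^ l.length := fun h' => by simp [(all_iff l).2 h'] at h3
      rw [Nat.mod_eq_of_lt (by omega), bitsN_ofBits]
      rfl
    · have h4 := (all_iff l).1 h3
      rw [show ofBits l = md l.length by omega, Nat.mod_self, bitsN_zero]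
      rfl

theorem cur {f : List Bool × List Bool → List Bool}
    {Q : (List Bool → List Bool → List Bool) → Prop} (h : Lin f) (h' : Q fun l m => f (l, m)) :
    ∃ g : List Bool → List Bool → List Bool,
      Lin (fun x : List Bool × List Bool => g x.1 x.2) ∧ Q g := ⟨_, h, h'⟩

/-- full adder -/
def addStep (y : (Bool × Bool) × Bool) : Bool × Bool :=
  (xor (xor y.1.1 y.1.2) y.2, cond y.2 (y.1.1 || y.1.2) (y.1.1 && y.1.2))

theorem add_spec (l : List Bool) : ∀ (m : List Bool) (s : Bool), l.length = m.length →
    ofBits ((mapAcc addStep (l.zip m) s).1 ++ [(mapAcc addStep (l.zip m) s).2]) =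
      ofBits l + ofBits m + s.toNat ∧ (mapAcc addStep (l.zip m) s).1.length = l.length := by
  induction l with
  | nil =>
    intro m s h
    obtain rfl := List.length_eq_zero_iff.1 h.symm
    simp [mapAcc]
  | cons a l ih =>
    intro m s h
    cases m with
    | nil => simp at h
    | cons b m =>
      obtain ⟨h1, h2⟩ := ih m (addStep ((a, b), s)).2 (by simpa using h)
      simp only [List.zip_cons_cons, mapAcc, List.cons_append, ofBits_cons, h1, h2,
        List.length_cons, and_true]
      cases a <;> cases b <;> cases s <;> simp [addStep] <;> omega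

end CellA

theorem sz_cl_le (p : ℕ) (x : LL) : sz (Cl.mk p x) ≤ 8 * p + 3 := by
  have h1 := sz_bits_le (zb p x.re)
  have h2 := sz_bits_le (zb p x.im)
  rw [length_zb] at h1 h2
  show sz (zb p x.re, zb p x.im) ≤ _
  rw [sz_pair]
  omega

theorem sz_cl_ge (p : ℕ) (x : LL) : 4 * p + 3 ≤ sz (Cl.mk p x) := by
  have h1 := le_sz (zb p x.re)
  have h2 := le_sz (zb p x.im)
  rw [length_zb] at h1 h2
  show _ ≤ sz (zb p x.re, zb p x.im)
  rw [sz_pair]
  omega

/-- addition of bit lists of arbitrary lengths (the result has one more bit than the longer one) -/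
theorem exists_addB : ∃ addB : List Bool → List Bool → List Bool,
    Lin (fun x : List Bool × List Bool => addB x.1 x.2) ∧ ∀ l m,
      ofBits (addB l m) = ofBits l + ofBits m ∧ (addB l m).length = max l.length m.length + 1 := by
  have h1 : Lin addStep := ((TC.id.fst.fst.bxor TC.id.fst.snd).bxor TC.id.snd).pair
    (TC.id.snd.cond (TC.id.fst.fst.bor TC.id.fst.snd) (TC.id.fst.fst.band TC.id.fst.snd))
  have h2 : Lin fun x : List Bool × List Bool =>
      (x.1 ++ List.replicate (x.2.length - x.1.length) false).zip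
        (x.2 ++ List.replicate (x.1.length - x.2.length) false) :=
    (TC.id.fst.append (TC.replicate_const _ ((TU.length TC.id.snd).sub (TU.length TC.id.fst)))).zip
      (TC.id.snd.append (TC.replicate_const _ ((TU.length TC.id.fst).sub (TU.length TC.id.snd))))
  have h3 := TC.mapAcc h1 h2 (TC.const false) (fun _ _ => True) (fun _ _ => 3) (fun _ _ => trivial)
    (fun _ _ _ _ t _ => ⟨trivial, trivial, by have := sz_bool t; omega⟩)
    (((Bd.length h2).mul_const 3).mono fun a _ => by simp)
  refine cur (Q := fun f => ∀ l m, ofBits (f l m) = ofBits l + ofBits m ∧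
    (f l m).length = max l.length m.length + 1) (h3.fst.append (h3.snd.cons (TC.const []))) fun l m => ?_
  obtain ⟨k1, k2⟩ := add_spec (l ++ List.replicate (m.length - l.length) false)
    (m ++ List.replicate (l.length - m.length) false) false (by simp; omega)
  refine ⟨by simpa only [ofBits_append _ (List.replicate _ _), ofBits_replicate_false, mul_zero,
    add_zero, Bool.toNat_false] using k1, ?_⟩
  rw [List.length_append, k2]
  simp
  omega

/-- addition modulo `2^p - 1` of two arbitrary `p`-bit lists, with canonical result -/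
theorem exists_addM : ∃ addM : List Bool → List Bool → List Bool,
    Lin (fun x : List Bool × List Bool => addM x.1 x.2) ∧ ∀ p l m, l.length = p → m.length = p →
      addM l m = bitsN p ((ofBits l + ofBits m) % md p) := by
  obtain ⟨addB, h1, h2⟩ := exists_addB
  have h3 : TU (fun _ : List Bool × List Bool => True) (fun _ => 0) fun x => x.1.length :=
    TU.length TC.id.fst
  have h4 := h1.comp ((TC.take h3 h1).pair (TC.drop h3 h1))
  have h5 := lin_norm.comp (TC.take h3 h4)
  refine cur (Q := fun f => ∀ p l m, l.length = p → m.length = p →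
    f l m = bitsN p ((ofBits l + ofBits m) % md p)) h5 fun p l m hl hm => ?_
  have k1 := ofBits_lt l
  have k2 := ofBits_lt m
  simp only [hl, hm] at k1 k2 ⊢
  rw [List.length_take_of_le (by rw [(h2 _ _).2, List.length_take, (h2 _ _).2]; omega), ofBits_take,
    (h2 _ _).1, ofBits_take, ofBits_drop, (h2 _ _).1]
  generalize hS : ofBits l + ofBits m = S
  have k3 := Nat.div_add_mod S (2 ^ p)
  have k4 : S % 2 ^ p < 2 ^ p := Nat.mod_lt _ (by omega)
  have k5 : S / 2 ^ p < 2 := Nat.div_lt_of_lt_mul (by omega)
  have k6 : S % 2 ^ p + S / 2 ^ p < 2 ^ p := by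
    generalize S / 2 ^ p = q at *
    interval_cases q <;> omega
  rw [Nat.mod_eq_of_lt k6]
  congr 1
  refine (ZMod.natCast_eq_natCast_iff' _ _ _).1 ?_
  have k7 := congrArg (Nat.cast : ℕ → ZMod (md p)) k3
  simp only [Nat.cast_add, Nat.cast_mul, Nat.cast_pow, Nat.cast_ofNat, two_pow, one_mul] at k7 ⊢
  rw [← k7, add_comm]

theorem tc_zb_add : TC (fun z : List Bool × List Bool => z.1.length = z.2.length) (fun _ => 0)
    (fun z => bitsN z.1.length ((ofBits z.1 + ofBits z.2) % md z.1.length)) := by
  obtain ⟨addM, h1, h2⟩ := exists_addM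
  exact (TC.of_lin h1).congr fun z hz => (h2 _ _ _ rfl hz.symm).symm

/-- negation modulo `2^p - 1` of an arbitrary `p`-bit list -/
theorem lin_zb_neg :
    Lin (fun l : List Bool => bitsN l.length (-(ofBits l : ZMod (md l.length))).val) := by
  refine (lin_norm.comp (TC.map (f := (!·)) TC.id.bnot TC.id)).congr fun l _ => ?_
  have := congrArg (Nat.cast : ℕ → ZMod (md l.length)) (ofBits_not l)
  push_cast at this
  rw [two_pow] at this
  rw [List.length_map, ← ZMod.val_natCast]
  congr 2
  linear_combination -this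

namespace CellA

variable {α : Type*} [Enc α] {pre : α → Prop} {c : α → ℕ} {p : α → ℕ}

theorem tc_zb {l : α → List Bool} {r : α → R0} (h : TC pre c l)
    (h1 : ∀ a, pre a → (l a).length = p a ∧ ((ofBits (l a) : ℕ) : ZMod (md (p a))) = r a (p a)) :
    TC pre c fun a => zb (p a) (r a) :=
  (lin_norm.comp h).congr fun a ha => by
    rw [zb, ← (h1 a ha).2, ZMod.val_natCast, (h1 a ha).1]

theorem re {z : α → Cl} (h : TC pre c z) : TC pre c fun a => zb (z a).p (z a).x.re :=
  (TC.of_enc (f := fun a => (zb (z a).p (z a).x.re, zb (z a).p (z a).x.im)) h fun _ _ => rfl).fst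

theorem im {z : α → Cl} (h : TC pre c z) : TC pre c fun a => zb (z a).p (z a).x.im :=
  (TC.of_enc (f := fun a => (zb (z a).p (z a).x.re, zb (z a).p (z a).x.im)) h fun _ _ => rfl).snd

theorem width {z : α → Cl} (h : TC pre c z) : TU pre c fun a => (z a).p :=
  (TU.length (re h)).congr fun _ _ => (length_zb _ _).symm

theorem mk {x : α → LL} {r s : α → R0} (h : TC pre c fun a => zb (p a) (r a))
    (h' : TC pre c fun a => zb (p a) (s a))
    (h1 : ∀ a, pre a → (x a).re (p a) = r a (p a) ∧ (x a).im (p a) = s a (p a)) :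
    TC pre c fun a => Cl.mk (p a) (x a) :=
  (h.pair h').of_enc fun a ha => by rw [enc_cl, zb, zb, zb, zb, (h1 a ha).1, (h1 a ha).2]

theorem zadd {r s : α → R0} (h : TC pre c fun a => zb (p a) (r a))
    (h' : TC pre c fun a => zb (p a) (s a)) : TC pre c fun a => zb (p a) (r a + s a) :=
  (tc_zb_add.comp0 (h.pair h') fun a _ => by simp only [length_zb]).congr fun a _ => by
    simp only [length_zb]
    rw [← ZMod.val_natCast, Nat.cast_add, ofBits_zb, ofBits_zb]
    rfl

theorem zneg {r : α → R0} (h : TC pre c fun a => zb (p a) (r a)) :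
    TC pre c fun a => zb (p a) (-r a) := by
  refine tc_zb (TC.map (f := (!·)) TC.id.bnot h) fun a _ => ⟨by simp [length_zb], ?_⟩
  have := congrArg (Nat.cast : ℕ → ZMod (md (p a))) (ofBits_not (zb (p a) (r a)))
  rw [length_zb] at this
  push_cast at this
  rw [two_pow, ofBits_zb] at this
  rw [Pi.neg_apply]
  linear_combination this

theorem zpow {r : α → R0} {e : α → ℕ} (h : TC pre c fun a => zb (p a) (r a)) (he : TU pre c e)
    (h0 : ∀ a, pre a → e a ≤ p a) : TC pre c fun a => zb (p a) (2 ^ e a * r a) := by
  have hp : TU pre c fun a => p a - e a :=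
    ((TU.length h).congr fun _ _ => (length_zb _ _).symm).sub he
  refine tc_zb ((TC.drop hp h).append (TC.take hp h)) fun a ha => ?_
  have h1 := h0 a ha
  refine ⟨by simp [length_zb], ?_⟩
  have h2 := congrArg (Nat.cast : ℕ → ZMod (md (p a)))
    (Nat.div_add_mod (ofBits (zb (p a) (r a))) (2 ^ (p a - e a)))
  have h3 : (2 : ZMod (md (p a))) ^ e a * 2 ^ (p a - e a) = 1 := by
    rw [← pow_add, Nat.add_sub_cancel' h1, two_pow]
  rw [ofBits_zb] at h2
  rw [ofBits_append, ofBits_drop, ofBits_take, List.length_drop, length_zb, Nat.sub_sub_self h1]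
  simp only [Nat.cast_add, Nat.cast_mul, Nat.cast_pow, Nat.cast_ofNat, Pi.mul_apply, Pi.pow_apply,
    Pi.ofNat_apply] at h2 ⊢
  rw [← h2, mul_add, ← mul_assoc, h3, one_mul]

theorem zero (hp : TU pre c p) : TC pre c fun a => Cl.mk (p a) 0 := by
  have h : TC pre c fun a => zb (p a) 0 :=
    (TC.replicate_const false hp).congr fun a _ => by rw [zb, Pi.zero_apply, ZMod.val_zero, bitsN_zero]
  exact mk h h fun _ _ => ⟨rfl, rfl⟩

end CellA

theorem tc_cl_add : TC (fun z : Cl × Cl => z.1.p = z.2.p) (fun _ => 0)
    (fun z => Cl.mk z.1.p (z.1.x + z.2.x)) := by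
  exact mk (zadd (re TC.id.fst) ((re TC.id.snd).congr fun z hz => by rw [hz]))
    (zadd (im TC.id.fst) ((im TC.id.snd).congr fun z hz => by rw [hz])) fun _ _ => ⟨rfl, rfl⟩

/-- the scalars by which a cell can be multiplied in linear time -/
def Sc : Subring LL where
  carrier := {s | Lin (fun z : Cl => Cl.mk z.p (s * z.x))}
  mul_mem' hs ht := (TC.comp hs ht).congr fun z _ => by rw [mul_assoc]
  one_mem' := TC.id.congr fun z _ => by rw [one_mul]
  add_mem' hs ht := (tc_cl_add.comp0 (TC.pair hs ht) fun _ _ => rfl).congr fun z _ => by rw [add_mul]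
  zero_mem' := (zero (width TC.id)).congr fun z _ => by rw [zero_mul]
  neg_mem' {s} hs := by
    have h : Lin fun z : Cl => Cl.mk z.p (s * z.x) := hs
    have h1 := zneg (re h)
    have h2 := zneg (im h)
    exact CellA.mk h1 h2 fun z _ => by rw [neg_mul]; exact ⟨rfl, rfl⟩

theorem ii_mem : ii ∈ Sc := by
  exact mk (zneg (im TC.id)) (re TC.id) fun z _ => by simp [ii]

theorem hf_mem : hf ∈ Sc := by
  have h : TU (fun _ : Cl => True) (fun _ => 0) fun z => z.p - 1 := (width TC.id).sub (TU.const 1)
  exact mk (zpow (re TC.id) h fun _ _ => Nat.sub_le _ _) (zpow (im TC.id) h fun _ _ => Nat.sub_le _ _)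
    fun z _ => by simp [hf]

theorem tc_cl_pow2 : TC (fun z : U × Cl => z.1.val ≤ z.2.p) (fun _ => 0)
    (fun z => Cl.mk z.2.p (2 ^ z.1.val * z.2.x)) := by
  refine mk (zpow (re TC.id.snd) (TU.val TC.id.fst) fun _ h => h)
    (zpow (im TC.id.snd) (TU.val TC.id.fst) fun _ h => h) fun z _ => ?_
  have : (2 : LL) ^ z.1.val = ((2 ^ z.1.val : ℕ) : LL) := by push_cast; rfl
  rw [this, QuadraticAlgebra.re_mul, QuadraticAlgebra.im_mul, QuadraticAlgebra.re_natCast,
    QuadraticAlgebra.im_natCast]
  simp

/-- the `2 p` bits of a cell -/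
def Cl.word (z : Cl) : List Bool := zb z.p z.x.re ++ zb z.p z.x.im

@[simp] theorem Cl.length_word (z : Cl) : z.word.length = 2 * z.p := by
  simp [Cl.word, zb]; omega

variable {α : Type*} [Enc α] {pre : α → Prop} {c : α → ℕ} {p N : α → ℕ} {v w : α → ℕ → LL}

/-- arrays of cells of width `p` -/
abbrev TL (pre : α → Prop) (c : α → ℕ) (p N : α → ℕ) (v : α → ℕ → LL) : Prop :=
  TA pre c N (fun a i => Cl.mk (p a) (v a i))

theorem sz_tl_le (p N : ℕ) (v : ℕ → LL) :
    sz (GArr.mk N fun i => Cl.mk p (v i)) ≤ N * (8 * p + 4) + 1 := by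
  exact sz_arr_le fun i _ => sz_cl_le _ _

theorem TL.bd (h : TL pre c p N v) : Bd pre c (fun a => N a * (p a + 1)) := by
  refine (Bd.sz h).mono fun a _ => le_trans ?_ (sz_arr_ge fun i _ => sz_cl_ge (p a) (v a i))
  exact (Nat.mul_le_mul_left _ (by omega)).trans (Nat.le_succ _)

theorem TL.add (h : TL pre c p N v) (h' : TL pre c p N w) :
    TL pre c p N (fun a i => v a i + w a i) := by
  exact (TA.zip h h').map0 tc_cl_add fun _ _ _ _ => rfl

theorem TL.smul {s : LL} (hs : s ∈ Sc) (h : TL pre c p N v) :
    TL pre c p N (fun a i => s * v a i) := by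
  exact TA.map h hs

theorem TL.pow2 {e : α → ℕ} (h : TL pre c p N v) (he : TU pre c e)
    (h0 : ∀ a, pre a → e a ≤ p a) : TL pre c p N (fun a i => 2 ^ e a * v a i) := by
  refine TA.mapEnv (f := fun (u : U) (z : Cl) => Cl.mk z.p (2 ^ u.val * z.x)) h tc_cl_pow2 he
    (fun a ha _ _ => h0 a ha) ((h.bd.const_mul 2).mono fun a ha => ?_)
  have := h0 a ha
  simp only [Finset.sum_const, Finset.card_range, smul_eq_mul, sz_U]
  rw [mul_left_comm]
  exact Nat.mul_le_mul_left _ (by omega)

theorem tc_cl_zero (hp : TU pre c p) : TC pre c (fun a => Cl.mk (p a) 0) := by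
  exact zero hp

theorem TL.toWords (h : TL pre c p N v) : TA pre c N (fun a i => (Cl.mk (p a) (v a i)).word) := by
  exact TA.map (f := Cl.word) h ((re TC.id).append (im TC.id))

theorem TL.ofWords (h : TA pre c N (fun a i => (Cl.mk (p a) (v a i)).word)) (hp : TU pre c p) :
    TL pre c p N v := by
  have h1 : TU (fun _ : List Bool => True) (fun _ => 0) fun l => l.length / 2 :=
    (TU.length TC.id).div (TU.const 2)
  refine (TA.map h ((TC.take h1 TC.id).pair (TC.drop h1 TC.id))).of_enc (fun _ _ => rfl)
    fun a _ i _ => ?_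
  rw [Cl.length_word, Nat.mul_div_cancel_left _ two_pos, Cl.word,
    List.take_left' (length_zb _ _), List.drop_left' (length_zb _ _), enc_cl]

end Crest.Agent.R326
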