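import Crest.Agent.R326.GDefs

/-!
# Row 326, the three-dimensional convolution theorem (task R326-Conv)

PLAN.  `dft_inv`: orthogonality `Σ_{w<S} ζ^(w n)`, (`IsPrimitiveRoot.geom_sum_eq_zero`-type
lemmas, `setDig_setDig`, `dig_setDig`); hence `bwd (fwd v) = v` with `swp_swp`.
`fwd_eq`: `fwd dft v x = Σ_{z,y,w<S} ζ^(n₁ y + n₂ w + n₃ z) v (t S³ + z S² + y S + w)` where
`t = x / S³`, `n₁ = dig (S*S) S x`, `n₂ = dig S S x`, `n₃ = dig 1 S x`
(`(z,y,w) → (z,y,ŵ) → (z,ŵ,y) → (z,ŵ,ŷ) → (ŷ,ŵ,z) → (ŷ,ŵ,ẑ)`).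
One lemma over an arbitrary commutative semiring, for `2 h ≤ S + 1`:
`Σ_{z,y,w<S} cv(z,y,w) X^z Y^y Z^w = (Σ_{i<h³} a i X^(i₃) Y^(i₂) Z^(i₁)) (Σ_{j<h³} b j …)`
(`Finset.sum_comm`, `Finset.sum_ite_eq`), and `Σ_{z,y,w<S} ld(z,y,w) X^z Y^y Z^w` is the first
factor.  Use it in `ℂ` (`fwd (cv) = fwd (ld a) * fwd (ld b)`) and in `ℕ` (`kron_cv`, with
`i = i₃ h² + i₂ h + i₁`).
-/

set_option autoImplicit false

namespace Crest.Agent.R326

open Crest.Agent.PTime

namespace ConvA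

open Finset

theorem orth {S : ℕ} {ζ : ℂ} (hS : 0 < S) (hζ : IsPrimitiveRoot ζ S) {a d : ℕ} (ha : a < S)
    (hd : d < S) : ∑ w ∈ range S, ζ⁻¹ ^ (d * w) * ζ ^ (w * a) = if a = d then (S : ℂ) else 0 := by
  have h0 : ζ ≠ 0 := hζ.ne_zero hS.ne'
  have e : ∀ w, ζ⁻¹ ^ (d * w) * ζ ^ (w * a) = (ζ⁻¹ ^ d * ζ ^ a) ^ w := fun w => by
    rw [mul_pow, ← pow_mul, ← pow_mul, mul_comm w a]
  simp only [e]
  split_ifs with h
  · subst h
    simp [inv_mul_cancel₀ (pow_ne_zero a h0)]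
  · have h1 : ζ⁻¹ ^ d * ζ ^ a ≠ 1 := fun h' => by
      rw [inv_pow, inv_mul_eq_one₀ (pow_ne_zero d h0)] at h'
      exact h (hζ.pow_inj hd ha h').symm
    rw [geom_sum_eq h1, mul_pow, ← pow_mul, ← pow_mul, mul_comm d, mul_comm a, pow_mul, pow_mul,
      inv_pow, hζ.pow_eq_one]
    simp

theorem sum_range_mul {R : Type*} [AddCommMonoid R] (f : ℕ → R) (m n : ℕ) :
    ∑ i ∈ range (m * n), f i = ∑ a ∈ range m, ∑ b ∈ range n, f (a * n + b) := by
  induction m with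
  | zero => simp
  | succ m ih => rw [Nat.succ_mul, sum_range_add, ih, sum_range_succ]

theorem sum_cube {R : Type*} [AddCommMonoid R] (f : ℕ → R) (h : ℕ) :
    ∑ i ∈ range (h ^ 3), f i =
      ∑ z ∈ range h, ∑ y ∈ range h, ∑ w ∈ range h, f (z * (h * h) + y * h + w) := by
  rw [show h ^ 3 = h * (h * h) by ring, sum_range_mul]
  refine sum_congr rfl fun z _ => ?_
  rw [sum_range_mul]
  simp only [add_assoc]

theorem digs {h z y w : ℕ} (hz : z < h) (hy : y < h) (hw : w < h) :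
    dig (h * h) h (z * (h * h) + y * h + w) = z ∧ dig h h (z * (h * h) + y * h + w) = y ∧
      dig 1 h (z * (h * h) + y * h + w) = w := by
  have h0 : 0 < h := by omega
  refine ⟨?_, dig_mk h0 hy hw, ?_⟩
  · have := dig_mk (σ := h * h) (n := h) (q := 0) (d := z) (s := y * h + w) (by positivity) hz
      (by nlinarith)
    simpa [add_assoc] using this
  · have := dig_mk (σ := 1) (n := h) (q := z * h + y) (d := w) (s := 0) one_pos hw one_pos
    rw [← this]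
    congr 1
    rw [this]
    ring

/-- functions of the three lowest digits -/
def D3 {R : Type*} (S : ℕ) (F : ℕ → ℕ → ℕ → R) (x : ℕ) : R :=
  F (dig (S * S) S x) (dig S S x) (dig 1 S x)

theorem dft_D3 {S : ℕ} (hS : 0 < S) (ζ : ℂ) (F : ℕ → ℕ → ℕ → ℂ) :
    dft S ζ 1 (D3 S F) = D3 S fun z y n => ∑ w ∈ range S, ζ ^ (n * w) * F z y w := by
  funext x
  simp only [dft, D3, one_mul]
  refine sum_congr rfl fun w hw => ?_
  rw [dig_setDig one_pos hS, Nat.mod_eq_of_lt (mem_range.1 hw),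
    dig_setDig_high one_pos hS (by simp), dig_setDig_high one_pos hS (by simp)]

theorem swp1_D3 {R : Type*} {S : ℕ} (hS : 0 < S) (F : ℕ → ℕ → ℕ → R) :
    (fun x => D3 S F (swp 1 S S x)) = D3 S fun z y w => F z w y := by
  funext x
  simp only [D3]
  rw [dig_swp_low one_pos hS, dig_swp_high one_pos hS hS (by simp), swp,
    dig_setDig_high one_pos hS (by simp), dig_setDig_high hS hS dvd_rfl]

theorem swp2_D3 {R : Type*} {S : ℕ} (hS : 0 < S) (F : ℕ → ℕ → ℕ → R) :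
    (fun x => D3 S F (swp 1 (S * S) S x)) = D3 S fun z y w => F w y z := by
  funext x
  simp only [D3]
  rw [dig_swp_low one_pos hS, dig_swp_high one_pos hS (by positivity) (by simp), swp,
    dig_setDig_high one_pos hS (by simp), dig_setDig_low dvd_rfl]

theorem fwd_D3 {S : ℕ} (hS : 0 < S) (ζ : ℂ) (F : ℕ → ℕ → ℕ → ℂ) :
    fwd S (dft S ζ 1) (D3 S F) = D3 S fun m n k => ∑ z ∈ range S, ∑ y ∈ range S, ∑ w ∈ range S,
      F z y w * ((ζ ^ k) ^ z * (ζ ^ m) ^ y * (ζ ^ n) ^ w) := by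
  unfold fwd
  rw [dft_D3 hS, swp1_D3 hS, dft_D3 hS, swp2_D3 hS, dft_D3 hS]
  congr 1
  funext m n k
  simp only [mul_sum, pow_mul]
  refine sum_congr rfl fun z _ => sum_congr rfl fun y _ => sum_congr rfl fun w _ => ?_
  ring

/-- `ld` as a function of the digits -/
def ldF (h : ℕ) (a : ℕ → ℕ) (z y w : ℕ) : ℕ :=
  if z < h ∧ y < h ∧ w < h then a (z * (h * h) + y * h + w) else 0

/-- `cv` as a function of the digits -/
def cvF (h : ℕ) (a b : ℕ → ℕ) (z y w : ℕ) : ℕ :=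
  ∑ i ∈ range (h ^ 3), ∑ j ∈ range (h ^ 3),
    if dig (h * h) h i + dig (h * h) h j = z ∧ dig h h i + dig h h j = y ∧
      dig 1 h i + dig 1 h j = w then a i * b j else 0

theorem sum_lt {R : Type*} [AddCommMonoid R] {h S : ℕ} (hS : h ≤ S) (f : ℕ → R) :
    ∑ z ∈ range S, (if z < h then f z else 0) = ∑ z ∈ range h, f z := by
  rw [← sum_filter]
  congr 1
  ext z
  simp only [mem_filter, mem_range]
  omega

theorem sum_ldF {R : Type*} [CommSemiring R] {h S : ℕ} (hS : h ≤ S) (a : ℕ → ℕ)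
    (M : ℕ → ℕ → ℕ → R) :
    ∑ z ∈ range S, ∑ y ∈ range S, ∑ w ∈ range S, (ldF h a z y w : R) * M z y w =
      ∑ i ∈ range (h ^ 3), (a i : R) * M (dig (h * h) h i) (dig h h i) (dig 1 h i) := by
  rw [sum_cube, ← sum_lt hS]
  refine sum_congr rfl fun z _ => ?_
  split_ifs with hz
  · rw [← sum_lt hS]
    refine sum_congr rfl fun y _ => ?_
    split_ifs with hy
    · rw [← sum_lt hS]
      refine sum_congr rfl fun w _ => ?_
      split_ifs with hw
      · obtain ⟨h1, h2, h3⟩ := digs hz hy hw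
        rw [h1, h2, h3, ldF, if_pos ⟨hz, hy, hw⟩]
      · simp [ldF, hw]
    · simp [ldF, hy]
  · simp [ldF, hz]

theorem sum_cvF {R : Type*} [CommSemiring R] {h S : ℕ} (hh : 0 < h) (h2 : 2 * h ≤ S + 1)
    (a b : ℕ → ℕ) (X Y Z : R) :
    ∑ z ∈ range S, ∑ y ∈ range S, ∑ w ∈ range S, (cvF h a b z y w : R) * (X ^ z * Y ^ y * Z ^ w) =
      (∑ i ∈ range (h ^ 3), (a i : R) * (X ^ dig (h * h) h i * Y ^ dig h h i * Z ^ dig 1 h i)) *
      ∑ i ∈ range (h ^ 3), (b i : R) * (X ^ dig (h * h) h i * Y ^ dig h h i * Z ^ dig 1 h i) := by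
  have hl : ∀ σ i j, dig σ h i + dig σ h j ∈ range S := fun σ i j => by
    have := dig_lt (σ := σ) hh i
    have := dig_lt (σ := σ) hh j
    rw [mem_range]
    omega
  simp only [cvF, Nat.cast_sum, sum_mul]
  simp only [mul_sum]
  symm
  refine Eq.trans ?_ (sum_congr rfl fun z _ => sum_congr rfl fun y _ => sum_comm)
  refine Eq.trans ?_ (sum_congr rfl fun z _ => sum_comm)
  refine Eq.trans (sum_congr rfl fun i _ => ?_) sum_comm
  refine Eq.trans ?_ (sum_congr rfl fun z _ => sum_congr rfl fun y _ => sum_comm)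
  refine Eq.trans ?_ (sum_congr rfl fun z _ => sum_comm)
  refine Eq.trans (sum_congr rfl fun j _ => ?_) sum_comm
  rw [sum_eq_single_of_mem _ (hl (h * h) i j) fun z _ hz => by simp [Ne.symm hz],
    sum_eq_single_of_mem _ (hl h i j) fun z _ hz => by simp [Ne.symm hz],
    sum_eq_single_of_mem _ (hl 1 i j) fun z _ hz => by simp [Ne.symm hz]]
  simp only [and_self, if_true, Nat.cast_mul, pow_add]
  ring

end ConvA

open ConvA Finset

theorem dft_inv {S : ℕ} (hS : 0 < S) {ζ : ℂ} (hζ : IsPrimitiveRoot ζ S) (v : ℕ → ℂ) :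
    dft S ζ⁻¹ (1 / S) (dft S ζ 1 v) = v := by
  funext x
  have hd := dig_lt (σ := 1) hS x
  have e : ∀ w ∈ range S, ζ⁻¹ ^ (dig 1 S x * w) * dft S ζ 1 v (setDig 1 S w x) =
      ∑ a ∈ range S, ζ⁻¹ ^ (dig 1 S x * w) * ζ ^ (w * a) * v (setDig 1 S a x) := by
    intro w hw
    rw [dft, one_mul, mul_sum, dig_setDig one_pos hS, Nat.mod_eq_of_lt (mem_range.1 hw)]
    exact sum_congr rfl fun a _ => by rw [setDig_setDig one_pos hS, mul_assoc]
  rw [dft, sum_congr rfl e, sum_comm]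
  simp only [← sum_mul]
  rw [sum_congr rfl fun a ha => by rw [orth hS hζ (mem_range.1 ha) hd],
    sum_eq_single_of_mem _ (mem_range.2 hd) fun a _ ha => by simp [ha], if_pos rfl,
    setDig_dig one_pos hS]
  have : (S : ℂ) ≠ 0 := Nat.cast_ne_zero.2 hS.ne'
  field_simp

theorem conv_thm {S h : ℕ} (hh : 0 < h) (h2 : 2 * h ≤ S + 1) {ζ : ℂ} (hζ : IsPrimitiveRoot ζ S)
    (a b : ℕ → ℕ) :
    bwd S (dft S ζ⁻¹ (1 / S)) (fun x => fwd S (dft S ζ 1) (fun n => (ld h S a n : ℂ)) x *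
      fwd S (dft S ζ 1) (fun n => (ld h S b n : ℂ)) x) = fun n => (cv h S a b n : ℂ) := by
  have hS : 0 < S := by omega
  have e1 : ∀ a : ℕ → ℕ, (fun n => (ld h S a n : ℂ)) = D3 S fun z y w => (ldF h a z y w : ℂ) :=
    fun a => rfl
  have e2 : (fun n => (cv h S a b n : ℂ)) = D3 S fun z y w => (cvF h a b z y w : ℂ) := rfl
  have e3 : (fun x => fwd S (dft S ζ 1) (fun n => (ld h S a n : ℂ)) x *
      fwd S (dft S ζ 1) (fun n => (ld h S b n : ℂ)) x) =
      fwd S (dft S ζ 1) (fun n => (cv h S a b n : ℂ)) := by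
    rw [e1, e1, e2, fwd_D3 hS, fwd_D3 hS, fwd_D3 hS]
    funext x
    simp only [D3]
    rw [sum_cvF hh h2, sum_ldF (by omega) a fun z y w => _ ^ z * _ ^ y * _ ^ w,
      sum_ldF (by omega) b fun z y w => _ ^ z * _ ^ y * _ ^ w]
  rw [e3]
  unfold bwd fwd
  simp only [dft_inv hS hζ, swp_swp one_pos hS (Nat.mul_pos hS hS) (show 1 * S ∣ S * S by simp),
    swp_swp one_pos hS hS (show 1 * S ∣ S by simp)]

theorem kron_cv {S h : ℕ} (hh : 0 < h) (h2 : 2 * h ≤ S + 1) (X : ℕ) (a b : ℕ → ℕ) :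
    kron h S X (cv h S a b) =
      (∑ i ∈ Finset.range (h ^ 3), a i * X ^ i) * ∑ j ∈ Finset.range (h ^ 3), b j * X ^ j := by
  have e : ∀ a : ℕ → ℕ, ∑ i ∈ range (h ^ 3), a i * X ^ i = ∑ i ∈ range (h ^ 3),
      (a i : ℕ) * ((X ^ (h * h)) ^ dig (h * h) h i * (X ^ h) ^ dig h h i * X ^ dig 1 h i) := by
    intro a
    rw [sum_cube, sum_cube]
    refine sum_congr rfl fun z hz => sum_congr rfl fun y hy => sum_congr rfl fun w hw => ?_
    obtain ⟨h1, h2, h3⟩ := digs (mem_range.1 hz) (mem_range.1 hy) (mem_range.1 hw)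
    rw [h1, h2, h3]
    ring
  have := sum_cvF (R := ℕ) hh h2 a b (X ^ (h * h)) (X ^ h) X
  simp only [Nat.cast_id] at this
  rw [e a, e b, ← this, kron]
  refine sum_congr rfl fun z hz => sum_congr rfl fun y hy => sum_congr rfl fun w hw => ?_
  obtain ⟨h1, h2, h3⟩ := digs (mem_range.1 hz) (mem_range.1 hy) (mem_range.1 hw)
  rw [cv, h1, h2, h3, cvF]
  ring

theorem ch_lt (q : ℕ) (l : List Bool) (i : ℕ) : ch q l i < 2 ^ q := by
  rw [ch, ofBits_take]
  exact Nat.mod_lt _ (by positivity)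

theorem sum_ch {q n : ℕ} {l : List Bool} (h : l.length ≤ n * q) :
    ∑ i ∈ Finset.range n, ch q l i * (2 ^ q) ^ i = ofBits l := by
  have h1 : ∀ n, ∑ i ∈ range n, ch q l i * (2 ^ q) ^ i = ofBits l % (2 ^ q) ^ n := by
    intro n
    induction n with
    | zero => simp [Nat.mod_one]
    | succ n ih =>
      rw [sum_range_succ, ih, Nat.mod_pow_succ, ch, ofBits_take, ofBits_drop, mul_comm n q,
        pow_mul, mul_comm]
  rw [h1, ← pow_mul, mul_comm q, ← ofBits_take, List.take_of_length_le h]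

end Crest.Agent.R326
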