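import Crest.Agent.R326.DDefs

/-!
# Row 326, digit programs: diagonals and shears (task R326-DBase)

(All programs of `DDefs.lean` were checked numerically.)
PLAN.  `res s z = (z : ZMod s).val` (`ZMod.val_intCast`), so `(refl s c x).1.val = res s (c.1 - x.1.val)`
etc.  `fixd` at `x` iff `refl s c x = x`; `lexb` at `refl s c x` is the negation of `lexb` at `x`
for non-fixed `x` (`ZMod.val_injective`); `refl` is an involution.
`run_pDiag`: with `C0 = [[α,β],[β,α]]`, `C0 diag(1,-1) C0 = diag(i,-i)`; `eC (1/4) = I`.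
`run_pRS`: for a non-fixed pair (source, receiver) the product `D6 C0 D5 C0 … D1 C0 D0` is
`[[1,0],[κ,1]]` (`field_simp`, `ring_nf`, `Complex.I_sq`; needs `κ + λ ≠ 0`, `λ = s + 1`); prove a
generic two-point lemma: if `D` takes the values `(a, b)` at `(x, ρ x)` then `runL` acts on the
pair `(f x, f (ρ x))` by the matrix `diag(a,b) C0`.  `role` at `ρ x` is the negation of `role` at
`x`.  `run_pDS`: `ρ₂ = refl (c₁ + δ)`, `ρ₁ = refl c₁`, `c₁ = (2 off - 1, 0)`; `ρ₁` maps active rows
to inactive rows (`sr (2 off - 1 - y) = s - 1 - sr y`); steps `t -= κ a; a += src; t += κ a;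
a -= src` with `a = ρ₂ t`, `src = ρ₁ a = t - δ`.
-/

set_option autoImplicit false

namespace Crest.Agent.R326

theorem eC_zero : eC 0 = 1 := by simp [eC]

theorem eC_add (a b : ℚ) : eC (a + b) = eC a * eC b := by
  unfold eC
  rw [← Complex.exp_add]
  congr 1
  push_cast
  ring

theorem eC_int (n : ℤ) : eC n = 1 := by
  unfold eC
  rw [← Complex.exp_int_mul_two_pi_mul_I n]
  congr 1
  push_cast
  ring

theorem norm_eC (a : ℚ) : ‖eC a‖ = 1 := by
  unfold eC
  have : (2 * Real.pi * Complex.I * a : ℂ) = ((2 * Real.pi * a : ℝ) : ℂ) * Complex.I := by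
    push_cast
    ring
  rw [this, Complex.norm_exp_ofReal_mul_I]

theorem eC_ne_zero (a : ℚ) : eC a ≠ 0 := Complex.exp_ne_zero _

theorem eC_quarter : eC (1 / 4) = Complex.I := by
  unfold eC
  refine Eq.trans ?_ Complex.exp_pi_div_two_mul_I
  congr 1
  push_cast
  ring

theorem eC_half : eC (1 / 2) = -1 := by
  unfold eC
  rw [← Complex.exp_pi_mul_I]
  congr 1
  push_cast
  ring

theorem eC_nat_mul (n : ℕ) (a : ℚ) : eC (n * a) = eC a ^ n := by
  unfold eC
  rw [← Complex.exp_nat_mul]
  congr 1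
  push_cast
  ring

@[simp] theorem FS.val_nil : FS.val [] = 0 := rfl

@[simp] theorem FS.val_cons (q θ : ℚ) (l : FS) : FS.val ((q, θ) :: l) = q * eC θ + FS.val l := by
  simp [FS.val]

theorem FS.val_append (l m : FS) : FS.val (l ++ m) = FS.val l + FS.val m := by
  simp [FS.val]

theorem FS.val_sc (q θ : ℚ) (l : FS) : FS.val (FS.sc q θ l) = q * eC θ * FS.val l := by
  induction l with
  | nil => simp [FS.sc]
  | cons t l ih =>
    obtain ⟨a, b⟩ := t
    have : FS.sc q θ ((a, b) :: l) = (q * a, θ + b) :: FS.sc q θ l := rfl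
    rw [this, FS.val_cons, FS.val_cons, ih, eC_add]
    push_cast
    ring

theorem FS.val_flatMap_range (n : ℕ) (g : ℕ → FS) :
    FS.val ((List.range n).flatMap g) = ∑ r ∈ Finset.range n, FS.val (g r) := by
  induction n with
  | zero => simp
  | succ n ih =>
    rw [List.range_succ, List.flatMap_append, FS.val_append, ih, Finset.sum_range_succ]
    simp

theorem val_cq (q θ : ℚ) : Coef.val (cq q θ) = q * eC θ := by
  simp [Coef.val, cq]

theorem Coef.val_mulq (q θ : ℚ) (c : Coef) :
    Coef.val (Coef.mulq q θ c) = q * eC θ * Coef.val c := by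
  obtain ⟨l, b⟩ := c
  cases b
  · simp [Coef.val, Coef.mulq, FS.val_sc]
  · have h : (eC (-θ))⁻¹ = eC θ := by
      apply inv_eq_of_mul_eq_one_right
      rw [← eC_add, neg_add_cancel, eC_zero]
    simp only [Coef.val, Coef.mulq, cond_true, FS.val_sc, mul_inv, h]
    simp

theorem run_append (s : ℕ) (P P' : Prog) (f : Fn s) : run s (P ++ P') f = run s P' (run s P f) :=
  List.foldl_append

theorem run_nil (s : ℕ) (f : Fn s) : run s [] f = f := rfl

variable {s : ℕ} [NeZero s]

theorem res_eq (z : ℤ) : res s z = (z : ZMod s).val := by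
  have h := ZMod.val_intCast (n := s) z
  unfold res
  omega

theorem DB.eC_neg_quarter : eC (-1 / 4) = -Complex.I := by
  have h : eC (-1 / 4) * Complex.I = 1 := by
    rw [← eC_quarter, ← eC_add]
    norm_num [eC_zero]
  linear_combination (-Complex.I) * h + eC (-1 / 4) * Complex.I_sq

theorem DB.res_refl1 (c : ℤ × ℤ) (x : ZMod s × ZMod s) :
    res s (c.1 - x.1.val) = (refl s c x).1.val := by
  rw [res_eq]
  simp [refl]

theorem DB.res_refl2 (c : ℤ × ℤ) (x : ZMod s × ZMod s) :
    res s (c.2 - x.2.val) = (refl s c x).2.val := by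
  rw [res_eq]
  simp [refl]

omit [NeZero s] in
theorem DB.refl_refl (c : ℤ × ℤ) (x : ZMod s × ZMod s) : refl s c (refl s c x) = x := by
  simp [refl]

theorem DB.fixd_iff (c : ℤ × ℤ) (x : ZMod s × ZMod s) :
    fixd s c x.1.val x.2.val = true ↔ refl s c x = x := by
  unfold fixd
  rw [decide_eq_true_iff, DB.res_refl1, DB.res_refl2, (ZMod.val_injective s).eq_iff,
    (ZMod.val_injective s).eq_iff, Prod.ext_iff]

theorem DB.fixd_false {c : ℤ × ℤ} {x : ZMod s × ZMod s} (h : refl s c x ≠ x) :
    fixd s c x.1.val x.2.val = false := by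
  rw [← Bool.not_eq_true, DB.fixd_iff]
  exact h

omit [NeZero s] in
theorem DB.refl_not_fixed {c : ℤ × ℤ} {x : ZMod s × ZMod s} (h : refl s c x ≠ x) :
    refl s c (refl s c x) ≠ refl s c x := by
  rw [DB.refl_refl]
  exact h.symm

theorem DB.lexb_refl {c : ℤ × ℤ} {x : ZMod s × ZMod s} (h : refl s c x ≠ x) :
    lexb s c (refl s c x).1.val (refl s c x).2.val = !lexb s c x.1.val x.2.val := by
  unfold lexb
  rw [DB.res_refl1 c x, DB.res_refl2 c x, DB.res_refl1 c (refl s c x), DB.res_refl2 c (refl s c x),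
    DB.refl_refl, ← decide_not, decide_eq_decide]
  have h' : ¬ ((refl s c x).1.val = x.1.val ∧ (refl s c x).2.val = x.2.val) := by
    rw [(ZMod.val_injective s).eq_iff, (ZMod.val_injective s).eq_iff, ← Prod.ext_iff]
    exact h
  omega

theorem run_pDiag (D : ℕ → ℕ → Coef) (f : Fn s) :
    run s (pDiag s D) f = fun x => Coef.val (D x.1.val x.2.val) * f x := by
  funext x
  have hρ := DB.refl_refl (0, 0) x
  have h4 : eC (-1 / 4) = -Complex.I := DB.eC_neg_quarter
  simp only [run, pDiag, List.foldl_cons, List.foldl_nil, runL, hρ]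
  by_cases hx : refl s (0, 0) x = x
  · have h1 := (DB.fixd_iff (0, 0) x).2 hx
    simp only [hx, h1, Bool.true_or, cond_true, val_cq, eC_zero]
    push_cast
    ring
  · have h1 := DB.fixd_false hx
    have h2 := DB.fixd_false (DB.refl_not_fixed hx)
    have h3 := DB.lexb_refl hx
    cases hl : lexb s (0, 0) x.1.val x.2.val
    · simp only [h1, h2, h3, hl, Bool.false_or, Bool.not_false, cond_true, cond_false, val_cq,
        eC_zero, Coef.val_mulq, eC_quarter]
      push_cast
      linear_combination (-(Coef.val (D x.1.val x.2.val) * f x)) * Complex.I_sq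
    · simp only [h1, h2, h3, hl, Bool.false_or, Bool.not_true, cond_true, cond_false, val_cq,
        eC_zero, Coef.val_mulq, h4]
      push_cast
      linear_combination (-(Coef.val (D x.1.val x.2.val) * f x)) * Complex.I_sq

theorem DB.role_refl {c : ℤ × ℤ} {Tg : ℕ → ℕ → Bool} {x : ZMod s × ZMod s} (h : refl s c x ≠ x)
    (h1 : ∀ x : ZMod s × ZMod s, Tg x.1.val x.2.val = true →
      Tg (refl s c x).1.val (refl s c x).2.val = false) :
    role s c Tg (refl s c x).1.val (refl s c x).2.val = !role s c Tg x.1.val x.2.val := by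
  unfold role
  rw [DB.lexb_refl h, DB.res_refl1 c x, DB.res_refl2 c x, DB.res_refl1 c (refl s c x),
    DB.res_refl2 c (refl s c x), DB.refl_refl]
  have h2 := h1 x
  revert h2
  cases Tg x.1.val x.2.val <;> cases Tg (refl s c x).1.val (refl s c x).2.val <;>
    cases lexb s c x.1.val x.2.val <;> simp

omit [NeZero s] in
/-- three layers act on a pair by a triangular matrix -/
theorem DB.tri (c : ℤ × ℤ) (D1 D2 D3 : ℕ → ℕ → Coef) (t : ZMod s × ZMod s) (g : Fn s)
    (a1 : Coef.val (D1 (refl s c t).1.val (refl s c t).2.val) = 2)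
    (t1 : Coef.val (D1 t.1.val t.2.val) = -1)
    (a2 : Coef.val (D2 (refl s c t).1.val (refl s c t).2.val) = 3 / 2)
    (t2 : Coef.val (D2 t.1.val t.2.val) = 1 / 2) :
    runL s (c, D3) (runL s (c, D2) (runL s (c, D1) g)) (refl s c t) =
      Coef.val (D3 (refl s c t).1.val (refl s c t).2.val) * (-(1 - Complex.I) * g (refl s c t)) ∧
    runL s (c, D3) (runL s (c, D2) (runL s (c, D1) g)) t =
      Coef.val (D3 t.1.val t.2.val) *
        (5 * (1 + Complex.I) / 4 * g (refl s c t) + 3 * (1 - Complex.I) / 4 * g t) := by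
  simp only [runL, DB.refl_refl, a1, t1, a2, t2]
  constructor
  · congr 1
    have h3 : Complex.I ^ 3 = -Complex.I := Complex.I_pow_three
    ring_nf
    simp only [Complex.I_sq, h3]
    ring
  · congr 1
    have h3 : Complex.I ^ 3 = -Complex.I := Complex.I_pow_three
    ring_nf
    simp only [Complex.I_sq, h3]
    ring

theorem DB.run_pRS_pair (c : ℤ × ℤ) (Tg : ℕ → ℕ → Bool) (κ : ℕ → ℕ → FS) (t : ZMod s × ZMod s)
    (ht : refl s c t ≠ t) (hrt : role s c Tg t.1.val t.2.val = true)
    (hra : role s c Tg (refl s c t).1.val (refl s c t).2.val = false)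
    (hκ : Tg t.1.val t.2.val = true → ‖FS.val (κ t.1.val t.2.val)‖ ≤ s) (f : Fn s) :
    run s (pRS s c Tg κ) f (refl s c t) = f (refl s c t) ∧
    run s (pRS s c Tg κ) f t =
      if Tg t.1.val t.2.val then f t + FS.val (κ t.1.val t.2.val) * f (refl s c t) else f t := by
  have hft := DB.fixd_false ht
  have hfa := DB.fixd_false (DB.refl_not_fixed ht)
  have hDa : ∀ (src : Coef) (tgt : ℕ → ℕ → Coef),
      rsD s c Tg src tgt (refl s c t).1.val (refl s c t).2.val = src := by
    intro src tgt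
    simp [rsD, hfa, hra]
  have hDt : ∀ (src : Coef) (tgt : ℕ → ℕ → Coef),
      rsD s c Tg src tgt t.1.val t.2.val = tgt t.1.val t.2.val := by
    intro src tgt
    simp [rsD, hft, hrt]
  have htri := fun (D3 : ℕ → ℕ → Coef) (g : Fn s) =>
    DB.tri c (rsD s c Tg (cq 2 0) fun _ _ => cq (-1) 0)
      (rsD s c Tg (cq (3 / 2) 0) fun _ _ => cq (1 / 2) 0) D3 t g
      (by rw [hDa, val_cq, eC_zero]; norm_num) (by rw [hDt, val_cq, eC_zero]; norm_num)
      (by rw [hDa, val_cq, eC_zero]; norm_num) (by rw [hDt, val_cq, eC_zero]; norm_num)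
  obtain ⟨k, hk⟩ : ∃ k : ℂ, k = if Tg t.1.val t.2.val then FS.val (κ t.1.val t.2.val) else 0 :=
    ⟨_, rfl⟩
  have hkl : FS.val (kl s Tg κ t.1.val t.2.val) = (s + 1) + k := by
    rw [kl, FS.val_cons, eC_zero, hk]
    cases Tg t.1.val t.2.val <;> simp
  have hkn : ‖k‖ ≤ s := by
    rw [hk]
    split_ifs with h
    · exact hκ h
    · simp
  have hl0 : ((s : ℂ) + 1) ≠ 0 := by exact_mod_cast Nat.succ_ne_zero s
  have hk0 : ((s : ℂ) + 1) + k ≠ 0 := by
    intro h
    have h2 : k = -((s + 1 : ℕ) : ℂ) := by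
      push_cast
      linear_combination h
    rw [h2, norm_neg, Complex.norm_natCast] at hkn
    push_cast at hkn
    linarith
  have hres : (if Tg t.1.val t.2.val then f t + FS.val (κ t.1.val t.2.val) * f (refl s c t)
      else f t) = f t + k * f (refl s c t) := by
    rw [hk]
    split_ifs <;> simp
  rw [hres, pRS, run_append, run_pDiag]
  simp only [run, List.foldl_cons, List.foldl_nil]
  rw [(htri _ _).1, (htri _ _).2, (htri _ _).1, (htri _ _).2]
  simp only [hDa, hDt, val_cq, eC_zero, eC_quarter, DB.eC_neg_quarter]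
  simp only [Coef.val, cond_true, cond_false, FS.val_sc, hkl, eC_zero]
  push_cast
  have h3 : Complex.I ^ 3 = -Complex.I := Complex.I_pow_three
  constructor
  · ring_nf
    simp only [Complex.I_sq, h3]
    ring
  · field_simp
    ring_nf
    simp only [Complex.I_sq, h3]
    ring

theorem run_pRS (c : ℤ × ℤ) (Tg : ℕ → ℕ → Bool) (κ : ℕ → ℕ → FS)
    (h1 : ∀ x : ZMod s × ZMod s, Tg x.1.val x.2.val = true →
      Tg (refl s c x).1.val (refl s c x).2.val = false ∧ ‖FS.val (κ x.1.val x.2.val)‖ ≤ s)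
    (f : Fn s) : run s (pRS s c Tg κ) f = fun x =>
      if Tg x.1.val x.2.val then f x + FS.val (κ x.1.val x.2.val) * f (refl s c x) else f x := by
  funext x
  by_cases hx : refl s c x = x
  · have hT : Tg x.1.val x.2.val = false := by
      cases h : Tg x.1.val x.2.val
      · rfl
      · have := (h1 x h).1
        rw [hx, h] at this
        exact absurd this (by simp)
    have hf := (DB.fixd_iff c x).2 hx
    have hD : ∀ (src : Coef) (tgt : ℕ → ℕ → Coef),
        Coef.val (rsD s c Tg src tgt x.1.val x.2.val) = 1 := by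
      intro src tgt
      simp [rsD, hf, val_cq, eC_zero]
    have hL : ∀ (src : Coef) (tgt : ℕ → ℕ → Coef) (g : Fn s),
        runL s (c, rsD s c Tg src tgt) g x = g x := by
      intro src tgt g
      simp only [runL, hx, hD]
      ring
    rw [pRS, run_append, run_pDiag]
    simp only [run, List.foldl_cons, List.foldl_nil, hL, hD, hT, one_mul]
    simp
  · have hr := DB.role_refl (Tg := Tg) hx (fun y hy => (h1 y hy).1)
    cases hrole : role s c Tg x.1.val x.2.val
    · have hT : Tg x.1.val x.2.val = false := by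
        cases h : Tg x.1.val x.2.val
        · rfl
        · simp [role, h] at hrole
      rw [hrole] at hr
      have := (DB.run_pRS_pair c Tg κ (refl s c x) (DB.refl_not_fixed hx) hr
        (by rw [DB.refl_refl]; exact hrole) (fun h => (h1 _ h).2) f).1
      rw [DB.refl_refl] at this
      rw [this, hT]
      simp
    · rw [hrole] at hr
      rw [(DB.run_pRS_pair c Tg κ x hx hrole hr (fun h => (h1 _ h).2) f).2]

theorem DB.not_act {off : ℕ} {y z : ZMod s} (hy : Act s off y) (hz : Act s off z)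
    (h : y + z + 1 = 2 * off) : False := by
  unfold Act sr at hy hz
  rw [res_eq] at hy hz
  push_cast at hy hz
  rw [ZMod.natCast_zmod_val] at hy hz
  have h0 : (((y - off).val + (z - off).val + 1 : ℕ) : ZMod s) = 0 := by
    push_cast
    rw [ZMod.natCast_zmod_val, ZMod.natCast_zmod_val]
    linear_combination h
  rw [ZMod.natCast_eq_zero_iff] at h0
  have := Nat.le_of_dvd (Nat.succ_pos _) h0
  omega

theorem run_pDS (off : ℕ) (δ : ℤ × ℤ) (Tg : ℕ → ℕ → Bool) (κ : ℕ → ℕ → FS)
    (h1 : ∀ x : ZMod s × ZMod s, Tg x.1.val x.2.val = true →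
      Act s off x.1 ∧ Act s off (x.1 - δ.1) ∧ Tg (x.1 - δ.1).val (x.2 - δ.2).val = false ∧
        ‖FS.val (κ x.1.val x.2.val)‖ ≤ s)
    (f : Fn s) : run s (pDS s off δ Tg κ) f = fun x =>
      if Tg x.1.val x.2.val then f x + FS.val (κ x.1.val x.2.val) * f (x.1 - δ.1, x.2 - δ.2)
      else f x := by
  set c₂ : ℤ × ℤ := (2 * off - 1 + δ.1, δ.2) with hc₂
  set c₁ : ℤ × ℤ := (2 * off - 1, 0) with hc₁
  have hs : (1 : ℝ) ≤ s := by exact_mod_cast Nat.pos_of_ne_zero (NeZero.ne s)
  have e12 : ∀ x : ZMod s × ZMod s, refl s c₁ (refl s c₂ x) = (x.1 - δ.1, x.2 - δ.2) := by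
    intro x
    simp only [refl, hc₁, hc₂]
    push_cast
    ext <;> simp only <;> ring
  have hT' : ∀ x : ZMod s × ZMod s,
      Tg (res s (2 * off - 1 + δ.1 - x.1.val)) (res s (δ.2 - x.2.val)) =
        Tg (refl s c₂ x).1.val (refl s c₂ x).2.val := by
    intro x
    rw [← DB.res_refl1 c₂ x, ← DB.res_refl2 c₂ x]
  have hA : ∀ x : ZMod s × ZMod s, Tg x.1.val x.2.val = true →
      Tg (refl s c₂ x).1.val (refl s c₂ x).2.val = false := by
    intro x hx
    cases h : Tg (refl s c₂ x).1.val (refl s c₂ x).2.val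
    · rfl
    · exfalso
      refine DB.not_act (h1 x hx).2.1 (h1 _ h).1 ?_
      simp only [refl, hc₂]
      push_cast
      ring
  have hB : ∀ x : ZMod s × ZMod s, Tg (refl s c₂ x).1.val (refl s c₂ x).2.val = true →
      Tg (refl s c₂ (refl s c₁ x)).1.val (refl s c₂ (refl s c₁ x)).2.val = false := by
    intro x hx
    cases h : Tg (refl s c₂ (refl s c₁ x)).1.val (refl s c₂ (refl s c₁ x)).2.val
    · rfl
    · exfalso
      refine DB.not_act (h1 _ hx).2.1 (h1 _ h).2.1 ?_
      simp only [refl, hc₁, hc₂]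
      push_cast
      ring
  have hC : ∀ x : ZMod s × ZMod s, Tg (refl s c₂ x).1.val (refl s c₂ x).2.val = true →
      Tg (refl s c₁ x).1.val (refl s c₁ x).2.val = false := by
    intro x hx
    have h := (h1 _ hx).2.2.1
    have e := e12 (refl s c₂ x)
    rw [DB.refl_refl] at e
    rw [e]
    exact h
  have r1 := run_pRS (s := s) c₂ Tg (fun y w => FS.sc (-1) 0 (κ y w)) (fun x hx => ⟨hA x hx, by
    rw [FS.val_sc, eC_zero]
    simpa using (h1 x hx).2.2.2⟩)
  have r3 := run_pRS (s := s) c₂ Tg κ (fun x hx => ⟨hA x hx, (h1 x hx).2.2.2⟩)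
  have r2 := run_pRS (s := s) c₁
    (fun y w => Tg (res s (2 * off - 1 + δ.1 - y)) (res s (δ.2 - w))) (fun _ _ => [(1, 0)])
    (fun x hx => ⟨by rw [hT'] at hx ⊢; exact hB x hx, by simpa [eC_zero] using hs⟩)
  have r4 := run_pRS (s := s) c₁
    (fun y w => Tg (res s (2 * off - 1 + δ.1 - y)) (res s (δ.2 - w))) (fun _ _ => [(-1, 0)])
    (fun x hx => ⟨by rw [hT'] at hx ⊢; exact hB x hx, by simpa [eC_zero] using hs⟩)
  simp only [hT'] at r2 r4
  rw [pDS, run_append, run_append, run_append, r4, r3, r2, r1]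
  funext x
  cases hx : Tg x.1.val x.2.val
  · cases hx' : Tg (refl s c₂ x).1.val (refl s c₂ x).2.val
    · simp [hx, hx']
    · simp [hx, hx', hB x hx', hC x hx', eC_zero]
  · have h2 := hA x hx
    have h3 := (h1 x hx).2.2.1
    simp only [hx, h2, DB.refl_refl, e12, h3, if_true, FS.val_sc, FS.val_cons, FS.val_nil, eC_zero]
    simp only [Bool.false_eq_true, if_false]
    push_cast
    ring

end Crest.Agent.R326
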