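import Crest.Agent.R326.DCirc

/-!
# Row 326, digit programs: the Fourier transform of the rows (task R326-DChirp)

PLAN.  Let `ζ = eC (sg inv / s)`, `h = (s+1)/2` (`2 h ≡ 1`), `E z = ζ ^ z.val` an additive
character of `ZMod s` with `Σ_z E (z n) = s [n = 0]`; `FS.val (chirp s q σ d)` only depends on
`d mod s`.  On row vectors `ZMod s → ℂ` let `C a x = Σ_y E (h (x-y)²) a y` and
`C' a x = s⁻¹ Σ_y E (-h (x-y)²) a y`; `C' C = C C' = 1`.  By `run_pCS` (`RowsOk` for
`rowA/rowB`, `2 lam s ≤ (s-1)/2`) `pPair 1` maps the rows `(a, b) = (y, y + lam s)` to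
`(-C' b, C a)` and `pPair (-1)` maps `(a', b')` to `(C' b', -C a')`; all other rows are unchanged.
Hence a round replaces a valid row `a` by `Dfin C' D C a`, and
`(C' D C)(x, y) = (G / s) E (-x² + x y)` with the Gauss sum `G = Σ_z E (h z²)`
(complete the square), `G * conj G = s` where `conj G = Σ_z E (-h z²)`
(`Σ_{d,z} E (h d² + z d) = s`).  A row `y < s ≤ 6 lam s` is valid exactly in round `y / lam s`
(for valid rows `sr = y - off`).
-/

set_option autoImplicit false

namespace Crest.Agent.R326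

variable {s : ℕ} [NeZero s]

theorem DH.sr_eq (off : ℕ) (y : ZMod s) : sr s off y.val = (y - off).val := by
  rw [sr, res_eq]
  simp

omit [NeZero s] in
theorem DH.val_lam (h9 : 9 ≤ s) : ((lam s : ℕ) : ZMod s).val = lam s :=
  ZMod.val_cast_of_lt (by unfold lam; omega)

theorem DH.sr_sub (h9 : 9 ≤ s) (off : ℕ) (y : ZMod s) (h : lam s ≤ sr s off y.val) :
    sr s off (y - (lam s : ℕ)).val = sr s off y.val - lam s := by
  rw [DH.sr_eq] at h
  rw [DH.sr_eq, DH.sr_eq, sub_right_comm, ZMod.val_sub (by rwa [DH.val_lam h9]), DH.val_lam h9]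

theorem DH.sr_add (h9 : 9 ≤ s) (off : ℕ) (y : ZMod s) (h : sr s off y.val < lam s) :
    sr s off (y + (lam s : ℕ)).val = sr s off y.val + lam s := by
  rw [DH.sr_eq] at h
  rw [DH.sr_eq, DH.sr_eq, add_sub_right_comm,
    ZMod.val_add_of_lt (by rw [DH.val_lam h9]; unfold lam at h ⊢; omega), DH.val_lam h9]

theorem rowsOk_AB (h9 : 9 ≤ s) (off : ℕ) : RowsOk s off (rowA s off) (rowB s off) (lam s) := by
  intro y
  simp only [rowA, rowB, Act, decide_eq_true_eq, decide_eq_false_iff_not, Int.cast_natCast]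
  refine ⟨fun h => ⟨by unfold lam at h; omega, by omega⟩, fun h => ⟨by unfold lam at h; omega, ?_⟩⟩
  rw [DH.sr_sub h9 off y h.1]
  omega

theorem rowsOk_BA (h9 : 9 ≤ s) (off : ℕ) : RowsOk s off (rowB s off) (rowA s off) (-lam s) := by
  intro y
  simp only [rowA, rowB, Act, decide_eq_true_eq, decide_eq_false_iff_not, Int.cast_natCast,
    Int.cast_neg, sub_neg_eq_add]
  refine ⟨fun h => ⟨by unfold lam at h; omega, by omega⟩, fun h => ⟨by unfold lam at h; omega, ?_⟩⟩
  rw [DH.sr_add h9 off y h]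
  omega

/-- the standard character -/
noncomputable abbrev DH.ψ (z : ZMod s) : ℂ := ZMod.stdAddChar z

theorem DH.eC_eq (n : ℤ) : eC (n / s) = DH.ψ (n : ZMod s) := by
  rw [DH.ψ, ZMod.stdAddChar_coe, eC]
  congr 1
  push_cast
  ring

theorem DH.ψ_add (a b : ZMod s) : DH.ψ (a + b) = DH.ψ a * DH.ψ b := AddChar.map_add_eq_mul _ _ _

theorem DH.sum_ψ (b : ZMod s) : ∑ x : ZMod s, DH.ψ (x * b) = if b = 0 then (s : ℂ) else 0 := by
  rw [AddChar.sum_mulShift b (ZMod.isPrimitive_stdAddChar s), ZMod.card]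
  split_ifs <;> simp

/-- convolution with a chirp -/
noncomputable def DH.Cv (k : ZMod s) (a : ZMod s → ℂ) (x : ZMod s) : ℂ :=
  ∑ y, DH.ψ (k * (x - y) ^ 2) * a y

theorem DH.Cv_smul (k : ZMod s) (c : ℂ) (a : ZMod s → ℂ) (x : ZMod s) :
    DH.Cv k (fun y => c * a y) x = c * DH.Cv k a x := by
  simp only [DH.Cv, Finset.mul_sum]
  exact Finset.sum_congr rfl fun y _ => by ring

theorem DH.Cv_add (k : ZMod s) (a b : ZMod s → ℂ) (x : ZMod s) :
    DH.Cv k (fun y => a y + b y) x = DH.Cv k a x + DH.Cv k b x := by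
  simp only [DH.Cv, mul_add, Finset.sum_add_distrib]

theorem DH.Cv_inv {k : ZMod s} (hk : (2 * k) ^ 2 = 1) (a : ZMod s → ℂ) (x : ZMod s) :
    DH.Cv (-k) (DH.Cv k a) x = s * a x := by
  simp only [DH.Cv, Finset.mul_sum]
  rw [Finset.sum_comm]
  have h : ∀ z, ∑ y, DH.ψ (-k * (x - y) ^ 2) * (DH.ψ (k * (y - z) ^ 2) * a z) =
      (if z = x then (s : ℂ) else 0) * a z := by
    intro z
    have h1 : ∀ y, DH.ψ (-k * (x - y) ^ 2) * (DH.ψ (k * (y - z) ^ 2) * a z) =
        DH.ψ (y * (2 * k * (x - z))) * (DH.ψ (k * (z ^ 2 - x ^ 2)) * a z) := by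
      intro y
      rw [← mul_assoc, ← mul_assoc, ← DH.ψ_add, ← DH.ψ_add]
      congr 2
      ring
    simp only [h1]
    rw [← Finset.sum_mul, DH.sum_ψ]
    by_cases hz : z = x
    · subst hz
      simp [DH.ψ]
    · rw [if_neg hz, if_neg, zero_mul, zero_mul]
      intro h0
      apply hz
      linear_combination (-2 * k) * h0 + (x - z) * hk
  simp only [h, ite_mul, zero_mul, Finset.sum_ite_eq', Finset.mem_univ, if_true]

/-- Gauss sum -/
noncomputable def DH.Gs (k : ZMod s) : ℂ := ∑ y, DH.ψ (k * y ^ 2)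

theorem DH.Gs_shift (k c : ZMod s) : ∑ y, DH.ψ (k * (y + c) ^ 2) = DH.Gs k :=
  Fintype.sum_equiv (Equiv.addRight c) _ _ fun _ => rfl

theorem DH.Cv_const (k : ZMod s) (c : ℂ) (x : ZMod s) : DH.Cv k (fun _ => c) x = DH.Gs k * c := by
  rw [DH.Cv, ← Finset.sum_mul, ← DH.Gs_shift k (-x)]
  congr 1
  exact Finset.sum_congr rfl fun y _ => by congr 1; ring

theorem DH.Gs_mul {k : ZMod s} (hk : (2 * k) ^ 2 = 1) : DH.Gs (-k) * DH.Gs k = s := by
  have h := DH.Cv_inv hk (fun _ => 1) 0
  have h1 : DH.Cv k (fun _ => (1 : ℂ)) = fun _ => DH.Gs k * 1 := funext (DH.Cv_const k 1)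
  rw [h1, DH.Cv_const] at h
  simpa using h

theorem DH.Cv_mid (k : ZMod s) (a : ZMod s → ℂ) (x : ZMod s) :
    DH.Cv (-k) (fun y => DH.ψ (k * y ^ 2) * DH.Cv k a y) x =
      DH.Gs k * DH.ψ (-(2 * k * x ^ 2)) * ∑ z, DH.ψ (2 * k * (x * z)) * a z := by
  simp only [DH.Cv, Finset.mul_sum]
  rw [Finset.sum_comm]
  refine Finset.sum_congr rfl fun z _ => ?_
  rw [← DH.Gs_shift k (x - z), Finset.sum_mul, Finset.sum_mul]
  refine Finset.sum_congr rfl fun y _ => ?_
  simp only [← mul_assoc, ← DH.ψ_add]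
  congr 2
  ring

/-- the chirp parameter -/
def DH.kk (s : ℕ) (inv : Bool) : ZMod s := cond inv (-1) 1 * (((s + 1) / 2 : ℕ) : ZMod s)

omit [NeZero s] in
theorem DH.two_kk (ho : Odd s) (inv : Bool) : 2 * DH.kk s inv = cond inv (-1) 1 := by
  have h : (2 : ZMod s) * (((s + 1) / 2 : ℕ) : ZMod s) = 1 := by
    have h1 : 2 * ((s + 1) / 2) = s + 1 := by
      obtain ⟨m, rfl⟩ := ho
      omega
    have h2 := congrArg (Nat.cast : ℕ → ZMod s) h1
    rw [Nat.cast_mul, Nat.cast_add, ZMod.natCast_self, zero_add] at h2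
    exact_mod_cast h2
  rw [DH.kk, mul_left_comm, h, mul_one]

omit [NeZero s] in
theorem DH.kk_sq (ho : Odd s) (inv : Bool) : (2 * DH.kk s inv) ^ 2 = 1 := by
  rw [DH.two_kk ho]
  cases inv <;> simp

theorem DH.eC_sg (inv : Bool) (n : ℤ) :
    eC (sg inv * n / s) = DH.ψ (cond inv (-1) 1 * (n : ZMod s)) := by
  cases inv
  · simpa [sg] using DH.eC_eq (s := s) n
  · simpa [sg] using DH.eC_eq (s := s) (-n)

theorem DH.val_chirp (q : ℚ) (inv : Bool) (d : ℤ) :
    FS.val (chirp s q (sg inv) d) = q * DH.ψ (DH.kk s inv * (d : ZMod s) ^ 2) := by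
  have h := DH.eC_sg (s := s) inv (((s + 1) / 2 : ℕ) * d ^ 2)
  rw [Int.cast_mul, Int.cast_mul, Int.cast_natCast, Int.cast_natCast, Int.cast_pow, Int.cast_pow,
    ← mul_assoc, ← mul_assoc] at h
  rw [chirp, FS.val_cons, FS.val_nil, add_zero, h, DH.kk]

theorem DH.val_chirp' (q : ℚ) (inv : Bool) (d : ℤ) :
    FS.val (chirp s q (-sg inv) d) = q * DH.ψ (-DH.kk s inv * (d : ZMod s) ^ 2) := by
  have h1 : -sg inv = sg (!inv) := by cases inv <;> simp [sg]
  have h2 : -DH.kk s inv = DH.kk s (!inv) := by cases inv <;> simp [DH.kk]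
  rw [h1, h2, DH.val_chirp]

omit [NeZero s] in
theorem DH.norm_chirp {q : ℚ} (hq : |q| ≤ 1) (σ : ℚ) (d : ℤ) : ‖FS.val (chirp s q σ d)‖ ≤ 1 := by
  rw [chirp, FS.val_cons, FS.val_nil, add_zero, norm_mul, norm_eC, mul_one,
    ← Complex.ofReal_ratCast, Complex.norm_real, Real.norm_eq_abs]
  exact_mod_cast hq

theorem DH.run_AB {kmax : ℕ} (hk : s < 2 ^ (kmax + 1)) (h9 : 9 ≤ s) (off : ℕ) (inv : Bool)
    {q : ℚ} (hq : |q| ≤ 1) (f : Fn s) :
    run s (pCS kmax s off (rowA s off) (rowB s off) (lam s) (chirp s q (sg inv))) f = fun x =>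
      if rowB s off x.1.val = true then
        f x + q * DH.Cv (DH.kk s inv) (fun w => f (x.1 - (lam s : ℕ), w)) x.2 else f x := by
  rw [run_pCS hk (by omega) (rowsOk_AB h9 off) (DH.norm_chirp hq _)]
  funext x
  congr 2
  rw [DH.Cv, Finset.mul_sum]
  refine Finset.sum_congr rfl fun w _ => ?_
  rw [DH.val_chirp, mul_assoc]
  simp

theorem DH.run_BA {kmax : ℕ} (hk : s < 2 ^ (kmax + 1)) (h9 : 9 ≤ s) (off : ℕ) (inv : Bool)
    {q : ℚ} (hq : |q| ≤ 1) (f : Fn s) :
    run s (pCS kmax s off (rowB s off) (rowA s off) (-lam s) (chirp s q (-sg inv))) f = fun x =>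
      if rowA s off x.1.val = true then
        f x + q * DH.Cv (-DH.kk s inv) (fun w => f (x.1 + (lam s : ℕ), w)) x.2 else f x := by
  rw [run_pCS hk (by omega) (rowsOk_BA h9 off) (DH.norm_chirp hq _)]
  funext x
  congr 2
  rw [DH.Cv, Finset.mul_sum]
  refine Finset.sum_congr rfl fun w _ => ?_
  rw [DH.val_chirp', mul_assoc]
  simp

theorem DH.AB (h9 : 9 ≤ s) (off : ℕ) {y : ZMod s} (h : rowA s off y.val = true) :
    rowB s off y.val = false ∧ rowB s off (y + (lam s : ℕ)).val = true :=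
  ⟨((rowsOk_AB h9 off y).1 h).2, by simpa using ((rowsOk_BA h9 off y).2 h).2⟩

theorem DH.BA (h9 : 9 ≤ s) (off : ℕ) {y : ZMod s} (h : rowB s off y.val = true) :
    rowA s off y.val = false ∧ rowA s off (y - (lam s : ℕ)).val = true :=
  ⟨((rowsOk_BA h9 off y).1 h).2, by simpa using ((rowsOk_AB h9 off y).2 h).2⟩

theorem DH.run_pPair {kmax : ℕ} (hk : s < 2 ^ (kmax + 1)) (h9 : 9 ≤ s) (ho : Odd s) (off : ℕ)
    (inv : Bool) {e : ℚ} (he : e ^ 2 = 1) (f : Fn s) :
    run s (pPair kmax s off inv e) f = fun x =>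
      if rowA s off x.1.val = true then
        -e / s * DH.Cv (-DH.kk s inv) (fun w => f (x.1 + (lam s : ℕ), w)) x.2
      else if rowB s off x.1.val = true then
        e * DH.Cv (DH.kk s inv) (fun w => f (x.1 - (lam s : ℕ), w)) x.2
      else f x := by
  have h1 : |e| ≤ 1 := by rw [← sq_le_one_iff_abs_le_one, he]
  have hs : (1 : ℚ) ≤ s := by exact_mod_cast (by omega : 1 ≤ s)
  have h2 : |-e / s| ≤ 1 := by
    rw [abs_div, abs_neg, abs_of_nonneg (by linarith : (0 : ℚ) ≤ s), div_le_one (by linarith)]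
    linarith
  have he' : (e : ℂ) ^ 2 = 1 := by exact_mod_cast he
  have hs0 : (s : ℂ) ≠ 0 := by exact_mod_cast NeZero.ne s
  have hk2 := DH.kk_sq ho inv
  have hA : ∀ x : ZMod s × ZMod s, rowA s off x.1.val = true →
      run s (pCS kmax s off (rowB s off) (rowA s off) (-lam s) (chirp s (-e / s) (-sg inv)))
        (run s (pCS kmax s off (rowA s off) (rowB s off) (lam s) (chirp s e (sg inv))) f) x =
      -e / s * DH.Cv (-DH.kk s inv) (fun w => f (x.1 + (lam s : ℕ), w)) x.2 := by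
    intro x hx
    obtain ⟨h3, h4⟩ := DH.AB h9 off hx
    rw [DH.run_BA hk h9 off inv h2, DH.run_AB hk h9 off inv h1]
    simp only [hx, h3, h4, if_true, Bool.false_eq_true, if_false, add_sub_cancel_right]
    rw [DH.Cv_add, DH.Cv_smul, DH.Cv_inv hk2]
    push_cast
    field_simp
    linear_combination (-(s : ℂ) * f x) * he'
  rw [pPair, run_append, run_append, DH.run_AB hk h9 off inv h1]
  funext x
  by_cases hx : rowA s off x.1.val = true
  · rw [if_pos hx, if_neg (by simp [(DH.AB h9 off hx).1]), hA x hx]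
  · rw [if_neg hx]
    by_cases hy : rowB s off x.1.val = true
    · rw [if_pos hy, if_pos hy]
      have h3 := (DH.BA h9 off hy).2
      have h4 := fun w => hA (x.1 - (lam s : ℕ), w) h3
      simp only [h4, sub_add_cancel]
      rw [DH.run_BA hk h9 off inv h2, DH.run_AB hk h9 off inv h1]
      simp only [hx, hy, if_true, Bool.false_eq_true, if_false]
      have h5 := DH.Cv_inv (k := -DH.kk s inv) (by rw [mul_neg, neg_sq, hk2])
        (fun w => f (x.1, w)) x.2
      rw [neg_neg] at h5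
      rw [DH.Cv_smul, h5]
      field_simp
      linear_combination (-f x) * he'
    · rw [if_neg hy, if_neg hy, DH.run_BA hk h9 off inv h2, DH.run_AB hk h9 off inv h1]
      simp only [hx, hy, Bool.false_eq_true, if_false]

theorem DH.sum_range (g : ZMod s → ℂ) : ∑ r ∈ Finset.range s, g r = ∑ w, g w := by
  refine Finset.sum_bij' (fun r _ => (r : ZMod s)) (fun w _ => w.val) (by simp)
    (fun w _ => Finset.mem_range.2 (ZMod.val_lt w))
    (fun r hr => ZMod.val_cast_of_lt (Finset.mem_range.1 hr)) (by simp) (by simp)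

theorem DH.valid (off : ℕ) (y : ZMod s) :
    (rowA s off y.val && decide (off + sr s off y.val < s)) = true ↔
      off ≤ y.val ∧ y.val < off + lam s := by
  have h1 := ZMod.val_lt y
  simp only [rowA, Bool.and_eq_true, decide_eq_true_eq]
  constructor
  · rintro ⟨h2, h3⟩
    have h4 : ((off + sr s off y.val : ℕ) : ZMod s) = y := by
      rw [DH.sr_eq]; simp
    have h5 := congrArg ZMod.val h4
    rw [ZMod.val_cast_of_lt h3] at h5
    omega
  · rintro ⟨h2, h3⟩
    have h4 : ((off : ℕ) : ZMod s).val = off := ZMod.val_cast_of_lt (by omega)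
    rw [DH.sr_eq, ZMod.val_sub (by omega), h4]
    omega

theorem DH.run_pRound {kmax : ℕ} (hk : s < 2 ^ (kmax + 1)) (h9 : 9 ≤ s) (ho : Odd s)
    (inv : Bool) (ρ : ℕ) (f : Fn s) :
    run s (pRound kmax s inv ρ) f = fun x =>
      if ρ * lam s ≤ x.1.val ∧ x.1.val < ρ * lam s + lam s then
        (scl s inv : ℂ) * ∑ w : ZMod s, eC (sg inv * (x.2.val * w.val) / s) * f (x.1, w)
      else f x := by
  have hs0 : (s : ℂ) ≠ 0 := by exact_mod_cast NeZero.ne s
  have hk2 := DH.kk_sq ho inv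
  rw [pRound, run_append, run_append, run_append, run_pDiag, DH.run_pPair hk h9 ho _ inv
    (e := -1) (by norm_num), run_pDiag, DH.run_pPair hk h9 ho _ inv (e := 1) (by norm_num)]
  generalize ρ * lam s = off
  funext x
  simp only [← DH.valid]
  have h1 : Coef.val (cq 1 0) = 1 := by simp [val_cq, eC_zero]
  by_cases hx : rowA s off x.1.val = true
  · obtain ⟨h3, h4⟩ := DH.AB h9 off hx
    have h5 := (DH.BA h9 off h4).1
    have h6 : sr s off (x.1 + (lam s : ℕ)).val - lam s = sr s off x.1.val := by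
      rw [DH.sr_add h9 off _ (by simpa [rowA] using hx)]; omega
    simp only [hx, h4, h5, h6, if_true, Bool.false_eq_true, if_false, add_sub_cancel_right,
      Bool.true_and]
    by_cases hv : off + sr s off x.1.val < s
    · have h7 : eC (sg inv * (x.2.val : ℚ) ^ 2 / s) = DH.ψ (2 * DH.kk s inv * x.2 ^ 2) := by
        have := DH.eC_sg (s := s) inv ((x.2.val : ℤ) ^ 2)
        rw [DH.two_kk ho]
        simpa only [Int.cast_pow, Int.cast_natCast, ZMod.natCast_zmod_val] using this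
      have h8 : ∀ w : ZMod s, eC (sg inv * (x.2.val * w.val) / s) =
          DH.ψ (2 * DH.kk s inv * (x.2 * w)) := by
        intro w
        have := DH.eC_sg (s := s) inv ((x.2.val : ℤ) * w.val)
        rw [DH.two_kk ho]
        simpa only [Int.cast_mul, Int.cast_natCast, ZMod.natCast_zmod_val] using this
      have h9' : DH.ψ (2 * DH.kk s inv * x.2 ^ 2) * DH.ψ (-(2 * DH.kk s inv * x.2 ^ 2)) = 1 := by
        rw [← DH.ψ_add]; simp [DH.ψ]
      have h10 := DH.Gs_mul hk2
      simp only [hv, decide_true, cond_true, if_true, Coef.val, cond_false, DH.val_chirp,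
        FS.val_flatMap_range, FS.val_sc, DH.val_chirp', Rat.cast_one, one_mul, Int.cast_natCast,
        ZMod.natCast_zmod_val, h7, h8]
      rw [DH.Cv_mid, DH.sum_range (fun w => DH.ψ (2 * DH.kk s inv * x.2 ^ 2) *
        ((scl s inv : ℂ) * DH.ψ (-DH.kk s inv * w ^ 2))), ← Finset.mul_sum, ← Finset.mul_sum]
      change _ * (_ * DH.Gs (-DH.kk s inv)) * _ = _
      generalize ∑ z, DH.ψ (2 * DH.kk s inv * (x.2 * z)) * f (x.1, z) = T
      push_cast
      field_simp
      linear_combination (T * (scl s inv : ℂ) * DH.Gs (-DH.kk s inv) * DH.Gs (DH.kk s inv)) * h9' +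
        (T * (scl s inv : ℂ)) * h10
    · simp only [hv, decide_false, cond_false, h1, one_mul, Rat.cast_one, Bool.false_eq_true,
        if_false]
      rw [DH.Cv_inv hk2]
      push_cast
      field_simp
  · by_cases hy : rowB s off x.1.val = true
    · have h3 := (DH.BA h9 off hy).2
      have h4 := (DH.AB h9 off h3).1
      simp only [hx, hy, h3, h4, if_true, Bool.false_eq_true, if_false, sub_add_cancel,
        Bool.false_and, cond_false, h1, one_mul]
      have h5 := DH.Cv_inv (k := -DH.kk s inv) (by rw [mul_neg, neg_sq, hk2])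
        (fun w => f (x.1, w)) x.2
      rw [neg_neg] at h5
      rw [DH.Cv_smul, h5]
      push_cast
      field_simp
    · simp only [hx, hy, Bool.false_eq_true, if_false, Bool.false_and, cond_false, h1, one_mul]

/-- the digit lemma -/
theorem run_dprog {kmax : ℕ} (hk : s < 2 ^ (kmax + 1)) (h9 : 9 ≤ s) (ho : Odd s) (inv : Bool)
    (f : Fn s) : run s (dprog kmax s inv) f = fun x =>
      (scl s inv : ℂ) * ∑ w : ZMod s, eC (sg inv * (x.2.val * w.val) / s) * f (x.1, w) := by
  have key : ∀ n : ℕ, run s ((List.range n).flatMap (pRound kmax s inv)) f = fun x =>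
      if x.1.val < n * lam s then
        (scl s inv : ℂ) * ∑ w : ZMod s, eC (sg inv * (x.2.val * w.val) / s) * f (x.1, w)
      else f x := by
    intro n
    induction n with
    | zero => simp [run_nil]
    | succ n ih =>
      rw [List.range_succ, List.flatMap_append, run_append, ih, List.flatMap_singleton,
        DH.run_pRound hk h9 ho]
      funext x
      rw [Nat.succ_mul]
      by_cases h1 : x.1.val < n * lam s
      · rw [if_neg (by omega), if_pos h1, if_pos (by omega)]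
      · simp only [h1, if_false]
        by_cases h2 : x.1.val < n * lam s + lam s
        · rw [if_pos (by omega), if_pos h2]
        · rw [if_neg (by omega), if_neg h2]
  rw [dprog, key]
  funext x
  rw [if_pos]
  have := ZMod.val_lt x.1
  obtain ⟨m, hm⟩ := ho
  unfold lam
  omega

end Crest.Agent.R326
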