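import Crest.Agent.R326.DFft

/-!
# Row 326, digit programs: circulant shears (task R326-DCirc)

PLAN.  `B = blk s`, `2 B = 2 ^ log₂ s ≤ s < 4 B`.  `run_pPiece`: rows `rb` receive
`ε'(w) Σ_{a < 2B} g'(..) ε(γ B + a) f(y - dr, γ B + a)` inside the window, everything else is
unchanged (the flips square to one).  A general lemma: if every program of a list adds to the rows
`rb` a quantity `Δ_P f` that only depends on the rows `ra` and leaves the other rows unchanged, then
the concatenation adds the sum.  Summing over `ε, ε'` gives the factor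
`4 [w / B = β] [position / B = γ]`; for `a < 2 B`, `((γ B + a) mod s) / B = γ` iff `a < B` and
`γ B + a < s`; for `w / B = β` the window position is `j = w - β B < B`, and the kernel index is
`(β - γ) B + j - a = w - w'`.  Finally sum over `β, γ < 4` (`Finset.sum_ite_eq`, and
`Σ_{w' : ZMod s} = Σ_{w' < s} = Σ_γ Σ_{a < B, γ B + a < s}`).
-/

set_option autoImplicit false

namespace Crest.Agent.R326

variable {s : ℕ} [NeZero s]

/-- the program adds to the rows `rb` the kernel `K` applied to the row `dr` below -/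
def DC.Adds (s : ℕ) [NeZero s] (rb : ℕ → Bool) (dr : ℤ) (P : Prog) (K : ZMod s → ZMod s → ℂ) :
    Prop :=
  ∀ f : Fn s, run s P f = fun x =>
    if rb x.1.val = true then f x + ∑ w : ZMod s, K x.2 w * f (x.1 - dr, w) else f x

theorem DC.adds_nil (rb : ℕ → Bool) (dr : ℤ) : DC.Adds s rb dr [] (fun _ _ => 0) := by
  intro f
  funext x
  simp [run_nil]

theorem DC.adds_append {rb : ℕ → Bool} {dr : ℤ}
    (hb : ∀ y : ZMod s, rb y.val = true → rb (y - dr).val = false) {P P' : Prog}
    {K K' : ZMod s → ZMod s → ℂ} (h : DC.Adds s rb dr P K) (h' : DC.Adds s rb dr P' K') :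
    DC.Adds s rb dr (P ++ P') (fun w w' => K w w' + K' w w') := by
  intro f
  funext x
  rw [run_append, h', h]
  by_cases hx : rb x.1.val = true
  · simp only [hx, hb _ hx, if_true, add_mul, Finset.sum_add_distrib]
    simp only [Bool.false_eq_true, if_false]
    ring
  · simp [hx]

theorem DC.adds_flatMap {ι : Type} {rb : ℕ → Bool} {dr : ℤ}
    (hb : ∀ y : ZMod s, rb y.val = true → rb (y - dr).val = false) (l : List ι) {P : ι → Prog}
    {K : ι → ZMod s → ZMod s → ℂ} (h : ∀ i, DC.Adds s rb dr (P i) (K i)) :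
    DC.Adds s rb dr (l.flatMap P) (fun w w' => (l.map fun i => K i w w').sum) := by
  induction l with
  | nil => exact DC.adds_nil rb dr
  | cons i l ih =>
    rw [List.flatMap_cons]
    simpa using DC.adds_append hb (h i) ih

/-- the sign -/
def DC.sgn (ε : Bool) (p : Prop) [Decidable p] : ℂ := if ε = true ∧ ¬ p then -1 else 1

theorem DC.sgn_sq (ε : Bool) (p : Prop) [Decidable p] : DC.sgn ε p * DC.sgn ε p = 1 := by
  unfold DC.sgn
  split_ifs <;> norm_num

theorem DC.flp_sq (s : ℕ) (ra rb : ℕ → Bool) (β γ : ℕ) (ε ε' : Bool) (y w : ℕ) :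
    Coef.val (flp s ra rb β γ ε ε' y w) * Coef.val (flp s ra rb β γ ε ε' y w) = 1 := by
  unfold flp
  cases ((ra y && ε && !decide (w / blk s = γ)) || (rb y && ε' && !decide (w / blk s = β))) <;>
    simp [val_cq, eC_zero]

theorem DC.flp_b (s : ℕ) {ra rb : ℕ → Bool} (β γ : ℕ) (ε ε' : Bool) {y : ℕ} (w : ℕ)
    (ha : ra y = false) (hb : rb y = true) :
    Coef.val (flp s ra rb β γ ε ε' y w) = DC.sgn ε' (w / blk s = β) := by
  unfold flp DC.sgn
  by_cases h : w / blk s = β <;> cases ε' <;> simp [ha, hb, h, val_cq, eC_zero]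

theorem DC.flp_a (s : ℕ) {ra rb : ℕ → Bool} (β γ : ℕ) (ε ε' : Bool) {y : ℕ} (w : ℕ)
    (ha : ra y = true) (hb : rb y = false) :
    Coef.val (flp s ra rb β γ ε ε' y w) = DC.sgn ε (w / blk s = γ) := by
  unfold flp DC.sgn
  by_cases h : w / blk s = γ <;> cases ε <;> simp [ha, hb, h, val_cq, eC_zero]

/-- the kernel of a window convolution -/
noncomputable def DC.wk (s : ℕ) (oa ob : ℕ) (g : ℕ → FS) (w w' : ZMod s) : ℂ :=
  if res s ((w.val : ℤ) - ob) < 2 ^ Nat.log 2 s then
    ∑ a ∈ Finset.range (2 ^ Nat.log 2 s), if ((oa + a : ℕ) : ZMod s) = w' then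
      FS.val (g ((res s ((w.val : ℤ) - ob) + 2 ^ Nat.log 2 s - a) % 2 ^ Nat.log 2 s)) else 0
  else 0

theorem DC.adds_pWC {kmax off : ℕ} (hk : s < 2 ^ (kmax + 1)) {ra rb : ℕ → Bool} {dr : ℤ}
    (hr : RowsOk s off ra rb dr) (oa ob : ℕ) {g : ℕ → FS} (hg : ∀ r, ‖FS.val (g r)‖ ≤ 1) :
    DC.Adds s rb dr (pWC kmax s off ra rb dr oa ob g) (DC.wk s oa ob g) := by
  intro f
  funext x
  rw [run_pWC hk hr oa ob hg]
  unfold DC.wk
  by_cases hx : rb x.1.val = true
  · by_cases hw : res s ((x.2.val : ℤ) - ob) < 2 ^ Nat.log 2 s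
    · simp only [hx, hw, and_self, if_true, Finset.sum_mul]
      rw [Finset.sum_comm]
      congr 1
      refine Finset.sum_congr rfl fun a _ => ?_
      simp only [ite_mul, zero_mul, Finset.sum_ite_eq, Finset.mem_univ, if_true]
    · simp only [hx, hw, and_false, if_false, if_true, zero_mul, Finset.sum_const_zero, add_zero]
  · simp [hx]

/-- the kernel function of a piece -/
def DC.gp (s : ℕ) (G : ℤ → FS) (β γ : ℕ) (r : ℕ) : FS := FS.sc (1 / 4) 0
  (G (((β : ℤ) - γ) * blk s + if r < blk s then (r : ℤ) else (r : ℤ) - 2 * blk s))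

theorem DC.adds_pPiece {kmax off : ℕ} (hk : s < 2 ^ (kmax + 1)) {ra rb : ℕ → Bool} {dr : ℤ}
    (hr : RowsOk s off ra rb dr) {G : ℤ → FS} (hG : ∀ d, ‖FS.val (G d)‖ ≤ 1) (β γ : ℕ)
    (ε ε' : Bool) :
    DC.Adds s rb dr (pPiece kmax s off ra rb dr G β γ ε ε') (fun w w' =>
      DC.sgn ε' (w.val / blk s = β) * DC.sgn ε (w'.val / blk s = γ) *
        DC.wk s (γ * blk s) (β * blk s) (DC.gp s G β γ) w w') := by
  have hg : ∀ r, ‖FS.val (DC.gp s G β γ r)‖ ≤ 1 := by
    intro r
    rw [DC.gp, FS.val_sc, eC_zero, mul_one, norm_mul]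
    have h4 : ‖(((1 / 4 : ℚ)) : ℂ)‖ ≤ 1 := by norm_num
    exact mul_le_one₀ h4 (norm_nonneg _) (hG _)
  intro f
  funext x
  have hW := DC.adds_pWC hk hr (γ * blk s) (β * blk s) hg
  unfold DC.gp at hW
  rw [pPiece, run_append, run_append, run_pDiag, hW, run_pDiag]
  by_cases hx : rb x.1.val = true
  · have ha : ra x.1.val = false := by
      cases h : ra x.1.val
      · rfl
      · have := ((hr x.1).1 h).2
        rw [hx] at this
        exact absurd this (by simp)
    have ha' : ra (x.1 - dr).val = true := ((hr x.1).2 hx).2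
    have hb' : rb (x.1 - dr).val = false := ((hr _).1 ha').2
    simp only [hx, if_true, DC.flp_b s β γ ε ε' _ ha hx, DC.flp_a s β γ ε ε' _ ha' hb']
    rw [mul_add, ← mul_assoc, DC.sgn_sq, one_mul, Finset.mul_sum]
    congr 1
    refine Finset.sum_congr rfl fun w _ => ?_
    unfold DC.gp
    ring
  · simp only [hx]
    simp only [Bool.false_eq_true, if_false]
    rw [← mul_assoc, DC.flp_sq, one_mul]

theorem DC.wk_eq (h2 : 2 ≤ s) (G : ℤ → FS) (w w' : ZMod s) :
    DC.wk s (w'.val / blk s * blk s) (w.val / blk s * blk s)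
      (DC.gp s G (w.val / blk s) (w'.val / blk s)) w w' =
      1 / 4 * FS.val (G ((w.val : ℤ) - w'.val)) := by
  have hk1 : 1 ≤ Nat.log 2 s := Nat.le_log_of_pow_le (by norm_num) (by simpa using h2)
  have hB2 : 2 ^ Nat.log 2 s = 2 * blk s := by
    unfold blk
    rw [← pow_succ']
    congr 1
    omega
  have hB0 : 0 < blk s := by unfold blk; positivity
  have hle : 2 * blk s ≤ s := hB2 ▸ Nat.pow_log_le_self 2 (by omega)
  have hw := Nat.div_add_mod' w.val (blk s)
  have hw' := Nat.div_add_mod' w'.val (blk s)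
  have hj := Nat.mod_lt w.val hB0
  have hj' := Nat.mod_lt w'.val hB0
  have hres : res s ((w.val : ℤ) - (w.val / blk s * blk s : ℕ)) = w.val % blk s := by
    have : (w.val : ℤ) - (w.val / blk s * blk s : ℕ) = (w.val % blk s : ℕ) := by omega
    rw [this, res_eq, Int.cast_natCast, ZMod.val_natCast, Nat.mod_eq_of_lt (by omega)]
  unfold DC.wk
  rw [hres, hB2, if_pos (by omega), Finset.sum_eq_single (w'.val % blk s)]
  · rw [hw', ZMod.natCast_zmod_val, if_pos rfl, DC.gp, FS.val_sc, eC_zero]
    have e : (((w.val / blk s : ℕ) : ℤ) - (w'.val / blk s : ℕ)) * blk s +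
        (if (w.val % blk s + 2 * blk s - w'.val % blk s) % (2 * blk s) < blk s then
          (((w.val % blk s + 2 * blk s - w'.val % blk s) % (2 * blk s) : ℕ) : ℤ)
        else (((w.val % blk s + 2 * blk s - w'.val % blk s) % (2 * blk s) : ℕ) : ℤ) - 2 * blk s)
        = (w.val : ℤ) - w'.val := by
      have e1 : (((w.val / blk s : ℕ) : ℤ) - (w'.val / blk s : ℕ)) * blk s =
          (w.val / blk s * blk s : ℕ) - (w'.val / blk s * blk s : ℕ) := by
        push_cast
        ring
      rw [e1]
      by_cases hc : w'.val % blk s ≤ w.val % blk s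
      · have e2 : (w.val % blk s + 2 * blk s - w'.val % blk s) % (2 * blk s) =
            w.val % blk s - w'.val % blk s := by
          have : w.val % blk s + 2 * blk s - w'.val % blk s =
              (w.val % blk s - w'.val % blk s) + 2 * blk s := by omega
          rw [this, Nat.add_mod_right, Nat.mod_eq_of_lt (by omega)]
        rw [e2, if_pos (by omega)]
        omega
      · have e2 : (w.val % blk s + 2 * blk s - w'.val % blk s) % (2 * blk s) =
            w.val % blk s + 2 * blk s - w'.val % blk s := Nat.mod_eq_of_lt (by omega)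
        rw [e2, if_neg (by omega)]
        omega
    rw [e]
    push_cast
    ring
  · intro a ha hne
    rw [if_neg]
    intro h
    apply hne
    rw [Finset.mem_range] at ha
    have h' : ((w'.val / blk s * blk s + a : ℕ) : ZMod s) =
        ((w'.val / blk s * blk s + w'.val % blk s : ℕ) : ZMod s) := by
      rw [h, hw', ZMod.natCast_zmod_val]
    rw [ZMod.natCast_eq_natCast_iff] at h'
    exact Nat.ModEq.eq_of_lt_of_lt (Nat.ModEq.add_left_cancel' _ h') (by omega) (by omega)
  · intro h
    exact absurd (Finset.mem_range.2 (by omega)) h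

theorem DC.div_blk_lt (h2 : 2 ≤ s) (w : ZMod s) : w.val / blk s < 4 := by
  have hk1 : 1 ≤ Nat.log 2 s := Nat.le_log_of_pow_le (by norm_num) (by simpa using h2)
  have hB4 : 2 ^ (Nat.log 2 s).succ = blk s * 4 := by
    unfold blk
    rw [show (4 : ℕ) = 2 ^ 2 by norm_num, ← pow_add]
    congr 1
    omega
  have := Nat.lt_pow_succ_log_self (b := 2) (by norm_num) s
  apply Nat.div_lt_of_lt_mul
  have := ZMod.val_lt w
  omega

theorem run_pCS {kmax off : ℕ} (hk : s < 2 ^ (kmax + 1)) (h2 : 2 ≤ s) {ra rb : ℕ → Bool} {dr : ℤ}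
    (hr : RowsOk s off ra rb dr) {G : ℤ → FS} (hG : ∀ d, ‖FS.val (G d)‖ ≤ 1) (f : Fn s) :
    run s (pCS kmax s off ra rb dr G) f = fun x =>
      if rb x.1.val = true then
        f x + ∑ w : ZMod s, FS.val (G ((x.2.val : ℤ) - w.val)) * f (x.1 - dr, w)
      else f x := by
  have hb : ∀ y : ZMod s, rb y.val = true → rb (y - dr).val = false := fun y hy =>
    ((hr _).1 ((hr y).2 hy).2).2
  have h := DC.adds_flatMap hb (List.range 4) fun β => DC.adds_flatMap hb (List.range 4) fun γ =>
    DC.adds_flatMap hb [false, true] fun ε => DC.adds_flatMap hb [false, true] fun ε' =>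
      DC.adds_pPiece hk hr hG β γ ε ε'
  rw [pCS, h f]
  funext x
  congr 2
  refine Finset.sum_congr rfl fun w _ => ?_
  congr 1
  have e : ∀ β γ : ℕ, (([false, true].map fun ε => ([false, true].map fun ε' =>
      DC.sgn ε' (x.2.val / blk s = β) * DC.sgn ε (w.val / blk s = γ) *
        DC.wk s (γ * blk s) (β * blk s) (DC.gp s G β γ) x.2 w).sum).sum) =
      if x.2.val / blk s = β then (if w.val / blk s = γ then
        FS.val (G ((x.2.val : ℤ) - w.val)) else 0) else 0 := by
    intro β γ
    by_cases h1 : x.2.val / blk s = β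
    · by_cases h3 : w.val / blk s = γ
      · subst h1 h3
        rw [DC.wk_eq h2]
        simp [DC.sgn]
        ring
      · simp [DC.sgn, h1, h3]
    · by_cases h3 : w.val / blk s = γ <;> simp [DC.sgn, h1, h3]
  simp only [e]
  have l : ∀ F : ℕ → ℂ, ((List.range 4).map F).sum = ∑ i ∈ Finset.range 4, F i := fun F => rfl
  simp only [l, Finset.sum_ite_irrel, Finset.sum_const_zero, Finset.sum_ite_eq, Finset.mem_range,
    DC.div_blk_lt h2, if_true]

end Crest.Agent.R326
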