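import Crest.Agent.Lib.PT.Code

/-!
# Row 326, digit programs: definitions (no task, complete)

A layer acts on functions on `ZMod s × ZMod s` (row, position): first the pass
`α + β ρ_c` (`ρ_c x = c - x`, `α, β = (1 ± i)/2`), then a diagonal.  Coefficients are formal sums
`Σ q e(θ)` or inverses of such sums.  `dprog kmax s inv` computes the discrete Fourier transform
of length `s` of every row with a number of layers depending only on `kmax`.
-/

set_option autoImplicit false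

namespace Crest.Agent.R326

/-- `e(θ) = exp (2 π i θ)` -/
noncomputable def eC (θ : ℚ) : ℂ := Complex.exp (2 * Real.pi * Complex.I * θ)

/-- formal sums `Σ q e(θ)` -/
abbrev FS : Type := List (ℚ × ℚ)

noncomputable def FS.val (l : FS) : ℂ := (l.map fun t => (t.1 : ℂ) * eC t.2).sum

/-- multiply by `q e(θ)` -/
def FS.sc (q θ : ℚ) (l : FS) : FS := l.map fun t => (q * t.1, θ + t.2)

/-- a formal sum or its inverse -/
abbrev Coef : Type := FS × Bool

noncomputable def Coef.val (c : Coef) : ℂ := cond c.2 (FS.val c.1)⁻¹ (FS.val c.1)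

/-- multiply by `q e(θ)`, `q ≠ 0` -/
def Coef.mulq (q θ : ℚ) (c : Coef) : Coef :=
  cond c.2 (FS.sc q⁻¹ (-θ) c.1, true) (FS.sc q θ c.1, false)

/-- the coefficient `q e(θ)` -/
def cq (q θ : ℚ) : Coef := ([(q, θ)], false)

/-- bounded and well defined -/
def Coef.Ok (B : ℕ) (c : Coef) : Prop := ‖Coef.val c‖ ≤ B ∧ (c.2 = true → FS.val c.1 ≠ 0)

/-- centre and diagonal -/
abbrev Layer : Type := (ℤ × ℤ) × (ℕ → ℕ → Coef)

abbrev Prog : Type := List Layer

/-- functions on the cells -/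
abbrev Fn (s : ℕ) : Type := ZMod s × ZMod s → ℂ

/-- the reflection `x ↦ c - x` -/
def refl (s : ℕ) (c : ℤ × ℤ) (x : ZMod s × ZMod s) : ZMod s × ZMod s :=
  ((c.1 : ZMod s) - x.1, (c.2 : ZMod s) - x.2)

noncomputable def runL (s : ℕ) (L : Layer) (f : Fn s) : Fn s := fun x =>
  Coef.val (L.2 x.1.val x.2.val) *
    ((1 + Complex.I) / 2 * f x + (1 - Complex.I) / 2 * f (refl s L.1 x))

noncomputable def run (s : ℕ) (P : Prog) (f : Fn s) : Fn s := P.foldl (fun f L => runL s L f) f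

/-- all coefficients are bounded by `4 (s + 1)` -/
def Prog.Ok (s : ℕ) (P : Prog) : Prop :=
  ∀ L ∈ P, ∀ y < s, ∀ w < s, Coef.Ok (4 * (s + 1)) (L.2 y w)

/-- the program seen from one cell -/
def Prog.at (P : Prog) (y w : ℕ) : List ((ℤ × ℤ) × Coef) := P.map fun L => (L.1, L.2 y w)

/-- the residue of an integer -/
def res (s : ℕ) (z : ℤ) : ℕ := (z % s).toNat

/-- the cell is fixed by the reflection -/
def fixd (s : ℕ) (c : ℤ × ℤ) (y w : ℕ) : Bool :=
  decide (res s (c.1 - y) = y ∧ res s (c.2 - w) = w)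

/-- the cell is lexicographically smaller than its mirror image -/
def lexb (s : ℕ) (c : ℤ × ℤ) (y w : ℕ) : Bool :=
  decide (y < res s (c.1 - y) ∨ (y = res s (c.1 - y) ∧ w < res s (c.2 - w)))

/-- a diagonal (2 layers) -/
def pDiag (s : ℕ) (D : ℕ → ℕ → Coef) : Prog :=
  [((0, 0), fun y w => cond (fixd s (0, 0) y w || lexb s (0, 0) y w) (cq 1 0) (cq (-1) 0)),
   ((0, 0), fun y w => cond (fixd s (0, 0) y w) (D y w)
      (cond (lexb s (0, 0) y w) (Coef.mulq 1 (-1 / 4) (D y w)) (Coef.mulq 1 (1 / 4) (D y w))))]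

/-- role of a cell in a reflection shear: `true` = receives -/
def role (s : ℕ) (c : ℤ × ℤ) (Tg : ℕ → ℕ → Bool) (y w : ℕ) : Bool :=
  Tg y w || (!Tg (res s (c.1 - y)) (res s (c.2 - w)) && lexb s c y w)

/-- diagonal with value `src` on sources, `tgt` on receivers and `1` at the fixed point -/
def rsD (s : ℕ) (c : ℤ × ℤ) (Tg : ℕ → ℕ → Bool) (src : Coef) (tgt : ℕ → ℕ → Coef) (y w : ℕ) :
    Coef := cond (fixd s c y w) (cq 1 0) (cond (role s c Tg y w) (tgt y w) src)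

/-- `κ + λ` with `λ = s + 1` -/
def kl (s : ℕ) (Tg : ℕ → ℕ → Bool) (κ : ℕ → ℕ → FS) (y w : ℕ) : FS :=
  ((s : ℚ) + 1, 0) :: cond (Tg y w) (κ y w) []

/-- reflection shear `f x += κ x * f (c - x)` on `Tg` (8 layers) -/
def pRS (s : ℕ) (c : ℤ × ℤ) (Tg : ℕ → ℕ → Bool) (κ : ℕ → ℕ → FS) : Prog :=
  pDiag s (rsD s c Tg (cq 1 0) fun _ _ => cq (5 / (3 * ((s : ℚ) + 1))) (-1 / 4)) ++
  [(c, rsD s c Tg (cq 2 0) fun _ _ => cq (-1) 0),
   (c, rsD s c Tg (cq (3 / 2) 0) fun _ _ => cq (1 / 2) 0),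
   (c, rsD s c Tg (cq (1 / 4) 0) fun y w => (FS.sc (3 / ((s : ℚ) + 1)) 0 (kl s Tg κ y w), true)),
   (c, rsD s c Tg (cq 2 0) fun _ _ => cq (-1) 0),
   (c, rsD s c Tg (cq (3 / 2) 0) fun _ _ => cq (1 / 2) 0),
   (c, rsD s c Tg (cq 2 (1 / 4)) fun y w => (FS.sc (-8 / 5) 0 (kl s Tg κ y w), false))]

/-- displacement shear `f x += κ x * f (x - δ)` on `Tg` (32 layers); the rows
`off + (s-1)/2, …` serve as dirty ancillas -/
def pDS (s off : ℕ) (δ : ℤ × ℤ) (Tg : ℕ → ℕ → Bool) (κ : ℕ → ℕ → FS) : Prog :=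
  pRS s (2 * off - 1 + δ.1, δ.2) Tg (fun y w => FS.sc (-1) 0 (κ y w)) ++
  pRS s (2 * off - 1, 0) (fun y w => Tg (res s (2 * off - 1 + δ.1 - y)) (res s (δ.2 - w)))
    (fun _ _ => [(1, 0)]) ++
  pRS s (2 * off - 1 + δ.1, δ.2) Tg κ ++
  pRS s (2 * off - 1, 0) (fun y w => Tg (res s (2 * off - 1 + δ.1 - y)) (res s (δ.2 - w)))
    (fun _ _ => [(-1, 0)])

/-- the row relative to the offset -/
def sr (s off y : ℕ) : ℕ := res s ((y : ℤ) - off)

/-- bit-reversed fraction `Σ n_i / 2^(i+1)` -/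
def theta (n : ℕ) : ℚ := n.bits.foldr (fun b t => (cond b 1 0 + t) / 2) 0

/-- position inside the window of the row -/
def wpos (s : ℕ) (wo : ℕ → ℕ) (y w : ℕ) : ℕ := res s ((w : ℤ) - wo y)

/-- the cells of stage `i` whose bit `i` is `b` -/
def stT (s : ℕ) (ur : ℕ → Bool) (wo : ℕ → ℕ) (i : ℕ) (b : ℕ) (y w : ℕ) : Bool :=
  ur y && decide (wpos s wo y w < 2 ^ Nat.log 2 s ∧ i < Nat.log 2 s ∧
    wpos s wo y w / 2 ^ i % 2 = b)

/-- the twiddle angle -/
def stA (s : ℕ) (wo : ℕ → ℕ) (i y w : ℕ) : ℚ := theta (wpos s wo y w / 2 ^ (i + 1)) / 2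

/-- butterfly stage `(u, v) ↦ (u + c v, u - c v)` (66 layers) -/
def pStage (s off : ℕ) (ur : ℕ → Bool) (wo : ℕ → ℕ) (i : ℕ) : Prog :=
  pDS s off (0, -2 ^ i) (stT s ur wo i 0) (fun y w => [(1, stA s wo i y w)]) ++
  pDiag s (fun y w => cond (stT s ur wo i 1 y w) (cq (-2) (stA s wo i y w)) (cq 1 0)) ++
  pDS s off (0, 2 ^ i) (stT s ur wo i 1) (fun _ _ => [(1, 0)])

/-- inverse stage -/
def pStageI (s off : ℕ) (ur : ℕ → Bool) (wo : ℕ → ℕ) (i : ℕ) : Prog :=
  pDS s off (0, 2 ^ i) (stT s ur wo i 1) (fun _ _ => [(-1, 0)]) ++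
  pDiag s (fun y w => cond (stT s ur wo i 1 y w) (cq (-1 / 2) (-stA s wo i y w)) (cq 1 0)) ++
  pDS s off (0, -2 ^ i) (stT s ur wo i 0) (fun y w => [(-1, stA s wo i y w)])

/-- FFT of length `2 ^ log₂ s` in the windows of the rows `ur` -/
def pFft (kmax s off : ℕ) (ur : ℕ → Bool) (wo : ℕ → ℕ) : Prog :=
  (List.range kmax).reverse.flatMap (pStage s off ur wo)

def pFftI (kmax s off : ℕ) (ur : ℕ → Bool) (wo : ℕ → ℕ) : Prog :=
  (List.range kmax).flatMap (pStageI s off ur wo)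

/-- the transform of a kernel -/
def hatK (s : ℕ) (g : ℕ → FS) (j : ℕ) : FS :=
  (List.range (2 ^ Nat.log 2 s)).flatMap fun r : ℕ => FS.sc 1 (theta j * r) (g r)

/-- cyclic convolution from the windows (offset `oa`) of the rows `ra` into the windows
(offset `ob`) of the rows `rb = ra + dr` -/
def pWC (kmax s off : ℕ) (ra rb : ℕ → Bool) (dr : ℤ) (oa ob : ℕ) (g : ℕ → FS) : Prog :=
  pFft kmax s off (fun y => ra y || rb y) (fun y => cond (ra y) oa ob) ++
  pDS s off (dr, (ob : ℤ) - oa) (fun y w => rb y && decide (res s ((w : ℤ) - ob) < 2 ^ Nat.log 2 s))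
    (fun _ w => hatK s g (res s ((w : ℤ) - ob))) ++
  pFftI kmax s off (fun y => ra y || rb y) (fun y => cond (ra y) oa ob)

/-- block length -/
def blk (s : ℕ) : ℕ := 2 ^ (Nat.log 2 s - 1)

/-- sign flips outside the blocks `γ` (rows `ra`) and `β` (rows `rb`) -/
def flp (s : ℕ) (ra rb : ℕ → Bool) (β γ : ℕ) (ε ε' : Bool) (y w : ℕ) : Coef :=
  cond ((ra y && ε && !decide (w / blk s = γ)) || (rb y && ε' && !decide (w / blk s = β)))
    (cq (-1) 0) (cq 1 0)

/-- one of the 64 pieces of a circulant shear -/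
def pPiece (kmax s off : ℕ) (ra rb : ℕ → Bool) (dr : ℤ) (G : ℤ → FS) (β γ : ℕ) (ε ε' : Bool) :
    Prog :=
  pDiag s (flp s ra rb β γ ε ε') ++
  pWC kmax s off ra rb dr (γ * blk s) (β * blk s) (fun r => FS.sc (1 / 4) 0
    (G (((β : ℤ) - γ) * blk s + if r < blk s then (r : ℤ) else (r : ℤ) - 2 * blk s))) ++
  pDiag s (flp s ra rb β γ ε ε')

/-- circulant shear: row `y ∈ rb` receives `G ∗ (row y - dr)` -/
def pCS (kmax s off : ℕ) (ra rb : ℕ → Bool) (dr : ℤ) (G : ℤ → FS) : Prog :=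
  (List.range 4).flatMap fun β => (List.range 4).flatMap fun γ =>
    [false, true].flatMap fun ε => [false, true].flatMap fun ε' =>
      pPiece kmax s off ra rb dr G β γ ε ε'

/-- number of rows treated in a round -/
def lam (s : ℕ) : ℕ := (s - 1) / 4

/-- the chirp `q e(σ h d² / s)`, `h = (s+1)/2` -/
def chirp (s : ℕ) (q σ : ℚ) (d : ℤ) : FS := [(q, σ * ((s + 1) / 2 : ℕ) * d ^ 2 / s)]

/-- sign of the exponent -/
def sg (inv : Bool) : ℚ := cond inv (-1) 1

/-- normalisation -/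
def scl (s : ℕ) (inv : Bool) : ℚ := cond inv (1 / s) 1

def rowA (s off y : ℕ) : Bool := decide (sr s off y < lam s)
def rowB (s off y : ℕ) : Bool := decide (lam s ≤ sr s off y ∧ sr s off y < 2 * lam s)

/-- `(a, b) ↦ (-C⁻¹ b, C a)` for `e = 1`, its inverse for `e = -1` -/
def pPair (kmax s off : ℕ) (inv : Bool) (e : ℚ) : Prog :=
  pCS kmax s off (rowA s off) (rowB s off) (lam s) (chirp s e (sg inv)) ++
  pCS kmax s off (rowB s off) (rowA s off) (-lam s) (chirp s (-e / s) (-sg inv)) ++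
  pCS kmax s off (rowA s off) (rowB s off) (lam s) (chirp s e (sg inv))

/-- one round: the rows `y < s` with `off ≤ y < off + lam s` are transformed -/
def pRound (kmax s : ℕ) (inv : Bool) (ρ : ℕ) : Prog :=
  pPair kmax s (ρ * lam s) inv 1 ++
  pDiag s (fun y w => cond (rowB s (ρ * lam s) y &&
      decide (ρ * lam s + (sr s (ρ * lam s) y - lam s) < s)) (chirp s 1 (sg inv) w, false) (cq 1 0)) ++
  pPair kmax s (ρ * lam s) inv (-1) ++
  pDiag s (fun y w => cond (rowA s (ρ * lam s) y && decide (ρ * lam s + sr s (ρ * lam s) y < s))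
    ((List.range s).flatMap (fun x : ℕ =>
      FS.sc 1 (sg inv * (w : ℚ) ^ 2 / s) (chirp s (scl s inv) (-sg inv) x)), false) (cq 1 0))

/-- the digit program -/
def dprog (kmax s : ℕ) (inv : Bool) : Prog := (List.range 6).flatMap (pRound kmax s inv)

/-- its length -/
def Klen (kmax : ℕ) : ℕ := 6 * (384 * (132 * kmax + 36) + 4)

/-- the row is active for the offset -/
def Act (s off : ℕ) (y : ZMod s) : Prop := sr s off y.val < (s - 1) / 2

end Crest.Agent.R326
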