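import Crest.Agent.R326.DBase

/-!
# Row 326, digit programs: FFT in windows and window convolution (task R326-DFft)

Let `k = Nat.log 2 s`, so `2 ^ k ≤ s`.  The window of row `y` consists of the positions
`wo y + j`, `j < 2 ^ k` (mod `s`); `wpos` recovers `j`.
PLAN.  `run_pStage`: three steps by `run_pDS`, `run_pDiag`; the partner of window position `j`
with bit `i` zero is `j + 2 ^ i < 2 ^ k`.  For `i ≥ k` a stage is the identity.
`run_pFft`: invariant after the stages `kmax-1, …, i` (`i ≤ k`): the cell with window position `j`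
holds `Σ_{a < 2^(k-i)} e(θ(j / 2^i) a) f(y, wo y + j % 2^i + 2^i a)`; the step uses
`θ(2 n + b) = (b + θ n) / 2` (`theta_bit`) and splitting `a = 2 a' + a₀`.
`run_pFftI`: `pStageI` undoes `pStage`; induction on `kmax` (`List.range_succ`).
`run_pWC`: let `f'` be the claimed result; show `FFT f' = ` (the `pDS` step applied to `FFT f`),
using `e(θ(j) 2^k) = 1` for `j < 2^k` (`theta_mul_pow`) and reindexing the cyclic convolution
(work in `ZMod (2^k)` or with a bijection of `range (2^k)`), then `run_pFftI`.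
-/

set_option autoImplicit false

namespace Crest.Agent.R326

theorem theta_zero : theta 0 = 0 := by
  simp [theta]

theorem theta_bit (n : ℕ) : theta n = ((n % 2 : ℕ) + theta (n / 2)) / 2 := by
  rcases Nat.eq_zero_or_pos n with rfl | hn
  · simp [theta_zero]
  · have h : n.bits = n.bodd :: (n / 2).bits := by
      conv_lhs => rw [← Nat.bit_bodd_div2 n]
      rw [Nat.bits_append_bit, Nat.div2_val]
      intro h0
      rw [Nat.div2_val] at h0
      have : n = 1 := by omega
      subst this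
      rfl
    unfold theta
    rw [h, List.foldr_cons, Nat.mod_two_of_bodd]
    cases n.bodd <;> simp

theorem theta_mul_pow {k j : ℕ} (hj : j < 2 ^ k) : ∃ z : ℤ, theta j * 2 ^ k = z := by
  induction k generalizing j with
  | zero =>
    have : j = 0 := by simpa using hj
    exact ⟨0, by simp [this, theta_zero]⟩
  | succ k ih =>
    obtain ⟨z, hz⟩ := ih (j := j / 2) (by rw [pow_succ] at hj; omega)
    refine ⟨(j % 2 : ℕ) * 2 ^ k + z, ?_⟩
    rw [theta_bit, pow_succ, Int.cast_add, ← hz]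
    simp only [Int.cast_mul, Int.cast_natCast, Int.cast_pow, Int.cast_ofNat]
    ring

variable {s : ℕ} [NeZero s]

theorem DF.wpos_eq (wo : ℕ → ℕ) (y : ℕ) (w : ZMod s) :
    wpos s wo y w.val = (w - wo y).val := by
  rw [wpos, res_eq]
  push_cast
  rw [ZMod.natCast_zmod_val]

theorem DF.pos_wpos (wo : ℕ → ℕ) (y : ℕ) (w : ZMod s) :
    ((wo y + wpos s wo y w.val : ℕ) : ZMod s) = w := by
  rw [DF.wpos_eq]
  push_cast
  rw [ZMod.natCast_zmod_val]
  ring

theorem DF.wpos_of (wo : ℕ → ℕ) (y : ℕ) {w : ZMod s} {j : ℕ} (hj : j < s)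
    (h : w = ((wo y + j : ℕ) : ZMod s)) : wpos s wo y w.val = j := by
  rw [DF.wpos_eq, h]
  push_cast
  rw [add_sub_cancel_left, ZMod.val_natCast, Nat.mod_eq_of_lt hj]

theorem DF.bit0 {i k j : ℕ} (hj : j < 2 ^ k) (hi : i < k) (hb : j / 2 ^ i % 2 = 0) :
    j + 2 ^ i < 2 ^ k := by
  obtain ⟨d, rfl⟩ := Nat.exists_eq_add_of_lt hi
  have hP : 0 < 2 ^ i := by positivity
  have e : 2 ^ (i + d + 1) = 2 * 2 ^ d * 2 ^ i := by ring
  rw [e] at hj ⊢
  rw [← Nat.div_lt_iff_lt_mul hP] at hj ⊢
  rw [Nat.add_div_right _ hP]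
  omega

theorem DF.bit1 {i j : ℕ} (hb : j / 2 ^ i % 2 = 1) : 2 ^ i ≤ j := by
  by_contra h
  rw [Nat.div_eq_of_lt (by omega)] at hb
  omega

omit [NeZero s] in
theorem DF.stT_iff (ur : ℕ → Bool) (wo : ℕ → ℕ) (i b y w : ℕ) :
    stT s ur wo i b y w = true ↔ ur y = true ∧ wpos s wo y w < 2 ^ Nat.log 2 s ∧
      i < Nat.log 2 s ∧ wpos s wo y w / 2 ^ i % 2 = b := by
  simp [stT]

/-- the partner of a cell with bit zero -/
theorem DF.up {ur : ℕ → Bool} {wo : ℕ → ℕ} {i y : ℕ} {w : ZMod s}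
    (h : stT s ur wo i 0 y w.val = true) :
    wpos s wo y (w + 2 ^ i).val = wpos s wo y w.val + 2 ^ i ∧
      stT s ur wo i 1 y (w + 2 ^ i).val = true ∧ stT s ur wo i 0 y (w + 2 ^ i).val = false ∧
      stT s ur wo i 1 y w.val = false ∧ stA s wo i y (w + 2 ^ i).val = stA s wo i y w.val := by
  rw [DF.stT_iff] at h
  obtain ⟨h1, h2, h3, h4⟩ := h
  have hN : 2 ^ Nat.log 2 s ≤ s := Nat.pow_log_le_self 2 (NeZero.ne s)
  have h5 := DF.bit0 h2 h3 h4
  have hP : 0 < 2 ^ i := by positivity
  have h6 : wpos s wo y (w + 2 ^ i).val = wpos s wo y w.val + 2 ^ i := by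
    apply DF.wpos_of wo y (by omega)
    rw [← add_assoc, Nat.cast_add, DF.pos_wpos]
    push_cast
    rfl
  have h7 := Nat.add_div_right (wpos s wo y w.val) hP
  refine ⟨h6, ?_, ?_, ?_, ?_⟩
  · rw [DF.stT_iff, h6, h7]
    exact ⟨h1, h5, h3, by omega⟩
  · rw [← Bool.not_eq_true, DF.stT_iff, h6, h7]
    omega
  · rw [← Bool.not_eq_true, DF.stT_iff]
    omega
  · unfold stA
    rw [h6, pow_succ, ← Nat.div_div_eq_div_mul, ← Nat.div_div_eq_div_mul, h7]
    congr 2
    omega

/-- the partner of a cell with bit one -/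
theorem DF.down {ur : ℕ → Bool} {wo : ℕ → ℕ} {i y : ℕ} {w : ZMod s}
    (h : stT s ur wo i 1 y w.val = true) : stT s ur wo i 0 y (w - 2 ^ i).val = true := by
  rw [DF.stT_iff] at h
  obtain ⟨h1, h2, h3, h4⟩ := h
  have hN : 2 ^ Nat.log 2 s ≤ s := Nat.pow_log_le_self 2 (NeZero.ne s)
  have h5 := DF.bit1 h4
  have hP : 0 < 2 ^ i := by positivity
  have h6 : wpos s wo y (w - 2 ^ i).val = wpos s wo y w.val - 2 ^ i := by
    apply DF.wpos_of wo y (by omega)
    rw [← Nat.add_sub_assoc h5, Nat.cast_sub (by omega), DF.pos_wpos]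
    push_cast
    rfl
  have h7 := Nat.add_div_right (wpos s wo y w.val - 2 ^ i) hP
  rw [Nat.sub_add_cancel h5] at h7
  rw [DF.stT_iff, h6]
  exact ⟨h1, by omega, h3, by omega⟩

theorem DF.run_up {off : ℕ} (ur : ℕ → Bool) (wo : ℕ → ℕ)
    (hur : ∀ y : ZMod s, ur y.val = true → Act s off y) (i : ℕ) (q : ℚ) (hq : ‖(q : ℂ)‖ = 1)
    (A : ℕ → ℕ → ℚ) (f : Fn s) :
    run s (pDS s off (0, -2 ^ i) (stT s ur wo i 0) (fun y w => [(q, A y w)])) f = fun x =>
      if stT s ur wo i 0 x.1.val x.2.val then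
        f x + q * eC (A x.1.val x.2.val) * f (x.1, x.2 + 2 ^ i) else f x := by
  have hs : (1 : ℝ) ≤ s := by exact_mod_cast Nat.pos_of_ne_zero (NeZero.ne s)
  have e : ∀ w : ZMod s, w - ((-2 ^ i : ℤ) : ZMod s) = w + 2 ^ i := by
    intro w
    push_cast
    ring
  rw [run_pDS]
  · simp only [e, Int.cast_zero, sub_zero, FS.val_cons, FS.val_nil, add_zero]
  · intro x hx
    have h1 := hur x.1 ((DF.stT_iff _ _ _ _ _ _).1 hx).1
    simp only [e, Int.cast_zero, sub_zero, FS.val_cons, FS.val_nil, add_zero, norm_mul, norm_eC,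
      hq, mul_one]
    exact ⟨h1, h1, (DF.up hx).2.2.1, hs⟩

theorem DF.run_down {off : ℕ} (ur : ℕ → Bool) (wo : ℕ → ℕ)
    (hur : ∀ y : ZMod s, ur y.val = true → Act s off y) (i : ℕ) (q : ℚ) (hq : ‖(q : ℂ)‖ = 1)
    (f : Fn s) :
    run s (pDS s off (0, 2 ^ i) (stT s ur wo i 1) (fun _ _ => [(q, 0)])) f = fun x =>
      if stT s ur wo i 1 x.1.val x.2.val then f x + q * f (x.1, x.2 - 2 ^ i) else f x := by
  have hs : (1 : ℝ) ≤ s := by exact_mod_cast Nat.pos_of_ne_zero (NeZero.ne s)
  have e : ∀ w : ZMod s, w - ((2 ^ i : ℤ) : ZMod s) = w - 2 ^ i := by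
    intro w
    push_cast
    ring
  rw [run_pDS]
  · simp only [e, Int.cast_zero, sub_zero, FS.val_cons, FS.val_nil, add_zero, eC_zero, mul_one]
  · intro x hx
    have h1 := hur x.1 ((DF.stT_iff _ _ _ _ _ _).1 hx).1
    simp only [e, Int.cast_zero, sub_zero, FS.val_cons, FS.val_nil, add_zero, norm_mul, norm_eC,
      hq, mul_one]
    exact ⟨h1, h1, (DF.up (DF.down hx)).2.2.2.1, hs⟩

theorem DF.run_stage {off : ℕ} (ur : ℕ → Bool) (wo : ℕ → ℕ)
    (hur : ∀ y : ZMod s, ur y.val = true → Act s off y) (i : ℕ) (f : Fn s) :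
    run s (pStage s off ur wo i) f = fun x =>
      if stT s ur wo i 0 x.1.val x.2.val then
        f x + eC (stA s wo i x.1.val x.2.val) * f (x.1, x.2 + 2 ^ i)
      else if stT s ur wo i 1 x.1.val x.2.val then
        f (x.1, x.2 - 2 ^ i) - eC (stA s wo i x.1.val x.2.val) * f x
      else f x := by
  rw [pStage, run_append, run_append, DF.run_down ur wo hur i 1 (by simp), run_pDiag,
    DF.run_up ur wo hur i 1 (by simp)]
  funext x
  cases h1 : stT s ur wo i 1 x.1.val x.2.val
  · simp [h1, val_cq, eC_zero]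
  · have h2 := DF.down h1
    obtain ⟨-, -, h3, h4, h5⟩ := DF.up h2
    rw [sub_add_cancel] at h3 h5
    simp only [h1, h2, h3, h4, ← h5, cond_true, cond_false, val_cq, eC_zero, if_true,
      sub_add_cancel, Bool.false_eq_true, if_false]
    push_cast
    ring

theorem DF.stageI_stage {off : ℕ} (ur : ℕ → Bool) (wo : ℕ → ℕ)
    (hur : ∀ y : ZMod s, ur y.val = true → Act s off y) (i : ℕ) (f : Fn s) :
    run s (pStageI s off ur wo i) (run s (pStage s off ur wo i) f) = f := by
  rw [pStageI, run_append, run_append, DF.run_up ur wo hur i (-1) (by simp), run_pDiag,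
    DF.run_down ur wo hur i (-1) (by simp), DF.run_stage ur wo hur]
  funext x
  have hinv : ∀ a : ℚ, eC (-a) * eC a = 1 := by
    intro a
    rw [← eC_add, neg_add_cancel, eC_zero]
  cases h0 : stT s ur wo i 0 x.1.val x.2.val
  · cases h1 : stT s ur wo i 1 x.1.val x.2.val
    · simp [h0, h1, val_cq, eC_zero]
    · have h2 := DF.down h1
      obtain ⟨-, -, h3, h4, h5⟩ := DF.up h2
      rw [sub_add_cancel] at h3 h5
      simp only [h0, h1, h2, ← h5, cond_true, val_cq, if_true,
        sub_add_cancel, Bool.false_eq_true, if_false]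
      push_cast
      linear_combination (f x) * hinv (stA s wo i x.1.val x.2.val)
  · obtain ⟨-, h2, h3, h4, h5⟩ := DF.up h0
    simp only [h0, h2, h3, h4, h5, cond_true, cond_false, val_cq, eC_zero, if_true,
      add_sub_cancel_right, Bool.false_eq_true, if_false]
    push_cast
    linear_combination (-(eC (stA s wo i x.1.val x.2.val) * f (x.1, x.2 + 2 ^ i))) *
      hinv (stA s wo i x.1.val x.2.val)

/-- the state after the stages `≥ i` -/
noncomputable def DF.inv (s : ℕ) (ur : ℕ → Bool) (wo : ℕ → ℕ) (f : Fn s) (i : ℕ) : Fn s :=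
  fun x => if ur x.1.val = true ∧ wpos s wo x.1.val x.2.val < 2 ^ Nat.log 2 s then
    ∑ a ∈ Finset.range (2 ^ (Nat.log 2 s - i)),
      eC (theta (wpos s wo x.1.val x.2.val / 2 ^ i) * a) *
        f (x.1, ((wo x.1.val + (wpos s wo x.1.val x.2.val % 2 ^ i + 2 ^ i * a) : ℕ) : ZMod s))
    else f x

theorem DF.inv_top (ur : ℕ → Bool) (wo : ℕ → ℕ) (f : Fn s) :
    DF.inv s ur wo f (Nat.log 2 s) = f := by
  funext x
  unfold DF.inv
  split_ifs with h
  · rw [Nat.sub_self, pow_zero, Finset.sum_range_one, Nat.mod_eq_of_lt h.2, mul_zero, add_zero,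
      DF.pos_wpos]
    simp [eC_zero]
  · rfl

theorem DF.sum_two (n : ℕ) (F : ℕ → ℂ) :
    ∑ a ∈ Finset.range (2 * n), F a =
      ∑ a ∈ Finset.range n, F (2 * a) + ∑ a ∈ Finset.range n, F (2 * a + 1) := by
  induction n with
  | zero => simp
  | succ n ih =>
    rw [show 2 * (n + 1) = 2 * n + 1 + 1 by ring, Finset.sum_range_succ, Finset.sum_range_succ, ih,
      Finset.sum_range_succ, Finset.sum_range_succ]
    ring

theorem DF.eC_even (q a : ℕ) : eC (theta q * (2 * a : ℕ)) = eC (theta (q / 2) * a) := by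
  have : theta q * (2 * a : ℕ) = ((q % 2 * a : ℕ) : ℤ) + theta (q / 2) * a := by
    rw [theta_bit q, Int.cast_natCast, Nat.cast_mul, Nat.cast_mul]
    ring
  rw [this, eC_add, eC_int, one_mul]

theorem DF.eC_odd (q a : ℕ) : eC (theta q * (2 * a + 1 : ℕ)) =
    (-1) ^ (q % 2) * eC (theta (q / 2) / 2) * eC (theta (q / 2) * a) := by
  rw [Nat.cast_add, mul_add, eC_add, DF.eC_even, Nat.cast_one, mul_one, ← eC_half, ← eC_nat_mul,
    ← eC_add, ← eC_add, ← eC_add]
  congr 1
  rw [theta_bit q]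
  ring

/-- splitting the sum of the invariant -/
theorem DF.split {i k : ℕ} (hi : i < k) (q r o : ℕ) (F : ℕ → ℂ) :
    ∑ a ∈ Finset.range (2 ^ (k - i)), eC (theta q * a) * F (o + (r + 2 ^ i * a)) =
      ∑ a ∈ Finset.range (2 ^ (k - (i + 1))),
          eC (theta (q / 2) * a) * F (o + (r + 2 ^ (i + 1) * a)) +
        (-1) ^ (q % 2) * eC (theta (q / 2) / 2) * ∑ a ∈ Finset.range (2 ^ (k - (i + 1))),
          eC (theta (q / 2) * a) * F (o + (r + 2 ^ i + 2 ^ (i + 1) * a)) := by
  have e : 2 ^ (k - i) = 2 * 2 ^ (k - (i + 1)) := by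
    rw [← pow_succ']
    congr 1
    omega
  rw [e, DF.sum_two, Finset.mul_sum]
  congr 1
  · refine Finset.sum_congr rfl fun a _ => ?_
    rw [DF.eC_even]
    congr 3
    ring
  · refine Finset.sum_congr rfl fun a _ => ?_
    rw [DF.eC_odd, ← mul_assoc]
    congr 3
    ring

theorem DF.stage_inv {off : ℕ} (ur : ℕ → Bool) (wo : ℕ → ℕ)
    (hur : ∀ y : ZMod s, ur y.val = true → Act s off y) (f : Fn s) {i : ℕ}
    (hi : i < Nat.log 2 s) :
    run s (pStage s off ur wo i) (DF.inv s ur wo f (i + 1)) = DF.inv s ur wo f i := by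
  have hP : 0 < 2 ^ i := by positivity
  have key : ∀ (y : ZMod s) (w : ZMod s), stT s ur wo i 0 y.val w.val = true →
      DF.inv s ur wo f i (y, w) = DF.inv s ur wo f (i + 1) (y, w) +
        eC (stA s wo i y.val w.val) * DF.inv s ur wo f (i + 1) (y, w + 2 ^ i) ∧
      DF.inv s ur wo f i (y, w + 2 ^ i) = DF.inv s ur wo f (i + 1) (y, w) -
        eC (stA s wo i y.val w.val) * DF.inv s ur wo f (i + 1) (y, w + 2 ^ i) := by
    intro y w h
    obtain ⟨h6, h7, -⟩ := DF.up h
    rw [DF.stT_iff] at h h7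
    obtain ⟨h1, h2, -, h4⟩ := h
    have h8 := h7.2.1
    rw [h6] at h8
    have d1 := Nat.add_div_right (wpos s wo y.val w.val) hP
    have d2 : wpos s wo y.val w.val / 2 ^ (i + 1) = wpos s wo y.val w.val / 2 ^ i / 2 := by
      rw [pow_succ, Nat.div_div_eq_div_mul]
    have d3 : (wpos s wo y.val w.val + 2 ^ i) / 2 ^ (i + 1) =
        wpos s wo y.val w.val / 2 ^ i / 2 := by
      rw [pow_succ, ← Nat.div_div_eq_div_mul, d1]
      omega
    have d4 : wpos s wo y.val w.val % 2 ^ (i + 1) = wpos s wo y.val w.val % 2 ^ i := by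
      rw [Nat.mod_pow_succ, h4, mul_zero, add_zero]
    have d5 : (wpos s wo y.val w.val + 2 ^ i) % 2 ^ (i + 1) =
        wpos s wo y.val w.val % 2 ^ i + 2 ^ i := by
      rw [Nat.mod_pow_succ, d1, Nat.add_mod_right,
        show (wpos s wo y.val w.val / 2 ^ i + 1) % 2 = 1 by omega, mul_one]
    have d6 : (wpos s wo y.val w.val / 2 ^ i + 1) / 2 = wpos s wo y.val w.val / 2 ^ i / 2 := by
      omega
    have d7 : (wpos s wo y.val w.val / 2 ^ i + 1) % 2 = 1 := by omega
    simp only [DF.inv, stA, h6, h1, h2, h8, and_self, if_true, d1, d2, d3, d4, d5,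
      Nat.add_mod_right]
    rw [DF.split hi _ _ _ (fun n => f (y, (n : ZMod s))),
      DF.split hi _ _ _ (fun n => f (y, (n : ZMod s))), h4, d6, d7]
    constructor <;> ring
  rw [DF.run_stage ur wo hur]
  funext x
  cases h0 : stT s ur wo i 0 x.1.val x.2.val
  · cases h1 : stT s ur wo i 1 x.1.val x.2.val
    · have hn : ¬ (ur x.1.val = true ∧ wpos s wo x.1.val x.2.val < 2 ^ Nat.log 2 s) := by
        rw [← Bool.not_eq_true, DF.stT_iff] at h0 h1
        intro h
        have := h.1
        have := h.2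
        simp only [*, true_and] at h0 h1
        omega
      simp only [Bool.false_eq_true, if_false, DF.inv, hn]
    · have h2 := DF.down h1
      have h5 := (DF.up h2).2.2.2.2
      have h6 := (key _ _ h2).2
      rw [sub_add_cancel] at h5 h6
      simp only [Bool.false_eq_true, if_false, if_true]
      rw [h5]
      exact h6.symm
  · simp only [if_true]
    exact (key _ _ h0).1.symm

theorem DF.stage_id {off : ℕ} (ur : ℕ → Bool) (wo : ℕ → ℕ)
    (hur : ∀ y : ZMod s, ur y.val = true → Act s off y) (f : Fn s) {i : ℕ}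
    (hi : Nat.log 2 s ≤ i) : run s (pStage s off ur wo i) f = f := by
  rw [DF.run_stage ur wo hur]
  funext x
  have h : ∀ b, stT s ur wo i b x.1.val x.2.val = false := by
    intro b
    rw [← Bool.not_eq_true, DF.stT_iff]
    omega
  simp [h]

theorem DF.run_inv {off : ℕ} (ur : ℕ → Bool) (wo : ℕ → ℕ)
    (hur : ∀ y : ZMod s, ur y.val = true → Act s off y) (f : Fn s) (m : ℕ) :
    run s ((List.range m).reverse.flatMap (pStage s off ur wo))
      (DF.inv s ur wo f (min m (Nat.log 2 s))) = DF.inv s ur wo f 0 := by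
  induction m with
  | zero => simp [run_nil]
  | succ m ih =>
    rw [List.range_succ, List.reverse_append, List.reverse_singleton, List.singleton_append,
      List.flatMap_cons, run_append, ← ih]
    congr 1
    by_cases hm : m < Nat.log 2 s
    · rw [min_eq_left hm, min_eq_left hm.le, DF.stage_inv ur wo hur f hm]
    · rw [min_eq_right (by omega), min_eq_right (by omega), DF.stage_id ur wo hur _ (by omega)]

theorem run_pFft {kmax off : ℕ} (hk : s < 2 ^ (kmax + 1)) (ur : ℕ → Bool) (wo : ℕ → ℕ)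
    (hur : ∀ y : ZMod s, ur y.val = true → Act s off y) (f : Fn s) :
    run s (pFft kmax s off ur wo) f = fun x =>
      if ur x.1.val = true ∧ wpos s wo x.1.val x.2.val < 2 ^ Nat.log 2 s then
        ∑ a ∈ Finset.range (2 ^ Nat.log 2 s),
          eC (theta (wpos s wo x.1.val x.2.val) * a) * f (x.1, ((wo x.1.val + a : ℕ) : ZMod s))
      else f x := by
  have hlog : Nat.log 2 s ≤ kmax :=
    Nat.lt_succ_iff.1 (Nat.log_lt_of_lt_pow (NeZero.ne s) hk)
  have h := DF.run_inv (off := off) ur wo hur f kmax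
  rw [min_eq_right hlog, DF.inv_top] at h
  rw [pFft, h]
  funext x
  simp [DF.inv, Nat.mod_one]

theorem run_pFftI {kmax off : ℕ} (ur : ℕ → Bool) (wo : ℕ → ℕ)
    (hur : ∀ y : ZMod s, ur y.val = true → Act s off y) (f : Fn s) :
    run s (pFftI kmax s off ur wo) (run s (pFft kmax s off ur wo) f) = f := by
  induction kmax generalizing f with
  | zero => rfl
  | succ m ih =>
    have e1 : pFft (m + 1) s off ur wo = pStage s off ur wo m ++ pFft m s off ur wo := by
      simp [pFft, List.range_succ]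
    have e2 : pFftI (m + 1) s off ur wo = pFftI m s off ur wo ++ pStageI s off ur wo m := by
      simp [pFftI, List.range_succ]
    rw [e1, e2, run_append, run_append, ih, DF.stageI_stage ur wo hur]

/-- admissible source rows `ra`, target rows `rb` and row displacement -/
def RowsOk (s off : ℕ) (ra rb : ℕ → Bool) (dr : ℤ) : Prop :=
  ∀ y : ZMod s, (ra y.val = true → Act s off y ∧ rb y.val = false) ∧
    (rb y.val = true → Act s off y ∧ ra (y - dr).val = true)

theorem norm_hatK {g : ℕ → FS} (hg : ∀ r, ‖FS.val (g r)‖ ≤ 1) (j : ℕ) :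
    ‖FS.val (hatK s g j)‖ ≤ s := by
  rw [hatK, FS.val_flatMap_range]
  calc ‖∑ r ∈ Finset.range (2 ^ Nat.log 2 s), FS.val (FS.sc 1 (theta j * r) (g r))‖
      ≤ ∑ r ∈ Finset.range (2 ^ Nat.log 2 s), (1 : ℝ) := by
        refine norm_sum_le_of_le _ fun r _ => ?_
        rw [FS.val_sc, norm_mul, norm_mul, norm_eC]
        simpa using hg r
    _ = ((2 ^ Nat.log 2 s : ℕ) : ℝ) := by simp
    _ ≤ s := by exact_mod_cast Nat.pow_log_le_self 2 (NeZero.ne s)

theorem DF.eC_mod {θ : ℚ} {N : ℕ} (h : ∃ z : ℤ, θ * N = z) (m : ℕ) :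
    eC (θ * (m % N : ℕ)) = eC (θ * m) := by
  obtain ⟨z, hz⟩ := h
  have : θ * m = θ * (m % N : ℕ) + ((z * (m / N : ℕ) : ℤ) : ℚ) := by
    rw [Int.cast_mul, Int.cast_natCast, ← hz]
    conv_lhs => rw [← Nat.mod_add_div m N, Nat.cast_add, Nat.cast_mul]
    ring
  rw [this, eC_add, eC_int, mul_one]

theorem DF.conv {θ : ℚ} {k a : ℕ} (h : ∃ z : ℤ, θ * 2 ^ k = z) (ha : a < 2 ^ k) (g : ℕ → ℂ) :
    ∑ b ∈ Finset.range (2 ^ k), eC (θ * b) * g ((b + 2 ^ k - a) % 2 ^ k) =
      (∑ r ∈ Finset.range (2 ^ k), eC (θ * r) * g r) * eC (θ * a) := by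
  have h' : ∃ z : ℤ, θ * (2 ^ k : ℕ) = z := by simpa using h
  generalize 2 ^ k = N at ha h' ⊢
  have hN : 0 < N := by omega
  have inv1 : ∀ b < N, ((b + N - a) % N + a) % N = b := by
    intro b hb
    rw [Nat.mod_add_mod, show b + N - a + a = b + N by omega, Nat.add_mod_right,
      Nat.mod_eq_of_lt hb]
  have inv2 : ∀ r < N, ((r + a) % N + N - a) % N = r := by
    intro r hr
    rw [Nat.add_sub_assoc ha.le, Nat.mod_add_mod, show r + a + (N - a) = r + N by omega,
      Nat.add_mod_right, Nat.mod_eq_of_lt hr]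
  rw [Finset.sum_mul]
  refine Finset.sum_nbij' (fun b => (b + N - a) % N) (fun r => (r + a) % N) ?_ ?_ ?_ ?_ ?_
  · intro b _
    exact Finset.mem_range.2 (Nat.mod_lt _ hN)
  · intro r _
    exact Finset.mem_range.2 (Nat.mod_lt _ hN)
  · intro b hb
    exact inv1 b (Finset.mem_range.1 hb)
  · intro r hr
    exact inv2 r (Finset.mem_range.1 hr)
  · intro b hb
    conv_lhs => rw [← inv1 b (Finset.mem_range.1 hb), DF.eC_mod h', inv1 b (Finset.mem_range.1 hb)]
    rw [Nat.cast_add, mul_add, eC_add]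
    ring

theorem run_pWC {kmax off : ℕ} (hk : s < 2 ^ (kmax + 1)) {ra rb : ℕ → Bool} {dr : ℤ}
    (hr : RowsOk s off ra rb dr) (oa ob : ℕ) {g : ℕ → FS} (hg : ∀ r, ‖FS.val (g r)‖ ≤ 1)
    (f : Fn s) : run s (pWC kmax s off ra rb dr oa ob g) f = fun x =>
      if rb x.1.val = true ∧ res s ((x.2.val : ℤ) - ob) < 2 ^ Nat.log 2 s then
        f x + ∑ a ∈ Finset.range (2 ^ Nat.log 2 s),
          FS.val (g ((res s ((x.2.val : ℤ) - ob) + 2 ^ Nat.log 2 s - a) % 2 ^ Nat.log 2 s)) *
            f (x.1 - dr, ((oa + a : ℕ) : ZMod s))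
      else f x := by
  have hN : 2 ^ Nat.log 2 s ≤ s := Nat.pow_log_le_self 2 (NeZero.ne s)
  have hur : ∀ y : ZMod s, (ra y.val || rb y.val) = true → Act s off y := by
    intro y hy
    rw [Bool.or_eq_true] at hy
    rcases hy with hy | hy
    · exact ((hr y).1 hy).1
    · exact ((hr y).2 hy).1
  have hab : ∀ y : ZMod s, rb y.val = true → ra y.val = false := by
    intro y hy
    cases h : ra y.val
    · rfl
    · have := ((hr y).1 h).2
      rw [hy] at this
      exact absurd this (by simp)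
  have hds := run_pDS (s := s) off (dr, (ob : ℤ) - oa)
    (fun y w => rb y && decide (res s ((w : ℤ) - ob) < 2 ^ Nat.log 2 s))
    (fun _ w => hatK s g (res s ((w : ℤ) - ob))) (by
      intro x hx
      simp only [Bool.and_eq_true] at hx
      have h1 := (hr x.1).2 hx.1
      have h2 := (hr _).1 h1.2
      exact ⟨h1.1, h2.1, by simp only [h2.2, Bool.false_and], norm_hatK hg _⟩)
  rw [pWC, run_append, run_append]
  refine Eq.trans ?_ (run_pFftI (kmax := kmax) (off := off) (fun y => ra y || rb y)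
    (fun y => cond (ra y) oa ob) hur _)
  congr 1
  rw [hds, run_pFft hk _ _ hur, run_pFft hk _ _ hur]
  funext x
  by_cases hx : rb x.1.val = true ∧ res s ((x.2.val : ℤ) - ob) < 2 ^ Nat.log 2 s
  · have ha := hab _ hx.1
    have ha' : ra (x.1 - dr).val = true := ((hr x.1).2 hx.1).2
    have w1 : wpos s (fun y => cond (ra y) oa ob) x.1.val x.2.val =
        res s ((x.2.val : ℤ) - ob) := by
      simp only [wpos, ha, cond_false]
    have w2 : wpos s (fun y => cond (ra y) oa ob) (x.1 - dr).val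
        (x.2 - (((ob : ℤ) - oa : ℤ) : ZMod s)).val = res s ((x.2.val : ℤ) - ob) := by
      simp only [wpos, ha', cond_true, res_eq]
      congr 1
      push_cast
      simp only [ZMod.natCast_zmod_val]
      ring
    have w3 : ∀ b < 2 ^ Nat.log 2 s, res s (((((ob + b : ℕ) : ZMod s).val : ℕ) : ℤ) - ob) = b := by
      intro b hb
      rw [res_eq]
      push_cast
      rw [ZMod.natCast_zmod_val, add_sub_cancel_left, ZMod.val_natCast,
        Nat.mod_eq_of_lt (by omega)]
    simp only [w1, w2, hx.1, hx.2, ha, ha', decide_true, Bool.and_self, Bool.or_true,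
      Bool.true_or, and_self, if_true, cond_true, cond_false, true_and]
    rw [hatK, FS.val_flatMap_range, Finset.mul_sum]
    symm
    rw [Finset.sum_congr rfl (fun b hb => by
      rw [w3 b (Finset.mem_range.1 hb), if_pos (Finset.mem_range.1 hb), mul_add, Finset.mul_sum]),
      Finset.sum_add_distrib, Finset.sum_comm]
    congr 1
    refine Finset.sum_congr rfl fun a ha => ?_
    simp only [← mul_assoc]
    rw [← Finset.sum_mul, DF.conv (theta_mul_pow hx.2) (Finset.mem_range.1 ha)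
      (fun r => FS.val (g r))]
    simp only [FS.val_sc, Rat.cast_one, one_mul]
  · have hT : (rb x.1.val && decide (res s ((x.2.val : ℤ) - ob) < 2 ^ Nat.log 2 s)) = false := by
      rw [← Bool.not_eq_true, Bool.and_eq_true, decide_eq_true_iff]
      exact hx
    simp only [hT, hx, if_false, Bool.false_eq_true]
    split_ifs with hc
    · have hb : rb x.1.val = false := by
        cases h : rb x.1.val
        · rfl
        · exfalso
          apply hx
          refine ⟨h, ?_⟩
          have := hc.2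
          simpa only [wpos, hab _ h, cond_false] using this
      simp only [hb, Bool.false_eq_true, false_and, if_false]
    · rfl

end Crest.Agent.R326
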