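import Crest.Agent.R326.DFft

/-!
# Row 326, digit programs: length and size of the coefficients (task R326-DOk)

PLAN.  Lengths: `simp` with `List.length_flatMap`.  `Prog.Ok`: closed under `++`, `flatMap`;
`pDiag` is `Ok` if `D` is; `pRS` is `Ok` if `‖κ‖ ≤ s` on `Tg` (`1 ≤ ‖κ + λ‖ ≤ 2 s + 1`); go up the
definitions (`norm_hatK`; the chirps have norm `|q| ≤ 1`, the last diagonal norm `≤ s`).
-/

set_option autoImplicit false

namespace Crest.Agent.R326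

open Crest.Agent.PTime

theorem DO.len_pDiag (s : ℕ) (D : ℕ → ℕ → Coef) : (pDiag s D).length = 2 := rfl

theorem DO.len_pRS (s : ℕ) (c : ℤ × ℤ) (Tg : ℕ → ℕ → Bool) (κ : ℕ → ℕ → FS) :
    (pRS s c Tg κ).length = 8 := rfl

theorem DO.len_pDS (s off : ℕ) (δ : ℤ × ℤ) (Tg : ℕ → ℕ → Bool) (κ : ℕ → ℕ → FS) :
    (pDS s off δ Tg κ).length = 32 := by
  simp only [pDS, List.length_append, DO.len_pRS]

theorem DO.len_flatMap {ι : Type} (l : List ι) (P : ι → Prog) {n : ℕ} (h : ∀ i, (P i).length = n) :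
    (l.flatMap P).length = l.length * n := by
  induction l with
  | nil => simp
  | cons i l ih =>
    rw [List.flatMap_cons, List.length_append, ih, h, List.length_cons]
    ring

theorem DO.len_pWC (kmax s off : ℕ) (ra rb : ℕ → Bool) (dr : ℤ) (oa ob : ℕ) (g : ℕ → FS) :
    (pWC kmax s off ra rb dr oa ob g).length = 132 * kmax + 32 := by
  have h1 : ∀ ur wo i, (pStage s off ur wo i).length = 66 := by
    intro ur wo i
    simp only [pStage, List.length_append, DO.len_pDS, DO.len_pDiag]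
  have h2 : ∀ ur wo i, (pStageI s off ur wo i).length = 66 := by
    intro ur wo i
    simp only [pStageI, List.length_append, DO.len_pDS, DO.len_pDiag]
  rw [pWC, List.length_append, List.length_append, pFft, pFftI, DO.len_flatMap _ _ (h1 _ _),
    DO.len_flatMap _ _ (h2 _ _), DO.len_pDS, List.length_reverse, List.length_range]
  ring

theorem DO.len_pCS (kmax s off : ℕ) (ra rb : ℕ → Bool) (dr : ℤ) (G : ℤ → FS) :
    (pCS kmax s off ra rb dr G).length = 64 * (132 * kmax + 36) := by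
  have h : ∀ β γ ε ε', (pPiece kmax s off ra rb dr G β γ ε ε').length = 132 * kmax + 36 := by
    intro β γ ε ε'
    simp only [pPiece, List.length_append, DO.len_pDiag, DO.len_pWC]
    ring
  rw [pCS, DO.len_flatMap _ _ fun β => DO.len_flatMap _ _ fun γ => DO.len_flatMap _ _ fun ε =>
    DO.len_flatMap _ _ fun ε' => h β γ ε ε']
  simp only [List.length_range, List.length_cons, List.length_nil]
  ring

theorem length_dprog (kmax s : ℕ) (inv : Bool) : (dprog kmax s inv).length = Klen kmax := by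
  have h : ∀ ρ, (pRound kmax s inv ρ).length = 384 * (132 * kmax + 36) + 4 := by
    intro ρ
    simp only [pRound, pPair, List.length_append, DO.len_pDiag, DO.len_pCS]
    ring
  rw [dprog, DO.len_flatMap _ _ h, List.length_range, Klen]

theorem DO.ok_append {s : ℕ} {P P' : Prog} (h : P.Ok s) (h' : P'.Ok s) : (P ++ P').Ok s := by
  intro L hL
  rcases List.mem_append.1 hL with hL | hL
  · exact h L hL
  · exact h' L hL

theorem DO.ok_flatMap {s : ℕ} {ι : Type} (l : List ι) {P : ι → Prog} (h : ∀ i, (P i).Ok s) :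
    Prog.Ok s (l.flatMap P) := by
  intro L hL
  obtain ⟨i, -, hi⟩ := List.mem_flatMap.1 hL
  exact h i L hi

theorem DO.ok_nil {s : ℕ} : Prog.Ok s [] := by
  intro L hL
  simp at hL

theorem DO.ok_cons {s : ℕ} {c : ℤ × ℤ} {D : ℕ → ℕ → Coef} {P : Prog}
    (h : ∀ y w, Coef.Ok (4 * (s + 1)) (D y w)) (h' : P.Ok s) : Prog.Ok s ((c, D) :: P) := by
  intro L hL
  rcases List.mem_cons.1 hL with rfl | hL
  · exact fun y _ w _ => h y w
  · exact h' L hL

theorem DO.ok_cond {B : ℕ} (b : Bool) {c c' : Coef} (h : c.Ok B) (h' : c'.Ok B) :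
    (cond b c c').Ok B := by
  cases b
  · exact h'
  · exact h

theorem DO.ok_false {s : ℕ} {l : FS} (h : ‖FS.val l‖ ≤ 4 * (s + 1)) :
    Coef.Ok (4 * (s + 1)) (l, false) := by
  refine ⟨?_, by simp⟩
  simpa [Coef.val] using h

theorem DO.norm_single (q θ : ℚ) : ‖FS.val [(q, θ)]‖ = |(q : ℝ)| := by
  rw [FS.val_cons, FS.val_nil, add_zero, norm_mul, norm_eC, mul_one, Complex.norm_ratCast]

theorem DO.norm_sc (q θ : ℚ) (l : FS) : ‖FS.val (FS.sc q θ l)‖ = |(q : ℝ)| * ‖FS.val l‖ := by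
  rw [FS.val_sc, norm_mul, norm_mul, norm_eC, mul_one, Complex.norm_ratCast]

theorem DO.ok_cq (s : ℕ) {q : ℚ} (θ : ℚ) (h : |q| ≤ 4) : (cq q θ).Ok (4 * (s + 1)) := by
  apply DO.ok_false
  rw [DO.norm_single]
  have h1 : |(q : ℝ)| ≤ 4 := by exact_mod_cast h
  have h2 : (0 : ℝ) ≤ s := Nat.cast_nonneg s
  linarith

theorem DO.ok_mulq {B : ℕ} (θ : ℚ) {c : Coef} (h : c.Ok B) : (Coef.mulq 1 θ c).Ok B := by
  refine ⟨?_, ?_⟩
  · rw [Coef.val_mulq, norm_mul, norm_mul, norm_eC]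
    simpa using h.1
  · obtain ⟨l, b⟩ := c
    cases b
    · simp [Coef.mulq]
    · intro _
      have := h.2 rfl
      simp only [Coef.mulq, cond_true, FS.val_sc]
      exact mul_ne_zero (mul_ne_zero (by simp) (eC_ne_zero _)) this

theorem DO.ok_pDiag {s : ℕ} {D : ℕ → ℕ → Coef} (h : ∀ y w, Coef.Ok (4 * (s + 1)) (D y w)) :
    (pDiag s D).Ok s :=
  DO.ok_cons (fun _ _ => DO.ok_cond _ (DO.ok_cq s _ (by norm_num)) (DO.ok_cq s _ (by norm_num)))
    (DO.ok_cons (fun y w => DO.ok_cond _ (h y w)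
      (DO.ok_cond _ (DO.ok_mulq _ (h y w)) (DO.ok_mulq _ (h y w)))) DO.ok_nil)

theorem DO.ok_rsD {s : ℕ} (c : ℤ × ℤ) (Tg : ℕ → ℕ → Bool) {src : Coef} {tgt : ℕ → ℕ → Coef}
    (h : src.Ok (4 * (s + 1))) (h' : ∀ y w, (tgt y w).Ok (4 * (s + 1))) (y w : ℕ) :
    (rsD s c Tg src tgt y w).Ok (4 * (s + 1)) :=
  DO.ok_cond _ (DO.ok_cq s _ (by norm_num)) (DO.ok_cond _ (h' y w) h)

theorem DO.norm_kl {s : ℕ} (Tg : ℕ → ℕ → Bool) {κ : ℕ → ℕ → FS} (h : ∀ y w, ‖FS.val (κ y w)‖ ≤ s)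
    (y w : ℕ) : 1 ≤ ‖FS.val (kl s Tg κ y w)‖ ∧ ‖FS.val (kl s Tg κ y w)‖ ≤ 2 * s + 1 := by
  have h1 : ‖FS.val (cond (Tg y w) (κ y w) [])‖ ≤ s := by
    cases Tg y w
    · simp
    · exact h y w
  have h2 : ‖((((s : ℚ) + 1 : ℚ)) : ℂ) * eC 0‖ = s + 1 := by
    rw [eC_zero, mul_one, Complex.norm_ratCast]
    push_cast
    exact abs_of_nonneg (by positivity)
  rw [kl, FS.val_cons]
  constructor
  · have := norm_sub_le (((((s : ℚ) + 1 : ℚ)) : ℂ) * eC 0 + FS.val (cond (Tg y w) (κ y w) []))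
      (FS.val (cond (Tg y w) (κ y w) []))
    rw [add_sub_cancel_right, h2] at this
    linarith
  · have := norm_add_le (((((s : ℚ) + 1 : ℚ)) : ℂ) * eC 0) (FS.val (cond (Tg y w) (κ y w) []))
    linarith

theorem DO.ok_pRS {s : ℕ} (c : ℤ × ℤ) (Tg : ℕ → ℕ → Bool) {κ : ℕ → ℕ → FS}
    (h : ∀ y w, ‖FS.val (κ y w)‖ ≤ s) : (pRS s c Tg κ).Ok s := by
  have hs : (0 : ℝ) ≤ s := Nat.cast_nonneg s
  have hs' : (0 : ℚ) ≤ s := Nat.cast_nonneg s
  have a1 : |5 / (3 * ((s : ℚ) + 1))| ≤ 4 := by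
    rw [abs_of_nonneg (by positivity), div_le_iff₀ (by positivity)]
    linarith
  have a2 : ∀ y w, Coef.Ok (4 * (s + 1)) (FS.sc (3 / ((s : ℚ) + 1)) 0 (kl s Tg κ y w), true) := by
    intro y w
    have h1 := (DO.norm_kl Tg h y w).1
    have h2 : 3 / ((s : ℝ) + 1) ≤ ‖FS.val (FS.sc (3 / ((s : ℚ) + 1)) 0 (kl s Tg κ y w))‖ := by
      rw [DO.norm_sc]
      push_cast
      rw [abs_of_nonneg (by positivity)]
      exact le_mul_of_one_le_right (by positivity) h1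
    have h3 : (0 : ℝ) < 3 / ((s : ℝ) + 1) := by positivity
    refine ⟨?_, fun _ => norm_pos_iff.1 (lt_of_lt_of_le h3 h2)⟩
    simp only [Coef.val, cond_true, norm_inv]
    refine (inv_anti₀ h3 h2).trans ?_
    rw [inv_div]
    push_cast
    linarith
  have a3 : ∀ y w, Coef.Ok (4 * (s + 1)) (FS.sc (-8 / 5) 0 (kl s Tg κ y w), false) := by
    intro y w
    apply DO.ok_false
    have h1 := (DO.norm_kl Tg h y w).2
    rw [DO.norm_sc]
    have : |((-8 / 5 : ℚ) : ℝ)| = 8 / 5 := by norm_num [abs_of_neg]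
    rw [this]
    linarith
  have q1 : ∀ θ, (cq (-1) θ).Ok (4 * (s + 1)) := fun θ => DO.ok_cq s θ (by norm_num)
  have q2 : ∀ θ, (cq 2 θ).Ok (4 * (s + 1)) := fun θ => DO.ok_cq s θ (by norm_num)
  have q3 : ∀ θ, (cq (3 / 2) θ).Ok (4 * (s + 1)) := fun θ => DO.ok_cq s θ (by norm_num [abs_le])
  have q4 : ∀ θ, (cq (1 / 2) θ).Ok (4 * (s + 1)) := fun θ => DO.ok_cq s θ (by norm_num [abs_le])
  have q5 : ∀ θ, (cq (1 / 4) θ).Ok (4 * (s + 1)) := fun θ => DO.ok_cq s θ (by norm_num [abs_le])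
  refine DO.ok_append (DO.ok_pDiag (DO.ok_rsD c Tg (DO.ok_cq s _ (by norm_num))
    fun _ _ => DO.ok_cq s _ a1)) ?_
  exact DO.ok_cons (DO.ok_rsD c Tg (q2 _) fun _ _ => q1 _) <|
    DO.ok_cons (DO.ok_rsD c Tg (q3 _) fun _ _ => q4 _) <|
    DO.ok_cons (DO.ok_rsD c Tg (q5 _) a2) <|
    DO.ok_cons (DO.ok_rsD c Tg (q2 _) fun _ _ => q1 _) <|
    DO.ok_cons (DO.ok_rsD c Tg (q3 _) fun _ _ => q4 _) <|
    DO.ok_cons (DO.ok_rsD c Tg (q2 _) a3) DO.ok_nil

theorem DO.norm_unit {s : ℕ} (hs : 0 < s) {q : ℚ} (hq : |q| = 1) (θ : ℚ) :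
    ‖FS.val [(q, θ)]‖ ≤ s := by
  rw [DO.norm_single]
  have h1 : |(q : ℝ)| = 1 := by exact_mod_cast hq
  rw [h1]
  exact_mod_cast hs

theorem DO.ok_pDS {s : ℕ} (hs : 0 < s) (off : ℕ) (δ : ℤ × ℤ) (Tg : ℕ → ℕ → Bool) {κ : ℕ → ℕ → FS}
    (h : ∀ y w, ‖FS.val (κ y w)‖ ≤ s) : (pDS s off δ Tg κ).Ok s := by
  refine DO.ok_append (DO.ok_append (DO.ok_append (DO.ok_pRS _ _ fun y w => ?_)
    (DO.ok_pRS _ _ fun _ _ => DO.norm_unit hs (by norm_num) _)) (DO.ok_pRS _ _ h))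
    (DO.ok_pRS _ _ fun _ _ => DO.norm_unit hs (by norm_num) _)
  rw [DO.norm_sc]
  simpa using h y w

theorem DO.ok_pWC {s : ℕ} (hs : 0 < s) (kmax off : ℕ) (ra rb : ℕ → Bool) (dr : ℤ) (oa ob : ℕ)
    {g : ℕ → FS} (hg : ∀ r, ‖FS.val (g r)‖ ≤ 1) : (pWC kmax s off ra rb dr oa ob g).Ok s := by
  haveI : NeZero s := ⟨hs.ne'⟩
  refine DO.ok_append (DO.ok_append (DO.ok_flatMap _ fun i => ?_)
    (DO.ok_pDS hs _ _ _ fun _ _ => norm_hatK hg _)) (DO.ok_flatMap _ fun i => ?_)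
  · exact DO.ok_append (DO.ok_append
      (DO.ok_pDS hs _ _ _ fun _ _ => DO.norm_unit hs (by norm_num) _)
      (DO.ok_pDiag fun _ _ => DO.ok_cond _ (DO.ok_cq s _ (by norm_num [abs_le]))
        (DO.ok_cq s _ (by norm_num))))
      (DO.ok_pDS hs _ _ _ fun _ _ => DO.norm_unit hs (by norm_num) _)
  · exact DO.ok_append (DO.ok_append
      (DO.ok_pDS hs _ _ _ fun _ _ => DO.norm_unit hs (by norm_num) _)
      (DO.ok_pDiag fun _ _ => DO.ok_cond _ (DO.ok_cq s _ (by norm_num [abs_le]))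
        (DO.ok_cq s _ (by norm_num))))
      (DO.ok_pDS hs _ _ _ fun _ _ => DO.norm_unit hs (by norm_num) _)

theorem DO.ok_pCS {s : ℕ} (hs : 0 < s) (kmax off : ℕ) (ra rb : ℕ → Bool) (dr : ℤ) {G : ℤ → FS}
    (hG : ∀ d, ‖FS.val (G d)‖ ≤ 1) : (pCS kmax s off ra rb dr G).Ok s := by
  refine DO.ok_flatMap _ fun β => DO.ok_flatMap _ fun γ => DO.ok_flatMap _ fun ε =>
    DO.ok_flatMap _ fun ε' => ?_
  have hf : (pDiag s (flp s ra rb β γ ε ε')).Ok s :=
    DO.ok_pDiag fun _ _ => DO.ok_cond _ (DO.ok_cq s _ (by norm_num)) (DO.ok_cq s _ (by norm_num))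
  refine DO.ok_append (DO.ok_append hf (DO.ok_pWC hs _ _ _ _ _ _ _ fun r => ?_)) hf
  rw [DO.norm_sc]
  exact mul_le_one₀ (by norm_num [abs_le]) (norm_nonneg _) (hG _)

theorem DO.norm_chirp (s : ℕ) {q : ℚ} (hq : |q| ≤ 1) (σ : ℚ) (d : ℤ) :
    ‖FS.val (chirp s q σ d)‖ ≤ 1 := by
  rw [chirp, DO.norm_single]
  exact_mod_cast hq

theorem DO.ok_pPair {s : ℕ} (hs : 0 < s) (kmax off : ℕ) (inv : Bool) {e : ℚ} (he : |e| = 1) :
    (pPair kmax s off inv e).Ok s := by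
  have h1 : (1 : ℚ) ≤ s := by exact_mod_cast hs
  have h2 : |-e / s| ≤ 1 := by
    rw [abs_div, abs_neg, he, abs_of_nonneg (by positivity : (0 : ℚ) ≤ s)]
    exact div_le_one_of_le₀ h1 (by positivity)
  exact DO.ok_append (DO.ok_append (DO.ok_pCS hs _ _ _ _ _ (DO.norm_chirp s he.le _))
    (DO.ok_pCS hs _ _ _ _ _ (DO.norm_chirp s h2 _)))
    (DO.ok_pCS hs _ _ _ _ _ (DO.norm_chirp s he.le _))

theorem ok_dprog (kmax : ℕ) {s : ℕ} (hs : 0 < s) (inv : Bool) : (dprog kmax s inv).Ok s := by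
  have hs0 : (0 : ℝ) ≤ s := Nat.cast_nonneg s
  have h1 : (1 : ℚ) ≤ s := by exact_mod_cast hs
  have h2 : |scl s inv| ≤ 1 := by
    cases inv
    · simp [scl]
    · simp only [scl, cond_true]
      rw [abs_of_nonneg (by positivity)]
      exact div_le_one_of_le₀ h1 (by positivity)
  refine DO.ok_flatMap _ fun ρ => DO.ok_append (DO.ok_append (DO.ok_append
    (DO.ok_pPair hs _ _ _ (by norm_num)) (DO.ok_pDiag fun y w => DO.ok_cond _ (DO.ok_false ?_)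
      (DO.ok_cq s _ (by norm_num)))) (DO.ok_pPair hs _ _ _ (by norm_num)))
    (DO.ok_pDiag fun y w => DO.ok_cond _ (DO.ok_false ?_) (DO.ok_cq s _ (by norm_num)))
  · have := DO.norm_chirp s (q := 1) (by norm_num) (sg inv) w
    linarith
  · rw [FS.val_flatMap_range]
    refine (norm_sum_le_of_le (n := fun _ => (1 : ℝ)) _ fun x _ => ?_).trans ?_
    · rw [DO.norm_sc]
      simpa using DO.norm_chirp s h2 (-sg inv) x
    · simp only [Finset.sum_const, Finset.card_range, nsmul_eq_mul, mul_one]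
      linarith

end Crest.Agent.R326
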