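import Crest.Agent.R326.DDefs

/-!
# Row 326, digit programs are polynomial-time computable (task R326-DPT)

`PP P` says that the view of the program `P a` from a cell is computable in polynomial time; it is
closed under `++` and `flatMap`, and we go up the definitions of `DDefs.lean`.
-/

set_option autoImplicit false

namespace Crest.Agent.R326

open Crest.Agent.PTime

theorem pt_log2 {α : Type*} [Enc α] {f : α → ℕ} (h : PT f) : PT (fun a => Nat.log 2 (f a)) := by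
  refine PT.congr (g := fun a => (f a).size - 1) (by fun_prop) fun a => ?_
  rcases Nat.eq_zero_or_pos (f a) with h0 | h0
  · simp [h0]
  · rw [Nat.log_eq_iff (Or.inr ⟨by norm_num, h0.ne'⟩)]
    have h1 : 0 < (f a).size := Nat.size_pos.2 h0
    constructor
    · exact Nat.lt_size.1 (by omega)
    · rw [Nat.sub_add_cancel h1]
      exact Nat.lt_size_self _

section

variable {α : Type*} [Enc α]

@[fun_prop] theorem DP.pt_sc {q θ : α → ℚ} {l : α → FS} (hq : PT q) (hθ : PT θ) (hl : PT l) :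
    PT (fun a => FS.sc (q a) (θ a) (l a)) := by
  unfold FS.sc
  fun_prop

@[fun_prop] theorem DP.pt_cq {q θ : α → ℚ} (hq : PT q) (hθ : PT θ) :
    PT (fun a => cq (q a) (θ a)) := by
  unfold cq
  fun_prop

@[fun_prop] theorem DP.pt_res {s : α → ℕ} {z : α → ℤ} (hs : PT s) (hz : PT z) :
    PT (fun a => res (s a) (z a)) := by
  unfold res
  fun_prop

end

theorem pt_mulq {α : Type*} [Enc α] {q θ : α → ℚ} {c : α → Coef} (hq : PT q) (hθ : PT θ)
    (hc : PT c) : PT (fun a => Coef.mulq (q a) (θ a) (c a)) := by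
  unfold Coef.mulq
  fun_prop

attribute [local fun_prop] pt_log2 pt_mulq

section

variable {α : Type*} [Enc α]

@[fun_prop] theorem DP.pt_fixd {s y w : α → ℕ} {c : α → ℤ × ℤ} (hs : PT s) (hc : PT c) (hy : PT y)
    (hw : PT w) : PT (fun a => fixd (s a) (c a) (y a) (w a)) := by
  unfold fixd
  fun_prop

@[fun_prop] theorem DP.pt_lexb {s y w : α → ℕ} {c : α → ℤ × ℤ} (hs : PT s) (hc : PT c) (hy : PT y)
    (hw : PT w) : PT (fun a => lexb (s a) (c a) (y a) (w a)) := by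
  unfold lexb
  fun_prop

@[fun_prop] theorem DP.pt_sr {s off y : α → ℕ} (hs : PT s) (ho : PT off) (hy : PT y) :
    PT (fun a => sr (s a) (off a) (y a)) := by
  unfold sr
  fun_prop

theorem DP.theta_fold (l : List Bool) :
    l.foldr (fun b t => (cond b 1 0 + t) / 2) (0 : ℚ) = (ofBits l.reverse : ℚ) / 2 ^ l.length := by
  induction l with
  | nil => simp
  | cons b l ih =>
    rw [List.foldr_cons, ih, List.reverse_cons, ofBits_concat, List.length_reverse,
      List.length_cons, pow_succ]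
    cases b
    · simp
      field_simp
    · simp
      field_simp
      ring

@[fun_prop] theorem DP.pt_theta {n : α → ℕ} (hn : PT n) : PT (fun a => theta (n a)) := by
  refine PT.congr (g := fun a => (ofBits (n a).bits.reverse : ℚ) / 2 ^ (n a).bits.length)
    (by fun_prop) fun a => DP.theta_fold _

@[fun_prop] theorem DP.pb_pow_log {s : α → ℕ} (hs : PB s) :
    PB (fun a => 2 ^ Nat.log 2 (s a)) := by
  refine PB.mono (g := fun a => s a + 1) (by fun_prop) fun a => ?_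
  rcases Nat.eq_zero_or_pos (s a) with h0 | h0
  · simp [h0]
  · exact (Nat.pow_log_le_self 2 h0.ne').trans (Nat.le_succ _)

@[fun_prop] theorem DP.pt_blk {s : α → ℕ} (hs : PT s) : PT (fun a => blk (s a)) := by
  unfold blk
  fun_prop

@[fun_prop] theorem DP.pt_lam {s : α → ℕ} (hs : PT s) : PT (fun a => lam (s a)) := by
  unfold lam
  fun_prop

@[fun_prop] theorem DP.pt_chirp {s : α → ℕ} {q σ : α → ℚ} {d : α → ℤ} (hs : PT s) (hq : PT q)
    (hσ : PT σ) (hd : PT d) : PT (fun a => chirp (s a) (q a) (σ a) (d a)) := by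
  unfold chirp
  fun_prop

@[fun_prop] theorem DP.pt_scl {s : α → ℕ} (hs : PT s) (inv : Bool) :
    PT (fun a => scl (s a) inv) := by
  unfold scl
  fun_prop

@[fun_prop] theorem DP.pt_rowA {s off y : α → ℕ} (hs : PT s) (ho : PT off) (hy : PT y) :
    PT (fun a => rowA (s a) (off a) (y a)) := by
  unfold rowA
  fun_prop

@[fun_prop] theorem DP.pt_rowB {s off y : α → ℕ} (hs : PT s) (ho : PT off) (hy : PT y) :
    PT (fun a => rowB (s a) (off a) (y a)) := by
  unfold rowB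
  fun_prop

/-- substituting the argument of a computable family -/
theorem DP.app1 {β γ : Type*} [Enc β] [Enc γ] {F : α → β → γ}
    (h : PT (fun x : α × β => F x.1 x.2)) {δ : Type*} [Enc δ] {a : δ → α} {u : δ → β} (ha : PT a)
    (hu : PT u) : PT (fun d => F (a d) (u d)) :=
  h.comp (ha.pair hu)

/-- substituting the cell of a computable family -/
theorem DP.app2 {γ : Type*} [Enc γ] {F : α → ℕ → ℕ → γ}
    (h : PT (fun x : α × ℕ × ℕ => F x.1 x.2.1 x.2.2)) {δ : Type*} [Enc δ] {a : δ → α}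
    {u v : δ → ℕ} (ha : PT a) (hu : PT u) (hv : PT v) : PT (fun d => F (a d) (u d) (v d)) :=
  h.comp (ha.pair (hu.pair hv))

/-- the view from a cell is computable -/
def DP.PP (P : α → Prog) : Prop := PT (fun x : α × ℕ × ℕ => (P x.1).at x.2.1 x.2.2)

theorem DP.PP.nil : DP.PP (fun _ : α => []) := PT.const []

theorem DP.PP.cons {c : α → ℤ × ℤ} {D : α → ℕ → ℕ → Coef} {P : α → Prog} (hc : PT c)
    (hD : PT (fun x : α × ℕ × ℕ => D x.1 x.2.1 x.2.2)) (hP : DP.PP P) :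
    DP.PP (fun a => (c a, D a) :: P a) :=
  PT.cons ((hc.comp PT.id.fst).pair hD) hP

theorem DP.PP.append {P P' : α → Prog} (h : DP.PP P) (h' : DP.PP P') :
    DP.PP (fun a => P a ++ P' a) :=
  (PT.append h h').congr fun _ => List.map_append

theorem DP.PP.flatMap {β : Type*} [Enc β] {l : α → List β} {P : α → β → Prog} (hl : PT l)
    (h : DP.PP (fun x : α × β => P x.1 x.2)) : DP.PP (fun a => (l a).flatMap (P a)) := by
  have h1 : PT (fun p : (α × ℕ × ℕ) × β => (P p.1.1 p.2).at p.1.2.1 p.1.2.2) :=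
    PT.comp (g := fun p : (α × ℕ × ℕ) × β => ((p.1.1, p.2), p.1.2.1, p.1.2.2)) h (by fun_prop)
  refine (PT.flatMap (f := fun (x : α × ℕ × ℕ) b => (P x.1 b).at x.2.1 x.2.2) h1
    (hl.comp PT.id.fst)).congr fun x => ?_
  exact List.map_flatMap

theorem DP.PP.flatMap_range {n : α → ℕ} {P : α → ℕ → Prog} (hn : PT n) (hb : PB n)
    (h : DP.PP (fun x : α × U => P x.1 x.2.val)) :
    DP.PP (fun a => (List.range (n a)).flatMap (P a)) := by
  have := DP.PP.flatMap (P := fun a (u : U) => P a u.val) (PT.rangeU (hn.toU hb)) h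
  simpa only [List.flatMap_map] using this

theorem DP.PP.flatMap_range_rev {n : α → ℕ} {P : α → ℕ → Prog} (hn : PT n) (hb : PB n)
    (h : DP.PP (fun x : α × U => P x.1 x.2.val)) :
    DP.PP (fun a => (List.range (n a)).reverse.flatMap (P a)) := by
  have := DP.PP.flatMap (P := fun a (u : U) => P a u.val) (PT.rangeU (hn.toU hb)).reverse h
  simpa only [← List.map_reverse, List.flatMap_map] using this

theorem DP.PP.pDiag {s : α → ℕ} {D : α → ℕ → ℕ → Coef} (hs : PT s)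
    (hD : PT (fun x : α × ℕ × ℕ => D x.1 x.2.1 x.2.2)) : DP.PP (fun a => pDiag (s a) (D a)) :=
  DP.PP.cons (PT.const _) (by fun_prop) (DP.PP.cons (PT.const _) (by fun_prop) DP.PP.nil)

theorem DP.pt_rsD {s : α → ℕ} {c : α → ℤ × ℤ} {Tg : α → ℕ → ℕ → Bool} {src : α → Coef}
    {tgt : α → ℕ → ℕ → Coef} (hs : PT s) (hc : PT c)
    (hT : PT (fun x : α × ℕ × ℕ => Tg x.1 x.2.1 x.2.2)) (h1 : PT src)
    (h2 : PT (fun x : α × ℕ × ℕ => tgt x.1 x.2.1 x.2.2)) :
    PT (fun x : α × ℕ × ℕ => rsD (s x.1) (c x.1) (Tg x.1) (src x.1) (tgt x.1) x.2.1 x.2.2) := by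
  have h3 : PT (fun x : α × ℕ × ℕ =>
      Tg x.1 (res (s x.1) ((c x.1).1 - x.2.1)) (res (s x.1) ((c x.1).2 - x.2.2))) :=
    DP.app2 hT (by fun_prop) (by fun_prop) (by fun_prop)
  unfold rsD role
  exact PT.cond (by fun_prop) (PT.const _)
    (PT.cond (hT.bor (h3.bnot.band (by fun_prop))) h2 (by fun_prop))

theorem DP.PP.pRS {s : α → ℕ} {c : α → ℤ × ℤ} {Tg : α → ℕ → ℕ → Bool} {κ : α → ℕ → ℕ → FS}
    (hs : PT s) (hc : PT c) (hT : PT (fun x : α × ℕ × ℕ => Tg x.1 x.2.1 x.2.2))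
    (hκ : PT (fun x : α × ℕ × ℕ => κ x.1 x.2.1 x.2.2)) :
    DP.PP (fun a => pRS (s a) (c a) (Tg a) (κ a)) := by
  have hk : PT (fun x : α × ℕ × ℕ => kl (s x.1) (Tg x.1) (κ x.1) x.2.1 x.2.2) := by
    unfold kl
    exact PT.cons (by fun_prop) (PT.cond hT hκ (PT.const _))
  have hq : ∀ c1 c2 : Coef, PT (fun x : α × ℕ × ℕ =>
      rsD (s x.1) (c x.1) (Tg x.1) c1 (fun _ _ => c2) x.2.1 x.2.2) := fun c1 c2 =>
    DP.pt_rsD (src := fun _ => c1) (tgt := fun _ _ _ => c2) hs hc hT (PT.const _) (PT.const _)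
  refine DP.PP.append (DP.PP.pDiag hs (DP.pt_rsD (src := fun _ => cq 1 0)
    (tgt := fun a _ _ => cq (5 / (3 * ((s a : ℚ) + 1))) (-1 / 4)) hs hc hT (PT.const _)
    (by fun_prop))) ?_
  refine DP.PP.cons hc (hq _ _) <| DP.PP.cons hc (hq _ _) <| DP.PP.cons hc ?_ <|
    DP.PP.cons hc (hq _ _) <| DP.PP.cons hc (hq _ _) <| DP.PP.cons hc ?_ DP.PP.nil
  · exact DP.pt_rsD (src := fun _ => cq (1 / 4) 0)
      (tgt := fun a y w => (FS.sc (3 / ((s a : ℚ) + 1)) 0 (kl (s a) (Tg a) (κ a) y w), true))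
      hs hc hT (PT.const _) ((DP.pt_sc (by fun_prop) (PT.const _) hk).pair (PT.const _))
  · exact DP.pt_rsD (src := fun _ => cq 2 (1 / 4))
      (tgt := fun a y w => (FS.sc (-8 / 5) 0 (kl (s a) (Tg a) (κ a) y w), false))
      hs hc hT (PT.const _) ((DP.pt_sc (PT.const _) (PT.const _) hk).pair (PT.const _))

theorem DP.PP.pDS {s off : α → ℕ} {δ : α → ℤ × ℤ} {Tg : α → ℕ → ℕ → Bool} {κ : α → ℕ → ℕ → FS}
    (hs : PT s) (ho : PT off) (hδ : PT δ) (hT : PT (fun x : α × ℕ × ℕ => Tg x.1 x.2.1 x.2.2))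
    (hκ : PT (fun x : α × ℕ × ℕ => κ x.1 x.2.1 x.2.2)) :
    DP.PP (fun a => pDS (s a) (off a) (δ a) (Tg a) (κ a)) := by
  have h3 : PT (fun x : α × ℕ × ℕ => Tg x.1 (res (s x.1) (2 * off x.1 - 1 + (δ x.1).1 - x.2.1))
      (res (s x.1) ((δ x.1).2 - x.2.2))) :=
    DP.app2 hT (by fun_prop) (by fun_prop) (by fun_prop)
  have c1 : PT (fun a => ((2 * off a - 1 + (δ a).1, (δ a).2) : ℤ × ℤ)) := by fun_prop
  have c2 : PT (fun a => ((2 * off a - 1, 0) : ℤ × ℤ)) := by fun_prop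
  exact (((DP.PP.pRS (κ := fun a y w => FS.sc (-1) 0 (κ a y w)) hs c1 hT
    (DP.pt_sc (PT.const _) (PT.const _) hκ)).append
    (DP.PP.pRS (Tg := fun a y w => Tg a (res (s a) (2 * off a - 1 + (δ a).1 - y))
      (res (s a) ((δ a).2 - w))) (κ := fun _ _ _ => [(1, 0)]) hs c2 h3 (PT.const _))).append
    (DP.PP.pRS hs c1 hT hκ)).append
    (DP.PP.pRS (Tg := fun a y w => Tg a (res (s a) (2 * off a - 1 + (δ a).1 - y))
      (res (s a) ((δ a).2 - w))) (κ := fun _ _ _ => [(-1, 0)]) hs c2 h3 (PT.const _))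

theorem DP.pt_wpos {s : α → ℕ} {wo : α → ℕ → ℕ} (hs : PT s)
    (hw : PT (fun x : α × ℕ => wo x.1 x.2)) :
    PT (fun x : α × ℕ × ℕ => wpos (s x.1) (wo x.1) x.2.1 x.2.2) := by
  have h : PT (fun x : α × ℕ × ℕ => wo x.1 x.2.1) := DP.app1 hw (by fun_prop) (by fun_prop)
  unfold wpos
  exact DP.pt_res (by fun_prop) (PT.int_sub (by fun_prop) h.natCast_int)

theorem DP.pt_stT {s i : α → ℕ} {ur : α → ℕ → Bool} {wo : α → ℕ → ℕ} (hs : PT s) (hi : PT i)
    (hb : PB i) (hu : PT (fun x : α × ℕ => ur x.1 x.2)) (hw : PT (fun x : α × ℕ => wo x.1 x.2))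
    (b : ℕ) : PT (fun x : α × ℕ × ℕ => stT (s x.1) (ur x.1) (wo x.1) (i x.1) b x.2.1 x.2.2) := by
  have h : PT (fun x : α × ℕ × ℕ => ur x.1 x.2.1) := DP.app1 hu (by fun_prop) (by fun_prop)
  have h' := DP.pt_wpos hs hw
  unfold stT
  exact h.band (PT.decide ((h'.lt (by fun_prop)).and (PT.and (by fun_prop)
    (((h'.div (by fun_prop)).mod (PT.const _)).eq (PT.const _)))))

theorem DP.pt_stA {s i : α → ℕ} {wo : α → ℕ → ℕ} (hs : PT s) (hi : PT i)
    (hb : PB i) (hw : PT (fun x : α × ℕ => wo x.1 x.2)) :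
    PT (fun x : α × ℕ × ℕ => stA (s x.1) (wo x.1) (i x.1) x.2.1 x.2.2) := by
  have h' := DP.pt_wpos hs hw
  unfold stA
  exact (DP.pt_theta (h'.div (by fun_prop))).rat_div (PT.const _)

theorem DP.PP.pStage {s off i : α → ℕ} {ur : α → ℕ → Bool} {wo : α → ℕ → ℕ} (hs : PT s)
    (ho : PT off) (hi : PT i) (hb : PB i) (hu : PT (fun x : α × ℕ => ur x.1 x.2))
    (hw : PT (fun x : α × ℕ => wo x.1 x.2)) :
    DP.PP (fun a => pStage (s a) (off a) (ur a) (wo a) (i a)) := by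
  have hT := DP.pt_stT hs hi hb hu hw
  have hA := DP.pt_stA hs hi hb hw
  exact ((DP.PP.pDS (δ := fun a => (0, -2 ^ i a))
    (κ := fun a y w => [(1, stA (s a) (wo a) (i a) y w)]) hs ho (by fun_prop) (hT 0)
    (PT.cons ((PT.const _).pair hA) (PT.const _))).append
    (DP.PP.pDiag (D := fun a y w => cond (stT (s a) (ur a) (wo a) (i a) 1 y w)
      (cq (-2) (stA (s a) (wo a) (i a) y w)) (cq 1 0)) hs
      (PT.cond (hT 1) (DP.pt_cq (PT.const _) hA) (PT.const _)))).append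
    (DP.PP.pDS (δ := fun a => (0, 2 ^ i a)) (κ := fun _ _ _ => [(1, 0)]) hs ho (by fun_prop) (hT 1)
      (PT.const _))

theorem DP.PP.pStageI {s off i : α → ℕ} {ur : α → ℕ → Bool} {wo : α → ℕ → ℕ} (hs : PT s)
    (ho : PT off) (hi : PT i) (hb : PB i) (hu : PT (fun x : α × ℕ => ur x.1 x.2))
    (hw : PT (fun x : α × ℕ => wo x.1 x.2)) :
    DP.PP (fun a => pStageI (s a) (off a) (ur a) (wo a) (i a)) := by
  have hT := DP.pt_stT hs hi hb hu hw
  have hA := DP.pt_stA hs hi hb hw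
  exact ((DP.PP.pDS (δ := fun a => (0, 2 ^ i a)) (κ := fun _ _ _ => [(-1, 0)]) hs ho (by fun_prop)
    (hT 1) (PT.const _)).append
    (DP.PP.pDiag (D := fun a y w => cond (stT (s a) (ur a) (wo a) (i a) 1 y w)
      (cq (-1 / 2) (-stA (s a) (wo a) (i a) y w)) (cq 1 0)) hs
      (PT.cond (hT 1) (DP.pt_cq (PT.const _) hA.rat_neg) (PT.const _)))).append
    (DP.PP.pDS (δ := fun a => (0, -2 ^ i a))
      (κ := fun a y w => [(-1, stA (s a) (wo a) (i a) y w)]) hs ho (by fun_prop) (hT 0)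
      (PT.cons ((PT.const _).pair hA) (PT.const _)))

theorem DP.PP.pWC {k s off oa ob : α → ℕ} {ra rb : α → ℕ → Bool} {dr : α → ℤ} {g : α → ℕ → FS}
    (hk : PT k) (hkb : PB k) (hs : PT s) (hsb : PB s) (ho : PT off)
    (ha : PT (fun x : α × ℕ => ra x.1 x.2)) (hb : PT (fun x : α × ℕ => rb x.1 x.2)) (hd : PT dr)
    (hoa : PT oa) (hob : PT ob) (hg : PT (fun x : α × ℕ => g x.1 x.2)) :
    DP.PP (fun a => pWC (k a) (s a) (off a) (ra a) (rb a) (dr a) (oa a) (ob a) (g a)) := by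
  have ha' : PT (fun x : (α × U) × ℕ => ra x.1.1 x.2) := DP.app1 ha (by fun_prop) (by fun_prop)
  have hb' : PT (fun x : (α × U) × ℕ => rb x.1.1 x.2) := DP.app1 hb (by fun_prop) (by fun_prop)
  have hu : PT (fun x : (α × U) × ℕ => ra x.1.1 x.2 || rb x.1.1 x.2) := ha'.bor hb'
  have hw : PT (fun x : (α × U) × ℕ => cond (ra x.1.1 x.2) (oa x.1.1) (ob x.1.1)) :=
    PT.cond ha' (by fun_prop) (by fun_prop)
  have h1 : DP.PP (fun a => pFft (k a) (s a) (off a) (fun y => ra a y || rb a y)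
      (fun y => cond (ra a y) (oa a) (ob a))) :=
    DP.PP.flatMap_range_rev hk hkb (DP.PP.pStage (s := fun x : α × U => s x.1)
      (off := fun x : α × U => off x.1) (i := fun x : α × U => x.2.val)
      (ur := fun (x : α × U) y => ra x.1 y || rb x.1 y)
      (wo := fun (x : α × U) y => cond (ra x.1 y) (oa x.1) (ob x.1))
      (by fun_prop) (by fun_prop) (by fun_prop) (by fun_prop) hu hw)
  have h2 : DP.PP (fun a => pFftI (k a) (s a) (off a) (fun y => ra a y || rb a y)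
      (fun y => cond (ra a y) (oa a) (ob a))) :=
    DP.PP.flatMap_range hk hkb (DP.PP.pStageI (s := fun x : α × U => s x.1)
      (off := fun x : α × U => off x.1) (i := fun x : α × U => x.2.val)
      (ur := fun (x : α × U) y => ra x.1 y || rb x.1 y)
      (wo := fun (x : α × U) y => cond (ra x.1 y) (oa x.1) (ob x.1))
      (by fun_prop) (by fun_prop) (by fun_prop) (by fun_prop) hu hw)
  have h3 : PT (fun x : α × ℕ × ℕ => rb x.1 x.2.1) := DP.app1 hb (by fun_prop) (by fun_prop)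
  have h4 : PT (fun p : (α × ℕ × ℕ) × U => g p.1.1 p.2.val) :=
    DP.app1 hg (by fun_prop) (by fun_prop)
  have h5 : PT (fun x : α × ℕ × ℕ =>
      hatK (s x.1) (g x.1) (res (s x.1) ((x.2.2 : ℤ) - ob x.1))) := by
    unfold hatK
    exact PT.flatMap_range (f := fun (x : α × ℕ × ℕ) (r : ℕ) =>
      FS.sc 1 (theta (res (s x.1) ((x.2.2 : ℤ) - ob x.1)) * r) (g x.1 r)) (by fun_prop)
      (DP.pb_pow_log (by fun_prop)) (DP.pt_sc (PT.const _) (by fun_prop) h4)
  exact (h1.append (DP.PP.pDS (δ := fun a => (dr a, (ob a : ℤ) - oa a))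
    (Tg := fun a y w => rb a y && decide (res (s a) ((w : ℤ) - ob a) < 2 ^ Nat.log 2 (s a)))
    (κ := fun a _ w => hatK (s a) (g a) (res (s a) ((w : ℤ) - ob a))) hs ho (by fun_prop)
    (h3.band (by fun_prop)) h5)).append h2

theorem DP.PP.pPiece {k s off : α → ℕ} {ra rb : α → ℕ → Bool} {dr : α → ℤ} {G : α → ℤ → FS}
    (hk : PT k) (hkb : PB k) (hs : PT s) (hsb : PB s) (ho : PT off)
    (ha : PT (fun x : α × ℕ => ra x.1 x.2)) (hb : PT (fun x : α × ℕ => rb x.1 x.2)) (hd : PT dr)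
    (hG : PT (fun x : α × ℤ => G x.1 x.2)) (β γ : ℕ) (ε ε' : Bool) :
    DP.PP (fun a => pPiece (k a) (s a) (off a) (ra a) (rb a) (dr a) (G a) β γ ε ε') := by
  have h1 : PT (fun x : α × ℕ × ℕ => ra x.1 x.2.1) := DP.app1 ha (by fun_prop) (by fun_prop)
  have h2 : PT (fun x : α × ℕ × ℕ => rb x.1 x.2.1) := DP.app1 hb (by fun_prop) (by fun_prop)
  have hf : DP.PP (fun a => R326.pDiag (s a) (flp (s a) (ra a) (rb a) β γ ε ε')) := by
    refine DP.PP.pDiag hs ?_
    unfold flp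
    exact PT.cond (((h1.band (PT.const _)).band (by fun_prop)).bor
      ((h2.band (PT.const _)).band (by fun_prop))) (PT.const _) (PT.const _)
  have h3 : PT (fun x : α × ℕ => G x.1 (((β : ℤ) - γ) * blk (s x.1) +
      if x.2 < blk (s x.1) then (x.2 : ℤ) else (x.2 : ℤ) - 2 * blk (s x.1))) :=
    DP.app1 hG (by fun_prop) (by fun_prop)
  exact (hf.append (DP.PP.pWC (oa := fun a => γ * blk (s a)) (ob := fun a => β * blk (s a))
    (g := fun a r => FS.sc (1 / 4) 0 (G a (((β : ℤ) - γ) * blk (s a) +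
      if r < blk (s a) then (r : ℤ) else (r : ℤ) - 2 * blk (s a))))
    hk hkb hs hsb ho ha hb hd (by fun_prop) (by fun_prop)
    (DP.pt_sc (PT.const _) (PT.const _) h3))).append hf

theorem DP.PP.flatMap_const {ι : Type} (l : List ι) {P : α → ι → Prog}
    (h : ∀ i, DP.PP (fun a => P a i)) : DP.PP (fun a => l.flatMap (P a)) := by
  induction l with
  | nil => exact DP.PP.nil
  | cons i l ih => exact (h i).append ih

theorem DP.PP.pCS {k s off : α → ℕ} {ra rb : α → ℕ → Bool} {dr : α → ℤ} {G : α → ℤ → FS}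
    (hk : PT k) (hkb : PB k) (hs : PT s) (hsb : PB s) (ho : PT off)
    (ha : PT (fun x : α × ℕ => ra x.1 x.2)) (hb : PT (fun x : α × ℕ => rb x.1 x.2)) (hd : PT dr)
    (hG : PT (fun x : α × ℤ => G x.1 x.2)) :
    DP.PP (fun a => pCS (k a) (s a) (off a) (ra a) (rb a) (dr a) (G a)) :=
  DP.PP.flatMap_const _ fun β => DP.PP.flatMap_const _ fun γ => DP.PP.flatMap_const _ fun ε =>
    DP.PP.flatMap_const _ fun ε' => DP.PP.pPiece hk hkb hs hsb ho ha hb hd hG β γ ε ε'

theorem DP.PP.pPair {k s off : α → ℕ} (hk : PT k) (hkb : PB k) (hs : PT s) (hsb : PB s)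
    (ho : PT off) (inv : Bool) (e : ℚ) : DP.PP (fun a => pPair (k a) (s a) (off a) inv e) := by
  have h1 := DP.PP.pCS (ra := fun a => rowA (s a) (off a)) (rb := fun a => rowB (s a) (off a))
    (dr := fun a => lam (s a)) (G := fun a => chirp (s a) e (sg inv)) hk hkb hs hsb ho
    (by fun_prop) (by fun_prop) (by fun_prop) (by fun_prop)
  have h2 := DP.PP.pCS (ra := fun a => rowB (s a) (off a)) (rb := fun a => rowA (s a) (off a))
    (dr := fun a => -lam (s a)) (G := fun a => chirp (s a) (-e / s a) (-sg inv)) hk hkb hs hsb ho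
    (by fun_prop) (by fun_prop) (by fun_prop) (by fun_prop)
  exact (h1.append h2).append h1

theorem DP.PP.pRound {k s : α → ℕ} (hk : PT k) (hkb : PB k) (hs : PT s) (hsb : PB s)
    (inv : Bool) (ρ : ℕ) : DP.PP (fun a => pRound (k a) (s a) inv ρ) := by
  have ho : PT (fun a => ρ * lam (s a)) := by fun_prop
  refine (((DP.PP.pPair hk hkb hs hsb ho inv 1).append (DP.PP.pDiag hs ?_)).append
    (DP.PP.pPair hk hkb hs hsb ho inv (-1))).append (DP.PP.pDiag hs ?_)
  · fun_prop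
  · exact PT.cond (by fun_prop) (PT.pair (PT.flatMap_range (f := fun (x : α × ℕ × ℕ) (r : ℕ) =>
      FS.sc 1 (sg inv * (x.2.2 : ℚ) ^ 2 / s x.1) (chirp (s x.1) (scl (s x.1) inv) (-sg inv) r))
      (by fun_prop) (by fun_prop) (by fun_prop)) (PT.const _)) (PT.const _)

end

theorem pt_dprog (inv : Bool) : PT (fun x : (U × U) × ℕ × ℕ =>
    (dprog x.1.1.val x.1.2.val inv).at x.2.1 x.2.2) :=
  DP.PP.flatMap_const (α := U × U) (P := fun a ρ => pRound a.1.val a.2.val inv ρ) _ fun ρ =>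
    DP.PP.pRound (by fun_prop) (by fun_prop) (by fun_prop) (by fun_prop) inv ρ

end Crest.Agent.R326
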