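import Mathlib

/-!
# Row 326, mixed-radix digits of natural numbers (task R326-Dig)

Arrays are functions on `ℕ`; the digit of stride `σ` and radix `n` of an index `x` is `x / σ % n`.
All index permutations of the algorithm are digit manipulations.
PLAN.  Write `x = q * (σ * n) + d * σ + r` with `d < n`, `r < σ` (`exists_decomp`) and compute
with `Nat.add_mul_div_right`, `Nat.div_div_eq_div_mul`, `Nat.mod_mul`, `Nat.mod_mod_of_dvd`,
`Nat.div_mod_eq_mod_mul_div`-type lemmas.  Most later lemmas follow from `dig_ext`.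
-/

set_option autoImplicit false
set_option linter.unusedVariables false

namespace Crest.Agent.R326

/-- the digit of stride `σ` and radix `n` -/
def dig (σ n x : ℕ) : ℕ := x / σ % n

/-- replace the digit of stride `σ` and radix `n` by `y % n` -/
def setDig (σ n y x : ℕ) : ℕ := x / (σ * n) * (σ * n) + y % n * σ + x % σ

/-- insert a digit `j` of radix `r` at stride `σ` -/
def ins (σ r j x : ℕ) : ℕ := x / σ * (σ * r) + j * σ + x % σ

/-- delete the digit of stride `σ` and radix `r` -/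
def del (σ r x : ℕ) : ℕ := x / (σ * r) * σ + x % σ

/-- shear: add to the digit `(σ, n)` an amount depending on the digit `(τ, m)` -/
def shr (σ n τ m : ℕ) (tb : ℕ → ℕ) (x : ℕ) : ℕ := setDig σ n (dig σ n x + tb (dig τ m x)) x

/-- add a constant to a digit -/
def rotD (σ n k x : ℕ) : ℕ := setDig σ n (dig σ n x + k) x

/-- multiply a digit by a constant -/
def mulD (σ n u x : ℕ) : ℕ := setDig σ n (u * dig σ n x) x

/-- exchange the digits of radix `n` at strides `σ` and `τ` -/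
def swp (σ τ n x : ℕ) : ℕ := setDig σ n (dig τ n x) (setDig τ n (dig σ n x) x)

/-- multiply the two lowest digits of radix `S` by `u` -/
def nu (S u x : ℕ) : ℕ := mulD S S u (mulD 1 S u x)

/-- translate the two lowest digits of radix `S` -/
def shf (S : ℕ) (τ : ℕ × ℕ) (x : ℕ) : ℕ := rotD S S τ.1 (rotD 1 S τ.2 x)

variable {σ n τ m r : ℕ}

theorem Dig.mk_div (hσ : 0 < σ) {q d s : ℕ} (hs : s < σ) :
    (q * (σ * n) + d * σ + s) / σ = q * n + d := by
  have : q * (σ * n) + d * σ + s = s + (q * n + d) * σ := by ring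
  rw [this, Nat.add_mul_div_right _ _ hσ, Nat.div_eq_of_lt hs, zero_add]

theorem Dig.mk_div2 (hσ : 0 < σ) {q d s : ℕ} (hd : d < n) (hs : s < σ) :
    (q * (σ * n) + d * σ + s) / (σ * n) = q := by
  have hn : 0 < n := by omega
  rw [← Nat.div_div_eq_div_mul, Dig.mk_div hσ hs, add_comm, Nat.add_mul_div_right _ _ hn,
    Nat.div_eq_of_lt hd, zero_add]

theorem Dig.mk_mod {q d s : ℕ} : (q * (σ * n) + d * σ + s) % σ = s % σ := by
  have : q * (σ * n) + d * σ + s = s + (q * n + d) * σ := by ring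
  rw [this, Nat.add_mul_mod_self_right]

theorem Dig.dig_eq (σ n x : ℕ) : dig σ n x = x % (σ * n) / σ := by
  unfold dig
  exact (Nat.mod_mul_right_div_self x σ n).symm

theorem exists_decomp (hσ : 0 < σ) (hn : 0 < n) (x : ℕ) :
    x = x / (σ * n) * (σ * n) + dig σ n x * σ + x % σ := by
  unfold dig
  have h1 : x / (σ * n) = x / σ / n := (Nat.div_div_eq_div_mul x σ n).symm
  have h2 := Nat.div_add_mod x σ
  have h3 := Nat.div_add_mod (x / σ) n
  rw [h1]
  calc x = σ * (x / σ) + x % σ := h2.symm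
    _ = σ * (n * (x / σ / n) + x / σ % n) + x % σ := by rw [h3]
    _ = _ := by ring

theorem dig_lt (hn : 0 < n) (x : ℕ) : dig σ n x < n := by
  exact Nat.mod_lt _ hn

theorem dig_one (x : ℕ) : dig 1 n x = x % n := by
  simp [dig]

theorem dig_mk (hσ : 0 < σ) {q d s : ℕ} (hd : d < n) (hs : s < σ) :
    dig σ n (q * (σ * n) + d * σ + s) = d := by
  unfold dig
  rw [Dig.mk_div hσ hs, add_comm, Nat.add_mul_mod_self_right, Nat.mod_eq_of_lt hd]

theorem dig_setDig (hσ : 0 < σ) (hn : 0 < n) (y x : ℕ) : dig σ n (setDig σ n y x) = y % n := by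
  exact dig_mk hσ (Nat.mod_lt _ hn) (Nat.mod_lt _ hσ)

theorem setDig_div (hσ : 0 < σ) (hn : 0 < n) (y x : ℕ) :
    setDig σ n y x / (σ * n) = x / (σ * n) := by
  exact Dig.mk_div2 hσ (Nat.mod_lt _ hn) (Nat.mod_lt _ hσ)

theorem setDig_mod (hσ : 0 < σ) (y x : ℕ) : setDig σ n y x % σ = x % σ := by
  unfold setDig
  rw [Dig.mk_mod, Nat.mod_mod]

theorem setDig_dig (hσ : 0 < σ) (hn : 0 < n) (x : ℕ) : setDig σ n (dig σ n x) x = x := by
  unfold setDig
  rw [Nat.mod_eq_of_lt (dig_lt hn x)]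
  exact (exists_decomp hσ hn x).symm

theorem setDig_mod_self (y x : ℕ) : setDig σ n (y % n) x = setDig σ n y x := by
  simp [setDig]

theorem setDig_congr {y y' : ℕ} (h : y ≡ y' [MOD n]) (x : ℕ) :
    setDig σ n y x = setDig σ n y' x := by
  unfold setDig
  rw [show y % n = y' % n from h]

theorem setDig_setDig (hσ : 0 < σ) (hn : 0 < n) (y y' x : ℕ) :
    setDig σ n y (setDig σ n y' x) = setDig σ n y x := by
  conv_lhs => rw [setDig, setDig_div hσ hn, setDig_mod hσ]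
  rfl

theorem dig_ext (hσ : 0 < σ) (hn : 0 < n) {x x' : ℕ} (h1 : x / (σ * n) = x' / (σ * n))
    (h2 : dig σ n x = dig σ n x') (h3 : x % σ = x' % σ) : x = x' := by
  rw [exists_decomp hσ hn x, h1, h2, h3]
  exact (exists_decomp hσ hn x').symm

/-- higher parts are not affected -/
theorem setDig_div_of_dvd (hσ : 0 < σ) (hn : 0 < n) (h : σ * n ∣ τ) (y x : ℕ) :
    setDig σ n y x / τ = x / τ := by
  obtain ⟨k, rfl⟩ := h
  rw [← Nat.div_div_eq_div_mul, setDig_div hσ hn, Nat.div_div_eq_div_mul]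

/-- lower parts are not affected -/
theorem setDig_mod_of_dvd (h : τ ∣ σ) (y x : ℕ) : setDig σ n y x % τ = x % τ := by
  obtain ⟨k, rfl⟩ := h
  unfold setDig
  have : x / (τ * k * n) * (τ * k * n) + y % n * (τ * k) + x % (τ * k)
      = x % (τ * k) + τ * (x / (τ * k * n) * (k * n) + y % n * k) := by ring
  rw [this, Nat.add_mul_mod_self_left, Nat.mod_mod_of_dvd _ (Dvd.intro _ rfl)]

theorem dig_setDig_high (hσ : 0 < σ) (hn : 0 < n) (h : σ * n ∣ τ) (y x : ℕ) :
    dig τ m (setDig σ n y x) = dig τ m x := by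
  unfold dig
  rw [setDig_div_of_dvd hσ hn h]

theorem dig_setDig_low (h : τ * m ∣ σ) (y x : ℕ) : dig τ m (setDig σ n y x) = dig τ m x := by
  rw [Dig.dig_eq, Dig.dig_eq, setDig_mod_of_dvd h]

theorem Dig.setDig_mod_big (hσ : 0 < σ) (hn : 0 < n) (h : σ * n ∣ τ) (y x : ℕ) :
    setDig σ n y x % τ = setDig σ n y (x % τ) := by
  have hστ : σ ∣ τ := (Dvd.intro _ rfl : σ ∣ σ * n).trans h
  apply dig_ext hσ hn
  · obtain ⟨k, rfl⟩ := h
    rw [setDig_div hσ hn, Nat.mod_mul_right_div_self, Nat.mod_mul_right_div_self, setDig_div hσ hn]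
  · rw [dig_setDig hσ hn, Dig.dig_eq, Nat.mod_mod_of_dvd _ h, ← Dig.dig_eq, dig_setDig hσ hn]
  · rw [Nat.mod_mod_of_dvd _ hστ, setDig_mod hσ, setDig_mod hσ, Nat.mod_mod_of_dvd _ hστ]

theorem setDig_comm (hσ : 0 < σ) (hn : 0 < n) (hτ : 0 < τ) (hm : 0 < m) (h : σ * n ∣ τ)
    (y z x : ℕ) : setDig σ n y (setDig τ m z x) = setDig τ m z (setDig σ n y x) := by
  have hστ : σ ∣ τ := (Dvd.intro _ rfl : σ ∣ σ * n).trans h
  apply dig_ext hτ hm
  · rw [setDig_div_of_dvd hσ hn (h.mul_right m), setDig_div hτ hm, setDig_div hτ hm,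
      setDig_div_of_dvd hσ hn (h.mul_right m)]
  · rw [dig_setDig_high hσ hn h, dig_setDig hτ hm, dig_setDig hτ hm]
  · rw [setDig_mod hτ, Dig.setDig_mod_big hσ hn h, Dig.setDig_mod_big hσ hn h, setDig_mod hτ]

theorem setDig_lt (hσ : 0 < σ) (hn : 0 < n) {N x : ℕ} (h : σ * n ∣ N) (hx : x < N) (y : ℕ) :
    setDig σ n y x < N := by
  have h1 : setDig σ n y x / N = x / N := setDig_div_of_dvd hσ hn h y x
  rw [Nat.div_eq_of_lt hx] at h1
  have hN : 0 < N := by omega
  exact (Nat.div_eq_zero_iff_lt hN).1 h1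

/-- a digit of a digit -/
theorem dig_dig (h : τ * m ∣ n) (x : ℕ) : dig τ m (dig σ n x) = dig (σ * τ) m x := by
  obtain ⟨k, rfl⟩ := h
  rw [Dig.dig_eq τ m]
  unfold dig
  rw [Nat.mod_mod_of_dvd _ (Dvd.intro _ rfl), ← Dig.dig_eq τ m, dig, Nat.div_div_eq_div_mul]

theorem dig_mod {N : ℕ} (h : σ * n ∣ N) (x : ℕ) : dig σ n (x % N) = dig σ n x := by
  rw [Dig.dig_eq, Dig.dig_eq, Nat.mod_mod_of_dvd _ h]

/-- numbers below `R ^ k` are determined by their digits -/
theorem eq_of_dig_pow {R k x y : ℕ} (hx : x < R ^ k) (hy : y < R ^ k)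
    (h : ∀ i < k, dig (R ^ i) R x = dig (R ^ i) R y) : x = y := by
  induction k generalizing x y with
  | zero => simp at hx hy; omega
  | succ k ih =>
    have hR : 0 < R := by
      rcases Nat.eq_zero_or_pos R with h0 | h0
      · subst h0; simp at hx
      · exact h0
    have hk : 0 < R ^ k := pow_pos hR k
    apply dig_ext hk hR
    · rw [← pow_succ, Nat.div_eq_of_lt hx, Nat.div_eq_of_lt hy]
    · exact h k (Nat.lt_succ_self k)
    · apply ih (Nat.mod_lt _ hk) (Nat.mod_lt _ hk)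
      intro i hi
      have hd : R ^ i * R ∣ R ^ k := by
        rw [← pow_succ]; exact pow_dvd_pow R hi
      rw [dig_mod hd, dig_mod hd]
      exact h i (by omega)

/-- any digit sequence occurs -/
theorem exists_dig_pow {R : ℕ} (hR : 0 < R) (k : ℕ) (d : ℕ → ℕ) :
    ∃ x < R ^ k, ∀ i < k, dig (R ^ i) R x = d i % R := by
  induction k with
  | zero => exact ⟨0, by simp, by simp⟩
  | succ k ih =>
    obtain ⟨x, hx, hd⟩ := ih
    have hk : 0 < R ^ k := pow_pos hR k
    refine ⟨setDig (R ^ k) R (d k) x, ?_, ?_⟩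
    · apply setDig_lt hk hR (by rw [pow_succ])
      calc x < R ^ k := hx
        _ ≤ R ^ (k + 1) := Nat.pow_le_pow_right hR (Nat.le_succ k)
    · intro i hi
      rcases Nat.lt_succ_iff_lt_or_eq.1 hi with hi | rfl
      · have hdv : R ^ i * R ∣ R ^ k := by
          rw [← pow_succ]; exact pow_dvd_pow R hi
        rw [dig_setDig_low hdv]
        exact hd i hi
      · exact dig_setDig hk hR _ _

theorem Dig.ins_div (hσ : 0 < σ) {j : ℕ} (hj : j < r) (x : ℕ) :
    ins σ r j x / (σ * r) = x / σ :=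
  Dig.mk_div2 hσ hj (Nat.mod_lt _ hσ)

theorem Dig.ins_mod (j x : ℕ) : ins σ r j x % σ = x % σ := by
  unfold ins
  rw [Dig.mk_mod, Nat.mod_mod]

theorem Dig.ins_mod_of_dvd (h : τ ∣ σ) (j x : ℕ) : ins σ r j x % τ = x % τ := by
  rw [← Nat.mod_mod_of_dvd _ h, Dig.ins_mod, Nat.mod_mod_of_dvd _ h]

theorem Dig.ins_div_low {ρ k : ℕ} (hρ : 0 < ρ) (j x : ℕ) :
    ins (ρ * k) r j x / ρ = ins k r j (x / ρ) := by
  unfold ins
  have : x / (ρ * k) * (ρ * k * r) + j * (ρ * k) + x % (ρ * k)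
      = x % (ρ * k) + (x / (ρ * k) * (k * r) + j * k) * ρ := by ring
  rw [this, Nat.add_mul_div_right _ _ hρ, Nat.mod_mul_right_div_self, Nat.div_div_eq_div_mul]
  ring

theorem Dig.ins_div_high (hσ : 0 < σ) {j : ℕ} (hj : j < r) (h : σ ∣ τ) (x : ℕ) :
    ins σ r j x / (τ * r) = x / τ := by
  obtain ⟨k, rfl⟩ := h
  have : σ * k * r = σ * r * k := by ring
  rw [this, ← Nat.div_div_eq_div_mul, Dig.ins_div hσ hj, Nat.div_div_eq_div_mul]

theorem Dig.ins_mod_high (hσ : 0 < σ) {j : ℕ} (hj : j < r) (h : σ ∣ τ) (x : ℕ) :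
    ins σ r j x % (τ * r) = ins σ r j (x % τ) := by
  have hr : 0 < r := by omega
  have hd : σ * r ∣ τ * r := Nat.mul_dvd_mul_right h r
  apply dig_ext hσ hr
  · obtain ⟨k, rfl⟩ := h
    have : σ * k * r = σ * r * k := by ring
    rw [this, Nat.mod_mul_right_div_self, Dig.ins_div hσ hj, Dig.ins_div hσ hj,
      Nat.mod_mul_right_div_self]
  · rw [dig_mod hd]
    exact (dig_mk hσ hj (Nat.mod_lt _ hσ)).trans (dig_mk hσ hj (Nat.mod_lt _ hσ)).symm
  · rw [Nat.mod_mod_of_dvd _ (h.mul_right r), Dig.ins_mod, Dig.ins_mod, Nat.mod_mod_of_dvd _ h]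

theorem dig_ins (hσ : 0 < σ) {j : ℕ} (hj : j < r) (x : ℕ) : dig σ r (ins σ r j x) = j := by
  exact dig_mk hσ hj (Nat.mod_lt _ hσ)

theorem del_ins (hσ : 0 < σ) {j : ℕ} (hj : j < r) (x : ℕ) : del σ r (ins σ r j x) = x := by
  unfold del
  rw [Dig.ins_div hσ hj, Dig.ins_mod]
  exact Nat.div_add_mod' x σ

theorem ins_del (hσ : 0 < σ) (hr : 0 < r) (x : ℕ) : ins σ r (dig σ r x) (del σ r x) = x := by
  have h1 : del σ r x / σ = x / (σ * r) := by
    unfold del
    rw [add_comm, Nat.add_mul_div_right _ _ hσ, Nat.div_eq_of_lt (Nat.mod_lt _ hσ), zero_add]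
  have h2 : del σ r x % σ = x % σ := by
    unfold del
    rw [add_comm, Nat.add_mul_mod_self_right, Nat.mod_mod]
  unfold ins
  rw [h1, h2]
  exact (exists_decomp hσ hr x).symm

theorem ins_lt (hσ : 0 < σ) {j N x : ℕ} (hj : j < r) (h : σ ∣ N) (hx : x < N) :
    ins σ r j x < N * r := by
  obtain ⟨k, rfl⟩ := h
  have hr : 0 < r := by omega
  have h1 : ins σ r j x / (σ * r) < k := by
    rw [Dig.ins_div hσ hj]
    exact Nat.div_lt_of_lt_mul hx
  have h2 := (Nat.div_lt_iff_lt_mul (Nat.mul_pos hσ hr)).1 h1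
  calc ins σ r j x < k * (σ * r) := h2
    _ = σ * k * r := by ring

/-- digits below the inserted one -/
theorem dig_ins_low (h : τ * m ∣ σ) (j x : ℕ) : dig τ m (ins σ r j x) = dig τ m x := by
  rw [Dig.dig_eq, Dig.dig_eq, Dig.ins_mod_of_dvd h]

theorem setDig_ins_low (hτ : 0 < τ) (hm : 0 < m) (hσ : 0 < σ) (h : τ * m ∣ σ) (j y x : ℕ) :
    setDig τ m y (ins σ r j x) = ins σ r j (setDig τ m y x) := by
  obtain ⟨k, rfl⟩ := h
  have hτm : 0 < τ * m := Nat.mul_pos hτ hm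
  apply dig_ext hτ hm
  · rw [setDig_div hτ hm, Dig.ins_div_low hτm, Dig.ins_div_low hτm, setDig_div hτ hm]
  · rw [dig_setDig hτ hm, dig_ins_low (Dvd.intro _ rfl), dig_setDig hτ hm]
  · have hd : τ ∣ τ * m * k := Dvd.intro (m * k) (by ring)
    rw [setDig_mod hτ, Dig.ins_mod_of_dvd hd, Dig.ins_mod_of_dvd hd, setDig_mod hτ]

/-- digits above the inserted one -/
theorem dig_ins_high (hσ : 0 < σ) {j : ℕ} (hj : j < r) (h : σ ∣ τ) (x : ℕ) :
    dig (τ * r) m (ins σ r j x) = dig τ m x := by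
  unfold dig
  rw [Dig.ins_div_high hσ hj h]

theorem setDig_ins_high (hσ : 0 < σ) (hτ : 0 < τ) (hm : 0 < m) {j : ℕ} (hj : j < r) (h : σ ∣ τ)
    (y x : ℕ) : setDig (τ * r) m y (ins σ r j x) = ins σ r j (setDig τ m y x) := by
  have hr : 0 < r := by omega
  have hτr : 0 < τ * r := Nat.mul_pos hτ hr
  have e : τ * r * m = τ * m * r := by ring
  apply dig_ext hτr hm
  · rw [setDig_div hτr hm, e, Dig.ins_div_high hσ hj (h.mul_right m),
      Dig.ins_div_high hσ hj (h.mul_right m), setDig_div hτ hm]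
  · rw [dig_setDig hτr hm, dig_ins_high hσ hj h, dig_setDig hτ hm]
  · rw [setDig_mod hτr, Dig.ins_mod_high hσ hj h, Dig.ins_mod_high hσ hj h, setDig_mod hτ]

theorem Dig.setDig_mul (hσ : 0 < σ) (hn : 0 < n) (hr : 0 < r) (y x : ℕ) :
    setDig σ (n * r) y x = setDig (σ * n) r (y / n) (setDig σ n y x) := by
  have e : σ * n * r = σ * (n * r) := by ring
  have h1 : setDig σ n y x / (σ * n * r) = x / (σ * (n * r)) := by
    rw [setDig_div_of_dvd hσ hn (Dvd.intro _ rfl), e]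
  have h2 : setDig σ n y x % (σ * n) = y % n * σ + x % σ := by
    have h3 := exists_decomp hσ hn (setDig σ n y x % (σ * n))
    rw [Nat.div_eq_of_lt (Nat.mod_lt _ (Nat.mul_pos hσ hn)), dig_mod dvd_rfl, dig_setDig hσ hn,
      Nat.mod_mod_of_dvd _ (Dvd.intro _ rfl), setDig_mod hσ] at h3
    rw [h3]; ring
  conv_rhs => rw [setDig, h1, h2]
  rw [setDig, Nat.mod_mul]
  ring

theorem swp_one (hσ : 0 < σ) (hτ : 0 < τ) (x : ℕ) : swp σ τ 1 x = x := by
  have h : ∀ {a : ℕ}, 0 < a → ∀ y z : ℕ, setDig a 1 y z = z := by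
    intro a _ y z
    simp only [setDig, mul_one, Nat.mod_one, zero_mul, add_zero]
    exact Nat.div_add_mod' z a
  unfold swp
  rw [h hσ, h hτ]

theorem swp_swp (hσ : 0 < σ) (hn : 0 < n) (hτ : 0 < τ) (h : σ * n ∣ τ) (x : ℕ) :
    swp σ τ n (swp σ τ n x) = x := by
  have h1 : dig σ n (swp σ τ n x) = dig τ n x := by
    unfold swp
    rw [dig_setDig hσ hn, Nat.mod_eq_of_lt (dig_lt hn x)]
  have h2 : dig τ n (swp σ τ n x) = dig σ n x := by
    unfold swp
    rw [dig_setDig_high hσ hn h, dig_setDig hτ hn, Nat.mod_eq_of_lt (dig_lt hn x)]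
  conv_lhs => rw [swp, h1, h2, swp]
  rw [← setDig_comm hσ hn hτ hn h, setDig_setDig hσ hn, setDig_setDig hτ hn, setDig_dig hτ hn,
    setDig_dig hσ hn]

theorem dig_swp_low (hσ : 0 < σ) (hn : 0 < n) (x : ℕ) : dig σ n (swp σ τ n x) = dig τ n x := by
  unfold swp
  rw [dig_setDig hσ hn, Nat.mod_eq_of_lt (dig_lt hn x)]

theorem dig_swp_high (hσ : 0 < σ) (hn : 0 < n) (hτ : 0 < τ) (h : σ * n ∣ τ) (x : ℕ) :
    dig τ n (swp σ τ n x) = dig σ n x := by
  unfold swp
  rw [dig_setDig_high hσ hn h, dig_setDig hτ hn, Nat.mod_eq_of_lt (dig_lt hn x)]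

/-- splitting off the top sub-digits of radix `r` -/
theorem swp_mul (hσ : 0 < σ) (hn : 0 < n) (hr : 0 < r) (hτ : 0 < τ) (h : σ * (n * r) ∣ τ) (x : ℕ) :
    swp σ τ (n * r) x = swp (σ * n) (τ * n) r (swp σ τ n x) := by
  have hσn : 0 < σ * n := Nat.mul_pos hσ hn
  have hτn : 0 < τ * n := Nat.mul_pos hτ hn
  have h1 : σ * n * r ∣ τ := by rwa [mul_assoc]
  have h2 : σ * n ∣ τ := (Dvd.intro _ rfl : σ * n ∣ σ * n * r).trans h1
  have h3 : σ * n * r ∣ τ * n := h1.mul_right n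
  have h4 : σ * n ∣ τ * n := h2.mul_right n
  have a1 : dig (τ * n) r (swp σ τ n x) = dig (τ * n) r x := by
    unfold swp
    rw [dig_setDig_high hσ hn h4, dig_setDig_high hτ hn dvd_rfl]
  have a2 : dig (σ * n) r (swp σ τ n x) = dig (σ * n) r x := by
    unfold swp
    rw [dig_setDig_high hσ hn dvd_rfl, dig_setDig_low h1]
  have d1 : ∀ a : ℕ, dig a (n * r) x / n = dig (a * n) r x := by
    intro a
    have := dig_dig (σ := a) (n := n * r) (τ := n) (m := r) dvd_rfl x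
    rw [← this]
    have hlt : dig a (n * r) x / n < r :=
      Nat.div_lt_of_lt_mul (dig_lt (Nat.mul_pos hn hr) x)
    exact (Nat.mod_eq_of_lt hlt).symm
  have d2 : ∀ a : ℕ, dig a (n * r) x % n = dig a n x := by
    intro a
    have := dig_dig (σ := a) (n := n * r) (τ := 1) (m := n) (by simp) x
    rw [dig_one, mul_one] at this
    exact this
  conv_rhs => rw [swp, a1, a2, swp]
  conv_lhs => rw [swp, Dig.setDig_mul hσ hn hr, Dig.setDig_mul hτ hn hr, d1, d1,
    ← setDig_mod_self (σ := σ) (n := n), ← setDig_mod_self (σ := τ) (n := n), d2, d2]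
  rw [setDig_comm hσ hn hτn hr h4]

theorem swp_ins_one (hσ : 0 < σ) (hτ : 0 < τ) (hn : 0 < n) {j : ℕ} (hj : j < r) (x : ℕ) :
    swp (σ * r) (τ * r) n (ins 1 r j x) = ins 1 r j (swp σ τ n x) := by
  unfold swp
  rw [dig_ins_high one_pos hj (one_dvd _), dig_ins_high one_pos hj (one_dvd _),
    setDig_ins_high one_pos hτ hn hj (one_dvd _), setDig_ins_high one_pos hσ hn hj (one_dvd _)]

variable {S : ℕ}

theorem dig_nu_low (hS : 0 < S) (u x : ℕ) : dig 1 S (nu S u x) = u * dig 1 S x % S := by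
  unfold nu mulD
  rw [dig_setDig_low (by simp), dig_setDig one_pos hS]

theorem dig_nu_high (hS : 0 < S) (u x : ℕ) : dig S S (nu S u x) = u * dig S S x % S := by
  unfold nu mulD
  rw [dig_setDig hS hS, dig_setDig_high one_pos hS (by simp)]

theorem nu_div (hS : 0 < S) (u x : ℕ) : nu S u x / (S * S) = x / (S * S) := by
  unfold nu mulD
  rw [setDig_div hS hS, setDig_div_of_dvd one_pos hS (by simp)]

/-- indices agree iff the two low digits and the rest agree -/
theorem dig2_ext (hS : 0 < S) {x x' : ℕ} (h1 : x / (S * S) = x' / (S * S))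
    (h2 : dig S S x = dig S S x') (h3 : dig 1 S x = dig 1 S x') : x = x' := by
  apply dig_ext hS hS h1 h2
  rwa [dig_one, dig_one] at h3

theorem nu_one (hS : 0 < S) (x : ℕ) : nu S 1 x = x := by
  apply dig2_ext hS
  · exact nu_div hS _ _
  · rw [dig_nu_high hS, one_mul, Nat.mod_eq_of_lt (dig_lt hS x)]
  · rw [dig_nu_low hS, one_mul, Nat.mod_eq_of_lt (dig_lt hS x)]

theorem nu_mul (hS : 0 < S) (u u' x : ℕ) : nu S (u * u') x = nu S u (nu S u' x) := by
  apply dig2_ext hS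
  · rw [nu_div hS, nu_div hS, nu_div hS]
  · rw [dig_nu_high hS, dig_nu_high hS, dig_nu_high hS, Nat.mul_mod_mod, mul_assoc]
  · rw [dig_nu_low hS, dig_nu_low hS, dig_nu_low hS, Nat.mul_mod_mod, mul_assoc]

theorem nu_mod (u x : ℕ) : nu S (u % S) x = nu S u x := by
  have h : ∀ a y : ℕ, mulD a S (u % S) y = mulD a S u y := by
    intro a y
    unfold mulD
    exact setDig_congr ((Nat.mod_modEq u S).mul_right _) y
  unfold nu
  rw [h, h]

theorem nu_ins (hS : 0 < S) (hσ : 0 < σ) (h : S * S ∣ σ) (u j x : ℕ) :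
    nu S u (ins σ r j x) = ins σ r j (nu S u x) := by
  have h1 : 1 * S ∣ σ := by
    rw [one_mul]; exact (Dvd.intro _ rfl : S ∣ S * S).trans h
  unfold nu mulD
  rw [dig_ins_low h1, setDig_ins_low one_pos hS hσ h1, dig_ins_low h, setDig_ins_low hS hS hσ h]

theorem nu_lt (hS : 0 < S) {N x : ℕ} (h : S * S ∣ N) (hx : x < N) (u : ℕ) : nu S u x < N := by
  have h1 : 1 * S ∣ N := by
    rw [one_mul]; exact (Dvd.intro _ rfl : S ∣ S * S).trans h
  unfold nu mulD
  exact setDig_lt hS hS h (setDig_lt one_pos hS h1 hx _) _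

theorem dig_shf_low (hS : 0 < S) (t : ℕ × ℕ) (x : ℕ) :
    dig 1 S (shf S t x) = (dig 1 S x + t.2) % S := by
  unfold shf rotD
  rw [dig_setDig_low (by simp), dig_setDig one_pos hS]

theorem dig_shf_high (hS : 0 < S) (t : ℕ × ℕ) (x : ℕ) :
    dig S S (shf S t x) = (dig S S x + t.1) % S := by
  unfold shf rotD
  rw [dig_setDig hS hS, dig_setDig_high one_pos hS (by simp)]

theorem shf_div (hS : 0 < S) (t : ℕ × ℕ) (x : ℕ) : shf S t x / (S * S) = x / (S * S) := by
  unfold shf rotD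
  rw [setDig_div hS hS, setDig_div_of_dvd one_pos hS (by simp)]

end Crest.Agent.R326
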