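import Crest.Agent.R326.Moduli

/-!
# Row 326, error analysis (task R326-Err)

PLAN.  `bal_ιL`: `ZMod.valMinAbs_spec`/`ZMod.valMinAbs_natCast…` with `md_eq`.
`Rep.mul`: `‖X‖ ≤ 2^(f+β) + 2^β ≤ 2^(f+β+1)`, so `mulR f p (ιL X) (ιL Y) = ιL (mulZ f X Y)`;
`‖mulZ f X Y - X Y / 2^f‖ ≤ 4` (each `tdiv` errs by less than one);
`X Y / 2^f - 2^f x y = (X - 2^f x) Y / 2^f + x (Y - 2^f y)` has norm `≤ 3 * 2^(β+β')`.
`Rep.core`: induction on the list of units, `‖1 ± I‖ ≤ 2` (`Tm_map` for `ιL` and for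
`GaussianInt.toComplex`, the error is `Tm` of the errors).  `Rep.layer`: the table has
`Rep f (b d + 1)` (`apx_spec`, `ok_coefs`; `coefs` only depends on `x % S²`: `dig_mod`).
-/

set_option autoImplicit false

namespace Crest.Agent.R326

theorem err_valMinAbs {p e : ℕ} {z : ℤ} (hz : |(z : ℝ)| ≤ 2 ^ e) (hp : e + 2 ≤ p) :
    ((z : ZMod (md p))).valMinAbs = z := by
  have h1 : |z| ≤ 2 ^ e := by exact_mod_cast hz
  have h2 : (md p : ℤ) + 1 = 2 ^ p := by exact_mod_cast md_eq (p := p) (by omega)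
  have h3 : (2 : ℤ) ^ (e + 2) ≤ 2 ^ p := pow_le_pow_right₀ (by norm_num) hp
  have h4 : (0 : ℤ) < 2 ^ e := by positivity
  rw [pow_add] at h3
  obtain ⟨h5, h6⟩ := abs_le.1 h1
  exact (ZMod.valMinAbs_spec _ _).2 ⟨rfl, by omega, by omega⟩

theorem err_tdiv (a : ℤ) (f : ℕ) : |((a.tdiv (2 ^ f) : ℤ) : ℝ) - a / 2 ^ f| ≤ 1 := by
  have h0 : (0 : ℤ) < 2 ^ f := by positivity
  have h1 := Int.mul_tdiv_add_tmod a (2 ^ f)
  have h2 := Int.tmod_lt_of_pos a h0
  have h3 := Int.lt_tmod_of_pos a h0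
  have h1' : (2 : ℝ) ^ f * (a.tdiv (2 ^ f) : ℤ) + (a.tmod (2 ^ f) : ℤ) = a := by exact_mod_cast h1
  have h2' : ((a.tmod (2 ^ f) : ℤ) : ℝ) < 2 ^ f := by exact_mod_cast h2
  have h3' : -(2 : ℝ) ^ f < (a.tmod (2 ^ f) : ℤ) := by exact_mod_cast h3
  have h4 : (0 : ℝ) < 2 ^ f := by positivity
  have e : ((a.tdiv (2 ^ f) : ℤ) : ℝ) - a / 2 ^ f = -(a.tmod (2 ^ f) : ℤ) / 2 ^ f := by
    field_simp
    linarith
  rw [e, abs_div, abs_of_pos h4, div_le_one h4, abs_le]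
  constructor <;> linarith

theorem err_mulZ (f : ℕ) (X Y : GaussianInt) :
    ‖(mulZ f X Y : ℂ) - (X : ℂ) * Y / 2 ^ f‖ ≤ 4 := by
  have e : ((2 : ℂ) ^ f) = ((2 ^ f : ℝ) : ℂ) := by push_cast; rfl
  refine (Complex.norm_le_abs_re_add_abs_im _).trans ?_
  rw [e, Complex.sub_re, Complex.sub_im, Complex.div_ofReal_re, Complex.div_ofReal_im,
    Complex.mul_re, Complex.mul_im, mulZ, GaussianInt.re_toComplex, GaussianInt.im_toComplex]
  simp only [← GaussianInt.intCast_re, ← GaussianInt.intCast_im]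
  have h1 := abs_le.1 (err_tdiv (X.re * Y.re) f)
  have h2 := abs_le.1 (err_tdiv (X.im * Y.im) f)
  have h3 := abs_le.1 (err_tdiv (X.re * Y.im) f)
  have h4 := abs_le.1 (err_tdiv (X.im * Y.re) f)
  rw [Int.cast_mul] at h1 h2 h3 h4
  rw [Int.cast_sub, Int.cast_add, sub_div, add_div]
  have a1 := abs_le.2 (show -2 ≤ (((X.re * Y.re).tdiv (2 ^ f) : ℤ) : ℝ) -
    ((X.im * Y.im).tdiv (2 ^ f) : ℤ) - (X.re * Y.re / 2 ^ f - X.im * Y.im / 2 ^ f) ∧ _ ≤ 2 from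
    ⟨by linarith [h1.1, h2.2], by linarith [h1.2, h2.1]⟩)
  have a2 := abs_le.2 (show -2 ≤ (((X.re * Y.im).tdiv (2 ^ f) : ℤ) : ℝ) +
    ((X.im * Y.re).tdiv (2 ^ f) : ℤ) - (X.re * Y.im / 2 ^ f + X.im * Y.re / 2 ^ f) ∧ _ ≤ 2 from
    ⟨by linarith [h3.1, h4.1], by linarith [h3.2, h4.2]⟩)
  linarith

theorem err_norm {f β : ℕ} {X x : ℂ} (h1 : ‖x‖ ≤ 2 ^ β) (h2 : ‖X - 2 ^ f * x‖ ≤ 2 ^ β) :
    ‖X‖ ≤ 2 ^ (f + β + 1) := by
  have h3 : ‖X‖ ≤ ‖X - 2 ^ f * x‖ + ‖2 ^ f * x‖ := by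
    simpa using norm_add_le (X - 2 ^ f * x) (2 ^ f * x)
  rw [norm_mul, norm_pow, Complex.norm_two] at h3
  have h4 : (1 : ℝ) ≤ 2 ^ f := one_le_pow₀ (by norm_num)
  have h5 : (0 : ℝ) < 2 ^ β := by positivity
  rw [pow_succ, pow_add]
  nlinarith

theorem bal_ιL {p : ℕ} {X : GaussianInt} {e : ℕ} (hX : ‖(X : ℂ)‖ ≤ 2 ^ e) (hp : e + 2 ≤ p) :
    bal p (ιL X) = X := by
  have h1 := (Complex.abs_re_le_norm _).trans hX
  have h2 := (Complex.abs_im_le_norm _).trans hX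
  rw [← GaussianInt.intCast_re] at h1
  rw [← GaussianInt.intCast_im] at h2
  rw [bal, ιL_re, ιL_im, err_valMinAbs h1 hp, err_valMinAbs h2 hp]

variable {f β β' p : ℕ} {v w : ℕ → LL} {x z : ℕ → ℂ}

theorem Rep.mono (h : Rep f β v x) (hβ : β ≤ β') : Rep f β' v x := by
  obtain ⟨X, hX⟩ := h
  have : (2 : ℝ) ^ β ≤ 2 ^ β' := pow_le_pow_right₀ (by norm_num) hβ
  exact ⟨X, fun n => ⟨(hX n).1, (hX n).2.1.trans this, (hX n).2.2.trans this⟩⟩

theorem Rep.comp (h : Rep f β v x) (π : ℕ → ℕ) :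
    Rep f β (fun n => v (π n)) (fun n => x (π n)) := by
  obtain ⟨X, hX⟩ := h
  exact ⟨fun n => X (π n), fun n => hX (π n)⟩

theorem Rep.ofNat {a : ℕ → ℕ} (h : ∀ n, a n ≤ 2 ^ β) :
    Rep f β (fun n => ((2 ^ f * a n : ℕ) : LL)) (fun n => (a n : ℂ)) := by
  refine ⟨fun n => ((2 ^ f * a n : ℕ) : GaussianInt), fun n => ⟨(map_natCast ιL _).symm, ?_, ?_⟩⟩
  · rw [Complex.norm_natCast]
    exact_mod_cast h n
  · rw [map_natCast]
    simp

theorem Rep.mul (h : Rep f β v x) (h' : Rep f β' w z) (hp : f + β + 3 ≤ p) (hp' : f + β' + 3 ≤ p) :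
    Rep f (β + β' + 3) (fun n => mulR f p (v n) (w n)) (fun n => x n * z n) := by
  obtain ⟨X, hX⟩ := h
  obtain ⟨Y, hY⟩ := h'
  refine ⟨fun n => mulZ f (X n) (Y n), fun n => ?_⟩
  obtain ⟨a1, a2, a3⟩ := hX n
  obtain ⟨b1, b2, b3⟩ := hY n
  have a4 := err_norm a2 a3
  have b4 := err_norm b2 b3
  have c1 : (1 : ℝ) ≤ 2 ^ β * 2 ^ β' := by
    rw [← pow_add]; exact one_le_pow₀ (by norm_num)
  have c2 : (2 : ℝ) ^ (β + β' + 3) = 8 * (2 ^ β * 2 ^ β') := by ring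
  refine ⟨by simp only [mulR]; rw [a1, b1, bal_ιL a4 (by omega), bal_ιL b4 (by omega)], ?_, ?_⟩
  · rw [norm_mul, c2]
    have := mul_le_mul a2 b2 (norm_nonneg _) (by positivity)
    linarith
  · have h0 : (2 : ℂ) ^ f ≠ 0 := pow_ne_zero _ two_ne_zero
    have e : (mulZ f (X n) (Y n) : ℂ) - 2 ^ f * (x n * z n) =
        ((mulZ f (X n) (Y n) : ℂ) - (X n : ℂ) * Y n / 2 ^ f) +
          ((X n - 2 ^ f * x n) * (Y n / 2 ^ f) + x n * (Y n - 2 ^ f * z n)) := by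
      field_simp
      ring
    have d1 : ‖(Y n : ℂ) / 2 ^ f‖ ≤ 2 * 2 ^ β' := by
      rw [norm_div, norm_pow, Complex.norm_two, div_le_iff₀ (by positivity)]
      refine b4.trans (le_of_eq ?_)
      ring
    rw [e, c2]
    refine (norm_add_le _ _).trans ((add_le_add (err_mulZ _ _ _) (norm_add_le _ _)).trans ?_)
    rw [norm_mul, norm_mul]
    have d2 := mul_le_mul a3 d1 (norm_nonneg _) (by positivity)
    have d3 := mul_le_mul a2 b3 (norm_nonneg _) (by positivity)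
    linarith

theorem Rep.tm (h : Rep f β v x) (S : ℕ) (us : List ℕ) :
    Rep f (β + 2 * us.length) (Tm S (1 + ii) (1 - ii) us v)
      (Tm S (1 + Complex.I) (1 - Complex.I) us x) := by
  induction us with
  | nil => exact h
  | cons u us ih =>
    obtain ⟨X, hX⟩ := ih
    have n1 : ‖1 + Complex.I‖ ≤ 2 := (norm_add_le _ _).trans (by norm_num)
    have n2 : ‖1 - Complex.I‖ ≤ 2 := (norm_sub_le _ _).trans (by norm_num)
    have key : ∀ (a b : ℂ) (B : ℝ), ‖a‖ ≤ B → ‖b‖ ≤ B →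
        ‖(1 + Complex.I) * a + (1 - Complex.I) * b‖ ≤ B * 2 ^ 2 := by
      intro a b B ha hb
      refine (norm_add_le _ _).trans ?_
      rw [norm_mul, norm_mul]
      have := mul_le_mul n1 ha (norm_nonneg _) (by norm_num)
      have := mul_le_mul n2 hb (norm_nonneg _) (by norm_num)
      linarith
    have e : β + 2 * (u :: us).length = β + 2 * us.length + 2 := by
      rw [List.length_cons]; ring
    refine ⟨fun n => (1 + ⟨0, 1⟩) * X n + (1 - ⟨0, 1⟩) * X (nu S u n), fun n => ?_⟩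
    obtain ⟨a1, a2, a3⟩ := hX n
    obtain ⟨b1, b2, b3⟩ := hX (nu S u n)
    rw [Tm_cons, Tm_cons, e, pow_add _ _ 2]
    refine ⟨by rw [a1, b1, map_add, map_mul, map_mul, map_add, map_sub, map_one, ιL_I],
      key _ _ _ a2 b2, le_of_eq_of_le ?_ (key _ _ _ a3 b3)⟩
    congr 1
    simp only [map_add, map_mul, map_sub, map_one, GaussianInt.toComplex_def']
    push_cast
    ring

theorem Rep.core (h : Rep f β v x) (S : ℕ) (us : List ℕ) (τ : ℕ × ℕ) :
    Rep f (β + 2 * us.length) (core S ii us τ v) (core S Complex.I us τ x) := by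
  exact ((h.comp (shf S τ)).tm S us).comp (shf S (S - τ.1, S - τ.2))

theorem rep_tbl (y f : ℕ) (inv : Bool) (j : ℕ) :
    Rep f (bY y * (moduli y).length + 1) (fun x => tbl y f inv j (x % (SS y * SS y)))
      (fun x => ((coefs y inv j x).map Coef.val).prod) := by
  have e : ∀ x, coefs y inv j (x % (SS y * SS y)) = coefs y inv j x := fun x => by
    simp only [coefs]
    rw [dig_mod dvd_rfl, dig_mod (by simp)]
  refine ⟨fun x => ⟨(apx f (bY y) (coefs y inv j x)).1, (apx f (bY y) (coefs y inv j x)).2⟩,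
    fun x => ⟨by simp only [tbl, e], ?_, (apx_spec _ _ _ (ok_coefs y inv j x)).trans ?_⟩⟩
  · have key : ∀ l : List Coef, (∀ c ∈ l, Coef.Ok (2 ^ bY y) c) →
        ‖(l.map Coef.val).prod‖ ≤ 2 ^ (bY y * l.length) := by
      intro l
      induction l with
      | nil => simp
      | cons c l ih =>
        intro h
        rw [List.map_cons, List.prod_cons, norm_mul, List.length_cons, mul_add, mul_one, pow_add,
          mul_comm]
        refine mul_le_mul (ih fun c' hc' => h c' (List.mem_cons_of_mem _ hc')) ?_ (norm_nonneg _)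
          (by positivity)
        exact_mod_cast (h c List.mem_cons_self).1
    refine (key _ (ok_coefs y inv j x)).trans (pow_le_pow_right₀ (by norm_num) ?_)
    simp [coefs]
  · exact le_self_pow₀ (by norm_num) (by omega)

theorem Rep.layer {y : ℕ} (h : Rep f β v x) (hp : f + β + dlt y + 3 ≤ p) (inv : Bool) (j : ℕ) :
    Rep f (β + dlt y) (layL y f p inv v j) (layC y inv x j) := by
  have e : β + dlt y = β + 2 * (unitsY y).length + (bY y * (moduli y).length + 1) + 3 := by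
    rw [length_unitsY, dlt]; ring
  rw [e]
  exact (h.core (SS y) (unitsY y) (tauY y inv j)).mul (rep_tbl y f inv j) (by omega) (by omega)

theorem Rep.phi {y : ℕ} (h : Rep f β v x) (hp : f + β + KK y * dlt y + 3 ≤ p) (inv : Bool) :
    Rep f (β + KK y * dlt y) (PhiL y f p inv v) (PhiC y inv x) := by
  unfold PhiL PhiC
  generalize KK y = k at hp ⊢
  induction k with
  | zero => simpa using h
  | succ k ih =>
    rw [Nat.succ_mul] at hp
    rw [List.range_succ, List.foldl_append, List.foldl_append, Nat.succ_mul, ← add_assoc]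
    exact (ih (by omega)).layer (by omega) inv k

theorem Rep.fwd {y : ℕ} (h : Rep f β v x) (hp : f + β + 3 * (KK y * dlt y) + 3 ≤ p) (inv : Bool) :
    Rep f (β + 3 * (KK y * dlt y)) (fwd (SS y) (PhiL y f p inv) v) (fwd (SS y) (PhiC y inv) x) := by
  have h1 := ((h.phi (p := p) (y := y) (by omega) inv).comp (swp 1 (SS y) (SS y))).phi (p := p)
    (y := y) (by omega) inv
  have h2 := (h1.comp (swp 1 (SS y * SS y) (SS y))).phi (p := p) (y := y) (by omega) inv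
  exact h2.mono (by omega)

theorem Rep.bwd {y : ℕ} (h : Rep f β v x) (hp : f + β + 3 * (KK y * dlt y) + 3 ≤ p) (inv : Bool) :
    Rep f (β + 3 * (KK y * dlt y)) (bwd (SS y) (PhiL y f p inv) v) (bwd (SS y) (PhiC y inv) x) := by
  have h1 := ((h.phi (p := p) (y := y) (by omega) inv).comp (swp 1 (SS y * SS y) (SS y))).phi
    (p := p) (y := y) (by omega) inv
  have h2 := (h1.comp (swp 1 (SS y) (SS y))).phi (p := p) (y := y) (by omega) inv
  exact h2.mono (by omega)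

/-- final rounding -/
theorem Rep.round {a : ℕ → ℕ} (h : Rep f β v (fun n => (a n : ℂ))) (hf : β + 2 ≤ f)
    (hp : f + β + 3 ≤ p) (n : ℕ) :
    a n < 2 ^ (p - f) ∧ ((v n + 2 ^ (f - 1)).re p).val / 2 ^ f = a n := by
  obtain ⟨X, hX⟩ := h
  obtain ⟨a1, a2, a3⟩ := hX n
  rw [Complex.norm_natCast] at a2
  have a4 : a n ≤ 2 ^ β := by exact_mod_cast a2
  refine ⟨a4.trans_lt (Nat.pow_lt_pow_right (by norm_num) (by omega)), ?_⟩
  have a5 : |((X n).re : ℝ) - 2 ^ f * a n| ≤ 2 ^ β := by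
    refine le_of_eq_of_le ?_ ((Complex.abs_re_le_norm _).trans a3)
    have e : ((2 : ℂ) ^ f * (a n : ℂ)) = ((2 ^ f * a n : ℝ) : ℂ) := by push_cast; rfl
    rw [e, Complex.sub_re, Complex.ofReal_re, GaussianInt.intCast_re]
  have a6 : |(X n).re - 2 ^ f * (a n : ℤ)| ≤ 2 ^ β := by exact_mod_cast a5
  obtain ⟨g, rfl⟩ : ∃ g, f = g + 2 := ⟨f - 2, by omega⟩
  have b1 : (2 : ℤ) ^ β ≤ 2 ^ g := pow_le_pow_right₀ (by norm_num) (by omega)
  have b2 : (0 : ℤ) < 2 ^ β := by positivity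
  have b3 : (md p : ℤ) + 1 = 2 ^ p := by exact_mod_cast md_eq (p := p) (by omega)
  have b4 : (2 : ℤ) ^ (g + β + 5) ≤ 2 ^ p := pow_le_pow_right₀ (by norm_num) (by omega)
  have b5 : (a n : ℤ) ≤ 2 ^ β := by exact_mod_cast a4
  have b6 : (2 : ℤ) ^ g * a n ≤ 2 ^ g * 2 ^ β := mul_le_mul_of_nonneg_left b5 (by positivity)
  have b7 : (2 : ℤ) ^ g * 1 ≤ 2 ^ g * 2 ^ β := mul_le_mul_of_nonneg_left b2 (by positivity)
  have b8 : (0 : ℤ) ≤ 2 ^ g * a n := by positivity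
  obtain ⟨c1, c2⟩ := abs_le.1 a6
  have e1 : v n + 2 ^ (g + 2 - 1) = ιL (X n + ((2 ^ (g + 1) : ℕ) : GaussianInt)) := by
    rw [a1, map_add, map_natCast]
    push_cast
    rfl
  rw [e1, ιL_re, Zsqrtd.re_add, Zsqrtd.re_natCast]
  have e2 : (2 : ℤ) ^ (g + 2) * a n = 4 * (2 ^ g * a n) := by ring
  have e3 : (2 : ℤ) ^ (g + β + 5) = 32 * (2 ^ g * 2 ^ β) := by ring
  have e4 : ((2 ^ (g + 1) : ℕ) : ℤ) = 2 * 2 ^ g := by push_cast; ring
  rw [e2] at c1 c2
  rw [e3] at b4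
  rw [e4]
  obtain ⟨m, hm⟩ := Int.eq_ofNat_of_zero_le (show 0 ≤ (X n).re + 2 * 2 ^ g by omega)
  rw [hm, Int.cast_natCast, ZMod.val_natCast_of_lt (by zify; omega)]
  have e5 : ((2 ^ (g + 2) : ℕ) : ℤ) = 4 * 2 ^ g := by push_cast; ring
  refine Nat.div_eq_of_lt_le ?_ ?_
  · zify
    rw [mul_comm, e2]
    omega
  · zify
    rw [add_mul, mul_comm, e2, one_mul, pow_add]
    omega

end Crest.Agent.R326
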