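import Crest.Agent.R326.Step
import Crest.Prelude.Def_IntMul

/-!
# Row 326, from `MulT` to the machine model (task R326-Final)

PLAN.  Code the input symbols by two bits `[tag, b]` (as in `PT.computable₂`).  On the coded
string `w` (length `2 N = 4 n`): `chunks 2`, keep the second bit of every chunk (`TC.map`), split
in the middle (`take`/`drop` by `length / 2`), reverse both halves, `mulB`, reverse.  Take as
precondition on `w` that the number of chunks is even.  `bitsVal x = ofBits x.reverse`,
`toBits k z = (bitsN k z).reverse`.  Apply `Raw.computable` with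
`t N = N / 2 * ν (N / 2) + 8 N + 1` (`sz_bits_le`) and weaken the bound.
-/

set_option autoImplicit false

namespace Crest.Agent.R326

open Crest.Agent.PTime Crest.LogicCS.IntMul Crest.DTime

theorem timeBound_mono {α β Γα Γβ : Type} {ea : α → List Γα} {eb : β → List Γβ} {f : α → β}
    {t t' : ℕ → ℕ} (h : TimeBoundComputable ea eb f t) (h' : ∀ n, t n ≤ t' n) :
    TimeBoundComputable ea eb f t' := by
  obtain ⟨M, hM⟩ := h
  exact ⟨M, fun n => (hM n).trans (h' n)⟩

theorem Fin.chunks_code {Γ : Type} (code : Γ → List Bool) (v : Γ → Bool)
    (h : ∀ g, ∃ t, code g = [t, v g]) (l : List Γ) :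
    (chunks 2 (l.flatMap code)).map (fun m => m.getLastD false) = l.map v := by
  induction l with
  | nil => simp [ListsA.chunks_nil]
  | cons g l ih =>
    obtain ⟨t, ht⟩ := h g
    rw [List.flatMap_cons, ht, ListsA.chunks_ne (by norm_num) (by simp)]
    simpa using ih

theorem Fin.bitsVal_eq (x : List Bool) : bitsVal x = ofBits x.reverse := by
  induction x using List.reverseRecOn with
  | nil => rfl
  | append_singleton l b ih =>
    rw [bitsVal, List.foldl_append, List.reverse_append, List.reverse_singleton,
      List.singleton_append, ofBits_cons, ← ih]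
    cases b <;> rfl

/-- the second bits of the coded symbols -/
def Fin.un (w : List Bool) : List Bool := (chunks 2 w).map fun m => m.getLastD false

/-- the two factors, least significant bit first -/
def Fin.sp (w : List Bool) : List Bool × List Bool :=
  (((Fin.un w).take ((Fin.un w).length / 2)).reverse, ((Fin.un w).drop ((Fin.un w).length / 2)).reverse)

theorem Fin.lin_sp : Lin Fin.sp := by
  have h1 : Lin Fin.un :=
    TC.map (TC.getLastD TC.id (TC.const false)) (TC.chunks (TU.const 2) TC.id fun _ _ => by norm_num)
  have h2 : TU (fun _ : List Bool => True) (fun _ => 0) (fun w => (Fin.un w).length / 2) :=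
    (TU.length h1).div (TU.const 2)
  exact TC.pair (TC.take h2 h1).reverse (TC.drop h2 h1).reverse

theorem computable_of_mulT {ν : ℕ → ℕ} (h : MulT ν) : ∃ K : ℕ,
    TimeBoundComputable EqLenPair.enc (Computability.encodingList Bool).encode mulOutput
      (fun N => K * (N / 2 * ν (N / 2) + N + 1)) := by
  have h1 : TC (fun w => (Fin.sp w).1.length = (Fin.sp w).2.length)
      (fun w => (Fin.sp w).1.length * ν (Fin.sp w).1.length) (fun w => (mulB (Fin.sp w)).reverse) :=
    (TC.comp' h (TC.of_lin Fin.lin_sp) (fun _ hw => hw) Bd.self).reverse
  obtain ⟨K, hK⟩ := Raw.computable EqLenPair.enc (Computability.encodingList Bool).encode mulOutput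
    (Sum.elim (fun b => [false, b]) (fun b => [true, b])) 2 (by rintro (_ | _) <;> rfl) h1
    (fun N => N / 2 * ν (N / 2) + 8 * N + 1) (by
      rintro ⟨⟨x, y⟩, hxy⟩
      simp only at hxy
      have e0 : EqLenPair.enc ⟨(x, y), hxy⟩ = x.map Sum.inl ++ y.map Sum.inr := by
        simp [EqLenPair.enc, Crest.Complexity.pairEnc, Computability.encodingProd,
          Computability.encodingList]
      have e1 : Fin.un ((EqLenPair.enc ⟨(x, y), hxy⟩).flatMap
          (Sum.elim (fun b => [false, b]) (fun b => [true, b]))) = x ++ y := by
        rw [Fin.un, Fin.chunks_code _ (Sum.elim id id) (by rintro (_ | _) <;> exact ⟨_, rfl⟩), e0]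
        simp [Function.comp_def]
      have e2 : (x ++ y).length / 2 = x.length := by
        rw [List.length_append]
        omega
      have e3 : Fin.sp ((EqLenPair.enc ⟨(x, y), hxy⟩).flatMap
          (Sum.elim (fun b => [false, b]) (fun b => [true, b]))) = (x.reverse, y.reverse) := by
        rw [Fin.sp, e1, e2, List.take_left, List.drop_left]
      have e4 : (EqLenPair.enc ⟨(x, y), hxy⟩).length = 2 * x.length := by
        rw [e0]
        simp only [List.length_append, List.length_map]
        omega
      have e5 : ((EqLenPair.enc ⟨(x, y), hxy⟩).flatMap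
          (Sum.elim (fun b => [false, b]) (fun b => [true, b]))).length = 4 * x.length := by
        rw [e0]
        simp only [List.flatMap_append, List.length_append, List.flatMap_map, Sum.elim_inl,
          Sum.elim_inr, List.length_flatMap, List.length_cons, List.length_nil, List.map_const',
          List.sum_replicate, smul_eq_mul]
        omega
      refine ⟨?_, ?_, ?_⟩
      · simp only [e3, List.length_reverse]
        exact hxy
      · simp only [e3, mulB, List.length_reverse, mulOutput, toBits, Fin.bitsVal_eq]
        rfl
      · have := sz_bits_le ((EqLenPair.enc ⟨(x, y), hxy⟩).flatMap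
          (Sum.elim (fun b => [false, b]) (fun b => [true, b])))
        rw [e5] at this
        simp only [e3, List.length_reverse, e4, Nat.mul_div_cancel_left _ two_pos]
        omega)
  refine ⟨10 * K, timeBound_mono hK fun N => ?_⟩
  rw [mul_comm 10 K, mul_assoc]
  exact Nat.mul_le_mul_left _ (by omega)

end Crest.Agent.R326
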