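import Crest.Agent.R326.Unary
import Crest.Agent.R326.Dig

/-!
# Row 326, ghost arrays (task R326-GArr)

`GArr.mk N v` is coded as the list `[v 0, …, v (N-1)]`; the values `v i`, `i ≥ N`, are ghost data.
`TA pre c N v` : the array is computed within the budget.
PLAN.  Pass to lists with `TA.toList` / `TA.ofList` and use `Lists.lean`; prove the list
identities with `List.ext_getElem` (or compare encodings elementwise with `enc_list_congr`).
`pile`: `rows σ`, then `rows r`, `map (getD j)`, `flat`.  `merge`: induction on `r` is awkward;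
instead turn every register into its `σ`-rows, transpose the `r` (constant many) lists of rows by
induction on the list (`zip` + `cons`), flatten twice.
`resize`: branch first on `k = 0` and on `N = 0` (empty output), otherwise `k * sz z` and
`N / d * (k + sz z)` are within the budget.
-/

set_option autoImplicit false

namespace Crest.Agent.R326

open Crest.Agent.PTime

/-- arrays with ghost values beyond the length -/
structure GArr (β : Type*) where
  N : ℕ
  v : ℕ → β

def GArr.toList {β : Type*} (A : GArr β) : List β := (List.range A.N).map A.v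

instance {β : Type*} [Enc β] : Enc (GArr β) := ⟨fun A => enc A.toList⟩

variable {α β γ ε : Type*} [Enc α] [Enc β] [Enc γ] [Enc ε]

theorem enc_list_congr {l : List β} {m : List γ} (h : l.length = m.length)
    (h' : ∀ i (h1 : i < l.length) (h2 : i < m.length), enc l[i] = enc m[i]) : enc l = enc m := by
  induction l generalizing m with
  | nil => cases m with
    | nil => rfl
    | cons b m => simp at h
  | cons a l ih => cases m with
    | nil => simp at h
    | cons b m =>
      rw [enc_cons, enc_cons, ih (by simpa using h) fun i h1 h2 =>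
        h' (i + 1) (Nat.succ_lt_succ h1) (Nat.succ_lt_succ h2)]
      exact congrArg (T.node · _) (h' 0 (Nat.succ_pos _) (Nat.succ_pos _))

theorem enc_arr_congr {N N' : ℕ} {v : ℕ → β} {v' : ℕ → γ} (h : N = N')
    (h' : ∀ i < N, enc (v i) = enc (v' i)) : enc (GArr.mk N v) = enc (GArr.mk N' v') := by
  subst h
  refine enc_list_congr (l := (List.range N).map v) (m := (List.range N).map v') (by simp)
    fun i h1 h2 => ?_
  simpa using h' i (by simpa using h1)

theorem sz_arr (N : ℕ) (v : ℕ → β) :
    sz (GArr.mk N v) = ∑ i ∈ Finset.range N, (sz (v i) + 1) + 1 := by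
  show sz ((List.range N).map v) = _
  induction N with
  | zero => rfl
  | succ N ih =>
    have := sz_append ((List.range N).map v) [v N]
    rw [List.range_succ, List.map_append, Finset.sum_range_succ, List.map_singleton]
    simp only [sz_cons, sz_nil] at this
    omega

theorem le_sz_arr (N : ℕ) (v : ℕ → β) : 2 * N + 1 ≤ sz (GArr.mk N v) := by
  rw [sz_arr]
  have : ∑ _i ∈ Finset.range N, 2 ≤ ∑ i ∈ Finset.range N, (sz (v i) + 1) :=
    Finset.sum_le_sum fun i _ => Nat.succ_le_succ (sz_pos _)
  simp only [Finset.sum_const, Finset.card_range, smul_eq_mul] at this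
  omega

theorem sz_arr_le {N w : ℕ} {v : ℕ → β} (h : ∀ i < N, sz (v i) ≤ w) :
    sz (GArr.mk N v) ≤ N * (w + 1) + 1 := by
  rw [sz_arr]
  have : ∑ i ∈ Finset.range N, (sz (v i) + 1) ≤ ∑ _i ∈ Finset.range N, (w + 1) :=
    Finset.sum_le_sum fun i hi => Nat.succ_le_succ (h i (Finset.mem_range.1 hi))
  simpa using this

theorem sz_arr_ge {N w : ℕ} {v : ℕ → β} (h : ∀ i < N, w ≤ sz (v i)) :
    N * (w + 1) + 1 ≤ sz (GArr.mk N v) := by
  rw [sz_arr]
  have : ∑ _i ∈ Finset.range N, (w + 1) ≤ ∑ i ∈ Finset.range N, (sz (v i) + 1) :=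
    Finset.sum_le_sum fun i hi => Nat.succ_le_succ (h i (Finset.mem_range.1 hi))
  simpa using this

/-- the array is computed within the budget -/
def TA (pre : α → Prop) (c : α → ℕ) (N : α → ℕ) (v : α → ℕ → β) : Prop :=
  TC pre c (fun a => GArr.mk (N a) (v a))

variable {pre : α → Prop} {c : α → ℕ} {N N' n d k : α → ℕ} {v v' : α → ℕ → β}

theorem TA.of_tc {A : α → GArr β} (h : TC pre c A) : TA pre c (fun a => (A a).N) (fun a => (A a).v) := h

theorem TA.toList (h : TA pre c N v) : TC pre c (fun a => (List.range (N a)).map (v a)) :=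
  TC.of_enc h fun _ _ => rfl

namespace GArrA

omit [Enc β] in
theorem sum_range (f : ℕ → ℕ) (n : ℕ) : ((List.range n).map f).sum = ∑ i ∈ Finset.range n, f i := by
  induction n with
  | zero => rfl
  | succ n ih => rw [List.range_succ, List.map_append, List.sum_append, ih, Finset.sum_range_succ]; simp

theorem ofL {l : α → List β} (h : TC pre c l)
    (h1 : ∀ a, pre a → l a = (List.range (N a)).map (v a)) : TA pre c N v :=
  TC.of_enc h fun a ha => by rw [h1 a ha]; rfl

theorem empty (h : ∀ a, pre a → N a = 0) : TA pre c N v :=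
  ofL (TC.const []) fun a ha => by simp [h a ha]

theorem cases {p : α → Prop} (hp : TC pre c p) (h1 : TA (fun a => pre a ∧ p a) c N v)
    (h2 : TA (fun a => pre a ∧ ¬ p a) c N v) : TA pre c N v := by
  classical
  exact (TC.ite' hp h1 h2).congr fun a _ => (ite_self _).symm

omit [Enc β] in
theorem flatten_range (d : ℕ) (w : ℕ → ℕ → β) (n : ℕ) :
    ((List.range n).map fun i => (List.range d).map (w i)).flatten =
      (List.range (n * d)).map fun x => w (x / d) (x % d) := by
  induction n with
  | zero => simp
  | succ n ih =>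
    rw [List.range_succ, List.map_append, List.flatten_append, ih, Nat.succ_mul, List.range_add,
      List.map_append, List.map_map]
    congr 1
    simp only [List.map_cons, List.map_nil, List.flatten_cons, List.flatten_nil, List.append_nil]
    refine List.map_congr_left fun x hx => ?_
    have hx := List.mem_range.1 hx
    rw [Function.comp_apply, add_comm, Nat.add_mul_div_right _ _ (by omega),
      Nat.add_mul_mod_self_right, Nat.div_eq_of_lt hx, Nat.mod_eq_of_lt hx, zero_add]

end GArrA
open GArrA

theorem TA.ofList {l : α → List γ} (h : TC pre c l) (h1 : ∀ a, pre a → (l a).length = N a)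
    (h2 : ∀ a, pre a → ∀ i (hi : i < (l a).length), enc (l a)[i] = enc (v a i)) :
    TA pre c N v := by
  refine TC.of_enc h fun a ha => (enc_list_congr (l := l a) (m := (List.range (N a)).map (v a))
    (by simp [h1 a ha]) fun i k1 k2 => ?_).symm
  simpa using h2 a ha i k1

theorem TA.weaken {pre' : α → Prop} (h : TA pre' c N v) (h1 : ∀ a, pre a → pre' a) :
    TA pre c N v := TC.weaken h h1

theorem TA.of_enc {w : α → ℕ → γ} (h : TA pre c N' w) (h1 : ∀ a, pre a → N a = N' a)
    (h2 : ∀ a, pre a → ∀ i < N a, enc (v a i) = enc (w a i)) : TA pre c N v := by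
  exact TC.of_enc h fun a ha => enc_arr_congr (h1 a ha) (h2 a ha)

theorem TA.congr (h : TA pre c N' v') (h1 : ∀ a, pre a → N a = N' a)
    (h2 : ∀ a, pre a → ∀ i < N a, v a i = v' a i) : TA pre c N v :=
  h.of_enc h1 fun a ha i hi => by rw [h2 a ha i hi]

theorem TA.len (h : TA pre c N v) : TU pre c N := by
  exact (TU.length h.toList).congr fun a _ => by simp

theorem TA.bd (h : TA pre c N v) : Bd pre c N := h.len.bd

theorem TA.bd_sum (h : TA pre c N v) :
    Bd pre c (fun a => ∑ i ∈ Finset.range (N a), sz (v a i)) := by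
  refine (Bd.sz h).mono fun a _ => ?_
  rw [sz_arr]
  exact (Finset.sum_le_sum fun i _ => Nat.le_succ _).trans (Nat.le_succ _)

theorem TA.map' {pre' : β → Prop} {c' : β → ℕ} {f : β → γ} (h : TA pre c N v) (hf : TC pre' c' f)
    (h1 : ∀ a, pre a → ∀ i < N a, pre' (v a i))
    (h2 : Bd pre c (fun a => ∑ i ∈ Finset.range (N a), c' (v a i))) :
    TA pre c N (fun a i => f (v a i)) := by
  refine ofL (TC.map' hf h.toList (fun a ha b hb => ?_) (h2.mono fun a _ => ?_))
    fun a _ => by rw [List.map_map]; rfl
  · obtain ⟨i, hi, rfl⟩ := List.mem_map.1 hb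
    exact h1 a ha i (List.mem_range.1 hi)
  · rw [List.map_map, sum_range]
    rfl

theorem TA.map0 {pre' : β → Prop} {f : β → γ} (h : TA pre c N v) (hf : TC pre' (fun _ => 0) f)
    (h1 : ∀ a, pre a → ∀ i < N a, pre' (v a i)) : TA pre c N (fun a i => f (v a i)) :=
  h.map' hf h1 ((Bd.const 0).mono fun a _ => by simp)

theorem TA.map {f : β → γ} (h : TA pre c N v) (hf : Lin f) : TA pre c N (fun a i => f (v a i)) :=
  h.map0 hf fun _ _ _ _ => trivial

theorem TA.mapEnv {pre' : ε × β → Prop} {c' : ε × β → ℕ} {f : ε → β → γ} {env : α → ε}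
    (h : TA pre c N v) (hf : TC pre' c' (fun x => f x.1 x.2)) (he : TC pre c env)
    (h1 : ∀ a, pre a → ∀ i < N a, pre' (env a, v a i))
    (h2 : Bd pre c (fun a => ∑ i ∈ Finset.range (N a), (c' (env a, v a i) + sz (env a)))) :
    TA pre c N (fun a i => f (env a) (v a i)) := by
  refine ofL (TC.mapEnv hf he h.toList (fun a ha b hb => ?_) (h2.mono fun a _ => ?_))
    fun a _ => by rw [List.map_map]; rfl
  · obtain ⟨i, hi, rfl⟩ := List.mem_map.1 hb
    exact h1 a ha i (List.mem_range.1 hi)
  · rw [List.map_map, sum_range]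
    rfl

theorem TA.zip {w : α → ℕ → γ} (h : TA pre c N v) (h' : TA pre c N w) :
    TA pre c N (fun a i => (v a i, w a i)) := by
  exact ofL (h.toList.zip h'.toList) fun a _ => List.zip_map' 

theorem TA.const {b : α → β} (hn : TU pre c n) (hb : TC pre c b)
    (h : Bd pre c (fun a => n a * sz (b a))) : TA pre c n (fun a _ => b a) := by
  exact ofL (TC.replicate hn hb h) fun a _ => by simp

theorem TA.get (h : TA pre c N v) (hk : TU pre c k) (h1 : ∀ a, pre a → k a < N a) :
    TC pre c (fun a => v a (k a)) := by
  refine (TC.list_cases (f := fun a => v a (k a)) (g := fun _ b _ => b) (TC.drop hk h.toList)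
    (TC.id.of_enc fun a ha => ?_) TC.id.snd.fst).congr fun a ha => ?_
  · have := congrArg List.length ha.2
    have := h1 a ha.1
    simp at *
    omega
  · rw [List.drop_eq_getElem_cons (by simpa using h1 a ha)]
    simp

theorem TA.rows (h : TA pre c N v) (hd : TU pre c d) (h0 : ∀ a, pre a → 0 < d a ∧ d a ∣ N a) :
    TA pre c (fun a => N a / d a) (fun a i => GArr.mk (d a) (fun j => v a (i * d a + j))) := by
  refine TA.ofList (TC.chunks hd h.toList fun a ha => (h0 a ha).1) (fun a ha => ?_)
    fun a ha i hi => ?_
  all_goals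
    obtain ⟨k1, q, k2⟩ := h0 a ha
    have k3 : (N a + d a - 1) / d a = q := by
      rw [k2, show d a * q + d a - 1 = (d a - 1) + d a * q by omega, Nat.add_mul_div_left _ _ k1,
        Nat.div_eq_of_lt (by omega), zero_add]
  · rw [chunks, List.length_map, List.length_range, List.length_map, List.length_range, k3, k2,
      Nat.mul_div_cancel_left _ k1]
  · have k4 : i * d a + d a ≤ N a := by
      rw [chunks, List.length_map, List.length_range, List.length_map, List.length_range, k3] at hi
      rw [k2, mul_comm (d a), ← Nat.succ_mul]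
      exact Nat.mul_le_mul_right _ hi
    show _ = enc ((List.range (d a)).map fun j => v a (i * d a + j))
    congr 1
    simp only [chunks, List.getElem_map, List.getElem_range]
    refine List.ext_getElem (by simp; omega) fun j _ _ => by simp

theorem TA.flat {w : α → ℕ → ℕ → β} (h : TA pre c n (fun a i => GArr.mk (d a) (w a i))) :
    TA pre c (fun a => n a * d a) (fun a x => w a (x / d a) (x % d a)) := by
  have h1 : TC pre c fun a => (List.range (n a)).map fun i => (List.range (d a)).map (w a i) :=
    TC.of_enc h fun a _ => enc_arr_congr (v := fun i => (List.range (d a)).map (w a i)) rfl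
      fun _ _ => rfl
  exact ofL h1.flatten fun a _ => flatten_range _ _ _

theorem TA.rev (h : TA pre c N v) : TA pre c N (fun a i => v a (N a - 1 - i)) := by
  exact ofL h.toList.reverse fun a _ => List.ext_getElem (by simp) fun i _ _ => by simp

theorem TA.rot (h : TA pre c N v) (hk : TU pre c k) :
    TA pre c N (fun a i => v a ((i + k a) % N a)) := by
  refine ofL ((TC.drop (hk.mod h.len) h.toList).append (TC.take (hk.mod h.len) h.toList))
    fun a _ => ?_
  have := List.rotate_eq_drop_append_take_mod (l := (List.range (N a)).map (v a)) (n := k a)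
  rw [List.length_map, List.length_range] at this
  rw [← this]
  exact List.ext_getElem (by simp) fun i _ _ => by simp [List.getElem_rotate]

theorem TA.append (h : TA pre c N v) (h' : TA pre c N' v') :
    TA pre c (fun a => N a + N' a) (fun a i => if i < N a then v a i else v' a (i - N a)) := by
  refine ofL (h.toList.append h'.toList) fun a _ => ?_
  rw [List.range_add, List.map_append, List.map_map]
  congr 1
  · exact List.map_congr_left fun i hi => by rw [if_pos (List.mem_range.1 hi)]
  · exact List.map_congr_left fun i _ => by simp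

theorem TA.take (h : TA pre c N v) (hk : TU pre c k) (h1 : ∀ a, pre a → k a ≤ N a) :
    TA pre c k v := by
  exact ofL (TC.take hk h.toList) fun a ha => by
    rw [← List.map_take, List.take_range, min_eq_left (h1 a ha)]

theorem TA.drop (h : TA pre c N v) (hk : TU pre c k) :
    TA pre c (fun a => N a - k a) (fun a i => v a (k a + i)) := by
  exact ofL (TC.drop hk h.toList) fun a _ => List.ext_getElem (by simp) fun i _ _ => by simp

/-- periodic repetition -/
theorem TA.cyc (h : TA pre c N v) (hn : TU pre c n)
    (hb : Bd pre c (fun a => n a * sz (GArr.mk (N a) (v a)))) :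
    TA pre c (fun a => n a * N a) (fun a x => v a (x % N a)) := by
  exact TA.flat (w := fun a _ => v a) (TA.const hn h hb)

/-- repeat every entry -/
theorem TA.stretch (h : TA pre c N v) (hn : TU pre c n)
    (hb : Bd pre c (fun a => n a * sz (GArr.mk (N a) (v a)))) :
    TA pre c (fun a => N a * n a) (fun a x => v a (x / n a)) := by
  have h1 : TC (fun _ : U × β => True) (fun x => x.1.val * sz x.2)
      fun x => GArr.mk x.1.val fun _ => x.2 := TA.const (TU.val TC.id.fst) TC.id.snd Bd.self
  refine TA.flat (w := fun a i _ => v a i) (h.mapEnv (f := fun u b => GArr.mk u.val fun _ => b) h1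
    hn (fun _ _ _ _ => trivial) (((hb.const_mul 2).add h.bd).mono fun a _ => ?_))
  calc ∑ i ∈ Finset.range (N a), (n a * sz (v a i) + sz (U.mk (n a)))
      ≤ ∑ i ∈ Finset.range (N a), (2 * (n a * (sz (v a i) + 1)) + 1) :=
        Finset.sum_le_sum fun i _ => by rw [sz_U, mul_add]; simp only; omega
    _ ≤ _ := by
      rw [Finset.sum_add_distrib, ← Finset.mul_sum, ← Finset.mul_sum, sz_arr, mul_add]
      simp only [Finset.sum_const, Finset.card_range, smul_eq_mul]
      omega

/-- change the row length from `d` to `k`, cutting or filling with `z` -/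
theorem TA.resize {z : α → β} (h : TA pre c N v) (hd : TU pre c d) (hk : TU pre c k)
    (hz : TC pre c z) (h0 : ∀ a, pre a → 0 < d a ∧ d a ∣ N a)
    (hb : Bd pre c (fun a => N a / d a * k a * sz (z a))) :
    TA pre c (fun a => N a / d a * k a)
      (fun a x => if x % k a < d a then v a (x / k a * d a + x % k a) else z a) := by
  refine GArrA.cases (hk.eq (TU.const 0)) (empty fun a ha => by rw [ha.2, mul_zero]) ?_
  have h1 : TA (fun _ : (U × β) × GArr β => True) (fun x => x.1.1.val * sz x.1.2)
      (fun x => x.1.1.val) fun x i => if i < x.2.N then x.2.v i else x.1.2 :=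
    ((TA.of_tc TC.id.snd).append (TA.const (TU.val TC.id.fst.fst) TC.id.fst.snd Bd.self)).take
      (TU.val TC.id.fst.fst) fun _ _ => Nat.le_add_left _ _
  refine TA.flat (w := fun a i j => if j < d a then v a (i * d a + j) else z a)
    (((h.rows hd h0).weaken fun _ h => h.1).mapEnv
      (f := fun (e : U × β) (A : GArr β) => GArr.mk e.1.val fun i => if i < A.N then A.v i else e.2)
      h1
      ((hk.tc.pair hz).weaken fun _ h => h.1) (fun _ _ _ _ => trivial)
      (((hb.weaken fun _ h => h.1).const_mul 6).mono fun a ha => ?_))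
  have k1 : 0 < k a := Nat.pos_of_ne_zero ha.2
  have k2 := sz_pos (z a)
  have k3 : k a ≤ k a * sz (z a) := Nat.le_mul_of_pos_right _ k2
  have k4 : sz (z a) ≤ k a * sz (z a) := Nat.le_mul_of_pos_left _ k1
  simp only [Finset.sum_const, Finset.card_range, smul_eq_mul, sz_pair, sz_U]
  rw [mul_assoc, mul_left_comm]
  exact Nat.mul_le_mul_left _ (by omega)

/-- the entries whose digit of stride `d` and (constant) radix `r` is `j` -/
theorem TA.pile (r j : ℕ) (hj : j < r) (h : TA pre c N v) (hd : TU pre c d)
    (h0 : ∀ a, pre a → 0 < d a ∧ d a * r ∣ N a) :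
    TA pre c (fun a => N a / r) (fun a x => v a (ins (d a) r j x)) := by
  have h1 := (h.rows hd fun a ha => ⟨(h0 a ha).1, (Dvd.intro _ rfl).trans (h0 a ha).2⟩).rows
    (TU.const r) fun a ha => ⟨by omega, Nat.dvd_div_of_mul_dvd (h0 a ha).2⟩
  have h2 : TC (fun A : GArr (GArr β) => j < A.N) (fun _ => 0) fun A => A.v j :=
    (TA.of_tc TC.id).get (TU.const j) fun _ h => h
  refine (TA.flat (w := fun a i t => v a ((i * r + j) * d a + t))
    (h1.map0 h2 fun _ _ _ _ => hj)).congr (fun a ha => ?_) fun a _ x _ => ?_
  · obtain ⟨k1, q, k2⟩ := h0 a ha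
    rw [k2, Nat.div_div_eq_div_mul, Nat.mul_div_cancel_left _ (Nat.mul_pos k1 (by omega)),
      mul_right_comm, Nat.mul_div_cancel _ (by omega), mul_comm]
  · congr 1
    rw [ins]
    ring

/-- inverse of `pile` -/
theorem TA.merge (r : ℕ) (hr : 0 < r) {w : α → ℕ → ℕ → β}
    (h : TC pre c (fun a => (List.range r).map fun j => GArr.mk (N a) (w a j)))
    (hd : TU pre c d) (h0 : ∀ a, pre a → 0 < d a ∧ d a ∣ N a) :
    TA pre c (fun a => N a * r) (fun a x => w a (dig (d a) r x) (del (d a) r x)) := by
  have h1 : ∀ j < r, TA pre c (fun a => N a / d a)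
      fun a i => GArr.mk (d a) fun t => w a j (i * d a + t) := fun j hj =>
    TA.rows (N := N) (v := fun a => w a j) (TA.get (N := fun _ => r)
      (v := fun a j => GArr.mk (N a) (w a j)) (TC.of_enc h fun _ _ => rfl) (TU.const j)
      fun _ _ => hj) hd h0
  have h2 : ∀ s ≤ r, TA pre c (fun a => N a / d a)
      fun a i => GArr.mk s fun j => GArr.mk (d a) fun t => w a j (i * d a + t) := by
    intro s
    induction s with
    | zero =>
      exact fun _ => ((h1 0 hr).map (TC.const ([] : List Unit))).of_enc (fun _ _ => rfl)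
        fun _ _ _ _ => rfl
    | succ s ih =>
      intro hs
      have h3 : TA (fun _ : GArr (GArr β) × GArr β => True) (fun _ => 0) (fun x => x.1.N + 1)
          fun x i => if i < x.1.N then x.1.v i else x.2 :=
        (TA.of_tc TC.id.fst).append (TA.const (TU.const 1) TC.id.snd
          ((Bd.sz TC.id.snd).const_mul 1))
      refine (((ih (by omega)).zip (h1 s hs)).map h3).of_enc (fun _ _ => rfl) fun a _ i _ =>
        enc_arr_congr rfl fun j hj => ?_
      dsimp only
      split_ifs with h4
      · rfl
      · rw [show j = s by omega]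
  refine (TA.flat (w := fun a x t => w a (x % r) (x / r * d a + t))
    (TA.flat (h2 r le_rfl))).congr (fun a ha => ?_) fun a _ x _ => ?_
  · rw [mul_right_comm, Nat.div_mul_cancel (h0 a ha).2]
  · rw [dig, del, Nat.div_div_eq_div_mul]

end Crest.Agent.R326
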