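import Crest.Agent.R326.Cell

/-!
# Row 326, rounded products of cells (task R326-MulR)

PLAN.  `tc_mulT`: for `r : R0` the balanced residue `(r p).valMinAbs` is negative iff the top bit
of `zb p r` is set (`ZMod.valMinAbs_def_pos`, `md_eq`; treat `p ≤ 1`, where the ring is trivial,
separately or note that everything is `0`), and its absolute value has bits `zb p r` resp. the
complement/negation (`lin_zb_neg`).  Multiply the absolute values with `hν`, drop `f` bits
(`ofBits_drop`; `Int.tdiv` of a product = sign * (product of absolute values / 2^f)), pad to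
`2 p` bits, reduce modulo `2^p - 1` by adding the low and the high half (`tc_zb_add`), negate if
the signs differ.  `tc_mulR` combines four such products with `tc_zb_add`, `lin_zb_neg`.
`pt_cl_ofInt`: `(z : ZMod (md p)).val = (z % md p).toNat` (`ZMod.val_intCast`), bits by
`PT.map_range` and `Nat.testBit_eq_decide_div_mod_eq`.
`mulT_base`: `PT` (ofBits, mul, bits), `TC.ofPT`, `sz_bits_le`.
-/

set_option autoImplicit false

namespace Crest.Agent.R326

open Crest.Agent.PTime

/-- the product of two bit lists (least significant bit first) -/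
def mulB (x : List Bool × List Bool) : List Bool :=
  bitsN (2 * x.1.length) (ofBits x.1 * ofBits x.2)

/-- `n`-bit numbers are multiplied in time `O(n * ν n + n)` -/
def MulT (ν : ℕ → ℕ) : Prop :=
  TC (fun x : List Bool × List Bool => x.1.length = x.2.length)
    (fun x => x.1.length * ν x.1.length) mulB

theorem MulT.mono {ν ν' : ℕ → ℕ} (h : MulT ν) (h' : ∃ K, ∀ n, ν n ≤ K * (ν' n + 1)) : MulT ν' := by
  obtain ⟨K, hK⟩ := h'
  refine TC.mono h (fun _ h => h) ⟨K, fun x _ => ?_⟩
  have h1 : x.1.length ≤ sz x := (length_le_sz _).trans (by rw [sz_prod]; omega)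
  calc x.1.length * ν x.1.length ≤ x.1.length * (K * (ν' x.1.length + 1)) :=
        Nat.mul_le_mul_left _ (hK _)
    _ = K * (x.1.length * ν' x.1.length + x.1.length) := by ring
    _ ≤ _ := Nat.mul_le_mul_left _ (by beta_reduce; omega)

theorem pt_bitsN : PT (fun x : U × ℕ => bitsN x.1.val x.2) := by
  have h : PT (fun x : U × ℕ =>
      (List.range x.1.val).map fun i => decide (x.2 / 2 ^ i % 2 = 1)) := by fun_prop
  exact h.congr fun x => List.map_congr_left fun i _ => Nat.testBit_eq_decide_div_mod_eq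

theorem pt_mulB : PT mulB := by
  exact pt_bitsN.comp (g := fun x : List Bool × List Bool =>
    ((⟨2 * x.1.length⟩ : U), ofBits x.1 * ofBits x.2)) (by fun_prop)

theorem mulT_base : ∃ e : ℕ, MulT (fun n => (n + 1) ^ e) := by
  obtain ⟨e, he⟩ := TC.ofPT pt_mulB
  refine ⟨e, he.mono (fun _ _ => trivial) ⟨8 ^ e + 3 ^ e, fun x hx => ?_⟩⟩
  have h1 := sz_bits_le x.1
  have h2 := sz_bits_le x.2
  have h3 := sz_prod x
  have h4 := sz_pos x
  rcases Nat.eq_zero_or_pos x.1.length with h | h
  · calc sz x ^ e ≤ 3 ^ e := Nat.pow_le_pow_left (by omega) e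
      _ ≤ (8 ^ e + 3 ^ e) * 1 := by rw [mul_one]; exact Nat.le_add_left _ _
      _ ≤ _ := Nat.mul_le_mul_left _ (by omega)
  · calc sz x ^ e ≤ (8 * (x.1.length + 1)) ^ e := Nat.pow_le_pow_left (by omega) e
      _ = 8 ^ e * (1 * (x.1.length + 1) ^ e) := by rw [mul_pow, one_mul]
      _ ≤ _ := Nat.mul_le_mul (Nat.le_add_right _ _) ((Nat.mul_le_mul_right _ h).trans (Nat.le_add_right _ _))

/-- rounded product of Gaussian integers -/
def mulZ (f : ℕ) (X Y : GaussianInt) : GaussianInt :=
  ⟨(X.re * Y.re).tdiv (2 ^ f) - (X.im * Y.im).tdiv (2 ^ f),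
    (X.re * Y.im).tdiv (2 ^ f) + (X.im * Y.re).tdiv (2 ^ f)⟩

/-- the balanced representative of the `p`-th component -/
def bal (p : ℕ) (x : LL) : GaussianInt := ⟨(x.re p).valMinAbs, (x.im p).valMinAbs⟩

/-- rounded product of cells -/
def mulR (f p : ℕ) (x y : LL) : LL := ιL (mulZ f (bal p x) (bal p y))

/-- ghost type: two coordinates of width `p` -/
structure Zb2 where
  f : ℕ
  p : ℕ
  r : R0
  s : R0

instance : Enc Zb2 := ⟨fun z => enc (U.mk z.f, zb z.p z.r, zb z.p z.s)⟩

/-- absolute value of the balanced residue -/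
def mrAbs (l : List Bool) : List Bool := cond (l.getLastD false) (l.map (!·)) l

theorem lin_mrAbs : Lin mrAbs :=
  (TC.getLastD TC.id (TC.const false)).cond (TC.map (f := (!·)) TC.id.bnot TC.id) TC.id

theorem length_mrAbs (l : List Bool) : (mrAbs l).length = l.length := by
  unfold mrAbs
  cases l.getLastD false <;> simp

theorem mr_valMinAbs (p : ℕ) (r : R0) : (r p).valMinAbs =
    cond ((zb p r).getLastD false) (-(ofBits (mrAbs (zb p r)) : ℤ)) (ofBits (mrAbs (zb p r))) := by
  have h1 : ofBits (zb p r) = (r p).val := by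
    rw [zb, ofBits_bitsN, Nat.mod_eq_of_lt ((ZMod.val_lt _).trans_le (CellA.md_le p))]
  have h2 := CellA.length_zb p r
  have h3 := CellA.ofBits_not (zb p r)
  have h4 := ZMod.val_lt (r p)
  rw [ZMod.valMinAbs_def_pos, ← h1, mrAbs]
  rw [← h1] at h4
  generalize zb p r = l at *
  rcases List.eq_nil_or_concat l with rfl | ⟨l, b, rfl⟩
  · simp
  · rw [List.concat_eq_append] at *
    have h5 := ofBits_concat l b
    have h6 := ofBits_lt l
    rw [List.length_append, List.length_singleton] at h2 h3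
    have h7 := md_eq (p := p) (by omega)
    rw [← h2, pow_succ] at h7
    rw [pow_succ] at h3
    rw [List.getLastD_concat, h2] at *
    cases b
    · simp only [Bool.toNat_false, mul_zero, add_zero] at h5
      rw [if_pos (by omega)]
      rfl
    · simp only [Bool.toNat_true, mul_one] at h5
      rw [if_neg (by omega)]
      simp only [cond_true]
      omega

theorem mr_red {α : Type*} [Enc α] {pre : α → Prop} {c p : α → ℕ} {l : α → List Bool}
    (hp : TU pre c p) (hl : TC pre c l) (h : ∀ a, pre a → (l a).length ≤ 2 * p a) :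
    TC pre c fun a => zb (p a) fun q => ((ofBits (l a) : ℕ) : ZMod (md q)) := by
  have h1 := TC.take (hp.const_mul 2) (hl.append (TC.replicate_const false (hp.const_mul 2)))
  refine (tc_zb_add.comp0 ((TC.take hp h1).pair (TC.drop hp h1)) fun a _ => ?_).congr fun a ha => ?_
  · simp only [List.length_take, List.length_drop, List.length_append, List.length_replicate]
    omega
  · have h2 : ofBits (l a) < 2 ^ (2 * p a) :=
      (ofBits_lt _).trans_le (Nat.pow_le_pow_right (by norm_num) (h a ha))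
    simp only [← bitsN_eq_take]
    rw [List.length_take_of_le (by rw [length_bitsN]; omega), ofBits_take, ofBits_drop,
      ofBits_bitsN, Nat.mod_eq_of_lt h2, zb, ← ZMod.val_natCast]
    congr 2
    have h3 := congrArg (Nat.cast : ℕ → ZMod (md (p a))) (Nat.div_add_mod (ofBits (l a)) (2 ^ p a))
    simp only [Nat.cast_add, Nat.cast_mul, Nat.cast_pow, Nat.cast_ofNat, CellA.two_pow,
      one_mul] at h3 ⊢
    rw [← h3, add_comm]

theorem tc_mulT {ν : ℕ → ℕ} (hν : MulT ν) : TC (fun _ : Zb2 => True) (fun z => z.p * ν z.p)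
    (fun z => zb z.p fun q =>
      ((((z.r z.p).valMinAbs * (z.s z.p).valMinAbs).tdiv (2 ^ z.f) : ℤ) : ZMod (md q))) := by
  have h0 : TC (fun _ : Zb2 => True) (fun z => z.p * ν z.p)
      (fun z => (U.mk z.f, zb z.p z.r, zb z.p z.s)) := TC.id.of_enc fun _ _ => rfl
  have hf : TU (fun _ : Zb2 => True) (fun z => z.p * ν z.p) (fun z => z.f) := h0.fst
  have hr := h0.snd.fst
  have hs := h0.snd.snd
  have hp : TU (fun _ : Zb2 => True) (fun z => z.p * ν z.p) (fun z => z.p) :=
    (TU.length hr).congr fun _ _ => (CellA.length_zb _ _).symm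
  have h1 := TC.comp' hν ((lin_mrAbs.comp hr).pair (lin_mrAbs.comp hs))
    (fun z _ => by simp only [length_mrAbs, CellA.length_zb])
    (Bd.self.mono fun z _ => by simp only [length_mrAbs, CellA.length_zb, le_refl])
  have h2 := mr_red hp (TC.drop hf h1) fun z _ => by
    simp only [mulB, List.length_drop, length_bitsN, length_mrAbs, CellA.length_zb]
    omega
  refine (((TC.getLastD hr (TC.const false)).bxor (TC.getLastD hs (TC.const false))).cond
    (CellA.zneg h2) h2).congr fun z _ => ?_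
  have h3 := ofBits_lt (mrAbs (zb z.p z.r))
  have h4 := ofBits_lt (mrAbs (zb z.p z.s))
  rw [length_mrAbs, CellA.length_zb] at h3 h4
  have h5 : ofBits (mrAbs (zb z.p z.r)) * ofBits (mrAbs (zb z.p z.s)) < 2 ^ (2 * z.p) := by
    rw [two_mul, pow_add]
    exact Nat.mul_lt_mul'' h3 h4
  simp only [mulB, ofBits_drop, ofBits_bitsN, length_mrAbs, CellA.length_zb, Nat.mod_eq_of_lt h5]
  rw [mr_valMinAbs, mr_valMinAbs]
  generalize ofBits (mrAbs (zb z.p z.r)) = A
  generalize ofBits (mrAbs (zb z.p z.s)) = B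
  have h6 : ((A : ℤ) * B).tdiv (2 ^ z.f) = ((A * B / 2 ^ z.f : ℕ) : ℤ) := by
    rw [Int.natCast_div, Int.tdiv_eq_ediv_of_nonneg (by positivity)]
    push_cast
    rfl
  cases (zb z.p z.r).getLastD false <;> cases (zb z.p z.s).getLastD false <;>
    simp only [cond_true, cond_false, Bool.xor_false, Bool.xor_true, Bool.not_true, Bool.not_false,
      mul_neg, neg_mul, neg_neg, Int.neg_tdiv, h6, Int.cast_neg, Int.cast_natCast] <;> rfl

theorem tc_mulR {ν : ℕ → ℕ} (hν : MulT ν) :
    TC (fun z : U × Cl × Cl => z.2.1.p = z.2.2.p) (fun z => z.2.1.p * ν z.2.1.p)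
      (fun z => Cl.mk z.2.1.p (mulR z.1.val z.2.1.p z.2.1.x z.2.2.x)) := by
  have key : ∀ {r s : U × Cl × Cl → R0},
      TC (fun z : U × Cl × Cl => z.2.1.p = z.2.2.p) (fun z => z.2.1.p * ν z.2.1.p)
        (fun z => zb z.2.1.p (r z)) →
      TC (fun z : U × Cl × Cl => z.2.1.p = z.2.2.p) (fun z => z.2.1.p * ν z.2.1.p)
        (fun z => zb z.2.2.p (s z)) →
      TC (fun z : U × Cl × Cl => z.2.1.p = z.2.2.p) (fun z => z.2.1.p * ν z.2.1.p)
        (fun z => zb z.2.1.p fun q => ((((r z z.2.1.p).valMinAbs * (s z z.2.1.p).valMinAbs).tdiv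
          (2 ^ z.1.val) : ℤ) : ZMod (md q))) := by
    intro r s hr hs
    refine (tc_mulT hν).comp' (g := fun z : U × Cl × Cl => Zb2.mk z.1.val z.2.1.p (r z) (s z))
      ((TC.id.fst.pair (hr.pair hs)).of_enc fun z hz => ?_) (fun _ _ => trivial) Bd.self
    rw [← hz]
    rfl
  have a1 := CellA.re (pre := fun z : U × Cl × Cl => z.2.1.p = z.2.2.p)
    (c := fun z => z.2.1.p * ν z.2.1.p) TC.id.snd.fst
  have a2 := CellA.im (pre := fun z : U × Cl × Cl => z.2.1.p = z.2.2.p)
    (c := fun z => z.2.1.p * ν z.2.1.p) TC.id.snd.fst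
  have b1 := CellA.re (pre := fun z : U × Cl × Cl => z.2.1.p = z.2.2.p)
    (c := fun z => z.2.1.p * ν z.2.1.p) TC.id.snd.snd
  have b2 := CellA.im (pre := fun z : U × Cl × Cl => z.2.1.p = z.2.2.p)
    (c := fun z => z.2.1.p * ν z.2.1.p) TC.id.snd.snd
  refine CellA.mk (CellA.zadd (key a1 b1) (CellA.zneg (key a2 b2)))
    (CellA.zadd (key a1 b2) (key a2 b1)) fun z _ => ?_
  simp only [mulR, mulZ, bal, ιL_re, ιL_im, Int.cast_add, Pi.add_apply, Pi.neg_apply,
    sub_eq_add_neg, Int.cast_neg, and_self]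

theorem TL.mulR {α : Type*} [Enc α] {pre : α → Prop} {c : α → ℕ} {f p N : α → ℕ}
    {v w : α → ℕ → LL} {ν : ℕ → ℕ} (hν : MulT ν) (h : TL pre c p N v) (h' : TL pre c p N w)
    (hf : TU pre c f) (h0 : ∀ a, pre a → f a ≤ p a)
    (hb : Bd pre c (fun a => N a * p a * ν (p a))) :
    TL pre c p N (fun a i => mulR (f a) (p a) (v a i) (w a i)) := by
  refine TA.mapEnv (f := fun (u : U) (z : Cl × Cl) => Cl.mk z.1.p (R326.mulR u.val z.1.p z.1.x z.2.x))
    (TA.zip h h') (tc_mulR hν) hf (fun _ _ _ _ => rfl) ((hb.add (h.bd.const_mul 2)).mono fun a ha => ?_)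
  have h1 := h0 a ha
  simp only [sz_U, Finset.sum_const, Finset.card_range, smul_eq_mul]
  calc N a * (p a * ν (p a) + (2 * f a + 1)) ≤ N a * (p a * ν (p a) + 2 * (p a + 1)) :=
        Nat.mul_le_mul_left _ (by omega)
    _ = _ := by ring

theorem pt_cl_ofInt : PT (fun x : U × ℤ × ℤ => Cl.mk x.1.val (ιL ⟨x.2.1, x.2.2⟩)) := by
  have h : ∀ {g : U × ℤ × ℤ → ℤ}, PT g →
      PT (fun x => bitsN x.1.val (g x % ((2 ^ x.1.val - 2 + 1 : ℕ) : ℤ)).toNat) := fun {g} hg =>
    pt_bitsN.comp (g := fun x => (x.1, (g x % ((2 ^ x.1.val - 2 + 1 : ℕ) : ℤ)).toNat))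
      (by fun_prop)
  refine ((h (g := fun x => x.2.1) (by fun_prop)).pair (h (g := fun x => x.2.2)
    (by fun_prop))).of_enc fun x => ?_
  have h1 : ∀ z : ℤ, (z : ZMod (md x.1.val)).val = (z % ((2 ^ x.1.val - 2 + 1 : ℕ) : ℤ)).toNat := by
    intro z
    have := ZMod.val_intCast (n := md x.1.val) z
    change _ = (z % (md x.1.val : ℤ)).toNat
    omega
  rw [enc_cl, zb, zb, ιL_re, ιL_im, h1, h1]

end Crest.Agent.R326
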