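import Crest.Agent.R326.Cell
import Crest.Agent.R324.Sym

/-!
# Row 326, the tensor pass and its symbol calculus (task R326-TAlg)

`Tm S α β us = ∏_{u ∈ us} (α + β ν_u)` where `ν_u v = v ∘ nu S u`.
PLAN.  `sym`: in a commutative ring with `2 h = 1`, `i * i = -1` and `g j * g j = 1`, the elements
`e χ = ∏_j h (1 + sgn (χ j) g j)` are orthogonal idempotents with sum `1`
(`Finset.prod_univ_sum`/`Fintype.piFinset`, per coordinate `h(1+g) + h(1-g) = 1`,
`(1+g)(1-g) = 0`), and `(∏_j g j ^ (a j).val) * e χ = sgn (dot a χ) * e χ`.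
`exists_rho`: take `𝔸 = MonoidAlgebra LL (ZMod S)` (commutative), `act = MonoidAlgebra.lift` of the
monoid hom `u ↦ (v ↦ v ∘ nu S u.val)` into `Module.End LL (ℕ → LL)` (`nu_one`, `nu_mul`, `nu_mod`),
`act ((us.map fun u => α + β * of u).prod) v = Tm S α β us v` by induction, and
`ρ σ = act (∏_{j < l} sym h i (fun t => of (us.getD (m j + t) 1)) σ)`.
For the last claim `sym (Σ_t q (single t 1)) = ∏_t (α + β g t)` and
`us = flatten of its l chunks` (`Finset.prod_range` over `l * m`, `Fin.prod_univ…`).
-/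

set_option autoImplicit false

namespace Crest.Agent.R326

open Crest.Agent.R324 (q tau)

/-- the product of the passes `α + β ν_u` -/
def Tm {R : Type*} [CommRing R] (S : ℕ) (α β : R) (us : List ℕ) (v : ℕ → R) : ℕ → R :=
  us.foldr (fun u v x => α * v x + β * v (nu S u x)) v

@[simp] theorem Tm_nil {R : Type*} [CommRing R] (S : ℕ) (α β : R) (v : ℕ → R) :
    Tm S α β [] v = v := rfl

theorem Tm_cons {R : Type*} [CommRing R] (S : ℕ) (α β : R) (u : ℕ) (us : List ℕ) (v : ℕ → R)
    (x : ℕ) : Tm S α β (u :: us) v x =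
      α * Tm S α β us v x + β * Tm S α β us v (nu S u x) := rfl

theorem Tm_map {R R' : Type*} [CommRing R] [CommRing R'] (φ : R →+* R') (S : ℕ) (α β : R)
    (us : List ℕ) (v : ℕ → R) (x : ℕ) :
    φ (Tm S α β us v x) = Tm S (φ α) (φ β) us (fun y => φ (v y)) x := by
  induction us generalizing x with
  | nil => rfl
  | cons u us ih => simp only [Tm_cons, map_add, map_mul, ih]

theorem Tm_smul {R : Type*} [CommRing R] (S : ℕ) (s α β : R) (us : List ℕ) (v : ℕ → R) (x : ℕ) :
    Tm S (s * α) (s * β) us v x = s ^ us.length * Tm S α β us v x := by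
  induction us generalizing x with
  | nil => simp
  | cons u us ih => simp only [Tm_cons, ih, List.length_cons]; ring

theorem Tm_append_ones {R : Type*} [CommRing R] {S : ℕ} (hS : 0 < S) {α β : R} (h : α + β = 1)
    (us : List ℕ) (n : ℕ) (v : ℕ → R) :
    Tm S α β (us ++ List.replicate n (1 % S)) v = Tm S α β us v := by
  have h1 : Tm S α β (List.replicate n (1 % S)) v = v := by
    induction n with
    | zero => rfl
    | succ n ih =>
      funext x
      rw [List.replicate_succ, Tm_cons, ih, nu_mod, nu_one hS, ← add_mul, h, one_mul]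
  have h2 : Tm S α β (us ++ List.replicate n (1 % S)) v =
      Tm S α β us (Tm S α β (List.replicate n (1 % S)) v) := by
    unfold Tm; rw [List.foldr_append]
  rw [h2, h1]

/-- `Tm` only looks inside blocks of `S * S` entries -/
theorem Tm_congr {R : Type*} [CommRing R] {S N : ℕ} (hS : 0 < S) (hN : S * S ∣ N) (α β : R)
    (us : List ℕ) {v w : ℕ → R} (h : ∀ x < N, v x = w x) :
    ∀ x < N, Tm S α β us v x = Tm S α β us w x := by
  induction us with
  | nil => exact h
  | cons u us ih =>
    intro x hx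
    rw [Tm_cons, Tm_cons, ih x hx, ih _ (nu_lt hS hN hx u)]

/-- `Tm` commutes with index maps that commute with all `nu S u` -/
theorem Tm_comp {R : Type*} [CommRing R] {S : ℕ} (α β : R) (us : List ℕ) (v : ℕ → R)
    {π : ℕ → ℕ} (h : ∀ u x, nu S u (π x) = π (nu S u x)) (x : ℕ) :
    Tm S α β us v (π x) = Tm S α β us (fun y => v (π y)) x := by
  induction us generalizing x with
  | nil => rfl
  | cons u us ih => rw [Tm_cons, Tm_cons, ih, h, ih]

/-- `(1 + i) / 2` -/
def al : LL := hf * (1 + ii)
/-- `(1 - i) / 2` -/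
def be : LL := hf * (1 - ii)

theorem al_add_be : al + be = 1 := by
  unfold al be
  linear_combination two_mul_hf

theorem al_mem : al ∈ Sc := by
  exact Sc.mul_mem hf_mem (Sc.add_mem Sc.one_mem ii_mem)

theorem be_mem : be ∈ Sc := by
  exact Sc.mul_mem hf_mem (Sc.sub_mem Sc.one_mem ii_mem)

/-- functional calculus for commuting involutions -/
def sym {A J : Type} [CommRing A] [Fintype J] [DecidableEq J] (h i : A) (g : J → A)
    (σ : (J → ZMod 2) → ZMod 4) : A :=
  ∑ χ : J → ZMod 2, i ^ (σ χ).val * ∏ j, h * (1 + (if χ j = 0 then 1 else -1) * g j)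

section
variable {A J : Type} [CommRing A] [Fintype J] [DecidableEq J] {h i : A} {g : J → A}

/-- the sign of a bit -/
def sgA (A : Type) [CommRing A] (b : ZMod 2) : A := if b = 0 then 1 else -1

/-- the idempotent of a character -/
def idA (h : A) (g : J → A) (χ : J → ZMod 2) : A := ∏ j, h * (1 + sgA A (χ j) * g j)

theorem ta_sym_eq (σ : (J → ZMod 2) → ZMod 4) :
    sym h i g σ = ∑ χ : J → ZMod 2, i ^ (σ χ).val * idA h g χ := rfl

theorem sgA_add (a b : ZMod 2) : sgA A (a + b) = sgA A a * sgA A b := by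
  have h3 : (1 + 1 : ZMod 2) = 0 := by decide
  rcases R324.bit_cases a with rfl | rfl <;> rcases R324.bit_cases b with rfl | rfl <;>
    simp [sgA, h3]

theorem sgA_sum {ι : Type*} (s : Finset ι) (f : ι → ZMod 2) :
    sgA A (∑ t ∈ s, f t) = ∏ t ∈ s, sgA A (f t) := by
  classical
  induction s using Finset.induction_on with
  | empty => simp [sgA]
  | insert a s ha ih => rw [Finset.sum_insert ha, Finset.prod_insert ha, sgA_add, ih]

theorem sum_idA (hh : 2 * h = 1) : ∑ χ : J → ZMod 2, idA h g χ = 1 := by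
  unfold idA
  rw [← Fintype.piFinset_univ, ← Finset.prod_univ_sum (fun _ => Finset.univ)
    (fun j b => h * (1 + sgA A b * g j))]
  refine Finset.prod_eq_one fun j _ => ?_
  have : (Finset.univ : Finset (ZMod 2)) = {0, 1} := by decide
  rw [this, Finset.sum_pair (by decide)]
  simp only [sgA, if_true, if_neg (show (1 : ZMod 2) ≠ 0 by decide)]
  linear_combination hh

omit [DecidableEq J] in
theorem idA_mul_self (hh : 2 * h = 1) (hg : ∀ j, g j * g j = 1) (χ : J → ZMod 2) :
    idA h g χ * idA h g χ = idA h g χ := by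
  unfold idA
  rw [← Finset.prod_mul_distrib]
  refine Finset.prod_congr rfl fun j _ => ?_
  rcases R324.bit_cases (χ j) with e | e <;> rw [e]
  · simp only [sgA, if_true]
    linear_combination (h * (1 + g j)) * hh + h * h * hg j
  · simp only [sgA, if_neg (show (1 : ZMod 2) ≠ 0 by decide)]
    linear_combination (h * (1 - g j)) * hh + h * h * hg j

theorem idA_mul_ne (hg : ∀ j, g j * g j = 1) {χ χ' : J → ZMod 2} (hne : χ ≠ χ') :
    idA h g χ * idA h g χ' = 0 := by
  unfold idA
  rw [← Finset.prod_mul_distrib]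
  obtain ⟨j, hj⟩ := Function.ne_iff.1 hne
  refine Finset.prod_eq_zero (Finset.mem_univ j) ?_
  rcases R324.bit_cases (χ j) with e | e <;> rcases R324.bit_cases (χ' j) with e' | e'
  · exact absurd (e.trans e'.symm) hj
  · rw [e, e']
    simp only [sgA, if_true, if_neg (show (1 : ZMod 2) ≠ 0 by decide)]
    linear_combination (-(h * h)) * hg j
  · rw [e, e']
    simp only [sgA, if_true, if_neg (show (1 : ZMod 2) ≠ 0 by decide)]
    linear_combination (-(h * h)) * hg j
  · exact absurd (e.trans e'.symm) hj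

omit [DecidableEq J] in
theorem prod_mul_idA (hg : ∀ j, g j * g j = 1) (a χ : J → ZMod 2) :
    (∏ j, g j ^ (a j).val) * idA h g χ = sgA A (R324.dot a χ) * idA h g χ := by
  unfold idA R324.dot
  rw [sgA_sum, ← Finset.prod_mul_distrib, ← Finset.prod_mul_distrib]
  refine Finset.prod_congr rfl fun j _ => ?_
  have h1 : (1 : ZMod 2).val = 1 := by decide
  rcases R324.bit_cases (a j) with e | e <;> rw [e]
  · simp [sgA]
  · rw [h1, pow_one, one_mul]
    rcases R324.bit_cases (χ j) with e' | e' <;> rw [e']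
    · simp only [sgA, if_true]
      linear_combination h * hg j
    · simp only [sgA, if_neg (show (1 : ZMod 2) ≠ 0 by decide)]
      linear_combination (-h) * hg j

theorem ta_pow_val_add (hi : i * i = -1) (a b : ZMod 4) :
    i ^ (a + b).val = i ^ a.val * i ^ b.val := by
  have h4 : i ^ 4 = 1 := by linear_combination (i * i - 1) * hi
  rw [ZMod.val_add, ← pow_add]
  conv_rhs => rw [← Nat.div_add_mod (a.val + b.val) 4, pow_add, pow_mul, h4]
  simp

theorem sym_zero (hh : 2 * h = 1) : sym h i g 0 = 1 := by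
  rw [ta_sym_eq]
  simpa using sum_idA (g := g) hh

theorem sym_add (hh : 2 * h = 1) (hi : i * i = -1) (hg : ∀ j, g j * g j = 1)
    (σ σ' : (J → ZMod 2) → ZMod 4) : sym h i g (σ + σ') = sym h i g σ * sym h i g σ' := by
  rw [ta_sym_eq, ta_sym_eq, ta_sym_eq, Finset.sum_mul_sum]
  refine Finset.sum_congr rfl fun χ _ => ?_
  rw [Finset.sum_eq_single χ]
  · rw [Pi.add_apply, ta_pow_val_add hi]
    linear_combination (-(i ^ (σ χ).val * i ^ (σ' χ).val)) * idA_mul_self hh hg χ
  · intro χ' _ hne
    linear_combination (i ^ (σ χ).val * i ^ (σ' χ').val) * idA_mul_ne (h := h) hg hne.symm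
  · simp

theorem sym_q (hh : 2 * h = 1) (hg : ∀ j, g j * g j = 1) (a : J → ZMod 2) :
    sym h i g (q a) = h * (1 + i) + h * (1 - i) * ∏ j, g j ^ (a j).val := by
  have key : ∀ χ : J → ZMod 2, i ^ (q a χ).val * idA h g χ =
      (h * (1 + i) + h * (1 - i) * ∏ j, g j ^ (a j).val) * idA h g χ := by
    intro χ
    rw [add_mul, mul_assoc (h * (1 - i)), prod_mul_idA hg]
    have h1 : (1 : ZMod 4).val = 1 := by decide
    unfold q
    rcases R324.bit_cases (R324.dot a χ) with e | e <;> rw [e]
    · simp only [R324.lift, sgA, if_true, ZMod.val_zero, pow_zero]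
      linear_combination (-idA h g χ) * hh
    · simp only [R324.lift, sgA, if_neg (show (1 : ZMod 2) ≠ 0 by decide), h1, pow_one]
      linear_combination (-(i * idA h g χ)) * hh
  rw [ta_sym_eq, Finset.sum_congr rfl fun χ _ => key χ, ← Finset.mul_sum, sum_idA hh, mul_one]

theorem sym_tau (hh : 2 * h = 1) (hi : i * i = -1) (hg : ∀ j, g j * g j = 1) (a : J → ZMod 2) :
    sym h i g (tau a) = ∏ j, g j ^ (a j).val := by
  have key : ∀ χ : J → ZMod 2, i ^ (tau a χ).val * idA h g χ =
      (∏ j, g j ^ (a j).val) * idA h g χ := by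
    intro χ
    rw [prod_mul_idA hg]
    have h1 : (2 * 1 : ZMod 4).val = 2 := by decide
    unfold tau
    rcases R324.bit_cases (R324.dot a χ) with e | e <;> rw [e]
    · simp [R324.lift, sgA]
    · simp only [R324.lift, sgA, if_neg (show (1 : ZMod 2) ≠ 0 by decide), h1]
      rw [pow_two, hi]
  rw [ta_sym_eq, Finset.sum_congr rfl fun χ _ => key χ, ← Finset.mul_sum, sum_idA hh, mul_one]

end

/-- the units of a recursive call: in every chunk of `m` units multiply those selected by `a` -/
def subU (S m l : ℕ) (us : List ℕ) (a : Fin m → ZMod 2) : List ℕ :=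
  (List.range l).map fun j => (∏ t : Fin m, us.getD (j * m + t) 1 ^ (a t).val) % S

/-- lists of reduced square roots of one -/
def Units2 (S : ℕ) (us : List ℕ) : Prop := ∀ u ∈ us, u < S ∧ u * u ≡ 1 [MOD S]

theorem Units2.ta_getD {S : ℕ} {us : List ℕ} (h : Units2 S us) (n : ℕ) :
    us.getD n 1 * us.getD n 1 ≡ 1 [MOD S] := by
  rcases lt_or_ge n us.length with hn | hn
  · rw [List.getD_eq_getElem _ _ hn]; exact (h _ (List.getElem_mem hn)).2
  · rw [List.getD_eq_default _ _ hn]

theorem Units2.subU {S m l : ℕ} {us : List ℕ} (hS : 0 < S) (h : Units2 S us)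
    (a : Fin m → ZMod 2) : Units2 S (subU S m l us a) := by
  intro u hu
  obtain ⟨j, -, rfl⟩ := List.mem_map.1 hu
  refine ⟨Nat.mod_lt _ hS, ?_⟩
  refine ((Nat.mod_modEq _ _).mul (Nat.mod_modEq _ _)).trans ?_
  rw [← Finset.prod_mul_distrib]
  have : (1 : ℕ) = ∏ _t : Fin m, 1 := by simp
  rw [this]
  refine Nat.ModEq.prod fun t _ => ?_
  rw [← mul_pow]
  simpa using (h.ta_getD (j * m + t)).pow (a t).val

theorem Units2.prod {S : ℕ} {us : List ℕ} (h : Units2 S us) :
    us.prod % S * (us.prod % S) ≡ 1 [MOD S] := by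
  refine ((Nat.mod_modEq _ _).mul (Nat.mod_modEq _ _)).trans ?_
  induction us with
  | nil => simp [Nat.ModEq]
  | cons u us ih =>
    have h1 := (h u (by simp)).2
    have h2 := ih fun w hw => h w (by simp [hw])
    rw [List.prod_cons, mul_mul_mul_comm]
    simpa using h1.mul h2

/-- the index maps as a representation of `ZMod S` -/
noncomputable def nuHom {S : ℕ} (hS : 0 < S) : ZMod S →* Module.End LL (ℕ → LL) where
  toFun u := LinearMap.funLeft LL LL (nu S u.val)
  map_one' := by
    have : NeZero S := ⟨hS.ne'⟩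
    refine LinearMap.ext fun v => funext fun x => ?_
    change v (nu S (1 : ZMod S).val x) = v x
    rw [ZMod.val_one_eq_one_mod, nu_mod, nu_one hS]
  map_mul' u u' := by
    have : NeZero S := ⟨hS.ne'⟩
    refine LinearMap.ext fun v => funext fun x => ?_
    change v (nu S (u * u').val x) = v (nu S u'.val (nu S u.val x))
    rw [ZMod.val_mul, nu_mod, mul_comm, nu_mul hS]

theorem nuHom_cast {S : ℕ} (hS : 0 < S) (u : ℕ) (v : ℕ → LL) (x : ℕ) :
    nuHom hS (u : ZMod S) v x = v (nu S u x) := by
  change v (nu S (u : ZMod S).val x) = _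
  rw [ZMod.val_natCast, nu_mod]

theorem ta_act_prod {S : ℕ} (hS : 0 < S) (us : List ℕ) (v : ℕ → LL) :
    MonoidAlgebra.lift LL (Module.End LL (ℕ → LL)) (ZMod S) (nuHom hS)
      (us.map fun u : ℕ => algebraMap LL (MonoidAlgebra LL (ZMod S)) al +
        algebraMap LL (MonoidAlgebra LL (ZMod S)) be *
          MonoidAlgebra.of LL (ZMod S) (u : ZMod S)).prod v = Tm S al be us v := by
  induction us with
  | nil => simp
  | cons u us ih =>
    funext x
    rw [List.map_cons, List.prod_cons, map_mul, Module.End.mul_apply, ih, Tm_cons, map_add,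
      map_mul, AlgHom.commutes, AlgHom.commutes, MonoidAlgebra.lift_of]
    simp only [LinearMap.add_apply, Module.End.mul_apply, Module.algebraMap_end_apply,
      Pi.add_apply, Pi.smul_apply, smul_eq_mul, nuHom_cast]

theorem ta_prod_chunks {M : Type*} [CommMonoid M] (F : ℕ → M) (l m : ℕ) :
    ∏ j ∈ Finset.range l, ∏ t : Fin m, F (j * m + t) = ∏ n ∈ Finset.range (l * m), F n := by
  induction l with
  | zero => simp
  | succ l ih =>
    rw [Finset.prod_range_succ, ih, Nat.succ_mul, Finset.prod_range_add,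
      Fin.prod_univ_eq_prod_range (fun t => F (l * m + t))]

theorem ta_prod_map_eq_range {M : Type*} [CommMonoid M] (F : ℕ → M) (us : List ℕ) :
    (us.map F).prod = ∏ n ∈ Finset.range us.length, F (us.getD n 1) := by
  induction us with
  | nil => simp
  | cons u us ih =>
    rw [List.map_cons, List.prod_cons, List.length_cons, Finset.prod_range_succ', ih, mul_comm]
    simp

theorem ta_prod_map_range {M : Type*} [CommMonoid M] (F : ℕ → M) (l : ℕ) :
    ((List.range l).map F).prod = ∏ n ∈ Finset.range l, F n := by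
  induction l with
  | zero => simp
  | succ l ih => rw [List.range_succ, List.map_append, List.prod_append, ih, Finset.prod_range_succ]; simp

theorem exists_rho {S m l : ℕ} (hS : 0 < S) {us : List ℕ} (hl : us.length = l * m)
    (hu : Units2 S us) : ∃ ρ : ((Fin m → ZMod 2) → ZMod 4) → (ℕ → LL) →ₗ[LL] (ℕ → LL),
      (∀ v, ρ 0 v = v) ∧ (∀ σ σ' v, ρ (σ + σ') v = ρ σ (ρ σ' v)) ∧
      (∀ a v, ρ (q a) v = Tm S al be (subU S m l us a) v) ∧
      (∀ a v, ρ (tau a) v = fun x => v (nu S ((subU S m l us a).prod % S) x)) ∧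
      ∀ v, ρ (∑ t, q (Pi.single t 1)) v = Tm S al be us v := by
  let A := MonoidAlgebra LL (ZMod S)
  let act := MonoidAlgebra.lift LL (Module.End LL (ℕ → LL)) (ZMod S) (nuHom hS)
  let h : A := algebraMap LL A hf
  let i : A := algebraMap LL A ii
  let G : ℕ → Fin m → A := fun j t => MonoidAlgebra.of LL (ZMod S) (us.getD (j * m + t) 1 : ℕ)
  have hh : 2 * h = 1 := by
    have := congrArg (algebraMap LL A) two_mul_hf
    rwa [map_mul, map_one, map_ofNat] at this
  have hi : i * i = -1 := by
    have := congrArg (algebraMap LL A) ii_mul_ii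
    rwa [map_mul, map_neg, map_one] at this
  have hG : ∀ j t, G j t * G j t = 1 := by
    intro j t
    simp only [G]
    rw [← map_mul, ← Nat.cast_mul, (ZMod.natCast_eq_natCast_iff _ _ _).2 (hu.ta_getD _),
      Nat.cast_one, map_one]
  have hal : h * (1 + i) = algebraMap LL A al := by simp only [h, i, al, map_mul, map_add, map_one]
  have hbe : h * (1 - i) = algebraMap LL A be := by simp only [h, i, be, map_mul, map_sub, map_one]
  have hP : ∀ (a : Fin m → ZMod 2) (j : ℕ), ∏ t, G j t ^ (a t).val =
      MonoidAlgebra.of LL (ZMod S)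
        (((∏ t : Fin m, us.getD (j * m + t) 1 ^ (a t).val) % S : ℕ) : ZMod S) := by
    intro a j
    rw [ZMod.natCast_mod, Nat.cast_prod, map_prod]
    refine Finset.prod_congr rfl fun t _ => ?_
    rw [Nat.cast_pow, map_pow]
  refine ⟨fun σ => act (∏ j ∈ Finset.range l, sym h i (G j) σ), ?_, ?_, ?_, ?_, ?_⟩
  · intro v
    simp [sym_zero hh]
  · intro σ σ' v
    simp only [sym_add hh hi (hG _), Finset.prod_mul_distrib, map_mul, Module.End.mul_apply]
  · intro a v
    rw [← ta_act_prod hS, subU, List.map_map, ta_prod_map_range]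
    refine congrArg (fun z : A => act z v) (Finset.prod_congr rfl fun j _ => ?_)
    rw [sym_q hh (hG j), hal, hbe, hP]
    rfl
  · intro a v
    funext x
    have e : ∏ j ∈ Finset.range l, sym h i (G j) (tau a) =
        MonoidAlgebra.of LL (ZMod S) (((subU S m l us a).prod % S : ℕ) : ZMod S) := by
      rw [ZMod.natCast_mod, subU, ta_prod_map_range, Nat.cast_prod, map_prod]
      exact Finset.prod_congr rfl fun j _ => by rw [sym_tau hh hi (hG j), hP]
    simp only [e, act, MonoidAlgebra.lift_of, nuHom_cast]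
  · intro v
    have hsum : ∀ (j : ℕ) (T : Finset (Fin m)) (σ : Fin m → (Fin m → ZMod 2) → ZMod 4),
        sym h i (G j) (∑ t ∈ T, σ t) = ∏ t ∈ T, sym h i (G j) (σ t) := by
      intro j T σ
      induction T using Finset.induction_on with
      | empty => simp [sym_zero hh]
      | insert t T ht ih => rw [Finset.sum_insert ht, Finset.prod_insert ht, sym_add hh hi (hG j), ih]
    have h1 : (1 : ZMod 2).val = 1 := by decide
    have hs : ∀ (j : ℕ) (t : Fin m), ∏ t', G j t' ^ ((Pi.single t 1 : Fin m → ZMod 2) t').val = G j t := by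
      intro j t
      rw [Finset.prod_eq_single t]
      · simp [h1]
      · intro t' _ hne; simp [Pi.single_eq_of_ne hne]
      · simp
    rw [← ta_act_prod hS, ta_prod_map_eq_range, hl, ← ta_prod_chunks]
    refine congrArg (fun z : A => act z v) (Finset.prod_congr rfl fun j _ => ?_)
    rw [hsum]
    refine Finset.prod_congr rfl fun t _ => ?_
    rw [sym_q hh (hG j), hal, hbe, hs]

end Crest.Agent.R326
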