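import Crest.Agent.R326.Approx2
import Crest.Agent.R326.TAlg
import Crest.Agent.R326.MulR

/-!
# Row 326, the global transform: definitions (no task, complete)

`SS y` is the odd part of `lcm (1..y)`, the product of the pairwise coprime `moduli y`.  Arrays are
indexed by `x = z S² + y S + w`.  Layer `j` of the global transform is the tensor product over the
moduli `s` of the layers `j` of the digit programs `dprog (log₂ y) s inv`.
-/

set_option autoImplicit false

namespace Crest.Agent.R326

/-- the maximal powers `≤ y` of the odd primes -/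
def moduli (y : ℕ) : List ℕ :=
  ((List.range (y + 1)).filter fun q => decide (q.Prime ∧ q ≠ 2)).map fun q => q ^ Nat.log q y

/-- the side length of the arrays -/
def SS (y : ℕ) : ℕ := (moduli y).prod

/-- the idempotent that is `1` mod `s` and `0` mod `S / s` -/
def idem (S s : ℕ) : ℕ :=
  S / s * (((List.range s).find? fun r => decide (S / s * r % s = 1)).getD 0)

/-- the square roots of one that are `-1` modulo exactly one modulus -/
def unitsY (y : ℕ) : List ℕ := (moduli y).map fun s => res (SS y) (1 - 2 * idem (SS y) s)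

/-- number of layers -/
def KK (y : ℕ) : ℕ := Klen (Nat.log 2 y)

/-- layer `j` of the digit program, seen from a cell -/
def layAt (y : ℕ) (inv : Bool) (j s a b : ℕ) : (ℤ × ℤ) × Coef :=
  ((dprog (Nat.log 2 y) s inv).at a b).getD j ((0, 0), cq 1 0)

/-- half of the global centre of layer `j` -/
def tauY (y : ℕ) (inv : Bool) (j : ℕ) : ℕ × ℕ :=
  (res (SS y) (((moduli y).map fun s => idem (SS y) s * (layAt y inv j s 0 0).1.1).sum *
      ((SS y + 1) / 2 : ℕ)),
   res (SS y) (((moduli y).map fun s => idem (SS y) s * (layAt y inv j s 0 0).1.2).sum *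
      ((SS y + 1) / 2 : ℕ)))

/-- the factors of the diagonal of layer `j` (each halved) -/
def coefs (y : ℕ) (inv : Bool) (j x : ℕ) : List Coef :=
  (moduli y).map fun s => Coef.mulq (1 / 2) 0
    (layAt y inv j s (dig (SS y) (SS y) x % s) (dig 1 (SS y) x % s)).2

/-- `2 ^ d` times the pass part of a layer, over any ring with an imaginary unit `i` -/
def core {R : Type*} [CommRing R] (S : ℕ) (i : R) (us : List ℕ) (τ : ℕ × ℕ) (v : ℕ → R) (x : ℕ) :
    R := Tm S (1 + i) (1 - i) us (fun z => v (shf S τ z)) (shf S (S - τ.1, S - τ.2) x)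

/-- exact layer -/
noncomputable def layC (y : ℕ) (inv : Bool) (v : ℕ → ℂ) (j : ℕ) (x : ℕ) : ℂ :=
  core (SS y) Complex.I (unitsY y) (tauY y inv j) v x * ((coefs y inv j x).map Coef.val).prod

/-- exact transform along the lowest digit -/
noncomputable def PhiC (y : ℕ) (inv : Bool) (v : ℕ → ℂ) : ℕ → ℂ :=
  (List.range (KK y)).foldl (layC y inv) v

/-- bit size of the coefficients -/
def bY (y : ℕ) : ℕ := Nat.size (4 * (y + 1))

/-- the fixed-point table of layer `j` -/
noncomputable def tbl (y f : ℕ) (inv : Bool) (j x : ℕ) : LL :=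
  ιL ⟨(apx f (bY y) (coefs y inv j x)).1, (apx f (bY y) (coefs y inv j x)).2⟩

/-- layer on cells -/
noncomputable def layL (y f p : ℕ) (inv : Bool) (v : ℕ → LL) (j : ℕ) (x : ℕ) : LL :=
  mulR f p (core (SS y) ii (unitsY y) (tauY y inv j) v x) (tbl y f inv j (x % (SS y * SS y)))

/-- transform on cells -/
noncomputable def PhiL (y f p : ℕ) (inv : Bool) (v : ℕ → LL) : ℕ → LL :=
  (List.range (KK y)).foldl (layL y f p inv) v

/-- growth of the error exponent in one layer -/
def dlt (y : ℕ) : ℕ := (bY y + 2) * (moduli y).length + 4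

/-- a Fourier transform along the lowest digit -/
noncomputable def dft (S : ℕ) (ζ sc : ℂ) (v : ℕ → ℂ) (x : ℕ) : ℂ :=
  sc * ∑ w ∈ Finset.range S, ζ ^ (dig 1 S x * w) * v (setDig 1 S w x)

/-- the root of unity of the global transform -/
noncomputable def zeta (y : ℕ) : ℂ := ((moduli y).map fun s : ℕ => eC (1 / s)).prod

/-- three-dimensional forward transform -/
def fwd {R : Type*} (S : ℕ) (Φ : (ℕ → R) → ℕ → R) (v : ℕ → R) : ℕ → R :=
  Φ fun x => Φ (fun x => Φ v (swp 1 S S x)) (swp 1 (S * S) S x)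

/-- three-dimensional backward transform -/
def bwd {R : Type*} (S : ℕ) (Φ : (ℕ → R) → ℕ → R) (v : ℕ → R) : ℕ → R :=
  Φ fun x => Φ (fun x => Φ v (swp 1 (S * S) S x)) (swp 1 S S x)

/-- placing `h³` numbers in an `S × S × S` array -/
def ld (h S : ℕ) (a : ℕ → ℕ) (x : ℕ) : ℕ :=
  if dig (S * S) S x < h ∧ dig S S x < h ∧ dig 1 S x < h then
    a (dig (S * S) S x * (h * h) + dig S S x * h + dig 1 S x) else 0

/-- the three-dimensional acyclic convolution -/
def cv (h S : ℕ) (a b : ℕ → ℕ) (x : ℕ) : ℕ :=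
  ∑ i ∈ Finset.range (h ^ 3), ∑ j ∈ Finset.range (h ^ 3),
    if dig (h * h) h i + dig (h * h) h j = dig (S * S) S x ∧ dig h h i + dig h h j = dig S S x ∧
      dig 1 h i + dig 1 h j = dig 1 S x then a i * b j else 0

/-- the value of an `S × S × S` array under the Kronecker substitution -/
def kron (h S X : ℕ) (c : ℕ → ℕ) : ℕ :=
  ∑ z ∈ Finset.range S, ∑ y ∈ Finset.range S, ∑ w ∈ Finset.range S,
    c (z * (S * S) + y * S + w) * X ^ (z * (h * h) + y * h + w)

/-- chunks of `q` bits -/
def ch (q : ℕ) (l : List Bool) (i : ℕ) : ℕ := PTime.ofBits ((l.drop (i * q)).take q)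

/-- `v` represents `2^f x` with error at most `2^β`, and `‖x‖ ≤ 2^β` -/
def Rep (f β : ℕ) (v : ℕ → LL) (x : ℕ → ℂ) : Prop :=
  ∃ X : ℕ → GaussianInt, ∀ n, v n = ιL (X n) ∧ ‖x n‖ ≤ 2 ^ β ∧ ‖(X n : ℂ) - 2 ^ f * x n‖ ≤ 2 ^ β

end Crest.Agent.R326
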