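import Crest.Agent.R326.Moduli
import Crest.Agent.R326.DChirp

/-!
# Row 326, the global layers compute a Fourier transform (task R326-Glob)

PLAN.  Let `S = SS y`, `π s x = ((dig S S x : ZMod s), (dig 1 S x : ZMod s))` for `s ∈ moduli y`.
Call `v` a product function if `v x = g (x / (S*S)) * ∏_{s ∈ moduli} F s (π s x)` with
`F : ∀ s, Fn s`.  (1) `layC y inv v j` is the product function with `F s` replaced by
`runL s (layer j of dprog .. s) (F s)`: `π s' (nu S u_s x)` is `-π s' x` for `s' = s` and `π s' x`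
otherwise (`idem_spec`), so by induction over a sublist of the moduli (`moduli_nodup`) `Tm`
replaces `F s` by `(1+I) F s + (1-I) F s ∘ neg`; the shifts turn `neg` into `refl s c_s` since
`2 τ ≡ c_s (mod s)`; the halved coefficients give `runL`.  (`layAt .. .1` is the centre of layer
`j`, which does not depend on the cell; `length_dprog`.)  (2) hence `PhiC` replaces `F s` by
`run s (dprog ..) (F s)` (`List.foldl` over `range length` with `getD` = `foldl` over the list),
computed by `run_dprog` (`9 ≤ s` from `81 ≤ y < s²`, `s ≤ y < 2^(log y + 1)`).  (3) `PhiC` and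
`dft` are linear and the value at `x` only depends on the block `x / S²`; write `v` on this block
as a combination of the `S²` delta functions, which are product functions by `modEq_SS`; on a
delta function both sides are `[same block, same row] * scale * ∏_s e(± w w' / s)`.
Alternatively avoid locality: for fixed block `t` define the linear map `v ↦ PhiC v x` and note
`v = Σ_{r < S²} (x ↦ v (x / S² * S² + r)) * δ_r (x % S²)`, each summand is a product function with
`g t = v (t S² + r)`; `PhiC` is additive.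
`zeta_prim`: `ζ ^ n = e(n Σ 1/s)`; if `ζ ^ n = 1` raise to the power `S / s` to get `s ∣ n S / s`,
so `s ∣ n`; or use `IsPrimitiveRoot` of a product of roots of coprime orders
(`Complex.isPrimitiveRoot_exp`, `Commute.orderOf_mul_eq_mul_orderOf_of_coprime`).
-/

set_option autoImplicit false

namespace Crest.Agent.R326

namespace GlobA

open Finset

theorem prim_eC {s : ℕ} (hs : s ≠ 0) : IsPrimitiveRoot (eC (1 / s)) s := by
  convert Complex.isPrimitiveRoot_exp s hs using 1
  unfold eC
  congr 1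
  push_cast
  ring

theorem prim_list (l : List ℕ) (h : l.Pairwise Nat.Coprime) (h0 : ∀ s ∈ l, s ≠ 0) :
    IsPrimitiveRoot (l.map fun s : ℕ => eC (1 / s)).prod l.prod := by
  induction l with
  | nil => simp
  | cons s l ih =>
    rw [List.pairwise_cons] at h
    have h1 := prim_eC (h0 s List.mem_cons_self)
    have h2 := ih h.2 fun t ht => h0 t (List.mem_cons_of_mem _ ht)
    have h3 : s.Coprime l.prod := Nat.coprime_list_prod_right_iff.2 h.1
    rw [List.map_cons, List.prod_cons, List.prod_cons]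
    have h4 := (Commute.all (eC (1 / s)) (l.map fun s : ℕ => eC (1 / s)).prod
      ).orderOf_mul_eq_mul_orderOf_of_coprime (by rwa [← h1.eq_orderOf, ← h2.eq_orderOf])
    rw [← h1.eq_orderOf, ← h2.eq_orderOf] at h4
    rw [← h4]
    exact IsPrimitiveRoot.orderOf _

variable {y : ℕ}

/-- the moduli as a finite set -/
def Ms (y : ℕ) : Finset ℕ := (moduli y).toFinset

theorem mem_Ms {s : ℕ} : s ∈ Ms y ↔ s ∈ moduli y := List.mem_toFinset

/-- the cell of an index -/
def pj (y s x : ℕ) : ZMod s × ZMod s := ((dig (SS y) (SS y) x : ℕ), (dig 1 (SS y) x : ℕ))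

/-- product functions -/
noncomputable def PF (y : ℕ) (g : ℕ → ℂ) (F : ∀ s, Fn s) (x : ℕ) : ℂ :=
  g (x / (SS y * SS y)) * ∏ s ∈ Ms y, F s (pj y s x)

theorem PF_congr {g : ℕ → ℂ} {F F' : ∀ s, Fn s} (h : ∀ s ∈ moduli y, F s = F' s) :
    PF y g F = PF y g F' :=
  funext fun _ => congrArg _ (prod_congr rfl fun s hs => by rw [h s (mem_Ms.1 hs)])

theorem cast_mod {s : ℕ} (hs : s ∈ moduli y) (a : ℕ) : ((a % SS y : ℕ) : ZMod s) = a :=
  (ZMod.natCast_eq_natCast_iff _ _ _).2 ((Nat.mod_modEq a _).of_dvd (dvd_SS hs))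

/-- the unit attached to a modulus -/
def un (y s : ℕ) : ℕ := res (SS y) (1 - 2 * idem (SS y) s)

theorem pj_nu {s s' : ℕ} (hs : s ∈ moduli y) (hs' : s' ∈ moduli y) (x : ℕ) :
    pj y s' (nu (SS y) (un y s) x) = if s = s' then -pj y s' x else pj y s' x := by
  have h : ((un y s : ℕ) : ZMod s') = if s = s' then -1 else 1 := by
    rw [un, mod_res_cast (SS_pos y) (dvd_SS hs')]
    push_cast
    rw [idem_spec hs hs']
    split_ifs <;> ring
  rw [pj, dig_nu_high (SS_pos y), dig_nu_low (SS_pos y), cast_mod hs', cast_mod hs', Nat.cast_mul,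
    Nat.cast_mul, h]
  split_ifs <;> simp [pj]

theorem Tm_PF (α β : ℂ) (g : ℕ → ℂ) (F : ∀ s, Fn s) (l : List ℕ) (hl : l.Nodup)
    (h : ∀ s ∈ l, s ∈ moduli y) : Tm (SS y) α β (l.map (un y)) (PF y g F) =
      PF y g fun s => if s ∈ l then fun z => α * F s z + β * F s (-z) else F s := by
  induction l with
  | nil => simp
  | cons s l ih =>
    rw [List.nodup_cons] at hl
    have hs := h s List.mem_cons_self
    funext x
    rw [List.map_cons, Tm_cons, ih hl.2 fun t ht => h t (List.mem_cons_of_mem _ ht)]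
    simp only [PF]
    rw [nu_div (SS_pos y), ← mul_prod_erase _ _ (mem_Ms.2 hs), ← mul_prod_erase _ _ (mem_Ms.2 hs),
      ← mul_prod_erase _ _ (mem_Ms.2 hs), pj_nu hs hs, if_pos rfl, if_neg hl.1,
      if_pos List.mem_cons_self,
      prod_congr (s₁ := (Ms y).erase s) rfl
        (f := fun t => (if t ∈ l then fun z => α * F t z + β * F t (-z) else F t)
          (pj y t (nu (SS y) (un y s) x))) fun t ht => by
        rw [pj_nu hs (mem_Ms.1 (mem_of_mem_erase ht)), if_neg (ne_of_mem_erase ht).symm],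
      prod_congr (s₁ := (Ms y).erase s) rfl
        (f := fun t => (if t ∈ s :: l then fun z => α * F t z + β * F t (-z) else F t) (pj y t x))
        fun t ht => by simp only [List.mem_cons, ne_of_mem_erase ht, false_or]; rfl]
    ring

theorem PF_shf (g : ℕ → ℂ) (F : ∀ s, Fn s) (τ : ℕ × ℕ) (x : ℕ) :
    PF y g F (shf (SS y) τ x) = PF y g (fun s z => F s (z.1 + τ.1, z.2 + τ.2)) x := by
  simp only [PF]
  rw [shf_div (SS_pos y)]
  refine congrArg _ (prod_congr rfl fun s hs => ?_)
  rw [pj, dig_shf_high (SS_pos y), dig_shf_low (SS_pos y), cast_mod (mem_Ms.1 hs),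
    cast_mod (mem_Ms.1 hs), Nat.cast_add, Nat.cast_add, pj]

/-- layer `j` of the digit program -/
def Lj (y : ℕ) (inv : Bool) (j s : ℕ) : Layer :=
  (dprog (Nat.log 2 y) s inv).getD j ((0, 0), fun _ _ => cq 1 0)

theorem layAt_eq (inv : Bool) (j s a b : ℕ) :
    layAt y inv j s a b = ((Lj y inv j s).1, (Lj y inv j s).2 a b) :=
  List.getD_map (dprog (Nat.log 2 y) s inv) ((0, 0), fun _ _ => cq 1 0) (n := j)
    (fun L : Layer => (L.1, L.2 a b))

theorem two_tau {s : ℕ} (hs : s ∈ moduli y) (c : ℕ → ℤ) :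
    2 * ((res (SS y) (((moduli y).map fun s => idem (SS y) s * c s).sum *
      ((SS y + 1) / 2 : ℕ)) : ℕ) : ZMod s) = c s := by
  have h1 : (2 : ZMod s) * ((SS y + 1) / 2 : ℕ) = 1 := by
    have h2 : 2 * ((SS y + 1) / 2) = SS y + 1 := Nat.two_mul_div_two_of_even (SS_odd y).add_one
    have h3 : ((SS y : ℕ) : ZMod s) = 0 := (ZMod.natCast_eq_zero_iff _ _).2 (dvd_SS hs)
    have h4 := congrArg (Nat.cast : ℕ → ZMod s) h2
    rwa [Nat.cast_mul, Nat.cast_add, h3, zero_add, Nat.cast_one, Nat.cast_ofNat] at h4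
  rw [mod_res_cast (SS_pos y) (dvd_SS hs), ← List.sum_toFinset _ (moduli_nodup y), Int.cast_mul,
    Int.cast_natCast, mul_left_comm, h1, mul_one, Int.cast_sum,
    sum_eq_single_of_mem s (List.mem_toFinset.2 hs) fun t ht hne => by
      rw [Int.cast_mul, Int.cast_natCast, idem_spec (List.mem_toFinset.1 ht) hs, if_neg hne,
        zero_mul],
    Int.cast_mul, Int.cast_natCast, idem_spec hs hs, if_pos rfl, one_mul]

theorem layC_PF (inv : Bool) (g : ℕ → ℂ) (F : ∀ s, Fn s) (j : ℕ) :
    layC y inv (PF y g F) j = PF y g fun s => runL s (Lj y inv j s) (F s) := by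
  funext x
  have e1 : (fun z => PF y g F (shf (SS y) (tauY y inv j) z)) = _ :=
    funext (PF_shf g F (tauY y inv j))
  rw [layC, core, e1, show unitsY y = (moduli y).map (un y) from rfl,
    Tm_PF _ _ _ _ _ (moduli_nodup y) fun _ h => h, PF_shf, coefs, List.map_map,
    ← List.prod_toFinset _ (moduli_nodup y)]
  simp only [PF]
  rw [mul_assoc, Ms, ← prod_mul_distrib]
  refine congrArg _ (prod_congr rfl fun s hs => ?_)
  have hs' := List.mem_toFinset.1 hs
  have h3 : ((SS y : ℕ) : ZMod s) = 0 := (ZMod.natCast_eq_zero_iff _ _).2 (dvd_SS hs')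
  obtain ⟨t1, t2⟩ := tauY_lt y inv j
  have a1 : 2 * ((tauY y inv j).1 : ZMod s) = (Lj y inv j s).1.1 := by
    have := two_tau hs' fun s => (layAt y inv j s 0 0).1.1
    rw [layAt_eq] at this
    exact this
  have a2 : 2 * ((tauY y inv j).2 : ZMod s) = (Lj y inv j s).1.2 := by
    have := two_tau hs' fun s => (layAt y inv j s 0 0).1.2
    rw [layAt_eq] at this
    exact this
  rw [if_pos hs', Function.comp_apply, Coef.val_mulq, layAt_eq, runL, refl, ← a1, ← a2,
    Nat.cast_sub t1.le, Nat.cast_sub t2.le, h3, eC_zero]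
  simp only [pj, ZMod.val_natCast, Prod.neg_mk]
  ring_nf

theorem foldl_getD {α β : Type} (P : List α) (d : α) (f : β → α → β) (b : β) :
    (List.range P.length).foldl (fun b j => f b (P.getD j d)) b = P.foldl f b := by
  rw [← List.foldl_map]
  congr 1
  exact List.ext_getElem (by simp) fun i h1 h2 => by simp [h2]

theorem PhiC_PF (inv : Bool) (g : ℕ → ℂ) (F : ∀ s, Fn s) :
    PhiC y inv (PF y g F) = PF y g fun s => run s (dprog (Nat.log 2 y) s inv) (F s) := by
  have key : ∀ (l : List ℕ) (F : ∀ s, Fn s), l.foldl (layC y inv) (PF y g F) =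
      PF y g fun s => l.foldl (fun f j => runL s (Lj y inv j s) f) (F s) := by
    intro l
    induction l with
    | nil => exact fun _ => rfl
    | cons j l ih => exact fun F => by rw [List.foldl_cons, layC_PF, ih]; rfl
  rw [PhiC, key]
  refine PF_congr fun s _ => ?_
  rw [KK, ← length_dprog _ s inv]
  exact foldl_getD _ _ (fun f L => runL s L f) _

theorem Tm_sum {ι : Type} (T : Finset ι) (S : ℕ) (α β : ℂ) (us : List ℕ) (v : ι → ℕ → ℂ) (x : ℕ) :
    Tm S α β us (fun x => ∑ r ∈ T, v r x) x = ∑ r ∈ T, Tm S α β us (v r) x := by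
  induction us generalizing x with
  | nil => rfl
  | cons u us ih => simp only [Tm_cons, ih, mul_sum, sum_add_distrib]

theorem PhiC_sum {ι : Type} (T : Finset ι) (inv : Bool) (v : ι → ℕ → ℂ) :
    PhiC y inv (fun x => ∑ r ∈ T, v r x) = fun x => ∑ r ∈ T, PhiC y inv (v r) x := by
  unfold PhiC
  generalize List.range (KK y) = l
  induction l generalizing v with
  | nil => rfl
  | cons j l ih =>
    simp only [List.foldl_cons]
    rw [← ih]
    congr 1
    funext x
    simp only [layC, core, Tm_sum, sum_mul]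

/-- delta function -/
def dl {s : ℕ} (a : ZMod s) (b : ℕ) : ℂ := if a = b then 1 else 0

theorem prod_delta {a b : ℕ} (ha : a < SS y) (hb : b < SS y) :
    ∏ s ∈ Ms y, dl (a : ZMod s) b = if a = b then 1 else 0 := by
  simp only [dl]
  rw [prod_ite_zero, prod_const_one]
  refine if_congr ⟨fun h => ?_, fun h s _ => by rw [h]⟩ rfl rfl
  exact (modEq_SS fun s hs => (ZMod.natCast_eq_natCast_iff _ _ _).1 (h s (mem_Ms.2 hs))
    ).eq_of_lt_of_lt ha hb

theorem cell_eq {S : ℕ} {b : ℕ} (hb : b < S) (x : ℕ) :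
    x / (S * S) * (S * S) + dig S S x * S + b = setDig 1 S b x := by
  rw [setDig, dig, one_mul, Nat.mod_eq_of_lt hb, Nat.mod_one, ← Nat.div_div_eq_div_mul]
  conv_rhs => rw [← Nat.div_add_mod (x / S) S]
  ring

theorem eC_pow {s : ℕ} (hs : s ≠ 0) (inv : Bool) (d b : ℕ) :
    eC (sg inv * ((d % s : ℕ) * (b % s : ℕ)) / s) = eC (sg inv / s) ^ (d * b) := by
  have h0 : (s : ℚ) ≠ 0 := Nat.cast_ne_zero.2 hs
  have h1 : eC (sg inv / s) ^ s = 1 := by
    rw [← eC_nat_mul, mul_div_cancel₀ _ h0]
    cases inv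
    · exact_mod_cast eC_int 1
    · exact_mod_cast eC_int (-1)
  rw [pow_eq_pow_mod _ h1, Nat.mul_mod, ← pow_eq_pow_mod _ h1, ← eC_nat_mul]
  congr 1
  push_cast
  ring

theorem PhiC_eq (hy : 81 ≤ y) (inv : Bool) (v : ℕ → ℂ) : PhiC y inv v =
    dft (SS y) (∏ s ∈ Ms y, eC (sg inv / s)) (∏ s ∈ Ms y, (scl s inv : ℂ)) v := by
  have hS := SS_pos y
  have e : v = fun x => ∑ r ∈ range (SS y) ×ˢ range (SS y),
      PF y (fun t => v (t * (SS y * SS y) + r.1 * SS y + r.2))
        (fun s z => dl z.1 r.1 * dl z.2 r.2) x := by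
    funext x
    have h1 := dig_lt (σ := SS y) hS x
    have h2 := dig_lt (σ := 1) hS x
    rw [sum_eq_single_of_mem (dig (SS y) (SS y) x, dig 1 (SS y) x)
      (mem_product.2 ⟨mem_range.2 h1, mem_range.2 h2⟩) fun r hr hne => ?_]
    · simp [PF, pj, dl, cell_eq h2, setDig_dig one_pos hS]
    · rw [mem_product, mem_range, mem_range] at hr
      simp only [PF, pj, prod_mul_distrib]
      rw [prod_delta h1 hr.1, prod_delta h2 hr.2]
      split_ifs with a b
      · exact (hne (Prod.ext a.symm b.symm)).elim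
      all_goals simp
  conv_lhs => rw [e]
  rw [PhiC_sum]
  funext x
  have h1 := dig_lt (σ := SS y) hS x
  have k : ∀ r ∈ range (SS y) ×ˢ range (SS y),
      PhiC y inv (PF y (fun t => v (t * (SS y * SS y) + r.1 * SS y + r.2))
        (fun s z => dl z.1 r.1 * dl z.2 r.2)) x =
      if dig (SS y) (SS y) x = r.1 then (∏ s ∈ Ms y, (scl s inv : ℂ)) *
        ((∏ s ∈ Ms y, eC (sg inv / s)) ^ (dig 1 (SS y) x * r.2) *
          v (x / (SS y * SS y) * (SS y * SS y) + r.1 * SS y + r.2)) else 0 := by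
    intro r hr
    rw [mem_product, mem_range, mem_range] at hr
    rw [PhiC_PF, PF, prod_congr rfl (g := fun s => (scl s inv : ℂ) *
      (eC (sg inv / s) ^ (dig 1 (SS y) x * r.2) *
        dl ((dig (SS y) (SS y) x : ℕ) : ZMod s) r.1)) fun s hs => ?_,
      prod_mul_distrib, prod_mul_distrib, prod_delta h1 hr.1, prod_pow]
    · split_ifs <;> ring
    · obtain ⟨a1, a2, a3, a4⟩ := moduli_spec (mem_Ms.1 hs)
      haveI : NeZero s := ⟨by omega⟩
      rw [run_dprog (a3.trans_lt (Nat.lt_pow_succ_log_self (by norm_num) y)) (by nlinarith) a1]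
      beta_reduce
      rw [sum_eq_single ((r.2 : ℕ) : ZMod s) (fun w _ hw => by simp [dl, hw]) (by simp),
        show dl ((r.2 : ℕ) : ZMod s) r.2 = 1 from if_pos rfl, mul_one, ← eC_pow (by omega)]
      simp only [pj, ZMod.val_natCast]
  rw [sum_congr rfl k, sum_product, sum_eq_single_of_mem _ (mem_range.2 h1)
    fun a _ ha => by simp [ha.symm], dft, mul_sum]
  exact sum_congr rfl fun b hb => by rw [if_pos rfl, cell_eq (mem_range.1 hb)]

end GlobA

open GlobA

theorem zeta_prim (y : ℕ) : IsPrimitiveRoot (zeta y) (SS y) := by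
  exact prim_list _ ((moduli_nodup y).pairwise_of_forall_ne fun s hs s' hs' hne =>
    moduli_coprime hs hs' hne) fun s hs => by have := (moduli_spec hs).2.1; omega

theorem PhiC_false {y : ℕ} (hy : 81 ≤ y) (v : ℕ → ℂ) :
    PhiC y false v = dft (SS y) (zeta y) 1 v := by
  rw [PhiC_eq hy, zeta, ← List.prod_toFinset _ (moduli_nodup y)]
  simp [sg, scl, Ms]

theorem PhiC_true {y : ℕ} (hy : 81 ≤ y) (v : ℕ → ℂ) :
    PhiC y true v = dft (SS y) (zeta y)⁻¹ (1 / SS y) v := by
  rw [PhiC_eq hy, zeta, ← List.prod_toFinset _ (moduli_nodup y), ← Finset.prod_inv_distrib]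
  congr 1
  · refine Finset.prod_congr rfl fun s _ => eq_inv_of_mul_eq_one_left ?_
    rw [← eC_add, sg, cond_true, ← add_div, neg_add_cancel, zero_div, eC_zero]
  · have : SS y = ∏ s ∈ Ms y, s := by
      rw [Ms, List.prod_toFinset _ (moduli_nodup y), List.map_id', SS]
    rw [this]
    simp [scl]

end Crest.Agent.R326
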