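import Mathlib

/-!
# Row 326, the abstract network (task R326-Net)

A PORT of `Crest/Agent/R324/{Shear,Net}.lean` (read them first) to an abstract cost system.
`Y.Av r U`: the elements of `U ⊆ M` ("registers", whole arrays) are available after `r` expensive
operations; additions and multiplications by scalars of `Y.Sc` are free.
PLAN.  Define `Der S r T := ∀ r0 U, S ⊆ U → Av r0 U → Av (r0 + r) (U ∪ T)` and prove the analogues
of `Der.of_subset/le/step/union/iUnion_const` (finite induction), `fr_add`, `fr_sum` (cost `0`;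
an empty sum is `x + (-1) • x` for any available `x`, this is where `Nonempty Tr` is used),
`Mv.add/neg/sub/congr/sum/der` with `Fr σ x := {ρ σ x}`.  Then copy `shearI`, `shearII`
(cost `2 v (h2+1) + z h2' + …`, now in `ℕ` with `h = h2 + 2`, central wires indexed by `Jc`),
the `mv_*` lemmas of `R324/Net.lean` (with `Cl` for `Quad`) and `network`; the last move
`φ + φ` costs `r0` instead of `0`.  The count is a `ring` identity after
`Fintype.card_sum/prod`: total `+ 2 v³ = W h³ + r0 v³ + 3 v² h |Jc|`.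
-/

set_option autoImplicit false

namespace Crest.Agent.R326

/-- abstract availability of registers -/
structure Sys (k M : Type) [CommRing k] [AddCommGroup M] [Module k M] where
  Av : ℕ → Set M → Prop
  Sc : Subring k
  mono : ∀ {r r' : ℕ} {U U' : Set M}, Av r U → r ≤ r' → U' ⊆ U → Av r' U'
  add : ∀ {r : ℕ} {U : Set M} {x y : M}, Av r U → x ∈ U → y ∈ U → Av r (insert (x + y) U)
  smul : ∀ {r : ℕ} {U : Set M} {x : M} {s : k}, Av r U → s ∈ Sc → x ∈ U → Av r (insert (s • x) U)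

variable {k M : Type} [CommRing k] [AddCommGroup M] [Module k M]

/-- `g` can be applied to a register at cost `r` -/
def Sys.Op (Y : Sys k M) (r : ℕ) (g : M → M) : Prop :=
  ∀ r0 U x, Y.Av r0 U → x ∈ U → Y.Av (r0 + r) (insert (g x) U)

theorem Sys.Op.comp {Y : Sys k M} {r r' : ℕ} {g g' : M → M} (h : Y.Op r g) (h' : Y.Op r' g') :
    Y.Op (r + r') (fun x => g (g' x)) := by
  intro r0 U x hU hx
  refine Y.mono (h _ _ _ (h' r0 U x hU hx) (Set.mem_insert _ _)) (by omega) ?_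
  exact Set.insert_subset_insert (Set.subset_insert _ _)

theorem Sys.Op.mono {Y : Sys k M} {r r' : ℕ} {g : M → M} (h : Y.Op r g) (hr : r ≤ r') :
    Y.Op r' g := by
  intro r0 U x hU hx
  exact Y.mono (h r0 U x hU hx) (by omega) subset_rfl

theorem Sys.op_id (Y : Sys k M) : Y.Op 0 (fun x => x) := by
  intro r0 U x hU hx
  exact Y.mono hU le_rfl (Set.insert_subset hx subset_rfl)

namespace NetA

open Set

/-- `T` can be derived from `S` at cost `r` -/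
def Der (Y : Sys k M) (S : Set M) (r : ℕ) (T : Set M) : Prop :=
  ∀ r0 U, S ⊆ U → Y.Av r0 U → Y.Av (r0 + r) (U ∪ T)

variable {Y : Sys k M} {S T T' : Set M} {c c' : ℕ}

theorem Der.of_subset (h : T ⊆ S) : Der Y S 0 T := fun _ _ hS hU =>
  Y.mono hU le_rfl (union_subset subset_rfl (h.trans hS))

theorem Der.le (h : Der Y S c T) (hc : c ≤ c') : Der Y S c' T := fun r0 U hS hU =>
  Y.mono (h r0 U hS hU) (by omega) subset_rfl

theorem Der.step (h : Der Y S c T) (h' : ∀ S', S ⊆ S' → T ⊆ S' → Der Y S' c' T') :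
    Der Y S (c + c') T' := fun r0 U hS hU =>
  Y.mono (h' (U ∪ T) (hS.trans subset_union_left) subset_union_right _ _ subset_rfl (h r0 U hS hU))
    (by omega) (union_subset_union_left _ subset_union_left)

theorem Der.union (h : Der Y S c T) (h' : Der Y S c' T') : Der Y S (c + c') (T ∪ T') :=
  fun r0 U hS hU => Y.mono (h' _ _ (hS.trans subset_union_left) (h r0 U hS hU)) (by omega)
    (union_assoc U T T').symm.subset

theorem Der.biUnion {ι : Type} {T : ι → Set M} (h : ∀ i, Der Y S c (T i)) (s : Finset ι) :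
    Der Y S (s.card * c) (⋃ i ∈ s, T i) := by
  classical
  induction s using Finset.induction_on with
  | empty => simpa using Der.of_subset (empty_subset S)
  | insert a s ha ih =>
    rw [Finset.set_biUnion_insert, Finset.card_insert_of_notMem ha]
    exact ((h a).union ih).le (le_of_eq (by ring))

theorem Der.iUnion_const {ι : Type} [Fintype ι] {T : ι → Set M} (h : ∀ i, Der Y S c (T i)) :
    Der Y S (Fintype.card ι * c) (⋃ i, T i) := by
  simpa using Der.biUnion h Finset.univ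

theorem der_op {g : M → M} (h : Y.Op c g) {x : M} (hx : x ∈ S) : Der Y S c {g x} :=
  fun r0 U hS hU => Y.mono (h r0 U x hU (hS hx)) le_rfl (by rw [union_singleton])

theorem der_add {x y : M} {β : k} (hβ : β ∈ Y.Sc) (hx : x ∈ S) (hy : y ∈ S) :
    Der Y S 0 {x + β • y} := fun _ U hS hU =>
  Y.mono (Y.add (Y.smul hU hβ (hS hy)) (mem_insert_of_mem _ (hS hx)) (mem_insert _ _)) le_rfl
    (by rw [union_singleton]; exact insert_subset_insert (subset_insert _ _))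

end NetA

/-- apply a free operation to a finite family of registers -/
theorem Sys.Op.range {Y : Sys k M} {g : M → M} (h : Y.Op 0 g) {ι : Type} [Finite ι] {x : ι → M}
    {r : ℕ} (hx : Y.Av r (Set.range x)) : Y.Av r (Set.range fun j => g (x j)) := by
  haveI := Fintype.ofFinite ι
  refine Y.mono (NetA.Der.iUnion_const (fun j => NetA.der_op h (Set.mem_range_self j)) r _
    subset_rfl hx) (by simp) ?_
  rintro _ ⟨j, rfl⟩
  exact Or.inr (Set.mem_iUnion.2 ⟨j, rfl⟩)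

/-- the frame change `δ` costs `r` in both directions -/
def Sys.Mv (Y : Sys k M) {F : Type} [AddCommGroup F] (ρ : F → M →ₗ[k] M) (r : ℕ) (δ : F) : Prop :=
  Y.Op r (ρ δ) ∧ Y.Op r (ρ (-δ))

section Mv
variable {Y : Sys k M} {F : Type} [AddCommGroup F] {ρ : F → M →ₗ[k] M}

theorem Sys.Mv.congr {r r' : ℕ} {δ δ' : F} (h : Y.Mv ρ r δ) (hr : r = r') (hδ : δ = δ') :
    Y.Mv ρ r' δ' := hr ▸ hδ ▸ h

theorem Sys.Mv.neg {r : ℕ} {δ : F} (h : Y.Mv ρ r δ) : Y.Mv ρ r (-δ) :=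
  ⟨h.2, by rw [neg_neg]; exact h.1⟩

theorem Sys.Mv.add (ha : ∀ a b x, ρ (a + b) x = ρ a (ρ b x)) {r r' : ℕ} {δ δ' : F}
    (h : Y.Mv ρ r δ) (h' : Y.Mv ρ r' δ') : Y.Mv ρ (r + r') (δ + δ') := by
  unfold Sys.Mv
  rw [neg_add, show ⇑(ρ (δ + δ')) = fun x => ρ δ (ρ δ' x) from funext (ha _ _),
    show ⇑(ρ (-δ + -δ')) = fun x => ρ (-δ) (ρ (-δ') x) from funext (ha _ _)]
  exact ⟨h.1.comp h'.1, h.2.comp h'.2⟩

theorem Sys.mv_zero (h0 : ∀ x, ρ 0 x = x) : Y.Mv ρ 0 0 := by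
  unfold Sys.Mv
  rw [neg_zero, show ⇑(ρ 0) = fun x => x from funext h0]
  exact ⟨Y.op_id, Y.op_id⟩

theorem Sys.Mv.sum (h0 : ∀ x, ρ 0 x = x) (ha : ∀ a b x, ρ (a + b) x = ρ a (ρ b x)) {ι : Type}
    (s : Finset ι) {r : ℕ} {δ : ι → F} (h : ∀ i ∈ s, Y.Mv ρ r (δ i)) :
    Y.Mv ρ (s.card * r) (∑ i ∈ s, δ i) := by
  classical
  induction s using Finset.induction_on with
  | empty => simpa using Sys.mv_zero h0
  | insert a s has ih =>
    rw [Finset.sum_insert has, Finset.card_insert_of_notMem has]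
    exact ((h a (Finset.mem_insert_self _ _)).add ha
      (ih fun i hi => h i (Finset.mem_insert_of_mem hi))).congr (by ring) rfl

end Mv

/-- the data of a network -/
structure NetData (Y : Sys k M) (F A I Tr Jc : Type) [AddCommGroup F] [Fintype I] [Fintype Tr]
    [Fintype Jc] (o : Tr → Tr → Prop) [∀ S T, Decidable (o S T)] where
  ρ : F → M →ₗ[k] M
  ρ_zero : ∀ x, ρ 0 x = x
  ρ_add : ∀ a b x, ρ (a + b) x = ρ a (ρ b x)
  ev : I → A
  uv : Tr → A
  w : A → A → A → F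
  Cl : (A → F) → Prop
  cl_sub : ∀ Φ Ψ, Cl Φ → Cl Ψ → Cl fun a => Φ a - Ψ a
  cl_sum : ∀ Φ : I → A → F, (∀ i, Cl (Φ i)) → Cl fun a => ∑ i, Φ i a
  cl1 : ∀ b c, Cl fun a => w a b c
  cl2 : ∀ a c, Cl fun b => w a b c
  cl3 : ∀ a b, Cl fun c => w a b c
  h2 : ℕ
  card_I : Fintype.card I = h2 + 2
  r0 : ℕ
  mv_w : ∀ a b c, Y.Mv ρ 1 (w a b c)
  mv_A : ∀ Φ r, Cl Φ → (∀ a, Y.Mv ρ r (Φ a)) → ∀ S,
    Y.Mv ρ ((h2 + 1) * r) (∑ i, Φ (ev i) - Φ (uv S))
  mv_B : ∀ Φ r, Cl Φ → (∀ a, Y.Mv ρ r (Φ a)) → ∀ S T, o S T →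
    Y.Mv ρ (h2 * r) (∑ i, Φ (ev i) - Φ (uv S) - Φ (uv T))
  mv_fin : ∀ S T R, Y.Mv ρ r0 (w (uv S) (uv T) (uv R) + w (uv S) (uv T) (uv R))
  tri : ∀ σ : k, σ = 1 ∨ σ = -1 → ∃ (B : Tr → Tr → k) (Q : Tr → Jc → k) (Pm : Jc → Tr → k),
    (∀ S T, B S T ∈ Y.Sc) ∧ (∀ T j, Q T j ∈ Y.Sc) ∧ (∀ j S, Pm j S ∈ Y.Sc) ∧
    ∀ (x : Tr → M) (y : M) (T : Tr), y + ∑ S ∈ Finset.univ.filter (o · T), B S T • x S +
      ∑ j, Q T j • ∑ S, Pm j S • x S = y + σ • x T

/-- the wires of the network -/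
abbrev Wire (Tr : Type) (o : Tr → Tr → Prop) : Type :=
  ((Tr × Tr × Tr) ⊕ (Tr × Tr × Tr)) ⊕ Fin 3 × (Tr × Tr) × {p : Tr × Tr // o p.1 p.2}

theorem card_wire (Tr : Type) [Fintype Tr] (o : Tr → Tr → Prop) [∀ S T, Decidable (o S T)] :
    2 * Fintype.card Tr ^ 3 ≤ Fintype.card (Wire Tr o) ∧
      Fintype.card (Wire Tr o) ≤ 2 * Fintype.card Tr ^ 3 + 3 * Fintype.card Tr ^ 4 := by
  have h := Fintype.card_subtype_le (fun p : Tr × Tr => o p.1 p.2)
  simp only [Fintype.card_sum, Fintype.card_prod, Fintype.card_fin] at h ⊢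
  have h2 := Nat.mul_le_mul_left (Fintype.card Tr * Fintype.card Tr) h
  constructor <;> nlinarith [Nat.zero_le (Fintype.card Tr * Fintype.card Tr *
    Fintype.card {p : Tr × Tr // o p.1 p.2})]

namespace NetA

open Set

section Frames

variable {Y : Sys k M} {F : Type} [AddCommGroup F] {ρ : F → M →ₗ[k] M}

variable (ρ) in
/-- the value held by a wire carrying the logical register `s` in the frame `σ` -/
def Fr (σ : F) (s : M) : Set M := {ρ σ s}

theorem mv_der (ha : ∀ a b x, ρ (a + b) x = ρ a (ρ b x)) {r : ℕ} {δ σ σ' : F} (h : Y.Mv ρ r δ)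
    (e : σ' = δ + σ) {s : M} {S : Set M} (hS : Fr ρ σ s ⊆ S) : Der Y S r (Fr ρ σ' s) := by
  unfold Fr
  rw [e, ha]
  exact der_op h.1 (hS rfl)

theorem fr_add {σ : F} {s s' : M} {β : k} (hβ : β ∈ Y.Sc) {S : Set M}
    (hS : Fr ρ σ s ⊆ S) (hS' : Fr ρ σ s' ⊆ S) : Der Y S 0 (Fr ρ σ (s + β • s')) := by
  unfold Fr
  rw [map_add, map_smul]
  exact der_add hβ (hS rfl) (hS' rfl)

theorem fr_sum {ι : Type} (T : Finset ι) (β : ι → k) (hβ : ∀ j, β j ∈ Y.Sc) {σ : F} {s : ι → M}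
    {S : Set M} (hne : S.Nonempty) (hS : ∀ j ∈ T, Fr ρ σ (s j) ⊆ S) :
    Der Y S 0 (Fr ρ σ (∑ j ∈ T, β j • s j)) := by
  classical
  induction T using Finset.induction_on with
  | empty =>
    obtain ⟨x, hx⟩ := hne
    simpa [Fr] using der_add (Y.Sc.neg_mem Y.Sc.one_mem) hx hx
  | insert a T ha ih =>
    rw [Finset.sum_insert ha, add_comm]
    exact (ih fun j hj => hS j (Finset.mem_insert_of_mem hj)).step fun S' a1 b1 =>
      fr_add (hβ a) b1 ((hS a (Finset.mem_insert_self _ _)).trans a1)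

section Gadget

variable {Tr I : Type} [Fintype Tr] [Fintype I] [Nonempty Tr] (o : Tr → Tr → Prop)
  [∀ S T, Decidable (o S T)] (B : Tr → Tr → k) (Q : Tr → I → k) (Pm : I → Tr → k) {h : ℕ}
  (D N : F) (φ : Tr → F)

/-- number of passes in a shear -/
def shP (Tr I : Type) [Fintype Tr] [Fintype I] (o : Tr → Tr → Prop) [∀ S T, Decidable (o S T)]
    (h : ℕ) : ℕ :=
  2 * Fintype.card Tr * (h + 1) + Fintype.card {p : Tr × Tr // o p.1 p.2} * (h + 2) +
    Fintype.card I * (h + 2)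

/-- shear whose source is the upper wire -/
theorem shearI (hρ : ∀ a b x, ρ (a + b) x = ρ a (ρ b x)) (hB : ∀ S T, B S T ∈ Y.Sc)
    (hQ : ∀ T j, Q T j ∈ Y.Sc) (hP : ∀ j S, Pm j S ∈ Y.Sc) (x y : Tr → M) (z : Tr → Tr → M)
    (y' : Tr → M)
    (hid : ∀ T, y T + ∑ S ∈ Finset.univ.filter (o · T), B S T • x S +
      ∑ j, Q T j • ∑ S, Pm j S • x S = y' T)
    (m1 : ∀ S, Y.Mv ρ 1 (φ S)) (m2 : ∀ S, Y.Mv ρ (h + 1) (N - φ S))
    (m3 : ∀ S T, o S T → Y.Mv ρ h (N - φ S - φ T)) (m4 : Y.Mv ρ (h + 2) N)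
    {S0 : Set M} (hx : ∀ S, Fr ρ (D + φ S) (x S) ⊆ S0) (hy : ∀ T, Fr ρ D (y T) ⊆ S0)
    (hz : ∀ S T, o S T → Fr ρ D (z S T) ⊆ S0) :
    Der Y S0 (shP Tr I o h)
      ((⋃ S, Fr ρ (D + N) (x S)) ∪ (⋃ T, Fr ρ (D + N - φ T) (y' T)) ∪
        ⋃ p : {p : Tr × Tr // o p.1 p.2}, Fr ρ (D + N) (z p.1.1 p.1.2)) := by
  have hne : S0.Nonempty := ⟨_, hy (Classical.arbitrary Tr) rfl⟩
  have h1 := Y.Sc.one_mem
  have hn1 := Y.Sc.neg_mem h1
  let z1 : Tr → Tr → M := fun S T => z S T + B S T • x S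
  let c1 : I → M := fun j => ∑ S, Pm j S • x S
  refine Der.le (Der.step (Der.iUnion_const
    (T := fun p : {p : Tr × Tr // o p.1 p.2} => Fr ρ (D + φ p.1.1) (z1 p.1.1 p.1.2))
    fun p => Der.step (mv_der hρ (m1 p.1.1) (σ' := D + φ p.1.1) (by abel) (hz _ _ p.2))
      fun S' a b => fr_add (hB _ _) b ((hx _).trans a)) fun S1 h01 ha => Der.step (Der.iUnion_const
    (T := fun S => Fr ρ (D + N) (x S))
    fun S => mv_der hρ (m2 S) (by abel) ((hx S).trans h01)) fun S2 h12 hb =>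
    Der.step (Der.iUnion_const (T := fun j => Fr ρ D (c1 j))
    fun j => Der.step (fr_sum Finset.univ (Pm j) (hP j) (σ := D + N) (hne.mono (h01.trans h12))
      (fun S _ => (subset_iUnion _ S).trans hb)) fun S' _ b =>
      mv_der hρ m4.neg (by abel) b) fun S3 h23 hc => Der.step (Der.iUnion_const
    (T := fun p : {p : Tr × Tr // o p.1 p.2} => Fr ρ (D + N - φ p.1.2) (z1 p.1.1 p.1.2))
    fun p => mv_der hρ (m3 _ _ p.2) (by abel)
      (((subset_iUnion _ p).trans ha).trans (h12.trans h23)))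
    fun S4 h34 hd => ((Der.of_subset (hb.trans (h23.trans h34))).union (Der.iUnion_const
      (c := 0 + (0 + (0 + (0 + ((h + 1) + (0 + 0))))))
      fun T => ?_)).union (Der.iUnion_const (c := 1 + 0) fun p => ?_)) ?_
  · have h04 : S0 ⊆ S4 := h01.trans (h12.trans (h23.trans h34))
    refine Der.step (fr_sum (Finset.univ.filter (o · T)) (fun _ => 1) (fun _ => h1) (σ := D)
      (s := fun S => z S T) (hne.mono h04) (fun S hS => (hz S T (by simpa using hS)).trans h04))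
      fun A1 a1 b1 => ?_
    refine Der.step (fr_sum Finset.univ (Q T) (hQ T) (σ := D) (s := c1) (hne.mono (h04.trans a1))
      (fun j _ => ((subset_iUnion _ j).trans hc).trans (h34.trans a1))) fun A2 a2 b2 => ?_
    refine Der.step (fr_add hn1 ((hy T).trans (h04.trans (a1.trans a2))) (b1.trans a2))
      fun A3 a3 b3 => ?_
    refine Der.step (fr_add h1 b3 (b2.trans a3)) fun A4 a4 b4 => ?_
    refine Der.step (mv_der hρ (m2 T) (σ' := D + N - φ T) (by abel) b4) fun A5 a5 b5 => ?_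
    refine Der.step (fr_sum (Finset.univ.filter (o · T)) (fun _ => 1) (fun _ => h1)
      (σ := D + N - φ T) (s := fun S => z1 S T) ⟨_, b5 rfl⟩
      (fun S hS => ((subset_iUnion (fun p : {p : Tr × Tr // o p.1 p.2} =>
        Fr ρ (D + N - φ p.1.2) (z1 p.1.1 p.1.2)) ⟨(S, T), by simpa using hS⟩).trans hd).trans
        (a1.trans (a2.trans (a3.trans (a4.trans a5)))))) fun A6 a6 b6 => ?_
    convert fr_add h1 (b5.trans a6) b6 using 2
    rw [← hid T]
    simp only [z1, c1, one_smul, Finset.sum_add_distrib, neg_smul]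
    abel
  · refine Der.step (mv_der hρ (m1 p.1.2) (σ' := D + N) (by abel) ((subset_iUnion _ p).trans hd))
      fun A1 a1 b1 => ?_
    convert fr_add (Y.Sc.neg_mem (hB p.1.1 p.1.2)) b1
      (((subset_iUnion _ p.1.1).trans hb).trans (h23.trans (h34.trans a1))) using 2
    simp [z1]
  · unfold shP
    apply le_of_eq
    ring

/-- shear whose target is the upper wire -/
theorem shearII (hρ : ∀ a b x, ρ (a + b) x = ρ a (ρ b x)) (hB : ∀ S T, B S T ∈ Y.Sc)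
    (hQ : ∀ T j, Q T j ∈ Y.Sc) (hP : ∀ j S, Pm j S ∈ Y.Sc) (x y : Tr → M) (z : Tr → Tr → M)
    (y' : Tr → M)
    (hid : ∀ T, y T + ∑ S ∈ Finset.univ.filter (o · T), B S T • x S +
      ∑ j, Q T j • ∑ S, Pm j S • x S = y' T)
    (m1 : ∀ S, Y.Mv ρ 1 (φ S)) (m2 : ∀ S, Y.Mv ρ (h + 1) (N - φ S))
    (m3 : ∀ S T, o S T → Y.Mv ρ h (N - φ S - φ T)) (m4 : Y.Mv ρ (h + 2) N)
    {S0 : Set M} (hx : ∀ S, Fr ρ D (x S) ⊆ S0) (hy : ∀ T, Fr ρ (D + φ T) (y T) ⊆ S0)
    (hz : ∀ S T, o S T → Fr ρ D (z S T) ⊆ S0) :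
    Der Y S0 (shP Tr I o h)
      ((⋃ S, Fr ρ (D + N - φ S) (x S)) ∪ (⋃ T, Fr ρ (D + N) (y' T)) ∪
        ⋃ p : {p : Tr × Tr // o p.1 p.2}, Fr ρ (D + N) (z p.1.1 p.1.2)) := by
  have hne : S0.Nonempty := ⟨_, hy (Classical.arbitrary Tr) rfl⟩
  have h1 := Y.Sc.one_mem
  have hn1 := Y.Sc.neg_mem h1
  let z1 : Tr → Tr → M := fun S T => z S T + B S T • x S
  let c1 : I → M := fun j => ∑ S, Pm j S • x S
  refine Der.le (Der.step (Der.iUnion_const
    (T := fun p : {p : Tr × Tr // o p.1 p.2} => Fr ρ (D + φ p.1.2) (z1 p.1.1 p.1.2))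
    fun p => Der.step (fr_add (hB _ _) (hz _ _ p.2) (hx _)) fun S' _ b =>
      mv_der hρ (m1 p.1.2) (σ' := D + φ p.1.2) (by abel) b) fun S1 h01 ha =>
    Der.step (Der.iUnion_const (T := fun S => Fr ρ (D + N - φ S) (x S))
    fun S => mv_der hρ (m2 S) (by abel) ((hx S).trans h01)) fun S2 h12 hb =>
    Der.step (Der.iUnion_const (T := fun j => Fr ρ (D + N) (c1 j))
    fun j => Der.step (fr_sum Finset.univ (Pm j) (hP j) (σ := D) (hne.mono (h01.trans h12))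
      (fun S _ => (hx S).trans (h01.trans h12))) fun S' _ b =>
      mv_der hρ m4 (by abel) b) fun S3 h23 hc => Der.step (Der.iUnion_const
    (T := fun p : {p : Tr × Tr // o p.1 p.2} => Fr ρ (D + N) (z p.1.1 p.1.2))
    (c := h + (0 + 1)) fun p => ?_)
    fun S4 h34 hd => ((Der.of_subset (hb.trans (h23.trans h34))).union (Der.iUnion_const
      (c := 0 + (0 + ((h + 1) + (0 + (0 + (0 + 0))))))
      fun T => ?_)).union (Der.of_subset hd)) ?_
  · refine Der.step (mv_der hρ (m3 _ _ p.2) (σ' := D + N - φ p.1.1) (by abel)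
      (((subset_iUnion _ p).trans ha).trans (h12.trans h23))) fun A1 a1 b1 => ?_
    refine Der.step (fr_add (Y.Sc.neg_mem (hB p.1.1 p.1.2)) b1
      (((subset_iUnion _ p.1.1).trans hb).trans (h23.trans a1))) fun A2 _ b2 => ?_
    convert mv_der hρ (m1 p.1.1) (σ' := D + N) (by abel) b2 using 2
    simp [z1]
  · have h14 : S1 ⊆ S4 := h12.trans (h23.trans h34)
    refine Der.step (fr_sum (Finset.univ.filter (o · T)) (fun _ => 1) (fun _ => h1) (σ := D + φ T)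
      (s := fun S => z1 S T) (hne.mono (h01.trans h14))
      (fun S hS => ((subset_iUnion (fun p : {p : Tr × Tr // o p.1 p.2} =>
        Fr ρ (D + φ p.1.2) (z1 p.1.1 p.1.2)) ⟨(S, T), by simpa using hS⟩).trans ha).trans h14))
      fun A1 a1 b1 => ?_
    refine Der.step (fr_add h1 ((hy T).trans (h01.trans (h14.trans a1))) b1) fun A2 a2 b2 => ?_
    refine Der.step (mv_der hρ (m2 T) (σ' := D + N) (by abel) b2) fun A3 a3 b3 => ?_
    refine Der.step (fr_sum (Finset.univ.filter (o · T)) (fun _ => 1) (fun _ => h1) (σ := D + N)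
      (s := fun S => z S T) ⟨_, b3 rfl⟩
      (fun S hS => ((subset_iUnion (fun p : {p : Tr × Tr // o p.1 p.2} =>
        Fr ρ (D + N) (z p.1.1 p.1.2)) ⟨(S, T), by simpa using hS⟩).trans hd).trans
        (a1.trans (a2.trans a3)))) fun A4 a4 b4 => ?_
    refine Der.step (fr_sum Finset.univ (Q T) (hQ T) (σ := D + N) (s := c1) ⟨_, b4 rfl⟩
      (fun j _ => ((subset_iUnion _ j).trans hc).trans
        (h34.trans (a1.trans (a2.trans (a3.trans a4)))))) fun A5 a5 b5 => ?_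
    refine Der.step (fr_add hn1 (b3.trans (a4.trans a5)) (b4.trans a5)) fun A6 a6 b6 => ?_
    convert fr_add h1 b6 (b5.trans a6) using 2
    rw [← hid T]
    simp only [z1, c1, one_smul, Finset.sum_add_distrib, neg_smul]
    abel
  · unfold shP
    apply le_of_eq
    ring

end Gadget

end Frames

section Moves

variable {Y : Sys k M} {F A I Tr Jc : Type} [AddCommGroup F] [Fintype I] [Fintype Tr]
  [Fintype Jc] {o : Tr → Tr → Prop} [∀ S T, Decidable (o S T)] (nd : NetData Y F A I Tr Jc o)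

/-- frames -/
def F1 (b c : A) : F := ∑ i, nd.w (nd.ev i) b c
/-- frames -/
def N2 (a c : A) : F := ∑ j, nd.w a (nd.ev j) c
/-- frames -/
def N3 (a b : A) : F := ∑ l, nd.w a b (nd.ev l)
/-- frames -/
def F2 (c : A) : F := ∑ i, N2 nd (nd.ev i) c
/-- frames -/
def F3 : F := ∑ i, ∑ j, N3 nd (nd.ev i) (nd.ev j)

theorem mv_sum {r : ℕ} {δ : I → F} (h : ∀ i, Y.Mv nd.ρ r (δ i)) :
    Y.Mv nd.ρ ((nd.h2 + 2) * r) (∑ i, δ i) :=
  (Sys.Mv.sum nd.ρ_zero nd.ρ_add Finset.univ fun i _ => h i).congr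
    (by rw [Finset.card_univ, nd.card_I]) rfl

theorem mv_F1 (b c : A) : Y.Mv nd.ρ (nd.h2 + 2) (F1 nd b c) :=
  (mv_sum nd fun i => nd.mv_w (nd.ev i) b c).congr (mul_one _) rfl
theorem mv_N2 (a c : A) : Y.Mv nd.ρ (nd.h2 + 2) (N2 nd a c) :=
  (mv_sum nd fun i => nd.mv_w a (nd.ev i) c).congr (mul_one _) rfl
theorem mv_N3 (a b : A) : Y.Mv nd.ρ (nd.h2 + 2) (N3 nd a b) :=
  (mv_sum nd fun i => nd.mv_w a b (nd.ev i)).congr (mul_one _) rfl

theorem mv_A1 (S : Tr) (b c : A) : Y.Mv nd.ρ (nd.h2 + 1) (F1 nd b c - nd.w (nd.uv S) b c) :=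
  (nd.mv_A _ 1 (nd.cl1 b c) (fun a => nd.mv_w a b c) S).congr (mul_one _) rfl
theorem mv_A2 (S : Tr) (a c : A) : Y.Mv nd.ρ (nd.h2 + 1) (N2 nd a c - nd.w a (nd.uv S) c) :=
  (nd.mv_A _ 1 (nd.cl2 a c) (fun b => nd.mv_w a b c) S).congr (mul_one _) rfl
theorem mv_A3 (S : Tr) (a b : A) : Y.Mv nd.ρ (nd.h2 + 1) (N3 nd a b - nd.w a b (nd.uv S)) :=
  (nd.mv_A _ 1 (nd.cl3 a b) (fun c => nd.mv_w a b c) S).congr (mul_one _) rfl

theorem mv_B1 (S T : Tr) (ho : o S T) (b c : A) :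
    Y.Mv nd.ρ nd.h2 (F1 nd b c - nd.w (nd.uv S) b c - nd.w (nd.uv T) b c) :=
  (nd.mv_B _ 1 (nd.cl1 b c) (fun a => nd.mv_w a b c) S T ho).congr (mul_one _) rfl
theorem mv_B2 (S T : Tr) (ho : o S T) (a c : A) :
    Y.Mv nd.ρ nd.h2 (N2 nd a c - nd.w a (nd.uv S) c - nd.w a (nd.uv T) c) :=
  (nd.mv_B _ 1 (nd.cl2 a c) (fun b => nd.mv_w a b c) S T ho).congr (mul_one _) rfl
theorem mv_B3 (S T : Tr) (ho : o S T) (a b : A) :
    Y.Mv nd.ρ nd.h2 (N3 nd a b - nd.w a b (nd.uv S) - nd.w a b (nd.uv T)) :=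
  (nd.mv_B _ 1 (nd.cl3 a b) (fun c => nd.mv_w a b c) S T ho).congr (mul_one _) rfl

theorem mv_d1 (S T : Tr) (c : A) : Y.Mv nd.ρ ((nd.h2 + 1) * (nd.h2 + 1))
    (F2 nd c - N2 nd (nd.uv S) c - F1 nd (nd.uv T) c + nd.w (nd.uv S) (nd.uv T) c) := by
  refine (nd.mv_A (fun a => N2 nd a c - nd.w a (nd.uv T) c) _
    (nd.cl_sub _ _ (nd.cl_sum _ fun j => nd.cl1 (nd.ev j) c) (nd.cl1 _ c))
    (fun a => mv_A2 nd T a c) S).congr rfl ?_
  simp only [Finset.sum_sub_distrib, F1, F2]; abel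

theorem mv_d2 (S T R : Tr) : Y.Mv nd.ρ ((nd.h2 + 3) * ((nd.h2 + 1) * (nd.h2 + 1)))
    (F3 nd - N3 nd (nd.uv S) (nd.uv T) - F2 nd (nd.uv R) + nd.w (nd.uv S) (nd.uv T) (nd.uv R)) := by
  refine ((mv_sum nd fun i => nd.mv_A (fun b => N3 nd (nd.ev i) b - nd.w (nd.ev i) b (nd.uv R)) _
    (nd.cl_sub _ _ (nd.cl_sum _ fun j => nd.cl2 _ (nd.ev j)) (nd.cl2 _ _))
    (fun b => mv_A3 nd R _ b) T).add nd.ρ_add
    (nd.mv_A (fun a => N3 nd a (nd.uv T) - nd.w a (nd.uv T) (nd.uv R)) _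
    (nd.cl_sub _ _ (nd.cl_sum _ fun j => nd.cl1 _ (nd.ev j)) (nd.cl1 _ _))
    (fun a => mv_A3 nd R a _) S)).congr (by ring) ?_
  simp only [Finset.sum_sub_distrib, F3, F2, N2]; abel

theorem mv_32 (R : Tr) :
    Y.Mv nd.ρ ((nd.h2 + 2) * ((nd.h2 + 2) * (nd.h2 + 1))) (F3 nd - F2 nd (nd.uv R)) := by
  refine (mv_sum nd fun i => mv_sum nd fun j => mv_A3 nd R (nd.ev i) (nd.ev j)).congr rfl ?_
  simp only [Finset.sum_sub_distrib, F3, F2, N2]

theorem mv_21 (T : Tr) (c : A) :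
    Y.Mv nd.ρ ((nd.h2 + 2) * (nd.h2 + 1)) (F2 nd c - F1 nd (nd.uv T) c) := by
  refine (mv_sum nd fun i => mv_A2 nd T (nd.ev i) c).congr rfl ?_
  simp only [Finset.sum_sub_distrib, F2, F1]

theorem mv_D2 (S : Tr) (c : A) :
    Y.Mv nd.ρ ((nd.h2 + 2) * (nd.h2 + 1)) (F2 nd c - N2 nd (nd.uv S) c) := by
  refine (mv_sum nd fun j => mv_A1 nd S (nd.ev j) c).congr rfl ?_
  simp only [Finset.sum_sub_distrib, F2, F1, N2]
  rw [Finset.sum_comm]

theorem mv_D3 (S T : Tr) : Y.Mv nd.ρ ((nd.h2 + 2) * ((nd.h2 + 2) * (nd.h2 + 1) + (nd.h2 + 1)))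
    (F3 nd - N3 nd (nd.uv S) (nd.uv T)) := by
  refine (mv_sum nd fun l => (mv_21 nd T (nd.ev l)).add nd.ρ_add
    (mv_A1 nd S (nd.uv T) (nd.ev l))).congr rfl ?_
  simp only [Finset.sum_sub_distrib, F2, F3, N3, N2, sub_add_sub_cancel]
  congr 1
  rw [Finset.sum_comm]
  exact Finset.sum_congr rfl fun i _ => Finset.sum_comm

/-- extension of ancilla data by zero -/
def zext (o : Tr → Tr → Prop) [∀ S T, Decidable (o S T)] (z : {p : Tr × Tr // o p.1 p.2} → M)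
    (S T : Tr) : M := if h : o S T then z ⟨(S, T), h⟩ else 0

omit [Fintype Tr] in
theorem zext_eq (z : {p : Tr × Tr // o p.1 p.2} → M) (p : {p : Tr × Tr // o p.1 p.2}) :
    zext o z p.1.1 p.1.2 = z p := dif_pos p.2

theorem fr_rho (σ σ' : F) (s : M) : Fr nd.ρ σ (nd.ρ σ' s) = Fr nd.ρ (σ + σ') s := by
  unfold Fr; rw [nd.ρ_add]

theorem fr_zero (s : M) : Fr nd.ρ 0 s = {s} := by
  unfold Fr; rw [nd.ρ_zero]

set_option maxHeartbeats 1000000 in
theorem network0 [Nonempty Tr] (a b : Tr × Tr × Tr → M)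
    (z1 z2 z3 : (Tr × Tr) × {p : Tr × Tr // o p.1 p.2} → M) {S0 : Set M}
    (ha : ∀ u, {a u} ⊆ S0) (hb : ∀ u, {b u} ⊆ S0) (h1 : ∀ u, {z1 u} ⊆ S0)
    (h2 : ∀ u, {z2 u} ⊆ S0) (h3 : ∀ u, {z3 u} ⊆ S0) (R : ℕ)
    (hR : Fintype.card (Wire Tr o) * Fintype.card I ^ 3 + nd.r0 * Fintype.card Tr ^ 3 +
      3 * Fintype.card Tr ^ 2 * Fintype.card I * Fintype.card Jc ≤ R + 2 * Fintype.card Tr ^ 3) :
    Der Y S0 R
      ((⋃ u, Fr nd.ρ (F3 nd) (a u)) ∪ (⋃ u, Fr nd.ρ (F3 nd) (b u)) ∪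
        (⋃ u, Fr nd.ρ (F3 nd) (z1 u)) ∪ (⋃ u, Fr nd.ρ (F3 nd) (z2 u)) ∪
        ⋃ u, Fr nd.ρ (F3 nd) (z3 u)) := by
  obtain ⟨B, Q, Pm, hB, hQ, hP, tp⟩ := nd.tri 1 (Or.inl rfl)
  obtain ⟨B', Q', Pm', hB', hQ', hP', tn⟩ := nd.tri (-1) (Or.inr rfl)
  have hρ := nd.ρ_add
  let φ : Tr × Tr × Tr → F := fun u => nd.w (nd.uv u.1) (nd.uv u.2.1) (nd.uv u.2.2)
  let x0 := fun u => nd.ρ (-φ u) (a u)
  let y1 := fun u => b u + (1 : k) • x0 u
  let x2 := fun u => x0 u + (-1 : k) • y1 u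
  let y3 := fun u => y1 u + (1 : k) • x2 u
  let D2 : Tr × Tr → F := fun g => F2 nd (nd.uv g.2) - N2 nd (nd.uv g.1) (nd.uv g.2)
  let D3 : Tr × Tr → F := fun g => F3 nd - N3 nd (nd.uv g.1) (nd.uv g.2)
  -- shear 1
  refine Der.le (Der.step (Der.iUnion_const fun g : Tr × Tr =>
    shearI o B Q Pm 0 (F1 nd (nd.uv g.1) (nd.uv g.2)) (fun S => φ (S, g)) hρ hB hQ hP
      (fun S => x0 (S, g)) (fun S => b (S, g)) (zext o fun p => z1 (g, p)) (fun S => y1 (S, g))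
      (fun T => tp _ _ T) (fun S => nd.mv_w _ _ _) (fun S => mv_A1 nd S _ _)
      (fun S T ho => mv_B1 nd S T ho _ _) (mv_F1 nd _ _) (S0 := S0) (fun S => ?_) (fun S => ?_)
      (fun S T ho => ?_)) fun A1 a1 b1 =>
    -- moves
    Der.step (Der.iUnion_const (T := fun u : Tr × Tr × Tr =>
      Fr nd.ρ (D2 (u.1, u.2.2) + φ u) (x0 u) ∪ Fr nd.ρ (D2 (u.1, u.2.2)) (y1 u)) fun u =>
      (mv_der hρ (mv_d1 nd u.1 u.2.1 (nd.uv u.2.2)) (σ := 0 + F1 nd (nd.uv u.2.1) (nd.uv u.2.2))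
        (by simp only [D2, φ]; abel) ?_).union
      (mv_der hρ (mv_d1 nd u.1 u.2.1 (nd.uv u.2.2))
        (σ := 0 + F1 nd (nd.uv u.2.1) (nd.uv u.2.2) - φ u)
        (by simp only [D2, φ]; abel) ?_)) fun A2 a2 b2 =>
    Der.step (Der.iUnion_const (T := fun u : (Tr × Tr) × {p : Tr × Tr // o p.1 p.2} =>
      Fr nd.ρ (F3 nd) (z1 u) ∪ Fr nd.ρ (D2 u.1) (z2 u) ∪ Fr nd.ρ (D3 u.1) (z3 u)) fun u =>
      ((mv_der hρ ((mv_32 nd u.1.2).add hρ (mv_21 nd u.1.1 (nd.uv u.1.2)))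
        (σ := 0 + F1 nd (nd.uv u.1.1) (nd.uv u.1.2)) (by abel) ?_).union
      (mv_der hρ (mv_D2 nd u.1.1 (nd.uv u.1.2)) (σ := 0) (by simp [D2]) ?_)).union
      (mv_der hρ (mv_D3 nd u.1.1 u.1.2) (σ := 0) (by simp [D3]) ?_)) fun A3 a3 b3 =>
    -- shear 2
    Der.step (Der.iUnion_const fun g : Tr × Tr =>
      shearII o B' Q' Pm' (D2 g) (N2 nd (nd.uv g.1) (nd.uv g.2)) (fun S => φ (g.1, S, g.2))
      hρ hB' hQ' hP'
      (fun S => y1 (g.1, S, g.2)) (fun S => x0 (g.1, S, g.2)) (zext o fun p => z2 (g, p))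
      (fun S => x2 (g.1, S, g.2))
      (fun T => tn _ _ T) (fun S => nd.mv_w _ _ _) (fun S => mv_A2 nd S _ _)
      (fun S T ho => mv_B2 nd S T ho _ _) (mv_N2 nd _ _) (S0 := A3) (fun S => ?_) (fun S => ?_)
      (fun S T ho => ?_)) fun A4 a4 b4 =>
    -- moves
    Der.step (Der.iUnion_const (T := fun u : Tr × Tr × Tr =>
      Fr nd.ρ (D3 (u.1, u.2.1) + φ u) (x2 u) ∪ Fr nd.ρ (D3 (u.1, u.2.1)) (y1 u)) fun u =>
      (mv_der hρ (mv_d2 nd u.1 u.2.1 u.2.2)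
        (σ := D2 (u.1, u.2.2) + N2 nd (nd.uv u.1) (nd.uv u.2.2))
        (by simp only [D2, D3, φ]; abel) ?_).union
      (mv_der hρ (mv_d2 nd u.1 u.2.1 u.2.2)
        (σ := D2 (u.1, u.2.2) + N2 nd (nd.uv u.1) (nd.uv u.2.2) - φ u)
        (by simp only [D2, D3, φ]; abel) ?_)) fun A5 a5 b5 =>
    -- shear 3
    Der.step (Der.iUnion_const fun g : Tr × Tr =>
      shearI o B Q Pm (D3 g) (N3 nd (nd.uv g.1) (nd.uv g.2)) (fun S => φ (g.1, g.2, S))
      hρ hB hQ hP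
      (fun S => x2 (g.1, g.2, S)) (fun S => y1 (g.1, g.2, S)) (zext o fun p => z3 (g, p))
      (fun S => y3 (g.1, g.2, S))
      (fun T => tp _ _ T) (fun S => nd.mv_w _ _ _) (fun S => mv_A3 nd S _ _)
      (fun S T ho => mv_B3 nd S T ho _ _) (mv_N3 nd _ _) (S0 := A5) (fun S => ?_) (fun S => ?_)
      (fun S T ho => ?_)) fun A6 a6 b6 =>
    ((((Der.iUnion_const (c := nd.r0) fun u => ?_).union
      (Der.iUnion_const (c := 0) fun u => ?_)).union
      (Der.of_subset ?_)).union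
      (Der.iUnion_const fun u => mv_der hρ (mv_32 nd u.1.2)
        (σ := D2 u.1 + N2 nd (nd.uv u.1.1) (nd.uv u.1.2)) (by simp only [D2]; abel) ?_)).union
      (Der.of_subset ?_)) ?_
  · simp only [x0, fr_rho, zero_add, add_neg_cancel, fr_zero]; exact ha _
  · rw [fr_zero]; exact hb _
  · rw [fr_zero, zext, dif_pos ho]; exact h1 _
  · simp only [iUnion_subset_iff, union_subset_iff] at b1
    exact (b1 u.2).1.1 u.1
  · simp only [iUnion_subset_iff, union_subset_iff] at b1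
    exact (b1 u.2).1.2 u.1
  · simp only [iUnion_subset_iff, union_subset_iff, zext_eq] at b1
    exact ((b1 u.1).2 u.2).trans a2
  · rw [fr_zero]; exact (h2 _).trans (a1.trans a2)
  · rw [fr_zero]; exact (h3 _).trans (a1.trans a2)
  · simp only [iUnion_subset_iff, union_subset_iff] at b2
    exact (b2 (g.1, S, g.2)).2.trans a3
  · simp only [iUnion_subset_iff, union_subset_iff] at b2
    exact (b2 (g.1, S, g.2)).1.trans a3
  · simp only [iUnion_subset_iff, union_subset_iff] at b3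
    rw [zext, dif_pos ho]
    exact (b3 (g, ⟨(S, T), ho⟩)).1.2
  · simp only [iUnion_subset_iff, union_subset_iff] at b4
    exact (b4 (u.1, u.2.2)).1.2 u.2.1
  · simp only [iUnion_subset_iff, union_subset_iff] at b4
    exact (b4 (u.1, u.2.2)).1.1 u.2.1
  · simp only [iUnion_subset_iff, union_subset_iff] at b5
    exact (b5 (g.1, g.2, S)).1
  · simp only [iUnion_subset_iff, union_subset_iff] at b5
    exact (b5 (g.1, g.2, S)).2
  · simp only [iUnion_subset_iff, union_subset_iff] at b3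
    rw [zext, dif_pos ho]
    exact (b3 (g, ⟨(S, T), ho⟩)).2.trans (a4.trans a5)
  · refine mv_der hρ (nd.mv_fin u.1 u.2.1 u.2.2)
      (σ := D3 (u.1, u.2.1) + N3 nd (nd.uv u.1) (nd.uv u.2.1) - φ u + -φ u)
      (by simp only [D3, φ]; abel) ?_
    have e : y3 u = x0 u := by simp only [y3, x2, one_smul, neg_smul]; abel
    rw [← fr_rho]
    change Fr nd.ρ _ (x0 u) ⊆ _
    rw [← e]
    simp only [iUnion_subset_iff, union_subset_iff] at b6
    exact (b6 (u.1, u.2.1)).1.2 u.2.2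
  · have e : b u = x2 u + (-1 + -1 : k) • x2 u := by simp only [x2, y1]; module
    have e' : F3 nd = D3 (u.1, u.2.1) + N3 nd (nd.uv u.1) (nd.uv u.2.1) := by simp [D3]
    have hs : Fr nd.ρ (F3 nd) (x2 u) ⊆ A6 := by
      rw [e']
      simp only [iUnion_subset_iff, union_subset_iff] at b6
      exact (b6 (u.1, u.2.1)).1.1 u.2.2
    rw [e]
    exact fr_add (Y.Sc.add_mem (Y.Sc.neg_mem Y.Sc.one_mem) (Y.Sc.neg_mem Y.Sc.one_mem)) hs hs
  · simp only [iUnion_subset_iff, union_subset_iff] at b3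
    exact iUnion_subset fun u => (b3 u).1.1.trans (a4.trans (a5.trans a6))
  · simp only [iUnion_subset_iff, union_subset_iff, zext_eq] at b4
    exact ((b4 u.1).2 u.2).trans (a5.trans a6)
  · refine iUnion_subset fun u => ?_
    have e' : F3 nd = D3 u.1 + N3 nd (nd.uv u.1.1) (nd.uv u.1.2) := by simp [D3]
    rw [e']
    simp only [iUnion_subset_iff, union_subset_iff, zext_eq] at b6
    exact (b6 u.1).2 u.2
  · refine Nat.le_of_add_le_add_right (le_of_eq_of_le ?_ hR)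
    simp only [Fintype.card_prod, Fintype.card_sum, Fintype.card_fin, shP, nd.card_I]
    ring

end Moves

end NetA

theorem network {Y : Sys k M} {F A I Tr Jc : Type} [AddCommGroup F] [Fintype I] [Fintype Tr]
    [Fintype Jc] [Nonempty Tr] {o : Tr → Tr → Prop} [∀ S T, Decidable (o S T)]
    (nd : NetData Y F A I Tr Jc o) (R : ℕ)
    (hR : Fintype.card (Wire Tr o) * Fintype.card I ^ 3 + nd.r0 * Fintype.card Tr ^ 3 +
      3 * Fintype.card Tr ^ 2 * Fintype.card I * Fintype.card Jc ≤ R + 2 * Fintype.card Tr ^ 3)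
    (x : Wire Tr o → M) {r : ℕ} (hx : Y.Av r (Set.range x)) :
    Y.Av (r + R) (Set.range fun j =>
      nd.ρ (∑ i, ∑ i', ∑ i'', nd.w (nd.ev i) (nd.ev i') (nd.ev i'')) (x j)) := by
  have hs : ∀ j, {x j} ⊆ Set.range x := fun j => Set.singleton_subset_iff.2 (Set.mem_range_self j)
  refine Y.mono (NetA.network0 nd (fun u => x (.inl (.inl u))) (fun u => x (.inl (.inr u)))
    (fun u => x (.inr (0, u))) (fun u => x (.inr (1, u))) (fun u => x (.inr (2, u)))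
    (fun _ => hs _) (fun _ => hs _) (fun _ => hs _) (fun _ => hs _) (fun _ => hs _) R hR r _
    subset_rfl hx) le_rfl ?_
  rintro _ ⟨j, rfl⟩
  refine Or.inr ?_
  rcases j with (u | u) | ⟨i, u⟩
  · exact Or.inl (Or.inl (Or.inl (Or.inl (Set.mem_iUnion.2 ⟨u, rfl⟩))))
  · exact Or.inl (Or.inl (Or.inl (Or.inr (Set.mem_iUnion.2 ⟨u, rfl⟩))))
  · fin_cases i
    · exact Or.inl (Or.inl (Or.inr (Set.mem_iUnion.2 ⟨u, rfl⟩)))
    · exact Or.inl (Or.inr (Set.mem_iUnion.2 ⟨u, rfl⟩))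
    · exact Or.inr (Set.mem_iUnion.2 ⟨u, rfl⟩)

end Crest.Agent.R326
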