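import Crest.Agent.R326.Lists
import Crest.Agent.R326.Net

/-!
# Row 326, the concrete cost system (task R326-Impl)

For an input `a : α` a register holds a value `v : V`, represented by `C.rep a v : X`; the
parameters `C.par a` are kept next to the registers.  An element of `M = α → V` is a register
whose content is given for every input.
PLAN.  `Av r U`: a list `us` covering `U` such that `a ↦ (par a, us.map (rep a (· a)))` is `TB`.
To add a register use a ghost type `G us := α` (a structure wrapping `a`) whose code is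
`(par a, registers)`; on it, `(par, register i)` is `TC` (`TC.getD` with a constant index, recode
to `Reg`), the new register is `TB` (`TB.comp`), `TB.pair` with the identity, and a final `TC`
rearrangement `(new, par, regs) ↦ (par, new :: regs)` whose input size is bounded through
`bd_par`, `bd_reg` (`sz_list_le`).
-/

set_option autoImplicit false

namespace Crest.Agent.R326

open Crest.Agent.PTime

/-- ghost type: parameters and one register -/
structure Reg {α V X Pr : Type} (par : α → Pr) (rep : α → V → X) where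
  a : α
  v : V

instance {α V X Pr : Type} [Enc X] [Enc Pr] (par : α → Pr) (rep : α → V → X) :
    Enc (Reg par rep) := ⟨fun x => enc (par x.a, rep x.a x.v)⟩

/-- ghost type: two registers -/
structure Reg2 {α V X : Type} (rep : α → V → X) where
  a : α
  v : V
  v' : V

instance {α V X : Type} [Enc X] (rep : α → V → X) : Enc (Reg2 rep) :=
  ⟨fun x => enc (rep x.a x.v, rep x.a x.v')⟩

/-- the context of a network computation -/
structure Ctx (k α V X Pr : Type) [CommRing k] [AddCommGroup V] [Module k V] [Enc α] [Enc X]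
    [Enc Pr] where
  H : Q → ℕ → α → Prop
  ψ : α → ℕ
  c : α → ℕ
  par : α → Pr
  rep : α → V → X
  Sc : Subring k
  bd_par : Bd (fun _ => True) c (fun a => sz (par a))
  bd_reg : ∃ K, ∀ a v, sz (rep a v) ≤ K * (c a + sz a)
  add : Lin (fun x : Reg2 rep => rep x.a (x.v + x.v'))
  smul : ∀ s ∈ Sc, Lin (fun x : Reg par rep => rep x.a (s • x.v))

variable {k α V X Pr : Type} [CommRing k] [AddCommGroup V] [Module k V] [Enc α] [Enc X] [Enc Pr]

/-- the budget on the type of registers -/
def Ctx.cR (C : Ctx k α V X Pr) (x : Reg C.par C.rep) : ℕ := C.c x.a + sz x.a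

/-- `g` is implemented with `r` oracle units -/
def Ctx.OpI (C : Ctx k α V X Pr) (r : ℕ) (g : α → V → V) : Prop :=
  TB (fun _ : Reg C.par C.rep => True) (fun e K0 x => C.H e K0 x.a) (fun x => r * C.ψ x.a) C.cR
    (fun x => C.rep x.a (g x.a x.v))

namespace ImplA

theorem post {β γ : Type} [Enc β] [Enc γ] {pre : α → Prop} {H : Q → ℕ → α → Prop} {ψ c : α → ℕ}
    {g : α → β} {f : β → γ} (hg : TB pre H ψ c g) (hf : Lin f)
    (hb : Bd pre c fun a => sz (g a)) : TB pre H ψ c fun a => f (g a) :=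
  TB.comp (ψ' := fun _ => 0) (H' := fun _ _ _ => True) (TB.of_TC hf) hg (fun _ _ => trivial)
    (fun _ _ _ _ _ => trivial) (fun _ _ => le_rfl) (hb.mono fun _ _ => by omega)

theorem get {ι : Type} {pre : α → Prop} {c : α → ℕ} {F : ι → α → X} {us : List ι}
    (h : TC pre c fun a => us.map fun u => F u a) {x : ι} (hx : x ∈ us) : TC pre c (F x) := by
  induction us with
  | nil => simp at hx
  | cons u us ih =>
    have h1 : TC pre c fun a => (F u a, us.map fun u => F u a) := h.of_enc fun _ _ => rfl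
    rcases List.mem_cons.1 hx with rfl | hx
    · exact h1.fst
    · exact ih h1.snd hx

theorem lst {ι : Type} {pre : α → Prop} {c : α → ℕ} {F : ι → α → X} {us : List ι}
    (h : ∀ u ∈ us, TC pre c (F u)) : TC pre c fun a => us.map fun u => F u a := by
  induction us with
  | nil => exact TC.const []
  | cons u us ih =>
    exact (h u List.mem_cons_self).cons (ih fun w hw => h w (List.mem_cons_of_mem _ hw))

theorem lift {G : Type} [Enc G] (π : G → α) {c g : α → ℕ} (h : Bd (fun _ => True) c g) :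
    Bd (fun _ => True) (fun x => c (π x) + sz (π x)) fun x => g (π x) := by
  obtain ⟨K, hK⟩ := h
  exact ⟨K, fun x _ => (hK _ trivial).trans (Nat.mul_le_mul_left _ (Nat.le_add_right _ _))⟩

theorem bd_rep (C : Ctx k α V X Pr) {G : Type} [Enc G] (π : G → α) (w : G → V) :
    Bd (fun _ => True) (fun x => C.c (π x) + sz (π x)) fun x => sz (C.rep (π x) (w x)) := by
  obtain ⟨K, hK⟩ := C.bd_reg
  exact ⟨K, fun x _ => (hK _ _).trans (Nat.mul_le_mul_left _ (Nat.le_add_right _ _))⟩

end ImplA
open ImplA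

theorem Ctx.tc_par (C : Ctx k α V X Pr) {pre : Reg C.par C.rep → Prop} {c : Reg C.par C.rep → ℕ} :
    TC pre c (fun x => C.par x.a) := by
  exact (TC.id.of_enc (f := fun x : Reg C.par C.rep => (C.par x.a, C.rep x.a x.v))
    fun _ _ => rfl).fst

theorem Ctx.tc_reg (C : Ctx k α V X Pr) {pre : Reg C.par C.rep → Prop} {c : Reg C.par C.rep → ℕ} :
    TC pre c (fun x => C.rep x.a x.v) := by
  exact (TC.id.of_enc (f := fun x : Reg C.par C.rep => (C.par x.a, C.rep x.a x.v))
    fun _ _ => rfl).snd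

theorem Ctx.bd_cR (C : Ctx k α V X Pr) {g : α → ℕ} (h : Bd (fun _ => True) C.c g) :
    Bd (fun _ => True) C.cR (fun x => g x.a) := by
  exact ImplA.lift Reg.a h

theorem Ctx.OpI.of_TC {C : Ctx k α V X Pr} {g : α → V → V}
    (h : TC (fun _ => True) C.cR (fun x : Reg C.par C.rep => C.rep x.a (g x.a x.v))) :
    C.OpI 0 g := by
  exact TB.of_TC h

theorem Ctx.OpI.comp {C : Ctx k α V X Pr} {r r' : ℕ} {g g' : α → V → V} (h : C.OpI r g)
    (h' : C.OpI r' g') : C.OpI (r + r') (fun a v => g a (g' a v)) := by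
  have h1 : Lin fun w : X × Pr => (w.2, w.1) := TC.id.snd.pair TC.id.fst
  have h2 : Bd (fun _ => True) C.cR fun x => sz (C.rep x.a (g' x.a x.v)) + sz (C.par x.a) + 1 :=
    ((bd_rep C Reg.a _).add (C.bd_cR C.bd_par)).add (Bd.const 1)
  have h3 : TB (fun _ : Reg C.par C.rep => True) (fun e K0 x => C.H e K0 x.a)
      (fun x => r' * C.ψ x.a) C.cR fun x => (⟨x.a, g' x.a x.v⟩ : Reg C.par C.rep) :=
    (post (TB.pair h' C.tc_par) h1 h2).mono (fun _ h => h) (fun _ _ _ _ h => h) (fun _ _ => le_rfl)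
      Bd.self fun _ _ => rfl
  refine TB.comp h h3 (fun _ _ => trivial) (fun _ _ _ _ h => h)
    (fun x _ => by rw [add_mul, add_comm]) (Bd.self.add (h2.mono fun x _ => ?_))
  exact le_of_eq (congrArg (· + 1) (add_comm _ _))

theorem Ctx.OpI.congr {C : Ctx k α V X Pr} {r r' : ℕ} {g g' : α → V → V} (h : C.OpI r g)
    (hr : r ≤ r') (hg : ∀ a v, g' a v = g a v) : C.OpI r' g' := by
  exact TB.mono h (fun _ h => h) (fun _ _ _ _ h => h) (fun _ _ => Nat.mul_le_mul_right _ hr) Bd.self
    fun x _ => by rw [hg]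

/-- availability of registers -/
def Ctx.Av (C : Ctx k α V X Pr) (r : ℕ) (U : Set (α → V)) : Prop :=
  ∃ us : List (α → V), (∀ u ∈ U, u ∈ us) ∧
    TB (fun _ => True) C.H (fun a => r * C.ψ a) C.c
      (fun a => (C.par a, us.map fun u => C.rep a (u a)))

namespace ImplA

/-- ghost type: parameters and the registers `us` -/
structure G (C : Ctx k α V X Pr) (us : List (α → V)) where
  a : α

instance (C : Ctx k α V X Pr) (us : List (α → V)) : Enc (G C us) :=
  ⟨fun z => enc (C.par z.a, us.map fun u => C.rep z.a (u z.a))⟩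

variable {C : Ctx k α V X Pr} {us : List (α → V)}

theorem tc_G {pre : G C us → Prop} {c : G C us → ℕ} :
    TC pre c fun z => (C.par z.a, us.map fun u => C.rep z.a (u z.a)) :=
  TC.id.of_enc fun _ _ => rfl

theorem tc_get {pre : G C us → Prop} {c : G C us → ℕ} {x : α → V} (hx : x ∈ us) :
    TC pre c fun z => C.rep z.a (x z.a) :=
  get (F := fun (u : α → V) (z : G C us) => C.rep z.a (u z.a)) tc_G.snd hx

theorem bd_G : Bd (fun _ => True) C.c fun a => sz (⟨a⟩ : G C us) := by
  have h : Bd (fun _ => True) C.c fun a => sz (us.map fun u => C.rep a (u a)) := by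
    induction us with
    | nil => exact Bd.const 1
    | cons u us ih =>
      obtain ⟨K, hK⟩ := C.bd_reg
      exact (Bd.add ⟨K, fun a _ => hK a (u a)⟩ ih).add (Bd.const 1)
  exact (C.bd_par.add h).add (Bd.const 1)

theorem toG {r : ℕ} (h : TB (fun _ => True) C.H (fun a => r * C.ψ a) C.c
    fun a => (C.par a, us.map fun u => C.rep a (u a))) :
    TB (fun _ => True) C.H (fun a => r * C.ψ a) C.c fun a => (⟨a⟩ : G C us) :=
  h.mono (fun _ h => h) (fun _ _ _ _ h => h) (fun _ _ => le_rfl) Bd.self fun _ _ => rfl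

theorem ext {r r0 : ℕ} {U : Set (α → V)} {y : α → V} (hU : C.Av r0 U)
    (h : ∀ us : List (α → V), (∀ u ∈ U, u ∈ us) →
      TB (fun _ : G C us => True) (fun e K0 z => C.H e K0 z.a) (fun z => r * C.ψ z.a)
        (fun z => C.c z.a + sz z.a) fun z => C.rep z.a (y z.a)) :
    C.Av (r0 + r) (insert y U) := by
  obtain ⟨us, h1, h2⟩ := hU
  have h3 : Lin fun w : X × G C us =>
      (C.par w.2.a, w.1 :: us.map fun u => C.rep w.2.a (u w.2.a)) :=
    (tc_G.comp TC.id.snd).fst.pair (TC.id.fst.cons (tc_G.comp TC.id.snd).snd)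
  have h4 := post ((h us h1).pair TC.id) h3
    (((bd_rep C G.a fun z => y z.a).add TCA.bd_sz).add (Bd.const 1))
  refine ⟨y :: us, fun u hu => ?_, TB.comp h4 (toG h2) (fun _ _ => trivial) (fun _ _ _ _ h => h)
    (fun a _ => (add_mul _ _ _).ge) ((Bd.self.add TCA.bd_sz).add bd_G)⟩
  rcases hu with rfl | hu
  · exact List.mem_cons_self
  · exact List.mem_cons_of_mem _ (h1 u hu)

theorem tc_toReg {pre : G C us → Prop} {c : G C us → ℕ} {x : α → V} (hx : x ∈ us) :
    TC pre c fun z => (⟨z.a, x z.a⟩ : Reg C.par C.rep) :=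
  (tc_G.fst.pair (tc_get hx)).of_enc fun _ _ => rfl

end ImplA

theorem Ctx.Av.op {C : Ctx k α V X Pr} {r r0 : ℕ} {g : α → V → V} (h : C.OpI r g)
    {U : Set (α → V)} {x : α → V} (hU : C.Av r0 U) (hx : x ∈ U) :
    C.Av (r0 + r) (insert (fun a => g a (x a)) U) := by
  refine ext hU fun us hus => TB.comp (ψ1 := fun _ => 0) h (TB.of_TC (tc_toReg (hus x hx)))
    (fun _ _ => trivial) (fun _ _ _ _ h => h) (fun _ _ => (zero_add _).le)
    (Bd.self.add (Bd.sz (tc_toReg (hus x hx))))

/-- the cost system -/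
def Ctx.sys (C : Ctx k α V X Pr) : Sys k (α → V) where
  Av := C.Av
  Sc := C.Sc
  mono := fun ⟨us, h1, h2⟩ hr hU => ⟨us, fun u hu => h1 u (hU hu), h2.mono (fun _ h => h)
    (fun _ _ _ _ h => h) (fun _ _ => Nat.mul_le_mul_right _ hr) Bd.self fun _ _ => rfl⟩
  add {_ _ x y} hU hx hy := ext (r := 0) hU fun us hus => TB.of_TC
    (C.add.comp (g := fun z : G C us => ⟨z.a, x z.a, y z.a⟩)
      (((tc_get (hus x hx)).pair (tc_get (hus y hy))).of_enc fun _ _ => rfl))
  smul {_ _ x s} hU hs hx := ext (r := 0) hU fun _ hus => TB.of_TC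
    ((C.smul s hs).comp (tc_toReg (hus x hx)))

theorem Ctx.OpI.op {C : Ctx k α V X Pr} {r : ℕ} {g : α → V → V} (h : C.OpI r g) :
    C.sys.Op r (fun u a => g a (u a)) := fun _ _ _ hU hx => Ctx.Av.op h hU hx

theorem Ctx.av_init (C : Ctx k α V X Pr) {n : ℕ} (x : Fin n → α → V)
    (hp : TC (fun _ => True) C.c C.par)
    (hx : ∀ j, TC (fun _ => True) C.c (fun a => C.rep a (x j a))) :
    C.sys.Av 0 (Set.range x) := by
  exact ⟨List.ofFn x, fun _ ⟨j, hj⟩ => List.mem_ofFn.2 ⟨j, hj⟩, TB.of_TC (hp.pair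
    (lst (F := fun (u : α → V) a => C.rep a (u a)) fun u hu => by
      obtain ⟨j, rfl⟩ := List.mem_ofFn.1 hu
      exact hx j))⟩

theorem Ctx.av_final (C : Ctx k α V X Pr) {n r : ℕ} (x : ℕ → α → V)
    (h : C.sys.Av r (Set.range fun j : Fin n => x j)) :
    TB (fun _ => True) C.H (fun a => r * C.ψ a) C.c
      (fun a => (C.par a, (List.range n).map fun j => C.rep a (x j a))) := by
  obtain ⟨us, h1, h2⟩ := h
  exact post (f := fun z : G C us => (C.par z.a, (List.range n).map fun j => C.rep z.a (x j z.a)))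
    (toG h2) (tc_G.fst.pair (lst (F := fun j (z : G C us) => C.rep z.a (x j z.a))
      fun j hj => tc_get (h1 _ ⟨⟨j, List.mem_range.1 hj⟩, rfl⟩))) bd_G

end Crest.Agent.R326
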