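import Crest.Agent.R326.Impl

/-!
# Row 326: reading off the final registers of a network computation
-/

set_option autoImplicit false

namespace Crest.Agent.R326

open Crest.Agent.PTime

/-- ghost type: parameters and a list of registers -/
structure Regs {α V X Pr : Type} (par : α → Pr) (rep : α → V → X) (n : ℕ) (x : ℕ → α → V) where
  a : α

instance {α V X Pr : Type} [Enc X] [Enc Pr] (par : α → Pr) (rep : α → V → X) (n : ℕ)
    (x : ℕ → α → V) : Enc (Regs par rep n x) :=
  ⟨fun z => enc (par z.a, (List.range n).map fun j => rep z.a (x j z.a))⟩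

variable {k α V X Pr : Type} [CommRing k] [AddCommGroup V] [Module k V] [Enc α] [Enc X] [Enc Pr]

theorem Ctx.tc_regs (C : Ctx k α V X Pr) {n : ℕ} {x : ℕ → α → V}
    {pre : Regs C.par C.rep n x → Prop} {c : Regs C.par C.rep n x → ℕ} :
    TC pre c (fun z => (C.par z.a, (List.range n).map fun j => C.rep z.a (x j z.a))) :=
  TC.id.of_enc fun _ _ => rfl

theorem Ctx.final_comp (C : Ctx k α V X Pr) {n r : ℕ} (x : ℕ → α → V)
    (h : C.sys.Av r (Set.range fun j : Fin n => x j)) {β : Type} [Enc β] (f : α → β)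
    (hf : Lin (fun z : Regs C.par C.rep n x => f z.a)) :
    TB (fun _ => True) C.H (fun a => r * C.ψ a) C.c f := by
  have h1 : TB (fun _ => True) C.H (fun a => r * C.ψ a) C.c
      (fun a => (⟨a⟩ : Regs C.par C.rep n x)) :=
    (C.av_final x h).mono (fun _ h => h) (fun _ _ _ _ h => h) (fun _ _ => le_rfl) Bd.self
      (fun _ _ => rfl)
  refine TB.comp (f := fun z : Regs C.par C.rep n x => f z.a) (ψ' := fun _ => 0)
    (H' := fun _ _ _ => True) (TB.of_TC hf) h1 (fun _ _ => trivial) (fun _ _ _ _ _ => trivial)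
    (fun _ _ => le_rfl) ?_
  obtain ⟨K, hK⟩ := C.bd_reg
  obtain ⟨K', hK'⟩ := C.bd_par
  refine ⟨K' + n * (K + 1) + 2, fun a _ => ?_⟩
  have h2 := hK' a trivial
  have h3 : sz ((List.range n).map fun j => C.rep a (x j a)) ≤ _ :=
    sz_list_le (B := K * (C.c a + sz a)) fun y hy => by
      obtain ⟨j, _, rfl⟩ := List.mem_map.1 hy
      exact hK a _
  have h4 := sz_pos a
  have h5 : sz (⟨a⟩ : Regs C.par C.rep n x) =
      sz (C.par a) + sz ((List.range n).map fun j => C.rep a (x j a)) + 1 := rfl
  rw [List.length_map, List.length_range] at h3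
  beta_reduce at h2 ⊢
  rw [h5]
  have h4' : 1 ≤ C.c a + sz a := by omega
  generalize C.c a + sz a = B at *
  have h6 : n * (K * B + 1) ≤ n * (K + 1) * B := by
    rw [mul_assoc]; exact Nat.mul_le_mul_left _ (by nlinarith)
  nlinarith

end Crest.Agent.R326
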