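import Crest.Agent.R326.GArr

/-!
# Row 326, linear-time index permutations (task R326-Kern)

PLAN.  A key lemma: a permutation that only changes the digit `(σ, n)` acts on the rows of length
`σ * n` (`TA.rows`), each row being an array of `n` blocks of length `σ`.
* `rotD`, `shr`: a row is rotated by `amount * σ` (`TA.rot` under `TA.mapEnv`/`TA.zip` + `TA.map'`).
  For `shr` build the array of unary amounts, one per row: `tb i * σ` (each `≤ σ * n`), every entry
  repeated `τ / (σ * n)` times (`TA.stretch`), the whole repeated `N / (τ * m)` times (`TA.cyc`);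
  its size is `O(N)`.  Zip with the rows, rotate, flatten.
* `negD`: per row: rows of length `σ`, reverse, rotate by `n - 1`, flatten.
* `dblD`: new block `j` = old block `2 j % n`: evens then odds (append a dummy copy of block `0`,
  `pile` with `r = 2`, append, take).  `halfD`: new block `j` = old block `j (n+1)/2 % n`:
  merge the first `(n+1)/2` blocks with the rest (padded), take `n`.
* `swpC`: pile both digits (`r * r` registers), merge them in the transposed order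
  (`dig_ins_*`, `setDig_ins_*`, `ins_del`), or argue directly on rows.
A function applied to every row is best stated as a `TC` fact on the type `U × GArr β` (env = `σ`)
and applied with `TA.mapEnv`; since each row has at least `σ * n` entries the env is paid for.
-/

set_option autoImplicit false

namespace Crest.Agent.R326

open Crest.Agent.PTime

variable {α β : Type*} [Enc α] [Enc β] {pre : α → Prop} {c : α → ℕ} {N σ n τ m k : α → ℕ}
  {v : α → ℕ → β}

namespace KernA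

theorem pos {N σ n : ℕ} (h : 0 < N) (h' : σ * n ∣ N) : 0 < σ ∧ 0 < n :=
  ⟨Nat.pos_of_mul_pos_right (Nat.pos_of_dvd_of_pos h' h),
    Nat.pos_of_mul_pos_left (Nat.pos_of_dvd_of_pos h' h)⟩

/-- the two-level view of an array -/
theorem blocks (h : TA pre c N v) (hσ : TU pre c σ) (hn : TU pre c n)
    (h0 : ∀ a, pre a → 0 < N a ∧ σ a * n a ∣ N a) :
    TA pre c (fun a => N a / σ a / n a) fun a q => GArr.mk (n a) fun j =>
      GArr.mk (σ a) fun t => v a ((q * n a + j) * σ a + t) :=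
  (h.rows hσ fun a ha => ⟨(pos (h0 a ha).1 (h0 a ha).2).1,
    (Dvd.intro _ rfl).trans (h0 a ha).2⟩).rows hn
    fun a ha => ⟨(pos (h0 a ha).1 (h0 a ha).2).2, Nat.dvd_div_of_mul_dvd (h0 a ha).2⟩

theorem unblocks {g : α → ℕ → ℕ → ℕ} (h0 : ∀ a, pre a → 0 < N a ∧ σ a * n a ∣ N a)
    (h : TA pre c (fun a => N a / σ a / n a) fun a q => GArr.mk (n a) fun j =>
      GArr.mk (σ a) fun t => v a ((q * n a + g a q j % n a) * σ a + t)) :
    TA pre c N fun a x =>
      v a (setDig (σ a) (n a) (g a (x / (σ a * n a)) (dig (σ a) (n a) x)) x) := by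
  refine (TA.flat (w := fun a y t => v a ((y / n a * n a + g a (y / n a) (y % n a) % n a) * σ a + t))
    h.flat).congr (fun a ha => ?_) fun a _ x _ => ?_
  · rw [Nat.div_mul_cancel (Nat.dvd_div_of_mul_dvd (h0 a ha).2),
      Nat.div_mul_cancel ((Dvd.intro _ rfl).trans (h0 a ha).2)]
  · rw [setDig, dig, Nat.div_div_eq_div_mul]
    congr 1
    ring

/-- the same permutation in every row -/
theorem rowPerm {P : ℕ → Prop} {g : ℕ → ℕ → ℕ} (h : TA pre c N v) (hσ : TU pre c σ)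
    (hn : TU pre c n) (h0 : ∀ a, pre a → 0 < N a ∧ σ a * n a ∣ N a) (h1 : ∀ a, pre a → P (n a))
    (hg : TA (fun A : GArr (GArr β) => 0 < A.N ∧ P A.N) (fun _ => 0) (fun A => A.N)
      fun A j => A.v (g A.N j % A.N)) :
    TA pre c N fun a x => v a (setDig (σ a) (n a) (g (n a) (dig (σ a) (n a) x)) x) :=
  unblocks (g := fun a _ j => g (n a) j) h0 ((blocks h hσ hn h0).map0 hg
    fun a ha _ _ => ⟨(pos (h0 a ha).1 (h0 a ha).2).2, h1 a ha⟩)

/-- rotate row `q` by `t q` -/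
theorem rotRows {t : α → ℕ → ℕ} (h : TA pre c N v) (hσ : TU pre c σ) (hn : TU pre c n)
    (h0 : ∀ a, pre a → 0 < N a ∧ σ a * n a ∣ N a)
    (ht : TA pre c (fun a => N a / σ a / n a) fun a q => U.mk (t a q)) :
    TA pre c N fun a x =>
      v a (setDig (σ a) (n a) (dig (σ a) (n a) x + t a (x / (σ a * n a))) x) := by
  have h1 : TA (fun _ : GArr (GArr β) × U => True) (fun _ => 0) (fun x => x.1.N)
      fun x j => x.1.v ((j + x.2.val) % x.1.N) := (TA.of_tc TC.id.fst).rot (TU.val TC.id.snd)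
  exact unblocks (g := fun a q j => j + t a q) h0 (((blocks h hσ hn h0).zip ht).map h1)

theorem regs (r : ℕ) {w : α → ℕ → ℕ → β} (h : ∀ j < r, TA pre c N fun a => w a j) :
    TC pre c fun a => (List.range r).map fun j => GArr.mk (N a) (w a j) := by
  induction r with
  | zero => exact TC.const []
  | succ r ih =>
    exact ((ih fun j hj => h j (by omega)).append
      (TC.cons (h r (by omega)) (TC.const []))).congr fun a _ => by
        rw [List.range_succ, List.map_append, List.map_singleton]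

theorem ins_del' {σ r j : ℕ} (hσ : 0 < σ) (hj : j < r) (x : ℕ) :
    ins σ r j (del σ r x) = setDig σ r j x := by
  have h1 : del σ r x / σ = x / (σ * r) := by
    rw [del, add_comm, Nat.add_mul_div_right _ _ hσ, Nat.div_eq_of_lt (Nat.mod_lt _ hσ), zero_add]
  have h2 : del σ r x % σ = x % σ := by
    rw [del, add_comm, Nat.add_mul_mod_self_right, Nat.mod_mod]
  rw [ins, h1, h2, setDig, Nat.mod_eq_of_lt hj]

end KernA
open KernA

theorem TA.rotD (h : TA pre c N v) (hσ : TU pre c σ) (hn : TU pre c n) (hk : TU pre c k)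
    (h0 : ∀ a, pre a → 0 < N a ∧ σ a * n a ∣ N a) :
    TA pre c N (fun a x => v a (rotD (σ a) (n a) (k a) x)) := by
  refine (rotRows (t := fun a _ => k a % n a) h hσ hn h0 (TA.const ((h.len.div hσ).div hn)
    (hk.mod hn).tc ((h.bd.const_mul 2).mono fun a ha => ?_))).congr (fun _ _ => rfl)
    fun a _ x _ => ?_
  · have k1 := Nat.mod_lt (k a) (pos (h0 a ha).1 (h0 a ha).2).2
    have k2 : N a / σ a / n a * n a ≤ N a := (Nat.div_mul_le_self _ _).trans (Nat.div_le_self _ _)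
    calc N a / σ a / n a * sz (U.mk (k a % n a)) ≤ N a / σ a / n a * (2 * n a) :=
          Nat.mul_le_mul_left _ (by rw [sz_U]; simp only; omega)
      _ ≤ _ := by rw [mul_left_comm]; omega
  · rw [R326.rotD, setDig_congr ((Nat.mod_modEq (k a) (n a)).add_left _)]

theorem TA.shr {tb : α → ℕ → ℕ} (h : TA pre c N v) (hσ : TU pre c σ) (hn : TU pre c n)
    (hτ : TU pre c τ) (htb : TA pre c m (fun a i => U.mk (tb a i)))
    (h0 : ∀ a, pre a → 0 < N a ∧ σ a * n a ∣ τ a ∧ τ a * m a ∣ N a ∧ ∀ i < m a, tb a i ≤ n a) :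
    TA pre c N (fun a x => v a (shr (σ a) (n a) (τ a) (m a) (tb a) x)) := by
  have h0' : ∀ a, pre a → 0 < N a ∧ σ a * n a ∣ N a := fun a ha =>
    ⟨(h0 a ha).1, (h0 a ha).2.1.trans ((Dvd.intro _ rfl).trans (h0 a ha).2.2.1)⟩
  have k0 : ∀ a, pre a → ∃ ρ q, 0 < σ a ∧ 0 < n a ∧ 0 < ρ ∧ 0 < m a ∧ 0 < q ∧
      τ a = σ a * n a * ρ ∧ N a = σ a * n a * ρ * m a * q ∧ τ a / σ a / n a = ρ ∧
      N a / τ a / m a = q ∧ N a / σ a / n a = q * (m a * ρ) := by
    intro a ha
    obtain ⟨k1, ⟨ρ, k2⟩, ⟨q, k3⟩, -⟩ := h0 a ha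
    obtain ⟨k4, k5⟩ := pos k1 (h0' a ha).2
    obtain ⟨k6, k7⟩ := pos k1 ⟨q, k3⟩
    refine ⟨ρ, q, k4, k5, Nat.pos_of_mul_pos_left (k2 ▸ k6), k7, Nat.pos_of_mul_pos_left (k3 ▸ k1),
      k2, by rw [k3, k2], ?_, ?_, ?_⟩
    · rw [Nat.div_div_eq_div_mul, k2, Nat.mul_div_cancel_left _ (Nat.mul_pos k4 k5)]
    · rw [Nat.div_div_eq_div_mul, k3, Nat.mul_div_cancel_left _ (Nat.mul_pos k6 k7)]
    · rw [Nat.div_div_eq_div_mul]
      exact Nat.div_eq_of_eq_mul_right (Nat.mul_pos k4 k5) (by rw [k3, k2]; ring)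
  have k1 : ∀ M b : ℕ, 0 < M → 0 < b → ∀ f : ℕ → ℕ, (∀ i < M, f i ≤ b) →
      sz (GArr.mk M fun i => U.mk (f i)) ≤ 5 * (M * b) := by
    intro M b hM hb f hf
    have k2 := sz_arr_le (v := fun i => U.mk (f i)) (N := M) (w := 2 * b + 1) fun i hi => by
      have := hf i hi
      rw [sz_U]
      simp only
      omega
    have k3 : M ≤ M * b := Nat.le_mul_of_pos_right _ hb
    rw [add_assoc, mul_add, mul_left_comm] at k2
    omega
  have h1 := htb.stretch ((hτ.div hσ).div hn) ((h.bd.const_mul 5).mono fun a ha => by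
    obtain ⟨ρ, q, p1, p2, p3, p4, p5, -, e2, e3, -⟩ := k0 a ha
    refine (Nat.mul_le_mul_left _ (k1 _ _ p4 p2 _ (h0 a ha).2.2.2)).trans ?_
    rw [e3, e2, mul_left_comm]
    exact Nat.mul_le_mul_left _ ((Nat.le_mul_of_pos_right _ (Nat.mul_pos p1 p5)).trans
      (le_of_eq (by ring))))
  have h2 := h1.cyc ((h.len.div hτ).div htb.len) ((h.bd.const_mul 5).mono fun a ha => by
    obtain ⟨ρ, q, p1, p2, p3, p4, p5, -, e2, e3, e4, -⟩ := k0 a ha
    rw [e3, e4]
    refine (Nat.mul_le_mul_left _ (k1 _ _ (Nat.mul_pos p4 p3) p2 (fun x => tb a (x / ρ))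
      fun i hi => (h0 a ha).2.2.2 _ (Nat.div_lt_of_lt_mul (mul_comm (m a) ρ ▸ hi)))).trans ?_
    rw [e2, mul_left_comm]
    exact Nat.mul_le_mul_left _ ((Nat.le_mul_of_pos_right _ p1).trans (le_of_eq (by ring))))
  refine (rotRows (t := fun a y => tb a (y % (m a * (τ a / σ a / n a)) / (τ a / σ a / n a)))
    h hσ hn h0' (h2.congr (fun a ha => ?_) fun _ _ _ _ => rfl)).congr (fun _ _ => rfl)
    fun a ha x _ => ?_
  all_goals obtain ⟨ρ, q, p1, p2, p3, p4, p5, e1, e2, e3, e4, e5⟩ := k0 a ha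
  · rw [e3, e4, e5]
  · rw [R326.shr, e3, mul_comm (m a), Nat.mod_mul_right_div_self, Nat.div_div_eq_div_mul, ← e1]
    rfl

theorem TA.negD (h : TA pre c N v) (hσ : TU pre c σ) (hn : TU pre c n)
    (h0 : ∀ a, pre a → 0 < N a ∧ σ a * n a ∣ N a) :
    TA pre c N (fun a x => v a (mulD (σ a) (n a) (n a - 1) x)) := by
  refine rowPerm (P := fun _ => True) (g := fun n j => (n - 1) * j) h hσ hn h0 (fun _ _ => trivial)
    (((TA.of_tc TC.id).rev.rot ((TA.of_tc TC.id).len.sub (TU.const 1))).congr (fun _ _ => rfl)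
      fun A hA j hj => ?_)
  obtain ⟨n, hn⟩ : ∃ n, A.N = n + 1 := ⟨A.N - 1, by omega⟩
  rw [hn] at hj ⊢
  congr 1
  cases j with
  | zero => simp
  | succ j =>
    obtain ⟨e, rfl⟩ : ∃ e, n = j + 1 + e := ⟨n - (j + 1), by omega⟩
    rw [Nat.add_sub_cancel, show (j + 1 + e) * (j + 1) = (e + 1) + (j + 1 + e + 1) * j by ring,
      show j + 1 + (j + 1 + e) = j + (j + 1 + e + 1) by ring, Nat.add_mul_mod_self_left,
      Nat.add_mod_right, Nat.mod_eq_of_lt (by omega), Nat.mod_eq_of_lt (by omega)]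
    omega

theorem TA.dblD (h : TA pre c N v) (hσ : TU pre c σ) (hn : TU pre c n)
    (h0 : ∀ a, pre a → 0 < N a ∧ σ a * n a ∣ N a ∧ Odd (n a)) :
    TA pre c N (fun a x => v a (mulD (σ a) (n a) 2 x)) := by
  refine rowPerm (P := fun _ => True) (g := fun _ j => 2 * j) h hσ hn
    (fun a ha => ⟨(h0 a ha).1, (h0 a ha).2.1⟩) (fun _ _ => trivial)
    ((((TA.of_tc TC.id).append (TA.of_tc TC.id)).pile 2 0 (by omega) (TU.const 1)
      fun A _ => ⟨one_pos, A.N, by ring⟩).congr (fun _ _ => by omega) fun A hA j hj => ?_)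
  have e : ins 1 2 0 j = 2 * j := by simp [ins, Nat.mod_one, mul_comm]
  rw [e]
  split_ifs with h1
  · rw [Nat.mod_eq_of_lt h1]
  · rw [Nat.mod_eq_sub_mod (by omega), Nat.mod_eq_of_lt (by omega)]

theorem TA.halfD (h : TA pre c N v) (hσ : TU pre c σ) (hn : TU pre c n)
    (h0 : ∀ a, pre a → 0 < N a ∧ σ a * n a ∣ N a ∧ Odd (n a)) :
    TA pre c N (fun a x => v a (mulD (σ a) (n a) ((n a + 1) / 2) x)) := by
  have h1 : TA (fun A : GArr (GArr β) => 0 < A.N ∧ Odd A.N) (fun _ => 0) (fun A => A.N * 2)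
      fun A x => A.v ((del 1 2 x + dig 1 2 x * ((A.N + 1) / 2)) % A.N) :=
    TA.merge 2 two_pos (w := fun (A : GArr (GArr β)) j i => A.v ((i + j * ((A.N + 1) / 2)) % A.N))
      (regs 2 fun j _ => (TA.of_tc TC.id).rot
        ((((TA.of_tc TC.id).len.add (TU.const 1)).div (TU.const 2)).const_mul j))
      (TU.const 1) fun A _ => ⟨one_pos, one_dvd _⟩
  refine rowPerm (P := fun n => Odd n) (g := fun n j => (n + 1) / 2 * j) h hσ hn
    (fun a ha => ⟨(h0 a ha).1, (h0 a ha).2.1⟩) (fun a ha => (h0 a ha).2.2)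
    ((h1.take (TA.of_tc TC.id).len fun _ _ => by omega).congr (fun _ _ => rfl)
      fun A hA j hj => ?_)
  obtain ⟨s, hs⟩ := hA.2
  have e1 : (A.N + 1) / 2 = s + 1 := by omega
  have e2 : del 1 2 j = j / 2 := by simp [del, Nat.mod_one]
  have e3 : (s + 1) * j = j / 2 + j % 2 * (s + 1) + A.N * (j / 2) := by
    conv_lhs => rw [← Nat.div_add_mod j 2]
    rw [hs]
    ring
  rw [e1, e2, dig_one, e3, Nat.add_mul_mod_self_left]

/-- exchange two digits of constant radix -/
theorem TA.swpC (r : ℕ) (h : TA pre c N v) (hσ : TU pre c σ) (hτ : TU pre c τ)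
    (h0 : ∀ a, pre a → 0 < N a ∧ σ a * r ∣ τ a ∧ τ a * r ∣ N a) :
    TA pre c N (fun a x => v a (swp (σ a) (τ a) r x)) := by
  rcases Nat.eq_zero_or_pos r with rfl | hr
  · exact GArrA.empty fun a ha => by simpa using (h0 a ha).2.2
  have k0 : ∀ a, pre a → 0 < σ a ∧ 0 < τ a ∧ τ a ∣ N a / r := fun a ha => by
    obtain ⟨k1, k2, k3⟩ := h0 a ha
    exact ⟨(pos (pos k1 k3).1 k2).1, (pos k1 k3).1, Nat.dvd_div_of_mul_dvd (mul_comm (τ a) r ▸ k3)⟩
  have h1 : ∀ i < r, ∀ j < r, TA pre c (fun a => N a / r / r)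
      fun a z => v a (ins (τ a) r i (ins (σ a) r j z)) := fun i hi j hj =>
    (h.pile r i hi hτ fun a ha => ⟨(k0 a ha).2.1, (h0 a ha).2.2⟩).pile r j hj hσ
      fun a ha => ⟨(k0 a ha).1, (h0 a ha).2.1.trans (k0 a ha).2.2⟩
  have h2 : ∀ j < r, TA pre c (fun a => N a / r)
      fun a y => v a (ins (τ a) r (dig (σ a) r y) (ins (σ a) r j (del (σ a) r y))) := fun j hj =>
    (TA.merge r hr (w := fun a i z => v a (ins (τ a) r i (ins (σ a) r j z)))
      (regs r fun i hi => h1 i hi j hj) hσ fun a ha => ⟨(k0 a ha).1, Nat.dvd_div_of_mul_dvd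
        (mul_comm (σ a) r ▸ (h0 a ha).2.1.trans (k0 a ha).2.2)⟩).congr
      (fun a ha => (Nat.div_mul_cancel ((Dvd.intro_left _ rfl).trans
        ((h0 a ha).2.1.trans (k0 a ha).2.2))).symm) fun _ _ _ _ => rfl
  refine (TA.merge r hr
    (w := fun a j y => v a (ins (τ a) r (dig (σ a) r y) (ins (σ a) r j (del (σ a) r y))))
    (regs r h2) hτ fun a ha => (k0 a ha).2).congr
    (fun a ha => (Nat.div_mul_cancel ((Dvd.intro_left _ rfl).trans (h0 a ha).2.2)).symm)
    fun a ha x _ => ?_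
  obtain ⟨k1, k2, -⟩ := k0 a ha
  have k3 : dig (σ a) r (del (τ a) r x) = dig (σ a) r x := by
    rw [← dig_ins_low (r := r) (h0 a ha).2.1 (dig (τ a) r x), ins_del k2 hr]
  rw [ins_del' k1 (dig_lt hr _), ← setDig_ins_low k1 hr k2 (h0 a ha).2.1, k3,
    ins_del' k2 (dig_lt hr _), swp]

theorem TA.shf {S : α → ℕ} {t : α → ℕ × ℕ} (h : TA pre c N v) (hS : TU pre c S)
    (h1 : TU pre c fun a => (t a).1) (h2 : TU pre c fun a => (t a).2)
    (h0 : ∀ a, pre a → 0 < N a ∧ S a * S a ∣ N a) :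
    TA pre c N (fun a x => v a (shf (S a) (t a) x)) := by
  exact (h.rotD hS hS h1 h0).rotD (TU.const 1) hS h2 fun a ha =>
    ⟨(h0 a ha).1, by rw [one_mul]; exact (Dvd.intro _ rfl).trans (h0 a ha).2⟩

end Crest.Agent.R326
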