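import Crest.Agent.R326.TAlg

/-!
# Row 326, the leaf of the tensor recursion: algebra (task R326-LeafAlg)

The digits of radix 2 at strides `S² 2^j` (`j < us.length`) are used as control bits.
For one bit and an involution `ν`, with `CN (u, v) = (u, ν v)`, `A1 (u,v) = (u+v, u-v)`,
`A2 (u,v) = (αu+βv, βu+αv)`, `A3 (u,v) = ((u+v)/2, -i(u-v)/2)` one has
`CN A3 CN A2 CN A1 = (α + β ν) on both arrays`.
PLAN.  Work in the monoid `Module.End LL (ℕ → LL)` (or `Function.End`).  Let `cj j` be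
`v ↦ fun x => if bit j of x then v (nu S u_j x) else v x` and `bf .. (S² 2^j)`.  Operators with
different `j` commute (`fl`, `nu` commute and preserve the other digits: `dig_setDig_high/low`,
`setDig_comm`, `nu_mul` + `mul_comm`); a list lemma
`((range l).map fun j => x j * y j).prod = ((range l).map x).prod * ((range l).map y).prod` when
`y i` commutes with `x j` for `i ≠ j` regroups the product of the single-bit identities; the
product of the `cj j` is the pull-back along `nu S (cnU ..)`.  The single-bit identity is checked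
pointwise by cases on the bit, `nu S u (nu S u x) = x`, and `linear_combination` with
`ii_mul_ii`, `two_mul_hf`.
-/

set_option autoImplicit false

namespace Crest.Agent.R326

/-- flip the binary digit of stride `σ` -/
def fl (σ x : ℕ) : ℕ := setDig σ 2 (dig σ 2 x + 1) x

/-- a `2 × 2` matrix acting on the binary digit of stride `σ` -/
def bf (a b c d : LL) (σ : ℕ) (v : ℕ → LL) (x : ℕ) : LL :=
  if dig σ 2 x = 0 then a * v x + b * v (fl σ x) else c * v (fl σ x) + d * v x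

/-- the same matrix on the binary digits of strides `σ 2^j`, `j < l` -/
def bfs (a b c d : LL) (σ l : ℕ) (v : ℕ → LL) : ℕ → LL :=
  ((fun s : ℕ × (ℕ → LL) => (2 * s.1, bf a b c d s.1 s.2))^[l] (σ, v)).2

/-- the product of the units selected by the bits of `o` -/
def cnU (S : ℕ) : List ℕ → ℕ → ℕ
  | [], _ => 1 % S
  | u :: us, o => (if o % 2 = 0 then cnU S us (o / 2) else u * cnU S us (o / 2) % S)

/-- controlled index multiplication -/
def cn (S : ℕ) (us : List ℕ) (v : ℕ → LL) (x : ℕ) : LL :=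
  v (nu S (cnU S us (dig (S * S) (2 ^ us.length) x)) x)

theorem cnU_unit {S : ℕ} (hS : 0 < S) {us : List ℕ} (h : Units2 S us) (o : ℕ) :
    cnU S us o < S ∧ cnU S us o * cnU S us o ≡ 1 [MOD S] := by
  induction us generalizing o with
  | nil =>
    exact ⟨Nat.mod_lt _ hS, (Nat.mod_modEq 1 S).mul (Nat.mod_modEq 1 S)⟩
  | cons u us ih =>
    obtain ⟨h1, h2⟩ := ih (fun w hw => h w (List.mem_cons_of_mem _ hw)) (o / 2)
    rw [cnU]
    split_ifs
    · exact ⟨h1, h2⟩
    · refine ⟨Nat.mod_lt _ hS, ((Nat.mod_modEq _ S).mul (Nat.mod_modEq _ S)).trans ?_⟩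
      rw [mul_mul_mul_comm]
      exact (h u List.mem_cons_self).2.mul h2

/-- an operator controlled by a bit -/
private def lfG {R : Type} [CommRing R] (σ : ℕ) (a b c d : R) (π : ℕ → ℕ) (v : ℕ → R) (x : ℕ) : R :=
  if dig σ 2 x = 0 then a * v x + b * v (π x) else c * v (π x) + d * v x

private theorem lfG_comm {R : Type} [CommRing R] {σ τ : ℕ} {π π' : ℕ → ℕ} (h1 : ∀ x, dig σ 2 (π' x) = dig σ 2 x)
    (h2 : ∀ x, dig τ 2 (π x) = dig τ 2 x) (h3 : ∀ x, π (π' x) = π' (π x))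
    (a b c d a' b' c' d' : R) (v : ℕ → R) :
    lfG τ a' b' c' d' π' (lfG σ a b c d π v) = lfG σ a b c d π (lfG τ a' b' c' d' π' v) := by
  funext x
  simp only [lfG, h1, h2, h3]
  split_ifs <;> ring

private structure LfLow (S σ : ℕ) (π : ℕ → ℕ) : Prop where
  nu : ∀ u x, π (nu S u x) = nu S u (π x)
  dg : ∀ τ x, σ * 2 ∣ τ → dig τ 2 (π x) = dig τ 2 x
  fl : ∀ τ x, 0 < τ → σ * 2 ∣ τ → π (fl τ x) = fl τ (π x)

private theorem lf_dig_nu {S σ : ℕ} (hS : 0 < S) (h : S * S ∣ σ) (n u x : ℕ) :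
    dig σ n (nu S u x) = dig σ n x := by
  unfold nu mulD
  rw [dig_setDig_high hS hS h, dig_setDig_high one_pos hS
    (by rw [one_mul]; exact (Dvd.intro _ rfl : S ∣ S * S).trans h)]

private theorem lf_nu_comm {S : ℕ} (hS : 0 < S) (u w x : ℕ) :
    nu S u (nu S w x) = nu S w (nu S u x) := by
  rw [← nu_mul hS, mul_comm, nu_mul hS]

private theorem lf_nu_fl {S σ : ℕ} (hS : 0 < S) (hσ : 0 < σ) (h : S * S ∣ σ) (u x : ℕ) :
    nu S u (fl σ x) = fl σ (nu S u x) := by
  have h1 : 1 * S ∣ σ := by rw [one_mul]; exact (Dvd.intro _ rfl : S ∣ S * S).trans h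
  unfold fl
  rw [lf_dig_nu hS h]
  unfold nu mulD
  rw [dig_setDig_low h1, setDig_comm one_pos hS hσ two_pos h1, dig_setDig_low h,
    setDig_comm hS hS hσ two_pos h]

private theorem lf_low_nu {S σ : ℕ} (hS : 0 < S) (h : S * S ∣ σ) (u : ℕ) :
    LfLow S σ (nu S u) :=
  ⟨fun w x => lf_nu_comm hS u w x, fun _ x hτ => lf_dig_nu hS ((h.mul_right 2).trans hτ) 2 u x,
    fun _ x h0 hτ => lf_nu_fl hS h0 ((h.mul_right 2).trans hτ) u x⟩

private theorem lf_low_fl {S σ : ℕ} (hS : 0 < S) (hσ : 0 < σ) (h : S * S ∣ σ) :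
    LfLow S σ (fl σ) := by
  refine ⟨fun w x => (lf_nu_fl hS hσ h w x).symm, fun _ x hτ => dig_setDig_high hσ two_pos hτ _ x,
    fun τ x h0 hτ => ?_⟩
  unfold fl
  rw [dig_setDig_low hτ, dig_setDig_high hσ two_pos hτ, setDig_comm hσ two_pos h0 two_pos hτ]

private def lfC (S σ : ℕ) (us : List ℕ) (v : ℕ → LL) (x : ℕ) : LL :=
  v (nu S (cnU S us (dig σ (2 ^ us.length) x)) x)

private theorem lfC_nil {S : ℕ} (hS : 0 < S) (σ : ℕ) (v : ℕ → LL) : lfC S σ [] v = v := by
  funext x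
  simp only [lfC, cnU, nu_mod, nu_one hS]

private theorem lfC_cons {S σ : ℕ} (hS : 0 < S) (h : S * S ∣ σ) (u : ℕ) (us : List ℕ)
    (v : ℕ → LL) : lfC S σ (u :: us) v = lfG σ 1 0 1 0 (nu S u) (lfC S (2 * σ) us v) := by
  funext x
  have e1 : dig σ (2 ^ (us.length + 1)) x % 2 = dig σ 2 x :=
    Nat.mod_mod_of_dvd _ (Dvd.intro_left _ (pow_succ 2 _).symm)
  have e2 : dig σ (2 ^ (us.length + 1)) x / 2 = dig (2 * σ) (2 ^ us.length) x := by
    unfold dig
    rw [pow_succ', Nat.mod_mul_right_div_self, Nat.div_div_eq_div_mul, mul_comm σ]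
  simp only [lfC, lfG, cnU, List.length_cons, e1, e2, lf_dig_nu hS (h.mul_left 2), one_mul,
    zero_mul, add_zero]
  split_ifs
  · rfl
  · rw [nu_mod, nu_mul hS, lf_nu_comm hS]

private theorem lf_bfs_zero (a b c d : LL) (σ : ℕ) (v : ℕ → LL) :
    bfs a b c d σ ([] : List ℕ).length v = v := rfl

private theorem lf_bfs_succ (a b c d : LL) (σ l : ℕ) (v : ℕ → LL) :
    bfs a b c d σ (l + 1) v = bfs a b c d (2 * σ) l (lfG σ a b c d (fl σ) v) := rfl

private theorem lf_bfs_comm {S σ : ℕ} {π : ℕ → ℕ} (hπ : LfLow S σ π) (a b c d a' b' c' d' : LL)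
    (l : ℕ) : ∀ τ, 0 < τ → σ * 2 ∣ τ → ∀ v, bfs a' b' c' d' τ l (lfG σ a b c d π v) =
      lfG σ a b c d π (bfs a' b' c' d' τ l v) := by
  induction l with
  | zero => exact fun _ _ _ _ => rfl
  | succ l ih =>
    intro τ h0 hτ v
    rw [lf_bfs_succ, lf_bfs_succ, ← ih _ (by omega) (hτ.mul_left 2),
      lfG_comm (π' := fl τ) (fun x => dig_setDig_low hτ _ x) (fun x => hπ.dg τ x hτ) fun x => hπ.fl τ x h0 hτ]

private theorem lfC_comm {S σ : ℕ} (hS : 0 < S) (h : S * S ∣ σ) {π : ℕ → ℕ} (hπ : LfLow S σ π)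
    (a b c d : LL) (us : List ℕ) : ∀ τ, σ * 2 ∣ τ → ∀ v, lfC S τ us (lfG σ a b c d π v) =
      lfG σ a b c d π (lfC S τ us v) := by
  induction us with
  | nil => intro τ _ v; rw [lfC_nil hS, lfC_nil hS]
  | cons u us ih =>
    intro τ hτ v
    have h1 : S * S ∣ τ := (h.mul_right 2).trans hτ
    rw [lfC_cons hS h1, lfC_cons hS h1, ih _ (hτ.mul_left 2),
      lfG_comm (fun x => lf_dig_nu hS h 2 u x) (fun x => hπ.dg τ x hτ) fun x => hπ.nu u x]

private theorem lf_one {R : Type} [CommRing R] {i t : R} (h1 : i * i = -1) (h2 : 2 * t = 1)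
    {S σ u : ℕ} (hS : 0 < S) (hσ : 0 < σ) (h : S * S ∣ σ)
    (hu : u * u ≡ 1 [MOD S]) (v : ℕ → R) (x : ℕ) :
    lfG σ 1 0 1 0 (nu S u) (lfG σ t t (-(i * t)) (i * t) (fl σ)
      (lfG σ 1 0 1 0 (nu S u) (lfG σ (t * (1 + i)) (t * (1 - i)) (t * (1 - i)) (t * (1 + i)) (fl σ)
        (lfG σ 1 0 1 0 (nu S u) (lfG σ 1 1 1 (-1) (fl σ) v))))) x =
      t * (1 + i) * v x + t * (1 - i) * v (nu S u x) := by
  have e1 : ∀ y, nu S u (nu S u y) = y := fun y => by
    rw [← nu_mul hS, ← nu_mod, hu, nu_mod, nu_one hS]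
  have e2 : ∀ y, dig σ 2 (fl σ y) = (dig σ 2 y + 1) % 2 := fun y => dig_setDig hσ two_pos _ y
  have e3 : ∀ y, fl σ (fl σ y) = y := fun y => by
    rw [fl, e2, fl, setDig_setDig hσ two_pos, setDig_congr (y' := dig σ 2 y), setDig_dig hσ two_pos]
    unfold Nat.ModEq
    omega
  have e4 := lf_nu_fl hS hσ h u
  have e5 := lf_dig_nu hS h 2 u
  have hx : dig σ 2 x = 0 ∨ dig σ 2 x = 1 := by
    have := dig_lt (σ := σ) two_pos x
    omega
  rcases hx with hx | hx
  · simp only [lfG, e1, e2, e3, e4, e5, hx, if_true, zero_add, Nat.one_mod, one_ne_zero, if_false,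
      one_mul, zero_mul, add_zero]
    linear_combination (t * (1 + i) * v x + t * (1 - i) * v (nu S u x)) * h2
  · simp only [lfG, e1, e2, e3, e4, e5, hx, if_true, one_add_one_eq_two, Nat.mod_self, one_ne_zero,
      if_false, one_mul, zero_mul, add_zero]
    linear_combination (i * t * (1 - i) * v x - i * t * (1 + i) * v (nu S u x)) * h2 -
      t * (v x + v (nu S u x)) * h1

private theorem lf_main {S : ℕ} (hS : 0 < S) {us : List ℕ} (h : Units2 S us) (v : ℕ → LL) :
    ∀ σ, 0 < σ → S * S ∣ σ → Tm S al be us v =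
      lfC S σ us (bfs hf hf (-(ii * hf)) (ii * hf) σ us.length
        (lfC S σ us (bfs al be be al σ us.length
          (lfC S σ us (bfs 1 1 1 (-1) σ us.length v))))) := by
  induction us with
  | nil =>
    intro σ _ _
    rw [lfC_nil hS, lf_bfs_zero, lfC_nil hS, lf_bfs_zero, lfC_nil hS, lf_bfs_zero, Tm_nil]
  | cons u us ih =>
    intro σ hσ hd
    have h1 := lf_low_nu hS hd u
    have h2 := lf_low_fl hS hσ hd
    have h3 : σ * 2 ∣ 2 * σ := by rw [mul_comm]
    have h4 : 0 < 2 * σ := by omega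
    have b1 := fun a b c d a' b' c' d' => lf_bfs_comm h1 a b c d a' b' c' d' us.length _ h4 h3
    have b2 := fun a b c d a' b' c' d' => lf_bfs_comm h2 a b c d a' b' c' d' us.length _ h4 h3
    have c1 := fun a b c d => lfC_comm hS hd h1 a b c d us _ h3
    have c2 := fun a b c d => lfC_comm hS hd h2 a b c d us _ h3
    rw [List.length_cons, lfC_cons hS hd, lfC_cons hS hd, lfC_cons hS hd, lf_bfs_succ, lf_bfs_succ,
      lf_bfs_succ]
    simp only [b1, b2, c1, c2]
    rw [← ih (fun w hw => h w (List.mem_cons_of_mem _ hw)) _ h4 (hd.mul_left 2)]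
    funext x
    exact (lf_one ii_mul_ii two_mul_hf hS hσ hd (h u List.mem_cons_self).2 _ x).symm

theorem leaf_eq {S : ℕ} (hS : 0 < S) {us : List ℕ} (h : Units2 S us) (v : ℕ → LL) :
    Tm S al be us v =
      cn S us (bfs hf hf (-(ii * hf)) (ii * hf) (S * S) us.length
        (cn S us (bfs al be be al (S * S) us.length
          (cn S us (bfs 1 1 1 (-1) (S * S) us.length v))))) :=
  lf_main hS h v (S * S) (Nat.mul_pos hS hS) dvd_rfl

end Crest.Agent.R326
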