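import Crest.Agent.R326.SwapS
import Crest.Agent.R326.LeafAlg

/-!
# Row 326, the leaf of the tensor recursion: cost (task R326-Leaf)

PLAN.  `TL.bf`: two piles (`TA.pile 2 j`), `TL.smul`, `TL.add`, `TA.merge 2`
(`fl σ (ins σ 2 j x) = ins σ 2 (1-j) x`).  `TL.bfs`: `TC.iterate` on a ghost state type
`{p N σ, v}` coded as `(U σ, array)` with the invariant `σ * 2 ∣ N` along the iteration.
`cnU` table: `TC.foldl` over the reversed list of units with state `(U S, table)` (a ghost type or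
plain `U × List U`): the table for `u :: us` interleaves the old entries `t` with `u * t % S`
(`TU.mulMod` under `TC.mapEnv`, cost `S * S` per entry, `flatten`); the final table has
`2 ^ length` entries and the total cost is `O(2 ^ length * S * S) = O(N)`.
`TL.leaf`: `leaf_eq`, three `TL.bfs`, three `TL.nuT`.
-/

set_option autoImplicit false

namespace Crest.Agent.R326

open Crest.Agent.PTime

variable {α : Type*} [Enc α] {pre : α → Prop} {c N S k σ l p : α → ℕ} {v : α → ℕ → LL}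

namespace LeafA

/-- ghost state of the iteration -/
structure BSt where
  p : ℕ
  N : ℕ
  s : ℕ × (ℕ → LL)

instance : Enc BSt := ⟨fun z => enc (U.mk z.s.1, GArr.mk z.N fun i => Cl.mk z.p (z.s.2 i))⟩

theorem tc_St {pre : BSt → Prop} {c : BSt → ℕ} :
    TC pre c fun z => (U.mk z.s.1, GArr.mk z.N fun i => Cl.mk z.p (z.s.2 i)) :=
  TC.id.of_enc fun _ _ => rfl

/-- a step of the iteration -/
def step (F : ℕ × (ℕ → LL) → ℕ × (ℕ → LL)) (z : BSt) : BSt := ⟨z.p, z.N, F z.s⟩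

theorem iter (F : ℕ × (ℕ → LL) → ℕ × (ℕ → LL)) (p N : ℕ) (s : ℕ × (ℕ → LL)) (i : ℕ) :
    (step F)^[i] ⟨p, N, s⟩ = ⟨p, N, F^[i] s⟩ := by
  induction i with
  | zero => rfl
  | succ i ih => rw [Function.iterate_succ_apply', ih, Function.iterate_succ_apply', step]

theorem iter_fst (G : ℕ × (ℕ → LL) → ℕ → LL) (s : ℕ × (ℕ → LL)) (i : ℕ) :
    ((fun s : ℕ × (ℕ → LL) => (2 * s.1, G s))^[i] s).1 = s.1 * 2 ^ i := by
  induction i with
  | zero => simp
  | succ i ih => rw [Function.iterate_succ_apply', ih]; ring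

/-- doubling the table -/
def dbl (y : U × U × List U) : Unit × U × List U :=
  ((), y.2.1, (y.2.2.map fun t => [t, ⟨y.1.val * t.val % y.2.1.val⟩]).flatten)

theorem tc_dbl : TC (fun y : U × U × List U => 0 < y.2.1.val ∧ y.1.val ≤ y.2.1.val ∧
    ∀ t ∈ y.2.2, t.val ≤ y.2.1.val) (fun y => y.2.2.length * (y.2.1.val * y.2.1.val)) dbl := by
  have h1 : TC (fun x : (U × U) × U => 0 < x.1.2.val ∧ x.1.1.val ≤ x.1.2.val ∧ x.2.val ≤ x.1.2.val)
      (fun x => x.1.2.val * x.1.2.val) fun x => [x.2, ⟨x.1.1.val * x.2.val % x.1.2.val⟩] :=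
    TC.id.snd.cons ((TU.mulMod (TU.val TC.id.fst.fst) (TU.val TC.id.snd) (TU.val TC.id.fst.snd)
      (fun _ hx => ⟨hx.1, hx.2.2⟩)
      (Bd.self.mono fun _ hx => Nat.mul_le_mul_right _ hx.2.1)).tc.cons (TC.const []))
  refine (TC.const ()).pair (TC.id.snd.fst.pair (TC.mapEnv
    (f := fun (e : U × U) (t : U) => [t, ⟨e.1.val * t.val % e.2.val⟩]) h1
    (TC.id.fst.pair TC.id.snd.fst) TC.id.snd.snd (fun y hy t ht => ⟨hy.1, hy.2.1, hy.2.2 t ht⟩)
    ((Bd.self.const_mul 8).mono fun y hy => ?_)).flatten)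
  have h2 : y.2.1.val ≤ y.2.1.val * y.2.1.val := Nat.le_mul_self _
  have h3 := hy.1
  have h4 := hy.2.1
  simp only [List.map_const', List.sum_replicate, smul_eq_mul, sz_pair, sz_U]
  rw [mul_left_comm]
  exact Nat.mul_le_mul_left _ (by omega)

theorem dbl_spec {S : ℕ} (hS : 0 < S) (l : List U) : ∀ T : List U, (∀ u ∈ l, u.val ≤ S) →
    (∀ t ∈ T, t.val ≤ S) → 0 < T.length →
    accAll (fun y : U × U × List U => 0 < y.2.1.val ∧ y.1.val ≤ y.2.1.val ∧
      ∀ t ∈ y.2.2, t.val ≤ y.2.1.val) dbl l (⟨S⟩, T) ∧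
    accSum (fun y => y.2.2.length * (y.2.1.val * y.2.1.val) + sz y.2) dbl l (⟨S⟩, T) +
      10 * (T.length * (S * S)) ≤ 10 * (T.length * (S * S)) * 2 ^ l.length := by
  induction l with
  | nil => intro T _ _ _; exact ⟨trivial, by simp [accSum]⟩
  | cons u l ih =>
    intro T h1 h2 h3
    have e : (dbl (u, ⟨S⟩, T)).2.2.length = 2 * T.length := by
      simp [dbl, List.length_flatten, Function.comp_def, mul_comm]
    obtain ⟨k1, k2⟩ := ih (dbl (u, ⟨S⟩, T)).2.2 (fun w hw => h1 w (List.mem_cons_of_mem _ hw))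
      (fun t ht => by
        obtain ⟨_, hm, ht⟩ := List.mem_flatten.1 ht
        obtain ⟨t', ht', rfl⟩ := List.mem_map.1 hm
        simp only [List.mem_cons, List.not_mem_nil, or_false] at ht
        rcases ht with rfl | rfl
        · exact h2 _ ht'
        · exact (Nat.mod_lt _ hS).le) (by omega)
    refine ⟨⟨⟨hS, h1 u List.mem_cons_self, h2⟩, k1⟩, ?_⟩
    have k3 := sz_list_le (l := T) (B := 2 * S + 1) fun t ht => by
      have := h2 t ht
      rw [sz_U]
      omega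
    have k4 : S ≤ S * S := Nat.le_mul_self _
    have k5 : T.length * (2 * S + 1 + 1) ≤ T.length * (4 * (S * S)) :=
      Nat.mul_le_mul_left _ (by omega)
    have k6 : S * S ≤ T.length * (S * S) := Nat.le_mul_of_pos_left _ h3
    rw [e, mul_assoc 2] at k2
    rw [mul_left_comm] at k5
    rw [accSum, List.length_cons, pow_succ', ← mul_assoc _ 2, mul_right_comm 10, mul_assoc 10 2]
    change T.length * (S * S) + (sz (U.mk S) + sz T + 1) +
      accSum _ dbl l (⟨S⟩, (dbl (u, ⟨S⟩, T)).2.2) + _ ≤ _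
    rw [sz_U]
    simp only
    omega

theorem dbl_val (S : ℕ) (us : List ℕ) :
    (mapAcc dbl (us.map U.mk).reverse (⟨S⟩, [⟨1 % S⟩])).2 =
      (⟨S⟩, (List.range (2 ^ us.length)).map fun o => U.mk (cnU S us o)) := by
  have k1 : ∀ (l : List U) (s : U × List U),
      (mapAcc dbl l s).2 = l.foldl (fun s b => (dbl (b, s)).2) s := by
    intro l
    induction l with
    | nil => intro s; rfl
    | cons b l ih => intro s; exact ih _
  rw [k1, List.foldl_reverse]
  induction us with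
  | nil => rfl
  | cons u us ih =>
    rw [List.map_cons, List.foldr_cons, ih, List.length_cons, pow_succ]
    have := GArrA.flatten_range 2
      (fun o j => U.mk (if j = 0 then cnU S us o else u * cnU S us o % S)) (2 ^ us.length)
    simp only [dbl, List.map_map, cnU]
    rw [← this]
    rfl

end LeafA
open LeafA

theorem TL.bf {s1 s2 s3 s4 : LL} (h1 : s1 ∈ Sc) (h2 : s2 ∈ Sc) (h3 : s3 ∈ Sc) (h4 : s4 ∈ Sc)
    (h : TL pre c p N v) (hσ : TU pre c σ) (h0 : ∀ a, pre a → 0 < σ a ∧ σ a * 2 ∣ N a) :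
    TL pre c p N (fun a => bf s1 s2 s3 s4 (σ a) (v a)) := by
  have p0 : TL pre c p (fun a => N a / 2) fun a x => v a (ins (σ a) 2 0 x) :=
    TA.pile 2 0 (by omega) h hσ h0
  have p1 : TL pre c p (fun a => N a / 2) fun a x => v a (ins (σ a) 2 1 x) :=
    TA.pile 2 1 (by omega) h hσ h0
  refine (TA.merge 2 two_pos (w := fun a j x => Cl.mk (p a)
      (if j = 0 then s1 * v a (ins (σ a) 2 0 x) + s2 * v a (ins (σ a) 2 1 x)
        else s3 * v a (ins (σ a) 2 0 x) + s4 * v a (ins (σ a) 2 1 x)))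
    (KernA.regs 2 fun j _ => ?_) hσ fun a ha => ⟨(h0 a ha).1, Nat.dvd_div_of_mul_dvd
      (mul_comm (σ a) 2 ▸ (h0 a ha).2)⟩).congr
    (fun a ha => (Nat.div_mul_cancel ((Dvd.intro_left _ rfl).trans (h0 a ha).2)).symm)
    fun a ha x _ => ?_
  · split_ifs
    · exact (p0.smul h1).add (p1.smul h2)
    · exact (p0.smul h3).add (p1.smul h4)
  · have k1 := (h0 a ha).1
    have k2 := setDig_dig k1 two_pos x
    have k3 := dig_lt (σ := σ a) two_pos x
    beta_reduce
    rw [KernA.ins_del' k1 two_pos, KernA.ins_del' k1 one_lt_two, R326.bf, fl]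
    split_ifs with k4
    · rw [k4] at k2 ⊢
      rw [k2, zero_add]
    · rw [show dig (σ a) 2 x = 1 by omega] at k2 ⊢
      rw [k2, ← setDig_mod_self (1 + 1)]
      rfl

theorem TL.bfs {s1 s2 s3 s4 : LL} (h1 : s1 ∈ Sc) (h2 : s2 ∈ Sc) (h3 : s3 ∈ Sc) (h4 : s4 ∈ Sc)
    (h : TL pre c p N v) (hσ : TU pre c σ) (hl : TU pre c l)
    (h0 : ∀ a, pre a → 0 < N a ∧ σ a * 2 ^ l a ∣ N a)
    (hb : Bd pre c (fun a => N a * (p a + 1) * l a)) :
    TL pre c p N (fun a => bfs s1 s2 s3 s4 (σ a) (l a) (v a)) := by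
  have k1 : TC (fun z : BSt => 0 < z.s.1 ∧ z.s.1 * 2 ∣ z.N) (fun _ => 0)
      (step fun s => (2 * s.1, R326.bf s1 s2 s3 s4 s.1 s.2)) :=
    (((TU.val tc_St.fst).const_mul 2).tc.pair (TL.bf (p := BSt.p) (N := BSt.N) (v := fun z => z.s.2)
      h1 h2 h3 h4 tc_St.snd (TU.val tc_St.fst) fun _ h => h)).of_enc fun _ _ => rfl
  have k2 : TC pre c fun a => (⟨p a, N a, (σ a, v a)⟩ : BSt) := (hσ.tc.pair h).of_enc fun _ _ => rfl
  have k3 : ∀ a, pre a → ∀ i < l a, 0 < σ a * 2 ^ i ∧ σ a * 2 ^ i * 2 ∣ N a := fun a ha i hi =>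
    ⟨Nat.mul_pos (KernA.pos (h0 a ha).1 (h0 a ha).2).1 (by positivity), by
      rw [mul_assoc, ← pow_succ]
      exact (Nat.mul_dvd_mul_left _ (pow_dvd_pow 2 hi)).trans (h0 a ha).2⟩
  have k4 := TC.iterate k1 hl k2
    (fun a ha i hi => by rw [iter, iter_fst]; exact k3 a ha i hi)
    ((hb.const_mul 13).mono fun a ha => by
      refine (Finset.sum_le_card_nsmul _ _ (13 * (N a * (p a + 1))) fun i hi => ?_).trans
        (le_of_eq (by simp; ring))
      have k5 := (h0 a ha).1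
      have k6 := Nat.le_of_dvd k5 (k3 a ha i (Finset.mem_range.1 hi)).2
      have k7 := sz_tl_le (p a) (N a) ((fun s : ℕ × (ℕ → LL) =>
        (2 * s.1, R326.bf s1 s2 s3 s4 s.1 s.2))^[i] (σ a, v a)).2
      rw [iter]
      change 0 + (sz (U.mk _) + sz (GArr.mk (N a) _) + 1) ≤ _
      rw [sz_U, iter_fst]
      simp only [mul_add, mul_left_comm (N a) 8] at k7 ⊢
      omega)
  exact (tc_St.snd.comp k4).congr fun a _ => by rw [iter]; rfl

theorem TA.cnU {us : α → List ℕ} (hus : TC pre c (fun a => (us a).map U.mk)) (hS : TU pre c S)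
    (h0 : ∀ a, pre a → 0 < S a ∧ ∀ u ∈ us a, u < S a)
    (hb : Bd pre c (fun a => S a * S a * 2 ^ (us a).length)) :
    TA pre c (fun a => 2 ^ (us a).length) (fun a o => U.mk (cnU (S a) (us a) o)) := by
  have k1 := fun a ha => dbl_spec (h0 a ha).1 ((us a).map U.mk).reverse [⟨1 % S a⟩]
    (fun u hu => by
      obtain ⟨w, hw, rfl⟩ := List.mem_map.1 (List.mem_reverse.1 hu)
      exact ((h0 a ha).2 w hw).le)
    (fun t ht => by rw [List.mem_singleton.1 ht]; exact (Nat.mod_lt _ (h0 a ha).1).le) one_pos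
  refine GArrA.ofL (TC.mapAcc' tc_dbl hus.reverse
    (hS.tc.pair (((TU.const 1).mod hS).tc.cons (TC.const []))) (fun a ha => (k1 a ha).1)
    ((hb.const_mul 10).mono fun a ha => ?_)).snd.snd fun a _ => by rw [dbl_val]
  have := (k1 a ha).2
  rw [List.length_singleton, one_mul, List.length_reverse, List.length_map, mul_assoc] at this
  omega

theorem TL.leaf {us : α → List ℕ} (h : TL pre c p N v) (hp : TU pre c p) (hS : TU pre c S)
    (hk : TU pre c k) (hus : TC pre c (fun a => (us a).map U.mk))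
    (h0 : ∀ a, pre a → 0 < N a ∧ S a * S a * 2 ^ (us a).length ∣ N a ∧ SwOk (S a) (k a) (p a) ∧
      Units2 (S a) (us a))
    (hb : Bd pre c (fun a => N a * p a * ((us a).length + gP (k a)))) :
    TL pre c p N (fun a => Tm (S a) al be (us a) (v a)) := by
  have k0 : ∀ a, pre a → S a * S a * 2 ^ (us a).length ≤ N a := fun a ha =>
    Nat.le_of_dvd (h0 a ha).1 (h0 a ha).2.1
  have hσ : TU pre c fun a => S a * S a := hS.mul hS ((TA.bd h).mono fun a ha =>
    (Nat.le_mul_of_pos_right _ (by positivity)).trans (k0 a ha))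
  have hl : TU pre c fun a => (us a).length := (TU.length hus).congr fun a _ => by simp
  have k1 : ∀ {s1 s2 s3 s4 : LL} {w : α → ℕ → LL}, s1 ∈ Sc → s2 ∈ Sc → s3 ∈ Sc → s4 ∈ Sc →
      TL pre c p N w → TL pre c p N fun a =>
        cn (S a) (us a) (R326.bfs s1 s2 s3 s4 (S a * S a) (us a).length (w a)) := by
    intro s1 s2 s3 s4 w h1 h2 h3 h4 hw
    refine TL.nuT (TL.bfs h1 h2 h3 h4 hw hσ hl (fun a ha => ⟨(h0 a ha).1, (h0 a ha).2.1⟩)
      ((hb.const_mul 2).mono fun a ha => ?_)) hp hS hk (TA.cnU hus hS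
        (fun a ha => ⟨(h0 a ha).2.2.1.1, fun u hu => ((h0 a ha).2.2.2 u hu).1⟩)
        ((TA.bd h).mono k0))
      (fun a ha => ⟨(h0 a ha).1, (h0 a ha).2.1, (h0 a ha).2.2.1,
        fun i _ => cnU_unit (h0 a ha).2.2.1.1 (h0 a ha).2.2.2 i⟩)
      (hb.mono fun a _ => Nat.mul_le_mul_left _ (Nat.le_add_left _ _))
    have := (h0 a ha).2.2.1.2.2.2.1
    rw [← mul_assoc, mul_comm 2, mul_assoc (N a) (p a)]
    exact Nat.mul_le_mul (Nat.mul_le_mul_left _ (by omega)) (Nat.le_add_right _ _)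
  have m1 := Sc.mul_mem ii_mem hf_mem
  exact TA.congr (k1 hf_mem hf_mem (Sc.neg_mem m1) m1 (k1 al_mem be_mem be_mem al_mem
    (k1 Sc.one_mem Sc.one_mem Sc.one_mem (Sc.neg_mem Sc.one_mem) h))) (fun _ _ => rfl)
    fun a ha i _ => by beta_reduce; rw [leaf_eq (h0 a ha).2.2.1.1 (h0 a ha).2.2.2]

end Crest.Agent.R326
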