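import Crest.Agent.R326.TC

/-!
# Row 326, linear-time list operations (task R326-Lists)

PLAN.  The first block is proved with the RAW natives (prefix-only costs):
* `Raw.revAppend`: `mapAcc` with body `(b, s) ↦ ((), b :: s)` (`pushConst ()`, the code of
  `(b, s)` is the code of `b :: s`), then `dropFst`.
* `Raw.zipR`: `mapAcc` over `l` with state the rest of `m`; body: swap roles by `caseList` on the
  state is not prefix-only, so use `assocL`-type moves: when `l.length ≤ m.length` the state is
  `y :: t`, coded as `(y, t)`, and the body is just `assocL` (recode).  `Raw.splitAt` is `zipR`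
  with a list of units followed by `onFst (map snd)`.  For the unrestricted `take/drop/zip`:
  first make the lengths comparable (e.g. append `none`-padding, or compute `min` with a
  `mapAcc` whose body uses `swap`-free `caseList` after `Raw.pushConst`/`swapTop`; on units the
  body `((), m) ↦ caseList` is prefix-only after `dropFst`).
* `flatten`: `mapAcc` over the outer list with body `revAppend` (state = reversed result), reverse.
* `chunks`: `mapAcc` over `l.length` units with state `(done, d, rest)`; if the flag `done` is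
  set output `[]` in O(1) (`caseBool`), otherwise `dupFst d`, `onSnd splitAt`, set the flag by
  looking at the rest (`caseList` under `onSnd`), output `[chunk]`; finally `flatten`.
The second block (`TC.mapAcc` and its corollaries) is `Raw.mapAcc` + `TC.comp'`-style glue.
-/

set_option autoImplicit false

namespace Crest.Agent.R326

open Crest.Agent.PTime

variable {α β γ δ σ ε : Type*} [Enc α] [Enc β] [Enc γ] [Enc δ] [Enc σ] [Enc ε]

namespace ListsA

theorem recode' {pre : α → Prop} {c : α → ℕ} {f : α → β} (h : Raw pre c f) (ι : γ → α)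
    (P : γ → Prop) (hι : ∀ x, P x → enc (ι x) = enc x) :
    Raw (fun x => P x ∧ pre (ι x)) (fun x => c (ι x)) (fun x => f (ι x)) := by
  obtain ⟨p, K, hp⟩ := h
  exact ⟨p, K, fun e x hx => hι x hx.1 ▸ hp e (ι x) hx.2⟩

omit [Enc β] [Enc γ] [Enc σ] in
theorem accAll_true (f : β × σ → γ × σ) (l : List β) : ∀ s, accAll (fun _ => True) f l s := by
  induction l with
  | nil => intro s; trivial
  | cons b l ih => intro s; exact ⟨trivial, ih _⟩

omit [Enc σ] in
theorem sz_mapAcc (c : β × σ → ℕ) (f : β × σ → γ × σ) (l : List β) : ∀ s,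
    sz (mapAcc f l s).1 ≤ sz l + accSum (fun y => c y + sz (f y).1) f l s := by
  induction l with
  | nil => intro s; simp [mapAcc]
  | cons b l ih =>
    intro s
    have := ih (f (b, s)).2
    simp only [mapAcc, accSum, sz_cons]
    omega

omit [Enc γ] [Enc σ] in
theorem accSum_le {P : β × σ → Prop} {c1 c2 : β × σ → ℕ} {K : ℕ} (f : β × σ → γ × σ)
    (h : ∀ y, P y → c1 y ≤ K * (c2 y + sz y.1 + 1)) (l : List β) : ∀ s, accAll P f l s →
    accSum c1 f l s ≤ K * (accSum c2 f l s + sz l) := by
  induction l with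
  | nil => intro s _; simp [accSum]
  | cons b l ih =>
    intro s hs
    have h1 := h _ hs.1
    have h2 := ih _ hs.2
    rw [accSum, accSum, sz_cons, show c2 (b, s) + accSum c2 f l (f (b, s)).2 + (sz b + sz l + 1) =
      (c2 (b, s) + sz b + 1) + (accSum c2 f l (f (b, s)).2 + sz l) by omega, mul_add]
    exact add_le_add h1 h2

theorem sz_units (n : ℕ) : sz (List.replicate n ()) = 2 * n + 1 := sz_U ⟨n⟩

/-- a loop that only changes the state -/
theorem loop {pre : β × σ → Prop} {c : β × σ → ℕ} {f : β × σ → σ} (h : Raw pre c f) :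
    Raw (fun x : List β × σ => accAll pre (fun y => ((), f y)) x.1 x.2)
      (fun x => sz x.1 + accSum c (fun y => ((), f y)) x.1 x.2)
      (fun x => x.1.foldl (fun s b => f (b, s)) x.2) := by
  have h1 : Raw pre c (fun y => ((), f y)) :=
    ((Raw.pushConst ()).comp h).mono (fun _ h => ⟨h, trivial⟩) ⟨1, fun _ _ => by omega⟩
      fun _ _ => rfl
  have k1 : ∀ (l : List β) (s : σ), (mapAcc (fun y => ((), f y)) l s).2 =
      l.foldl (fun s b => f (b, s)) s := by
    intro l
    induction l with
    | nil => intro s; rfl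
    | cons b l ih => intro s; exact ih _
  refine (Raw.dropFst.comp h1.mapAcc).mono (fun _ h => ⟨h, trivial⟩) ⟨5, fun x hx => ?_⟩
    fun x _ => by rw [k1]
  have k2 := sz_mapAcc c (fun y => ((), f y)) x.1 x.2
  have k3 := accSum_le (c1 := fun y => c y + sz ()) (c2 := c) (K := 1) (fun y => ((), f y))
    (fun y _ => by simp) x.1 x.2 hx
  simp only at k2 ⊢
  omega

end ListsA
open ListsA

theorem Raw.revAppend : Raw (fun _ : List β × List β => True) (fun x => sz x.1)
    (fun x => x.1.reverse ++ x.2) := by
  have h1 : Raw (fun _ : β × List β => True) (fun _ => 0) (fun x => x.1 :: x.2) :=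
    Raw.id.mono (fun _ h => h) ⟨0, fun _ _ => le_rfl⟩ fun _ _ => rfl
  have k1 : ∀ (l s : List β), l.foldl (fun s b => b :: s) s = l.reverse ++ s ∧
      accSum (fun _ => 0) (fun y : β × List β => ((), y.1 :: y.2)) l s = 0 := by
    intro l
    induction l with
    | nil => intro s; exact ⟨rfl, rfl⟩
    | cons b l ih => intro s; simp [accSum, ih]
  exact (loop h1).mono (fun _ _ => accAll_true _ _ _)
    ⟨1, fun x _ => by rw [(k1 _ _).2]; omega⟩ fun x _ => by rw [(k1 _ _).1]

namespace ListsA

theorem reverse : Raw (fun _ : List β => True) (fun x => sz x) (fun x => x.reverse) :=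
  (Raw.revAppend.comp (Raw.swap.comp (Raw.pushConst ([] : List β)))).mono
    (fun _ _ => ⟨⟨trivial, trivial⟩, trivial⟩) ⟨2, fun x _ => by simp; omega⟩ fun x _ => by simp

theorem sz_flatten (L : List (List β)) : sz L.flatten ≤ sz L := by
  induction L with
  | nil => simp
  | cons l L ih => have := sz_append l L.flatten; simp; omega

theorem flatten : Raw (fun _ : List (List β) => True) (fun x => sz x) (fun x => x.flatten) := by
  have k1 : ∀ (L : List (List β)) (s : List β),
      L.foldl (fun s b => b.reverse ++ s) s = L.flatten.reverse ++ s := by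
    intro L
    induction L with
    | nil => intro s; rfl
    | cons b L ih => intro s; simp [ih]
  refine (reverse.comp ((loop Raw.revAppend).comp
    (Raw.swap.comp (Raw.pushConst ([] : List β))))).mono
    (fun _ _ => ⟨⟨⟨trivial, trivial⟩, accAll_true _ _ _⟩, trivial⟩) ⟨4, fun x _ => ?_⟩
    fun x _ => by simp [k1]
  have k2 := accSum_le (P := fun _ => True) (c1 := fun y : List β × List β => sz y.1)
    (c2 := fun _ => 0) (K := 1) (fun y => ((), y.1.reverse ++ y.2)) (fun y _ => by omega) x []
    (accAll_true _ _ _)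
  have k3 : ∀ (L : List (List β)) (s : List β),
      accSum (fun _ => 0) (fun y : List β × List β => ((), y.1.reverse ++ y.2)) L s = 0 := by
    intro L
    induction L with
    | nil => intro s; rfl
    | cons b L ih => intro s; simp [accSum, ih]
  have k4 := sz_flatten x
  simp only [k1, k3, List.append_nil, sz_reverse, sz_pair, sz_nil] at k2 ⊢
  omega

theorem single : Raw (fun _ : β => True) (fun x => sz x) (fun x => [x]) :=
  (Raw.swap.comp (Raw.pushConst ([] : List β))).mono (fun _ _ => ⟨trivial, trivial⟩)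
    ⟨2, fun x _ => by simp; omega⟩ fun _ _ => rfl

theorem flag : Raw (fun _ : List β => True) (fun _ => 0) (fun x => (x.isEmpty, x)) :=
  (Raw.caseList0 (f := fun _ => (true, ([] : List β))) (g := fun y => (false, y.1 :: y.2))
    (pre1 := fun _ => True) (pre2 := fun _ => True) (c1 := fun _ => 0) (c2 := fun _ => 0)
    ((Raw.pushConst true).mono (fun _ _ => trivial) ⟨0, fun _ _ => le_rfl⟩ fun _ _ => rfl)
    ((Raw.pushConst false).mono (fun _ _ => trivial) ⟨0, fun _ _ => le_rfl⟩ fun _ _ => rfl)).mono
    (fun x _ => by cases x <;> trivial) ⟨0, fun x _ => by cases x <;> exact le_rfl⟩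
    fun x _ => by cases x <;> rfl

theorem flag2 : Raw (fun _ : α × List β => True) (fun x => sz x.1)
    (fun x => (x.2.isEmpty, x.1, x.2)) :=
  (Raw.swapTop.comp flag.onSnd).mono (fun _ _ => ⟨trivial, trivial⟩)
    ⟨3, fun x _ => by have := sz_bool x.2.isEmpty; simp only; omega⟩ fun _ _ => rfl

/-- one step of `zip` -/
def zipStep {β γ : Type*} (x : β × List γ) : List (β × γ) × List γ :=
  List.casesOn x.2 ([], []) fun y t => ([(x.1, y)], t)

theorem raw_zipStep : Raw (fun _ : β × List γ => True) (fun x => sz x.1 + sz (x.2.take 1))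
    zipStep := by
  have h1 : Raw (fun x : β × List γ => x.2 = []) (fun x => sz x.1 + sz (x.2.take 1)) zipStep :=
    ((Raw.pushConst ([] : List (β × γ))).comp Raw.dropFst).mono (fun _ _ => ⟨trivial, trivial⟩)
      ⟨1, fun x _ => by omega⟩ fun x hx => by
        obtain ⟨b, m⟩ := x
        subst hx
        rfl
  have h2 : Raw (fun x : β × List γ => x.2 ≠ []) (fun x => sz x.1 + sz (x.2.take 1)) zipStep := by
    refine (recode' (single.onFst.comp (Raw.assocL (α := β) (β := T) (γ := T)))
      (fun x : β × List γ => (x.1, (enc x.2).left, (enc x.2).right)) (fun x => x.2 ≠ [])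
      fun x hx => ?_).mono (fun _ h => ⟨h, trivial, trivial⟩) ⟨2, fun x hx => ?_⟩ fun x hx => ?_
    all_goals
      obtain ⟨b, m⟩ := x
      obtain ⟨y, t, rfl⟩ := List.exists_cons_of_ne_nil hx
    · rfl
    · have : sz (enc y) = sz y := rfl
      simp [T.left, this]
      omega
    · rfl
  refine ((Raw.caseBool h1 h2).comp flag2).mono (fun x _ => ⟨trivial, ?_⟩) ⟨2, fun x _ => ?_⟩
    fun x _ => ?_
  all_goals
    obtain ⟨b, m⟩ := x
    cases m <;> simp <;> omega

theorem zipG : Raw (fun _ : List β × List γ => True)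
    (fun x => sz x.1 + sz (x.2.take x.1.length))
    (fun x => (x.1.zip x.2, x.2.drop x.1.length)) := by
  have k1 : ∀ (l : List β) (m : List γ), (mapAcc zipStep l m).1.flatten = l.zip m ∧
      (mapAcc zipStep l m).2 = m.drop l.length ∧
      accSum (fun y => sz y.1 + sz (y.2.take 1) + sz (zipStep y).1) zipStep l m ≤
        3 * (sz l + sz (m.take l.length)) := by
    intro l
    induction l with
    | nil => intro m; simp [mapAcc, accSum]
    | cons b l ih =>
      intro m
      cases m with
      | nil =>
        obtain ⟨h1, h2, h3⟩ := ih []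
        simp [mapAcc, accSum, zipStep] at h1 h2 h3 ⊢
        exact ⟨h1, h2, by omega⟩
      | cons y t =>
        obtain ⟨h1, h2, h3⟩ := ih t
        simp [mapAcc, accSum, zipStep] at h1 h2 h3 ⊢
        exact ⟨h1, h2, by omega⟩
  refine (flatten.onFst.comp raw_zipStep.mapAcc).mono (fun _ _ => ⟨accAll_true _ _ _, trivial⟩)
    ⟨8, fun x _ => ?_⟩ fun x _ => by rw [(k1 _ _).1, (k1 _ _).2.1]
  have k2 := sz_mapAcc (fun y : β × List γ => sz y.1 + sz (y.2.take 1)) zipStep x.1 x.2
  have k3 := (k1 x.1 x.2).2.2
  omega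

theorem mapSnd : Raw (fun _ : List (β × γ) => True) (fun x => sz x) (fun x => x.map Prod.snd) := by
  have h1 : Raw (fun _ : (β × γ) × List γ => True) (fun x => sz x.1) (fun x => x.1.2 :: x.2) :=
    (Raw.dropFst.onFst).mono (fun _ _ => trivial) ⟨1, fun x _ => by rw [sz_prod x.1]; omega⟩
      fun _ _ => rfl
  have k1 : ∀ (L : List (β × γ)) (s : List γ),
      L.foldl (fun s b => b.2 :: s) s = (L.map Prod.snd).reverse ++ s ∧
      accSum (fun x : (β × γ) × List γ => sz x.1) (fun y => ((), y.1.2 :: y.2)) L s ≤ sz L ∧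
      sz (L.map Prod.snd) ≤ sz L := by
    intro L
    induction L with
    | nil => intro s; simp [accSum]
    | cons b L ih =>
      intro s
      obtain ⟨k1, k2, k3⟩ := ih (b.2 :: s)
      have := sz_prod b
      simp only [List.foldl_cons, k1, accSum, List.map_cons, sz_cons]
      exact ⟨by simp, by omega, by omega⟩
  refine (reverse.comp ((loop h1).comp (Raw.swap.comp (Raw.pushConst ([] : List γ))))).mono
    (fun _ _ => ⟨⟨⟨trivial, trivial⟩, accAll_true _ _ _⟩, trivial⟩) ⟨4, fun x _ => ?_⟩
    fun x _ => by simp [(k1 x []).1]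
  obtain ⟨k2, k3, k4⟩ := k1 x []
  simp only [k2, List.append_nil, sz_reverse, sz_pair, sz_nil]
  omega

omit [Enc β] [Enc γ] in
theorem map_snd_zip' (l : List β) : ∀ m : List γ, (l.zip m).map Prod.snd = m.take l.length := by
  induction l with
  | nil => intro m; simp
  | cons b l ih => intro m; cases m <;> simp [ih]

theorem sz_zip (l : List β) : ∀ m : List γ, sz (l.zip m) ≤ sz l + sz (m.take l.length) := by
  induction l with
  | nil => intro m; simp
  | cons b l ih =>
    intro m
    cases m with
    | nil => simp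
    | cons y t => have := ih t; simp; omega

end ListsA

/-- zip, keeping the unused part of the second list; only the used prefix is paid for -/
theorem Raw.zipR : Raw (fun x : List β × List γ => x.1.length ≤ x.2.length)
    (fun x => sz x.1 + sz (x.2.take x.1.length))
    (fun x => (x.1.zip x.2, x.2.drop x.1.length)) := by
  exact zipG.mono (fun _ _ => trivial) ⟨1, fun _ _ => by omega⟩ fun _ _ => rfl

theorem Raw.splitAt : Raw (fun _ : U × List γ => True)
    (fun x => sz x.1 + sz (x.2.take x.1.val)) (fun x => (x.2.take x.1.val, x.2.drop x.1.val)) := by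
  refine ((mapSnd.onFst.comp zipG).recode (fun x : U × List γ => (List.replicate x.1.val (), x.2))
    fun _ => rfl).mono (fun _ _ => ⟨trivial, trivial⟩) ⟨2, fun x _ => ?_⟩
    fun x _ => by simp only [map_snd_zip', List.length_replicate]
  have := sz_zip (List.replicate x.1.val ()) x.2
  simp only [List.length_replicate, sz_units, sz_U] at this ⊢
  omega

namespace ListsA

omit [Enc α] [Enc β] [Enc γ] [Enc σ] in
theorem acc_inv {P : β × σ → Prop} {c : β × σ → ℕ} {f : β × σ → γ × σ} (I : σ → Prop) (w : β → ℕ)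
    (l : List β) (h : ∀ b ∈ l, ∀ t, I t → P (b, t) ∧ I (f (b, t)).2 ∧ c (b, t) ≤ w b) :
    ∀ s, I s → accAll P f l s ∧ accSum c f l s ≤ (l.map w).sum := by
  induction l with
  | nil => intro s _; exact ⟨trivial, le_rfl⟩
  | cons b l ih =>
    intro s hs
    obtain ⟨h1, h2, h3⟩ := h b List.mem_cons_self s hs
    obtain ⟨h4, h5⟩ := ih (fun b' hb' => h b' (List.mem_cons_of_mem _ hb')) _ h2
    exact ⟨⟨h1, h4⟩, by rw [accSum, List.map_cons, List.sum_cons]; exact add_le_add h3 h5⟩

omit [Enc σ] in
theorem acc_iter (P : σ → Prop) (c : σ → ℕ) (f : σ → σ) (n : ℕ) : ∀ s,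
    mapAcc (fun y : Unit × σ => (y.2, f y.2)) (List.replicate n ()) s =
      ((List.range n).map fun i => f^[i] s, f^[n] s) ∧
    ((∀ i < n, P (f^[i] s)) →
      accAll (fun y => P y.2) (fun y : Unit × σ => (y.2, f y.2)) (List.replicate n ()) s) ∧
    accSum (fun y => c y.2) (fun y : Unit × σ => (y.2, f y.2)) (List.replicate n ()) s =
      ∑ i ∈ Finset.range n, c (f^[i] s) := by
  induction n with
  | zero => intro s; exact ⟨rfl, fun _ => trivial, rfl⟩
  | succ n ih =>
    intro s
    obtain ⟨h1, h2, h3⟩ := ih (f s)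
    rw [List.replicate_succ]
    refine ⟨?_, fun h => ⟨h 0 (by omega), h2 fun i hi => h (i + 1) (by omega)⟩, ?_⟩
    · rw [mapAcc, h1, List.range_succ_eq_map, List.map_cons, List.map_map]
      rfl
    · rw [accSum, h3, Finset.sum_range_succ', add_comm]
      rfl

theorem units {pre : α → Prop} {c : α → ℕ} {n : α → ℕ} (hn : TU pre c n) :
    TC pre c (fun a => List.replicate (n a) ()) := TC.of_enc hn fun _ _ => rfl

theorem of_raw' {pre : α → Prop} {c : α → ℕ} {f : β → γ} {g : α → β} {c' : β → ℕ}
    (hf : Raw (fun _ => True) c' f) (hg : TC pre c g) (h : ∃ K, ∀ b, c' b ≤ K * sz b) :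
    TC pre c (fun a => f (g a)) := by
  obtain ⟨K, hK⟩ := h
  exact TC.comp (TC.of_raw hf (fun _ h => h) ⟨K, fun b _ => by simpa using hK b⟩) hg

end ListsA

section
variable {pre : α → Prop} {c : α → ℕ}

/-- general form of `mapAcc` -/
theorem TC.mapAcc' {pre' : β × σ → Prop} {c' : β × σ → ℕ} {f : β × σ → γ × σ} {l : α → List β}
    {s : α → σ} (hf : TC pre' c' f) (hl : TC pre c l) (hs : TC pre c s)
    (h1 : ∀ a, pre a → accAll pre' f (l a) (s a))
    (h2 : Bd pre c (fun a => accSum (fun y => c' y + sz y.2) f (l a) (s a))) :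
    TC pre c (fun a => mapAcc f (l a) (s a)) := by
  obtain ⟨K, hK⟩ := Raw.sz_le hf
  refine TC.of_raw ((Raw.mapAcc hf).comp (hl.pair hs)) (fun a ha => ⟨ha, h1 a ha⟩)
    ((Bd.self.add TCA.bd_sz).add ((Bd.sz hl).add
      (((h2.add (Bd.sz hl)).const_mul (2 * K + 2)).mono fun a ha => ?_)))
  refine accSum_le f (fun y hy => ?_) _ _ (h1 a ha)
  have k1 := hK y hy
  have k2 := sz_prod (f y)
  have k3 := sz_prod y
  have k4 : K * (c' y + sz y + 1) ≤ K * (2 * (c' y + sz y.2 + sz y.1 + 1)) :=
    Nat.mul_le_mul_left _ (by omega)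
  rw [add_mul, mul_comm 2 K, mul_assoc]
  beta_reduce at k1 ⊢
  omega

/-- `mapAcc` with an invariant and a bound `w a b` for the cost and state size of each step -/
theorem TC.mapAcc {pre' : β × σ → Prop} {c' : β × σ → ℕ} {f : β × σ → γ × σ} {l : α → List β}
    {s : α → σ} (hf : TC pre' c' f) (hl : TC pre c l) (hs : TC pre c s) (I : α → σ → Prop)
    (w : α → β → ℕ) (h0 : ∀ a, pre a → I a (s a))
    (h1 : ∀ a, pre a → ∀ b ∈ l a, ∀ t, I a t →
      pre' (b, t) ∧ I a (f (b, t)).2 ∧ c' (b, t) + sz t ≤ w a b)
    (h2 : Bd pre c (fun a => ((l a).map (w a)).sum)) :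
    TC pre c (fun a => mapAcc f (l a) (s a)) := by
  exact TC.mapAcc' hf hl hs (fun a ha => (acc_inv (c := fun y => c' y + sz y.2) (I a) (w a) (l a)
    (h1 a ha) _ (h0 a ha)).1) (h2.mono fun a ha => (acc_inv (c := fun y => c' y + sz y.2) (I a)
      (w a) (l a) (h1 a ha) _ (h0 a ha)).2)

theorem TC.foldl {pre' : σ × β → Prop} {c' : σ × β → ℕ} {f : σ → β → σ} {l : α → List β}
    {s : α → σ} (hf : TC pre' c' (fun x => f x.1 x.2)) (hl : TC pre c l) (hs : TC pre c s)
    (I : α → σ → Prop) (w : α → β → ℕ) (h0 : ∀ a, pre a → I a (s a))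
    (h1 : ∀ a, pre a → ∀ b ∈ l a, ∀ t, I a t →
      pre' (t, b) ∧ I a (f t b) ∧ c' (t, b) + sz t ≤ w a b)
    (h2 : Bd pre c (fun a => ((l a).map (w a)).sum)) :
    TC pre c (fun a => (l a).foldl f (s a)) := by
  have hf' : TC (fun y : β × σ => pre' (y.2, y.1)) (fun y => c' (y.2, y.1))
      (fun y => ((), f y.2 y.1)) :=
    (TC.const ()).pair (hf.comp' (TC.id.snd.pair TC.id.fst) (fun _ h => h) Bd.self)
  have k1 : ∀ (l : List β) (s : σ),
      l.foldl f s = (R326.mapAcc (fun y : β × σ => ((), f y.2 y.1)) l s).2 := by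
    intro l
    induction l with
    | nil => intro s; rfl
    | cons b l ih => intro s; exact ih _
  exact (TC.mapAcc hf' hl hs I w h0 h1 h2).snd.congr fun a _ => k1 _ _

namespace ListsA

theorem iter2 {pre' : σ → Prop} {c' : σ → ℕ} {f : σ → σ} {n : α → ℕ} {s : α → σ}
    (hf : TC pre' c' f) (hn : TU pre c n) (hs : TC pre c s)
    (h1 : ∀ a, pre a → ∀ i < n a, pre' (f^[i] (s a)))
    (h2 : Bd pre c (fun a => ∑ i ∈ Finset.range (n a), (c' (f^[i] (s a)) + sz (f^[i] (s a))))) :
    TC pre c (fun a => ((List.range (n a)).map fun i => f^[i] (s a), f^[n a] (s a))) := by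
  have hf' : TC (fun y : Unit × σ => pre' y.2) (fun y => c' y.2) (fun y => (y.2, f y.2)) :=
    TC.id.snd.pair (hf.comp' TC.id.snd (fun _ h => h) Bd.self)
  exact (TC.mapAcc' hf' (units hn) hs (fun a ha => (acc_iter pre' c' f _ _).2.1 (h1 a ha))
    (h2.mono fun a _ => (acc_iter pre' (fun t => c' t + sz t) f _ _).2.2.le)).congr
    fun a _ => (acc_iter pre' c' f _ _).1.symm

end ListsA

/-- iteration a unary number of times -/
theorem TC.iterate {pre' : σ → Prop} {c' : σ → ℕ} {f : σ → σ} {n : α → ℕ} {s : α → σ}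
    (hf : TC pre' c' f) (hn : TU pre c n) (hs : TC pre c s)
    (h1 : ∀ a, pre a → ∀ i < n a, pre' (f^[i] (s a)))
    (h2 : Bd pre c (fun a => ∑ i ∈ Finset.range (n a), (c' (f^[i] (s a)) + sz (f^[i] (s a))))) :
    TC pre c (fun a => f^[n a] (s a)) := by
  exact (iter2 hf hn hs h1 h2).snd

/-- the list of the iterates -/
theorem TC.iterates {pre' : σ → Prop} {c' : σ → ℕ} {f : σ → σ} {n : α → ℕ} {s : α → σ}
    (hf : TC pre' c' f) (hn : TU pre c n) (hs : TC pre c s)
    (h1 : ∀ a, pre a → ∀ i < n a, pre' (f^[i] (s a)))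
    (h2 : Bd pre c (fun a => ∑ i ∈ Finset.range (n a), (c' (f^[i] (s a)) + sz (f^[i] (s a))))) :
    TC pre c (fun a => (List.range (n a)).map fun i => f^[i] (s a)) := by
  exact (iter2 hf hn hs h1 h2).fst

theorem TC.map' {pre' : β → Prop} {c' : β → ℕ} {f : β → γ} {l : α → List β} (hf : TC pre' c' f)
    (hl : TC pre c l) (h1 : ∀ a, pre a → ∀ b ∈ l a, pre' b)
    (h2 : Bd pre c (fun a => ((l a).map c').sum)) : TC pre c (fun a => (l a).map f) := by
  have hf' : TC (fun y : β × Unit => pre' y.1) (fun y => c' y.1) (fun y => (f y.1, y.2)) :=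
    (hf.comp' TC.id.fst (fun _ h => h) Bd.self).pair TC.id.snd
  have k1 : ∀ (l : List β), l.map f = (R326.mapAcc (fun y : β × Unit => (f y.1, y.2)) l ()).1 := by
    intro l
    induction l with
    | nil => rfl
    | cons b l ih => rw [List.map_cons, ih]; rfl
  exact (TC.mapAcc hf' hl (TC.const ()) (fun _ _ => True) (fun _ b => c' b + 1)
    (fun _ _ => trivial) (fun a ha b hb t _ => ⟨h1 a ha b hb, trivial, le_rfl⟩)
    ((h2.add (Bd.length hl)).mono fun a _ => by simp [List.sum_map_add])).fst.congr
    fun a _ => k1 _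

@[fun_prop] theorem TC.map {f : β → γ} {l : α → List β}
    (hf : TC (fun _ => True) (fun _ => 0) f) (hl : TC pre c l) :
    TC pre c (fun a => (l a).map f) :=
  hf.map' hl (fun _ _ _ _ => trivial) ((Bd.const 0).mono fun a _ => by simp)

/-- map with an environment, which is paid for once per element -/
theorem TC.mapEnv {pre' : ε × β → Prop} {c' : ε × β → ℕ} {f : ε → β → γ} {env : α → ε}
    {l : α → List β} (hf : TC pre' c' (fun x => f x.1 x.2)) (he : TC pre c env) (hl : TC pre c l)
    (h1 : ∀ a, pre a → ∀ b ∈ l a, pre' (env a, b))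
    (h2 : Bd pre c (fun a => ((l a).map fun b => c' (env a, b) + sz (env a)).sum)) :
    TC pre c (fun a => (l a).map (f (env a))) := by
  have hf' : TC (fun y : β × ε => pre' (y.2, y.1)) (fun y => c' (y.2, y.1))
      (fun y => (f y.2 y.1, y.2)) :=
    (hf.comp' (TC.id.snd.pair TC.id.fst) (fun _ h => h) Bd.self).pair TC.id.snd
  have k1 : ∀ (e : ε) (l : List β),
      l.map (f e) = (R326.mapAcc (fun y : β × ε => (f y.2 y.1, y.2)) l e).1 := by
    intro e l
    induction l with
    | nil => rfl
    | cons b l ih => rw [List.map_cons, ih]; rfl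
  exact (TC.mapAcc hf' hl he (fun a t => t = env a) (fun a b => c' (env a, b) + sz (env a))
    (fun _ _ => rfl) (fun a ha b hb t ht => by subst ht; exact ⟨h1 a ha b hb, rfl, le_rfl⟩)
    h2).fst.congr fun a _ => k1 _ _

@[fun_prop] theorem TC.reverse {l : α → List β} (hl : TC pre c l) :
    TC pre c (fun a => (l a).reverse) := by
  exact of_raw' ListsA.reverse hl ⟨1, fun _ => by omega⟩

@[fun_prop] theorem TC.append {l m : α → List β} (hl : TC pre c l) (hm : TC pre c m) :
    TC pre c (fun a => l a ++ m a) := by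
  exact (of_raw' Raw.revAppend (hl.reverse.pair hm)
    ⟨1, fun x => by rw [sz_prod x]; omega⟩).congr fun a _ => by simp

@[fun_prop] theorem TC.flatten {l : α → List (List β)} (hl : TC pre c l) :
    TC pre c (fun a => (l a).flatten) := by
  exact of_raw' ListsA.flatten hl ⟨1, fun _ => by omega⟩

@[fun_prop] theorem TC.filter {f : β → Bool} {l : α → List β}
    (hf : TC (fun _ => True) (fun _ => 0) f) (hl : TC pre c l) :
    TC pre c (fun a => (l a).filter f) := by
  refine (TC.map (f := fun b => _root_.cond (f b) [b] [])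
    (hf.cond (TC.id.cons (TC.const [])) (TC.const [])) hl).flatten.congr fun a _ => ?_
  induction l a with
  | nil => rfl
  | cons b t ih => cases h : f b <;> simp [ih, h]

@[fun_prop] theorem TC.all {f : β → Bool} {l : α → List β}
    (hf : TC (fun _ => True) (fun _ => 0) f) (hl : TC pre c l) :
    TC pre c (fun a => (l a).all f) := by
  refine (TC.filter (f := fun b => !f b) hf.bnot hl).isEmpty.congr fun a _ => ?_
  induction l a with
  | nil => rfl
  | cons b t ih => cases h : f b <;> simp [ih, h]

@[fun_prop] theorem TU.length {l : α → List β} (hl : TC pre c l) :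
    TU pre c (fun a => (l a).length) := by
  refine (TC.map (f := fun _ => ()) (TC.const _) hl).of_enc fun a _ => ?_
  show enc (List.replicate (l a).length ()) = _
  simp

@[fun_prop] theorem TC.take {n : α → ℕ} {l : α → List β} (hn : TU pre c n) (hl : TC pre c l) :
    TC pre c (fun a => (l a).take (n a)) := by
  exact (of_raw' Raw.splitAt (hn.tc.pair hl) ⟨1, fun x => by
    have := sz_sublist (List.take_sublist x.1.val x.2); rw [sz_prod x]; omega⟩).fst

@[fun_prop] theorem TC.drop {n : α → ℕ} {l : α → List β} (hn : TU pre c n) (hl : TC pre c l) :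
    TC pre c (fun a => (l a).drop (n a)) := by
  exact (of_raw' Raw.splitAt (hn.tc.pair hl) ⟨1, fun x => by
    have := sz_sublist (List.take_sublist x.1.val x.2); rw [sz_prod x]; omega⟩).snd

@[fun_prop] theorem TC.getD {n : α → ℕ} {l : α → List β} {d : α → β} (hn : TU pre c n)
    (hl : TC pre c l) (hd : TC pre c d) : TC pre c (fun a => (l a).getD (n a) (d a)) := by
  exact ((TC.drop hn hl).headD hd).congr fun a _ => by
    rw [List.getD_eq_getElem?_getD, List.headD_eq_head?_getD, List.head?_drop]

@[fun_prop] theorem TC.getLastD {l : α → List β} {d : α → β} (hl : TC pre c l) (hd : TC pre c d) :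
    TC pre c (fun a => (l a).getLastD (d a)) := by
  exact (hl.reverse.headD hd).congr fun a _ => by
    rw [List.getLastD_eq_getLast?, List.headD_eq_head?_getD, List.head?_reverse]

@[fun_prop] theorem TC.dropLast {l : α → List β} (hl : TC pre c l) :
    TC pre c (fun a => (l a).dropLast) := by
  exact hl.reverse.tail.reverse.congr fun a _ => by simp

@[fun_prop] theorem TC.zip {l : α → List β} {m : α → List γ} (hl : TC pre c l) (hm : TC pre c m) :
    TC pre c (fun a => (l a).zip (m a)) := by
  exact (of_raw' zipG (hl.pair hm) ⟨1, fun x => by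
    have := sz_sublist (List.take_sublist x.1.length x.2); rw [sz_prod x]; omega⟩).fst

@[fun_prop] theorem TC.zipWith {f : β → γ → δ} {l : α → List β} {m : α → List γ}
    (hf : TC (fun _ => True) (fun _ => 0) (fun x : β × γ => f x.1 x.2)) (hl : TC pre c l)
    (hm : TC pre c m) : TC pre c (fun a => List.zipWith f (l a) (m a)) := by
  exact (TC.map hf (hl.zip hm)).congr fun a _ => by rw [List.map_zip_eq_zipWith]; rfl

theorem TC.replicate {n : α → ℕ} {b : α → β} (hn : TU pre c n) (hb : TC pre c b)
    (h : Bd pre c (fun a => n a * sz (b a))) :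
    TC pre c (fun a => List.replicate (n a) (b a)) := by
  exact (TC.mapEnv (f := fun (e : β) (_ : Unit) => e) (pre' := fun _ => True) (c' := fun _ => 0)
    TC.id.fst hb (units hn) (fun _ _ _ _ => trivial) (h.mono fun a _ => by simp)).congr
    fun a _ => by simp

/-- replicating a constant -/
@[fun_prop] theorem TC.replicate_const {n : α → ℕ} (b : β) (hn : TU pre c n) :
    TC pre c (fun a => List.replicate (n a) b) := by
  exact (TC.map (f := fun _ : Unit => b) (TC.const b) (units hn)).congr fun a _ => by simp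

/-- consecutive pieces of length `d` (the last one may be shorter) -/
def chunks {β : Type*} (d : ℕ) (l : List β) : List (List β) :=
  (List.range ((l.length + d - 1) / d)).map fun i => (l.drop (i * d)).take d

namespace ListsA

omit [Enc β] in
theorem chunks_nil {d : ℕ} (hd : 0 < d) : chunks d ([] : List β) = [] := by
  unfold chunks
  rw [Nat.div_eq_of_lt (by simp; omega)]
  rfl

omit [Enc β] in
theorem chunks_ne {d : ℕ} (hd : 0 < d) {l : List β} (hl : l ≠ []) :
    chunks d l = l.take d :: chunks d (l.drop d) := by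
  have h0 := List.length_pos_iff.2 hl
  have e : (l.length + d - 1) / d = ((l.drop d).length + d - 1) / d + 1 := by
    rw [List.length_drop, show l.length + d - 1 = (l.length - 1) + d by omega,
      Nat.add_div_right _ hd]
    congr 1
    rcases le_total l.length d with h | h
    · rw [Nat.div_eq_of_lt (by omega), Nat.div_eq_of_lt (by omega)]
    · congr 1; omega
  unfold chunks
  rw [e, List.range_succ_eq_map, List.map_cons, List.map_map]
  congr 1
  · simp
  · refine List.map_congr_left fun i _ => ?_
    simp only [Function.comp_apply, List.drop_drop]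
    congr 2
    rw [Nat.succ_mul, add_comm]

/-- one step of `chunks` -/
def chStep {β : Type*} (x : Unit × Bool × U × List β) : List (List β) × Bool × U × List β :=
  cond x.2.1 ([], true, x.2.2)
    ([x.2.2.2.take x.2.2.1.val], (x.2.2.2.drop x.2.2.1.val).isEmpty, x.2.2.1,
      x.2.2.2.drop x.2.2.1.val)

/-- its cost -/
def chCost (x : Unit × Bool × U × List β) : ℕ :=
  cond x.2.1 0 (sz x.2.2.1 + sz (x.2.2.2.take x.2.2.1.val))

theorem raw_chStep : Raw (fun _ : Unit × Bool × U × List β => True) chCost chStep := by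
  have h1 := (Raw.pushConst ([] : List (List β))).comp (Raw.pushConst (α := U × List β) true)
  have h2 := single.onFst.comp (flag2.onSnd.comp (Raw.swapTop.comp
    ((Raw.splitAt (γ := β)).onSnd.comp Raw.dupFst)))
  refine ((Raw.caseBool h1 h2).comp Raw.dropFst).mono (fun x _ => ⟨trivial, ?_⟩) ⟨5, fun x _ => ?_⟩
    fun x _ => ?_
  all_goals
    obtain ⟨u, b, d, l⟩ := x
    cases b
  · simp
  · simp
  · simp [chCost]; omega
  · simp [chCost]
  · rfl
  · rfl

theorem ch_spec {d : ℕ} (hd : 0 < d) (n : ℕ) : ∀ l : List β, l.length ≤ n →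
    (mapAcc chStep (List.replicate n ()) (l.isEmpty, ⟨d⟩, l)).1.flatten = chunks d l ∧
    accSum (fun y => chCost y + sz (chStep y).1) chStep (List.replicate n ()) (l.isEmpty, ⟨d⟩, l) ≤
      7 * (n + sz l) + if l = [] then 0 else 2 * d + 1 := by
  induction n with
  | zero =>
    intro l hl
    obtain rfl : l = [] := List.length_eq_zero_iff.1 (by omega)
    exact ⟨(chunks_nil hd).symm, Nat.zero_le _⟩
  | succ n ih =>
    intro l hl
    rw [List.replicate_succ, mapAcc, accSum]
    by_cases h : l = []
    · subst h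
      obtain ⟨h1, h2⟩ := ih [] (Nat.zero_le _)
      refine ⟨h1, ?_⟩
      change 0 + 1 + accSum _ chStep _ (([] : List β).isEmpty, ⟨d⟩, []) ≤ _
      simp only [if_true] at h2 ⊢
      omega
    · have h0 := List.length_pos_iff.2 h
      obtain ⟨h1, h2⟩ := ih (l.drop d) (by rw [List.length_drop]; omega)
      have e : l.isEmpty = false := by simpa using h
      rw [e, chunks_ne hd h, if_neg h, ← h1]
      refine ⟨rfl, ?_⟩
      change sz (U.mk d) + sz (l.take d) + sz [l.take d] +
        accSum _ chStep _ ((l.drop d).isEmpty, ⟨d⟩, l.drop d) ≤ _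
      have k1 := sz_append (l.take d) (l.drop d)
      have k2 := length_le_sz (l.take d)
      have k3 := sz_pos (l.take d)
      rw [List.take_append_drop] at k1
      rw [List.length_take] at k2
      rw [sz_U, sz_cons, sz_nil]
      split_ifs at h2 with h3
      · simp only
        omega
      · have : d < l.length := by
          by_contra hh
          exact h3 (List.drop_eq_nil_of_le (by omega))
        simp only
        omega

end ListsA

theorem TC.chunks {d : α → ℕ} {l : α → List β} (hd : TU pre c d) (hl : TC pre c l)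
    (h : ∀ a, pre a → 0 < d a) : TC pre c (fun a => chunks (d a) (l a)) := by
  have h1 : TC pre c fun a => (List.replicate (l a).length (), (l a).isEmpty, U.mk (d a), l a) :=
    (units (TU.length hl)).pair (hl.isEmpty.pair (hd.tc.pair hl))
  refine (TC.of_raw (raw_chStep.mapAcc.comp h1) (fun a ha => ⟨ha, accAll_true _ _ _⟩)
    ((Bd.self.add TCA.bd_sz).add (((((Bd.sz hl).const_mul 16).add (hd.bd.const_mul 2)).add
      (Bd.const 2)).mono fun a ha => ?_))).fst.flatten.congr
    fun a ha => (ch_spec (h a ha) _ _ le_rfl).1.symm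
  have k1 := (ch_spec (h a ha) _ (l a) le_rfl).2
  have k2 := length_le_sz (l a)
  simp only [sz_units]
  split_ifs at k1 <;> omega

end

end Crest.Agent.R326
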