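import Crest.Agent.R326.Err
import Crest.Agent.R326.Conv

/-!
# Row 326, loading the factors and reading off the product (task R326-Load)

PLAN.  `TL.load`: pad `x` with zeros to length `h³ q`, `chunks q`, turn every chunk into the cell
`(take p (replicate f false ++ chunk ++ replicate p false), replicate p false)` (`TC.mapEnv`;
`bitsN_eq_take`, the value `2^f ch < 2^(p-1) ≤ md p`), then three `TA.resize` with the zero cell:
rows `h → S`, rows `h S → S S`, total `h S S → S S S`.
`TA.unload`: add the constant cell `2^(f-1)` (`TA.const`, `TL.add`), keep the real part, drop `f`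
bits (`Rep.round`, `ofBits_drop`, `bitsN_ofBits`).
`exists_ovl`: `mapAcc` with state `(U sh, carry)`: `s = addB carry word` (`exists_addB`), output
`take sh (s ++ replicate sh false)`, new carry `drop sh s` (its length stays `≤ maxlen`);
result = flatten of the outputs ++ last carry.
`TC.unpack`: `TA.rows S` and `ovl q` on each row, `TA.rows S` and `ovl (q h)`, then `ovl (q h h)`,
finally `bitsN_eq_take`.
-/

set_option autoImplicit false

namespace Crest.Agent.R326

open Crest.Agent.PTime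

variable {α : Type*} [Enc α] {pre : α → Prop} {c N S h q f p β n : α → ℕ}

theorem LD.tc_cell {l : α → List Bool} (hl : TC pre c l) (hf : TU pre c f) (hp : TU pre c p)
    (h0 : ∀ a, pre a → f a + (l a).length ≤ p a) :
    TC pre c (fun a => Cl.mk (p a) ((2 ^ f a * ofBits (l a) : ℕ) : LL)) := by
  have h1 : TC pre c (fun a =>
      ((List.replicate (f a) false ++ l a) ++ List.replicate (p a) false).take (p a)) :=
    TC.take hp (((TC.replicate_const false hf).append hl).append (TC.replicate_const false hp))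
  have h2 : TC pre c fun a => zb (p a) (fun k => ((2 ^ f a * ofBits (l a) : ℕ) : ZMod (md k))) := by
    refine CellA.tc_zb h1 fun a ha => ?_
    have hlt : 2 ^ f a * ofBits (l a) < 2 ^ p a :=
      calc 2 ^ f a * ofBits (l a) < 2 ^ f a * 2 ^ (l a).length :=
            Nat.mul_lt_mul_of_pos_left (ofBits_lt _) (by positivity)
        _ ≤ 2 ^ p a := by
            rw [← pow_add]
            exact Nat.pow_le_pow_right two_pos (h0 a ha)
    rw [← bitsN_eq_take, length_bitsN, ofBits_bitsN, ofBits_append, ofBits_replicate_false,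
      List.length_replicate, zero_add, Nat.mod_eq_of_lt hlt]
    exact ⟨rfl, rfl⟩
  have h3 : TC pre c fun a => zb (p a) (0 : R0) := by
    have := CellA.re (tc_cl_zero hp)
    exact this
  refine CellA.mk h2 h3 fun a _ => ⟨?_, ?_⟩
  · rw [QuadraticAlgebra.re_natCast, Pi.natCast_apply]
  · rw [QuadraticAlgebra.im_natCast]

theorem LD.cube {S i : ℕ} (hi : i < S ^ 3) :
    ∃ z y w, z < S ∧ y < S ∧ w < S ∧ i = z * (S * S) + y * S + w := by
  have hS : 0 < S := by
    rcases Nat.eq_zero_or_pos S with rfl | h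
    · simp at hi
    · exact h
  refine ⟨i / (S * S), dig S S i, i % S, ?_, dig_lt hS i, Nat.mod_lt _ hS, exists_decomp hS hS i⟩
  apply Nat.div_lt_of_lt_mul
  calc i < S ^ 3 := hi
    _ = S * S * S := by ring

theorem LD.lt_iff {a b h m : ℕ} (hb : b < m) : a * m + b < h * m ↔ a < h := by
  constructor
  · intro h1
    exact lt_of_mul_lt_mul_right (lt_of_le_of_lt (Nat.le_add_right _ _) h1) (Nat.zero_le m)
  · intro h1
    calc a * m + b < (a + 1) * m := by rw [add_mul, one_mul]; omega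
      _ ≤ h * m := Nat.mul_le_mul_right _ h1

theorem LD.divmod {a b m : ℕ} (hb : b < m) : (a * m + b) / m = a ∧ (a * m + b) % m = b := by
  have hm : 0 < m := by omega
  rw [add_comm, Nat.add_mul_div_right _ _ hm, Nat.add_mul_mod_self_right, Nat.div_eq_of_lt hb,
    Nat.mod_eq_of_lt hb, zero_add]
  exact ⟨rfl, rfl⟩

theorem TL.load {x : α → List Bool} (hx : TC pre c x) (hS : TU pre c S) (hh : TU pre c h)
    (hq : TU pre c q) (hf : TU pre c f) (hp : TU pre c p)
    (h0 : ∀ a, pre a → 0 < q a ∧ 0 < h a ∧ h a ≤ S a ∧ (x a).length ≤ h a ^ 3 * q a ∧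
      f a + q a < p a)
    (hb : Bd pre c (fun a => S a ^ 3 * p a)) :
    TL pre c p (fun a => S a ^ 3)
      (fun a i => ((2 ^ f a * ld (h a) (S a) (ch (q a) (x a)) i : ℕ) : LL)) := by
  have hS1 : ∀ a, pre a → 1 ≤ S a ∧ 1 ≤ p a := fun a ha => by
    have := h0 a ha
    omega
  have bd : ∀ {g : α → ℕ} (k : ℕ), (∀ a, pre a → g a ≤ k * (S a ^ 3 * p a)) → Bd pre c g :=
    fun k hk => (hb.const_mul k).mono hk
  have cube : ∀ a, pre a → ∀ u v w t : ℕ, u ≤ S a → v ≤ S a → w ≤ S a → t ≤ p a →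
      u * v * w * t ≤ S a ^ 3 * p a := by
    intro a _ u v w t hu hv hw ht
    calc u * v * w * t ≤ S a * S a * S a * p a := by gcongr
      _ = S a ^ 3 * p a := by ring
  have hhh : TU pre c (fun a => h a * h a) := hh.mul hh (bd 1 fun a ha => by
    have := cube a ha (h a) (h a) 1 1 (h0 a ha).2.2.1 (h0 a ha).2.2.1 (hS1 a ha).1 (hS1 a ha).2
    omega)
  have hh3 : TU pre c (fun a => h a * h a * h a) := hhh.mul hh (bd 1 fun a ha => by
    have := cube a ha (h a) (h a) (h a) 1 (h0 a ha).2.2.1 (h0 a ha).2.2.1 (h0 a ha).2.2.1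
      (hS1 a ha).2
    omega)
  have hh3q : TU pre c (fun a => h a * h a * h a * q a) := hh3.mul hq (bd 1 fun a ha => by
    have := cube a ha (h a) (h a) (h a) (q a) (h0 a ha).2.2.1 (h0 a ha).2.2.1 (h0 a ha).2.2.1
      (by have := h0 a ha; omega)
    omega)
  have hhS : TU pre c (fun a => h a * S a) := hh.mul hS (bd 1 fun a ha => by
    have := cube a ha (h a) (S a) 1 1 (h0 a ha).2.2.1 le_rfl (hS1 a ha).1 (hS1 a ha).2
    omega)
  have hSS : TU pre c (fun a => S a * S a) := hS.mul hS (bd 1 fun a ha => by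
    have := cube a ha (S a) (S a) 1 1 le_rfl le_rfl (hS1 a ha).1 (hS1 a ha).2
    omega)
  have hhSS : TU pre c (fun a => h a * (S a * S a)) := hh.mul hSS (bd 1 fun a ha => by
    have := cube a ha (S a) (S a) (h a) 1 le_rfl le_rfl (h0 a ha).2.2.1 (hS1 a ha).2
    rw [mul_comm]
    omega)
  have hS3 : TU pre c (fun a => S a ^ 3) := (hSS.mul hS (bd 1 fun a ha => by
    have := cube a ha (S a) (S a) (S a) 1 le_rfl le_rfl le_rfl (hS1 a ha).2
    omega)).congr fun a _ => by ring
  -- the bits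
  have b0 : TA pre c (fun a => h a * h a * h a * q a) (fun a i => (ofBits (x a)).testBit i) :=
    GArrA.ofL (TC.take hh3q (hx.append (TC.replicate_const false hh3q))) fun a _ =>
      (bitsN_eq_take _ _).symm
  have b1 := b0.rows hq fun a ha => ⟨(h0 a ha).1, Dvd.intro_left _ rfl⟩
  have hc : TC (fun y : (U × U) × GArr Bool => y.1.1.val + y.2.toList.length ≤ y.1.2.val)
      (fun _ => 0) (fun y => Cl.mk y.1.2.val ((2 ^ y.1.1.val * ofBits y.2.toList : ℕ) : LL)) :=
    LD.tc_cell (l := fun y : (U × U) × GArr Bool => y.2.toList)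
      (TC.of_enc TC.id.snd fun _ _ => rfl) (TU.val TC.id.fst.fst) (TU.val TC.id.fst.snd)
      fun _ hy => hy
  have b2 := TA.mapEnv (f := fun (e : U × U) (A : GArr Bool) =>
      Cl.mk e.2.val ((2 ^ e.1.val * ofBits A.toList : ℕ) : LL))
    (env := fun a => (U.mk (f a), U.mk (p a))) b1 hc (hf.tc.pair hp.tc)
    (fun a ha i _ => by
      have := h0 a ha
      simp only [GArr.toList, List.length_map, List.length_range]
      omega)
    (bd 7 fun a ha => by
      have h1 := h0 a ha
      have h2 := cube a ha (h a) (h a) (h a) (p a) h1.2.2.1 h1.2.2.1 h1.2.2.1 le_rfl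
      simp only [Finset.sum_const, Finset.card_range, smul_eq_mul, sz_pair, sz_U,
        Nat.mul_div_cancel _ h1.1]
      calc _ ≤ h a * h a * h a * (7 * p a) := Nat.mul_le_mul_left _ (by omega)
        _ = 7 * (h a * h a * h a * p a) := by ring
        _ ≤ _ := Nat.mul_le_mul_left _ h2)
  have b3 : TL pre c p (fun a => h a * h a * h a)
      (fun a i => ((2 ^ f a * ch (q a) (x a) i : ℕ) : LL)) := by
    refine b2.congr (fun a ha => (Nat.mul_div_cancel _ (h0 a ha).1).symm) fun a _ i _ => ?_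
    have : (GArr.mk (q a) fun j => (ofBits (x a)).testBit (i * q a + j)).toList =
        bitsN (q a) (ofBits (x a) / 2 ^ (i * q a)) := by
      simp only [GArr.toList, bitsN]
      refine List.map_congr_left fun j _ => ?_
      rw [Nat.testBit_div_two_pow, add_comm]
    simp only [this, ofBits_bitsN, ch, ofBits_take, ofBits_drop]
  have hz := tc_cl_zero hp
  have szb : ∀ a, pre a → ∀ u v w : ℕ, u ≤ S a → v ≤ S a → w ≤ S a →
      u * v * w * sz (Cl.mk (p a) 0) ≤ 11 * (S a ^ 3 * p a) := by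
    intro a ha u v w hu hv hw
    have h1 := sz_cl_le (p a) 0
    have h2 := (hS1 a ha).2
    calc u * v * w * sz (Cl.mk (p a) 0) ≤ u * v * w * (11 * p a) :=
          Nat.mul_le_mul_left _ (by omega)
      _ = 11 * (u * v * w * p a) := by ring
      _ ≤ _ := Nat.mul_le_mul_left _ (cube a ha u v w _ hu hv hw le_rfl)
  have e1 : ∀ a, pre a → h a * h a * h a / h a * S a = h a * (h a * S a) := fun a ha => by
    rw [Nat.mul_div_cancel _ (h0 a ha).2.1, mul_assoc]
  have r1 := (b3.resize hh hS hz (fun a ha => ⟨(h0 a ha).2.1, Dvd.intro_left _ rfl⟩)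
    (bd 11 fun a ha => by
      rw [e1 a ha, ← mul_assoc]
      exact szb a ha _ _ _ (h0 a ha).2.2.1 (h0 a ha).2.2.1 le_rfl)).congr
    (N := fun a => h a * (h a * S a)) (fun a ha => (e1 a ha).symm) fun _ _ _ _ => rfl
  have p2 : ∀ a, pre a → 0 < h a * S a := fun a ha => Nat.mul_pos (h0 a ha).2.1 (hS1 a ha).1
  have e2 : ∀ a, pre a → h a * (h a * S a) / (h a * S a) * (S a * S a) = h a * (S a * S a) :=
    fun a ha => by rw [Nat.mul_div_cancel _ (p2 a ha)]
  have r2 := (r1.resize hhS hSS hz (fun a ha => ⟨p2 a ha, Dvd.intro_left _ rfl⟩)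
    (bd 11 fun a ha => by
      rw [e2 a ha, ← mul_assoc]
      exact szb a ha _ _ _ (h0 a ha).2.2.1 le_rfl le_rfl)).congr
    (N := fun a => h a * (S a * S a)) (fun a ha => (e2 a ha).symm) fun _ _ _ _ => rfl
  have p3 : ∀ a, pre a → 0 < h a * (S a * S a) := fun a ha =>
    Nat.mul_pos (h0 a ha).2.1 (Nat.mul_pos (hS1 a ha).1 (hS1 a ha).1)
  have e3 : ∀ a, pre a → h a * (S a * S a) / (h a * (S a * S a)) * S a ^ 3 = S a ^ 3 :=
    fun a ha => by rw [Nat.div_self (p3 a ha), one_mul]
  have r3 := r2.resize hhSS hS3 hz (fun a ha => ⟨p3 a ha, dvd_rfl⟩)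
    (bd 11 fun a ha => by
      rw [e3 a ha, show S a ^ 3 = S a * S a * S a by ring]
      have := szb a ha _ _ _ le_rfl le_rfl le_rfl
      rwa [show S a ^ 3 = S a * S a * S a by ring] at this)
  refine r3.congr (fun a ha => (e3 a ha).symm) fun a ha i hi => ?_
  rw [Nat.mod_eq_of_lt hi, Nat.div_eq_of_lt hi, zero_mul, zero_add]
  obtain ⟨z, y, w, hz, hy, hw, rfl⟩ := LD.cube hi
  obtain ⟨d1, d2, d3⟩ := ConvA.digs hz hy hw
  have hyw : y * S a + w < S a * S a := (LD.lt_iff hw).2 hy
  have k1 := LD.divmod (a := z) hyw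
  have k2 := LD.divmod (a := z * h a + y) hw
  have k3 : z * (h a * S a) + (y * S a + w) = (z * h a + y) * S a + w := by ring
  have k4 : (z * h a + y) * h a + w = z * (h a * h a) + y * h a + w := by ring
  simp only [ld]
  rw [d1, d2, d3, add_assoc (z * (S a * S a)), k1.1, k1.2, k3, k2.1, k2.2, k4]
  simp only [LD.lt_iff hyw, LD.lt_iff hw]
  by_cases c1 : z < h a <;> by_cases c2 : y < h a <;> by_cases c3 : w < h a <;>
    simp [c1, c2, c3]

theorem TA.unload {v : α → ℕ → LL} {z : α → ℕ → ℕ} (hv : TL pre c p N v) (hf : TU pre c f)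
    (hp : TU pre c p)
    (h0 : ∀ a, pre a → Rep (f a) (β a) (v a) (fun i => (z a i : ℂ)) ∧ β a + 2 ≤ f a ∧
      f a + β a + 3 ≤ p a) :
    TA pre c N (fun a i => bitsN (p a - f a) (z a i)) := by
  have h1 : TC pre c (fun a => Cl.mk (p a) (2 ^ (f a - 1))) := by
    refine (LD.tc_cell (l := fun _ => [true]) (TC.const _) (hf.sub (TU.const 1)) hp
      fun a ha => ?_).congr fun a _ => ?_
    · have := h0 a ha
      simp only [List.length_cons, List.length_nil]
      omega
    · simp
  have h2 : TL pre c p N (fun a _ => 2 ^ (f a - 1)) := by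
    refine TA.const hv.len h1 ((hv.bd.const_mul 8).mono fun a _ => ?_)
    have := sz_cl_le (p a) (2 ^ (f a - 1))
    calc _ ≤ N a * (8 * (p a + 1)) := Nat.mul_le_mul_left _ (by omega)
      _ = _ := by ring
  have h3 : TC (fun _ : U × Cl => True) (fun _ => 0)
      (fun y => (zb y.2.p y.2.x.re).drop y.1.val) :=
    TC.drop (TU.val TC.id.fst) (CellA.re TC.id.snd)
  have h4 := TA.mapEnv (f := fun (e : U) (y : Cl) => (zb y.p y.x.re).drop e.val)
    (env := fun a => U.mk (f a)) (hv.add h2) h3 hf.tc (fun _ _ _ _ => trivial)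
    ((hv.bd.const_mul 2).mono fun a ha => by
      have := h0 a ha
      simp only [Finset.sum_const, Finset.card_range, smul_eq_mul, sz_U]
      calc _ ≤ N a * (2 * (p a + 1)) := Nat.mul_le_mul_left _ (by omega)
        _ = _ := by ring)
  refine h4.congr (fun _ _ => rfl) fun a ha i _ => ?_
  obtain ⟨k1, k2, k3⟩ := h0 a ha
  have k4 := (k1.round k2 k3 i).2
  rw [← bitsN_ofBits (List.drop _ _), List.length_drop, ofBits_drop, zb, length_bitsN,
    ofBits_bitsN, Nat.mod_eq_of_lt ((ZMod.val_lt _).trans_le (CellA.md_le _)), k4]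

/-- addition of bit lists -/
noncomputable def LD.addB : List Bool → List Bool → List Bool := exists_addB.choose

/-- one step of the overlap-add -/
noncomputable def LD.step (y : List Bool × U × List Bool) : List Bool × U × List Bool :=
  ((LD.addB y.2.2 y.1 ++ List.replicate y.2.1.val false).take y.2.1.val, y.2.1,
    (LD.addB y.2.2 y.1).drop y.2.1.val)

/-- overlap-add -/
noncomputable def LD.ovl (sh : ℕ) (l : List (List Bool)) : List Bool :=
  (mapAcc LD.step l (U.mk sh, [])).1.flatten ++ (mapAcc LD.step l (U.mk sh, [])).2.2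

theorem LD.lin_step : Lin LD.step := by
  have h1 : Lin (fun y : List Bool × U × List Bool => LD.addB y.2.2 y.1) :=
    TC.comp (f := fun x : List Bool × List Bool => LD.addB x.1 x.2) exists_addB.choose_spec.1
      (TC.id.snd.snd.pair TC.id.fst)
  have h2 : TU (fun _ : List Bool × U × List Bool => True) (fun _ => 0) (fun y => y.2.1.val) :=
    TU.val TC.id.snd.fst
  exact TC.pair (TC.take h2 (h1.append (TC.replicate_const false h2)))
    (TC.pair TC.id.snd.fst (TC.drop h2 h1))

theorem LD.len_step {sh ℓ : ℕ} (hsh : 0 < sh) {w t : List Bool} (hw : w.length ≤ ℓ)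
    (ht : t.length ≤ ℓ) : ((LD.addB t w).drop sh).length ≤ ℓ := by
  rw [List.length_drop, LD.addB, (exists_addB.choose_spec.2 t w).2]
  omega

theorem LD.tc_ovl {sh ℓ : α → ℕ} {l : α → List (List Bool)} (hsh : TU pre c sh) (hl : TC pre c l)
    (h0 : ∀ a, pre a → 0 < sh a ∧ ∀ w ∈ l a, w.length ≤ ℓ a)
    (hb : Bd pre c (fun a => (l a).length * (ℓ a + sh a))) :
    TC pre c (fun a => LD.ovl (sh a) (l a)) := by
  have h1 := TC.mapAcc LD.lin_step hl (hsh.tc.pair (TC.const ([] : List Bool)))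
    (fun a t => t.1 = U.mk (sh a) ∧ t.2.length ≤ ℓ a) (fun a _ => 5 * (ℓ a + sh a))
    (fun a _ => ⟨rfl, Nat.zero_le _⟩)
    (fun a ha b hb t ht => by
      obtain ⟨u, t⟩ := t
      obtain ⟨h1, h2⟩ := ht
      simp only at h1 h2
      subst h1
      refine ⟨trivial, ⟨rfl, LD.len_step (h0 a ha).1 ((h0 a ha).2 b hb) h2⟩, ?_⟩
      have h3 := sz_bits_le t
      have h4 := (h0 a ha).1
      simp only [sz_pair, sz_U]
      omega)
    ((hb.const_mul 5).mono fun a _ => by
      simp only [List.map_const', List.sum_replicate, smul_eq_mul]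
      exact le_of_eq (by ring))
  exact h1.fst.flatten.append h1.snd.snd

theorem LD.ovl_aux {sh ℓ : ℕ} (hsh : 0 < sh) (l : List (List Bool)) (hl : ∀ w ∈ l, w.length ≤ ℓ) :
    ∀ t : List Bool, t.length ≤ ℓ →
      ofBits ((mapAcc LD.step l (U.mk sh, t)).1.flatten ++ (mapAcc LD.step l (U.mk sh, t)).2.2) =
        ofBits t + ∑ j ∈ Finset.range l.length, ofBits (l.getD j []) * (2 ^ sh) ^ j ∧
      ((mapAcc LD.step l (U.mk sh, t)).1.flatten ++ (mapAcc LD.step l (U.mk sh, t)).2.2).length ≤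
        l.length * sh + ℓ := by
  induction l with
  | nil => intro t ht; simpa [mapAcc] using ht
  | cons w l ih =>
    intro t ht
    obtain ⟨h1, h2⟩ := ih (fun w hw => hl w (List.mem_cons_of_mem _ hw)) _
      (LD.len_step hsh (hl w List.mem_cons_self) ht)
    have e : ∀ t', mapAcc LD.step (w :: l) (U.mk sh, t') =
        (bitsN sh (ofBits (LD.addB t' w)) ::
          (mapAcc LD.step l (U.mk sh, (LD.addB t' w).drop sh)).1,
          (mapAcc LD.step l (U.mk sh, (LD.addB t' w).drop sh)).2) := by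
      intro t'
      rw [bitsN_eq_take]
      rfl
    rw [e, List.flatten_cons, List.append_assoc, ofBits_append, List.length_append, h1,
      length_bitsN, ofBits_bitsN, ofBits_drop, List.length_cons, Finset.sum_range_succ']
    refine ⟨?_, by rw [add_mul]; dsimp only; omega⟩
    have h3 : ofBits (LD.addB t w) = ofBits t + ofBits w := (exists_addB.choose_spec.2 t w).1
    have h4 := Nat.mod_add_div (ofBits (LD.addB t w)) (2 ^ sh)
    simp only [List.getD_cons_succ, List.getD_cons_zero, pow_zero, mul_one]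
    rw [mul_add, ← add_assoc, h4, h3, Finset.mul_sum, add_assoc, add_comm (ofBits w)]
    congr 2
    exact Finset.sum_congr rfl fun j _ => by ring

theorem LD.ovl_spec (sh ℓ : ℕ) (l : List (List Bool)) (hsh : 0 < sh)
    (hl : ∀ w ∈ l, w.length ≤ ℓ) :
    ofBits (LD.ovl sh l) = ∑ j ∈ Finset.range l.length, ofBits (l.getD j []) * (2 ^ sh) ^ j ∧
      (LD.ovl sh l).length ≤ l.length * sh + ℓ := by
  simpa [LD.ovl] using LD.ovl_aux hsh l hl [] (Nat.zero_le _)

/-- overlap-add: `Σ_j value (l_j) 2^(sh j)`; `ℓ` is a ghost bound for the word lengths -/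
theorem exists_ovl : ∃ ovl : ℕ → List (List Bool) → List Bool,
    (∀ {γ : Type} [Enc γ] {pre : γ → Prop} {c sh ℓ : γ → ℕ} {l : γ → List (List Bool)},
      TU pre c sh → TC pre c l → (∀ a, pre a → 0 < sh a ∧ ∀ w ∈ l a, w.length ≤ ℓ a) →
      Bd pre c (fun a => (l a).length * (ℓ a + sh a)) → TC pre c (fun a => ovl (sh a) (l a))) ∧
    ∀ sh ℓ l, 0 < sh → (∀ w ∈ l, w.length ≤ ℓ) →
      ofBits (ovl sh l) = ∑ j ∈ Finset.range l.length, ofBits (l.getD j []) * (2 ^ sh) ^ j ∧
      (ovl sh l).length ≤ l.length * sh + ℓ := by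
  exact ⟨LD.ovl, fun hsh hl h0 hb => LD.tc_ovl hsh hl h0 hb, LD.ovl_spec⟩

theorem LD.ovl_range {sh ℓ : ℕ} (d : ℕ) (w : ℕ → List Bool) (hsh : 0 < sh)
    (hw : ∀ j < d, (w j).length ≤ ℓ) :
    ofBits (LD.ovl sh ((List.range d).map w)) =
        ∑ j ∈ Finset.range d, ofBits (w j) * (2 ^ sh) ^ j ∧
      (LD.ovl sh ((List.range d).map w)).length ≤ d * sh + ℓ := by
  have h := LD.ovl_spec sh ℓ ((List.range d).map w) hsh (by
    intro u hu
    obtain ⟨j, hj, rfl⟩ := List.mem_map.1 hu
    exact hw j (List.mem_range.1 hj))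
  rw [List.length_map, List.length_range] at h
  refine ⟨h.1.trans (Finset.sum_congr rfl fun j hj => ?_), h.2⟩
  rw [List.getD_eq_getElem _ _ (by simpa using hj)]
  simp

/-- a shift together with a ghost bound -/
structure LD.Env where
  sh : ℕ
  ℓ : ℕ

instance : Enc LD.Env := ⟨fun e => enc (U.mk e.sh)⟩

theorem LD.ovlRows {d sh ℓ : α → ℕ} {w : α → ℕ → List Bool} (hw : TA pre c N w) (hd : TU pre c d)
    (hsh : TU pre c sh)
    (h0 : ∀ a, pre a → 0 < d a ∧ d a ∣ N a ∧ 0 < sh a ∧ ∀ i < N a, (w a i).length ≤ ℓ a)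
    (hb : Bd pre c (fun a => N a * (ℓ a + sh a))) :
    TA pre c (fun a => N a / d a)
      (fun a i => LD.ovl (sh a) ((List.range (d a)).map fun j => w a (i * d a + j))) := by
  have h1 : TC (fun y : LD.Env × GArr (List Bool) => 0 < y.1.sh ∧ ∀ u ∈ y.2.toList, u.length ≤ y.1.ℓ)
      (fun y => y.2.toList.length * (y.1.ℓ + y.1.sh)) (fun y => LD.ovl y.1.sh y.2.toList) :=
    LD.tc_ovl (TC.of_enc TC.id.fst fun _ _ => rfl) (TC.of_enc TC.id.snd fun _ _ => rfl)
      (fun _ hy => hy) Bd.self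
  refine TA.mapEnv (f := fun (e : LD.Env) (A : GArr (List Bool)) => LD.ovl e.sh A.toList)
    (env := fun a => ⟨sh a, ℓ a⟩) (hw.rows hd fun a ha => ⟨(h0 a ha).1, (h0 a ha).2.1⟩) h1
    (TC.of_enc hsh.tc fun _ _ => rfl) (fun a ha i hi => ⟨(h0 a ha).2.2.1, fun u hu => ?_⟩)
    ((hb.const_mul 4).mono fun a ha => ?_)
  · obtain ⟨j, hj, rfl⟩ := List.mem_map.1 hu
    obtain ⟨k1, ⟨m, k2⟩, -, k4⟩ := h0 a ha
    apply k4
    rw [k2, Nat.mul_div_cancel_left _ k1] at hi
    rw [k2, mul_comm (d a)]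
    exact (LD.lt_iff (List.mem_range.1 hj)).2 hi
  · obtain ⟨k1, ⟨m, k2⟩, k3, -⟩ := h0 a ha
    have e : sz (LD.Env.mk (sh a) (ℓ a)) = 2 * sh a + 1 := sz_U ⟨sh a⟩
    simp only [GArr.toList, List.length_map, List.length_range, Finset.sum_const,
      Finset.card_range, smul_eq_mul, e]
    rw [k2, Nat.mul_div_cancel_left _ k1]
    have k5 : ℓ a + sh a ≤ d a * (ℓ a + sh a) := Nat.le_mul_of_pos_left _ k1
    calc _ ≤ m * (4 * (d a * (ℓ a + sh a))) := Nat.mul_le_mul_left _ (by omega)
      _ = _ := by ring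

theorem TC.unpack {ℓ : α → ℕ} {z : α → ℕ → ℕ}
    (hz : TA pre c (fun a => S a ^ 3) (fun a i => bitsN (ℓ a) (z a i))) (hS : TU pre c S)
    (hh : TU pre c h) (hq : TU pre c q) (hn : TU pre c n)
    (h0 : ∀ a, pre a → 0 < q a ∧ 0 < h a ∧ h a ≤ S a ∧ ∀ i < S a ^ 3, z a i < 2 ^ ℓ a)
    (hb : Bd pre c (fun a => S a ^ 3 * (ℓ a + q a))) :
    TC pre c (fun a => bitsN (n a) (kron (h a) (S a) (2 ^ q a) (z a))) := by
  have hS1 : ∀ a, pre a → 0 < S a := fun a ha => by
    have := h0 a ha
    omega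
  have bd : ∀ {g : α → ℕ} (k : ℕ), (∀ a, pre a → g a ≤ k * (S a ^ 3 * (ℓ a + q a))) → Bd pre c g :=
    fun k hk => (hb.const_mul k).mono hk
  have cube : ∀ a, pre a → ∀ u v w t : ℕ, u ≤ S a → v ≤ S a → w ≤ S a → t ≤ ℓ a + q a →
      u * v * w * t ≤ S a ^ 3 * (ℓ a + q a) := by
    intro a _ u v w t hu hv hw ht
    calc u * v * w * t ≤ S a * S a * S a * (ℓ a + q a) := by gcongr
      _ = _ := by ring
  have hqh : TU pre c (fun a => q a * h a) := hq.mul hh (bd 1 fun a ha => by
    have := cube a ha 1 1 (h a) (q a) (hS1 a ha) (hS1 a ha) (h0 a ha).2.2.1 (by omega)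
    calc q a * h a = 1 * 1 * h a * q a := by ring
      _ ≤ _ := by omega)
  have hqhh : TU pre c (fun a => q a * h a * h a) := hqh.mul hh (bd 1 fun a ha => by
    have := cube a ha 1 (h a) (h a) (q a) (hS1 a ha) (h0 a ha).2.2.1 (h0 a ha).2.2.1 (by omega)
    calc q a * h a * h a = 1 * h a * h a * q a := by ring
      _ ≤ _ := by omega)
  have e1 : ∀ a, pre a → S a ^ 3 / S a = S a * S a := fun a ha => by
    rw [show S a ^ 3 = S a * S a * S a by ring, Nat.mul_div_cancel _ (hS1 a ha)]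
  have r1 := (LD.ovlRows (ℓ := ℓ) hz hS hq (fun a ha => ⟨hS1 a ha, dvd_pow_self _ (by norm_num),
    (h0 a ha).1, fun i _ => (length_bitsN _ _).le⟩) hb).congr (N := fun a => S a * S a)
    (fun a ha => (e1 a ha).symm) fun _ _ _ _ => rfl
  have s1 := fun a (ha : pre a) (i : ℕ) => LD.ovl_range (ℓ := ℓ a) (S a)
    (fun j => bitsN (ℓ a) (z a (i * S a + j))) (h0 a ha).1 fun j _ => (length_bitsN _ _).le
  have p2 : ∀ a, pre a → 0 < q a * h a := fun a ha => Nat.mul_pos (h0 a ha).1 (h0 a ha).2.1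
  have r2 := (LD.ovlRows (ℓ := fun a => S a * q a + ℓ a) r1 hS hqh
    (fun a ha => ⟨hS1 a ha, Dvd.intro _ rfl, p2 a ha, fun i _ => (s1 a ha i).2⟩)
    (bd 3 fun a ha => by
      have k1 := cube a ha (S a) (S a) (S a) (q a) le_rfl le_rfl le_rfl (by omega)
      have k2 := cube a ha (S a) (S a) 1 (ℓ a) le_rfl le_rfl (hS1 a ha) (by omega)
      have k3 := cube a ha (S a) (S a) (h a) (q a) le_rfl le_rfl (h0 a ha).2.2.1 (by omega)
      calc S a * S a * (S a * q a + ℓ a + q a * h a) =
            S a * S a * S a * q a + S a * S a * 1 * ℓ a + S a * S a * h a * q a := by ring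
        _ ≤ _ := by omega)).congr (N := S)
    (fun a ha => (Nat.mul_div_cancel _ (hS1 a ha)).symm) fun _ _ _ _ => rfl
  have s2 := fun a (ha : pre a) (i : ℕ) => LD.ovl_range (ℓ := S a * q a + ℓ a) (S a)
    (fun j => LD.ovl (q a) ((List.range (S a)).map fun j' =>
      bitsN (ℓ a) (z a ((i * S a + j) * S a + j')))) (p2 a ha) fun j _ => (s1 a ha _).2
  have p3 : ∀ a, pre a → 0 < q a * h a * h a := fun a ha => Nat.mul_pos (p2 a ha) (h0 a ha).2.1
  have r3 := LD.tc_ovl (ℓ := fun a => S a * (q a * h a) + (S a * q a + ℓ a)) hqhh r2.toList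
    (fun a ha => ⟨p3 a ha, fun u hu => by
      obtain ⟨j, -, rfl⟩ := List.mem_map.1 hu
      exact (s2 a ha j).2⟩)
    (bd 4 fun a ha => by
      have k1 := cube a ha (S a) (S a) (h a) (q a) le_rfl le_rfl (h0 a ha).2.2.1 (by omega)
      have k2 := cube a ha (S a) (S a) 1 (q a) le_rfl le_rfl (hS1 a ha) (by omega)
      have k3 := cube a ha (S a) 1 1 (ℓ a) le_rfl (hS1 a ha) (hS1 a ha) (by omega)
      have k4 := cube a ha (S a) (h a) (h a) (q a) le_rfl (h0 a ha).2.2.1 (h0 a ha).2.2.1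
        (by omega)
      rw [List.length_map, List.length_range]
      calc S a * (S a * (q a * h a) + (S a * q a + ℓ a) + q a * h a * h a) =
            S a * S a * h a * q a + S a * S a * 1 * q a + S a * 1 * 1 * ℓ a +
              S a * h a * h a * q a := by ring
        _ ≤ _ := by omega)
  refine (TC.take hn (r3.append (TC.replicate_const false hn))).congr fun a ha => ?_
  rw [← bitsN_eq_take, (LD.ovl_range (S a) _ (p3 a ha) fun j _ => (s2 a ha j).2).1, kron]
  congr 1
  refine Finset.sum_congr rfl fun i hi => ?_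
  rw [(s2 a ha i).1, Finset.sum_mul]
  refine Finset.sum_congr rfl fun j hj => ?_
  rw [(s1 a ha _).1, Finset.sum_mul, Finset.sum_mul]
  refine Finset.sum_congr rfl fun k hk => ?_
  rw [Finset.mem_range] at hi hj hk
  have e : (i * S a + j) * S a + k = i * (S a * S a) + j * S a + k := by ring
  have hlt : (i * S a + j) * S a + k < S a ^ 3 := by
    rw [show S a ^ 3 = S a * S a * S a by ring]
    exact (LD.lt_iff hk).2 ((LD.lt_iff hj).2 hi)
  rw [ofBits_bitsN, Nat.mod_eq_of_lt ((h0 a ha).2.2.2 _ hlt), e]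
  ring

end Crest.Agent.R326
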