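import Crest.Agent.Lib.PT.Code
import Crest.Prelude.Def_TimeBound

/-!
# Row 326, machine layer: a structured stack language with recursion, compiled to `FinTM2`

Six bit stacks `s a b c u w` (`s` main value stack, `a b c` scratch as in `PTime`, `u w` two more
value stacks used with stack discipline), `mu b` runs `b` with `self` bound to `b`.
-/

set_option autoImplicit false
open Turing Function

namespace Crest.Agent.R326

open Crest.Agent.PTime

/-- names of the six working stacks -/
inductive K6 | s | a | b | c | u | w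
  deriving DecidableEq, Fintype

/-- contents of the six working stacks -/
@[ext] structure S6 where
  s : List Bool
  a : List Bool
  b : List Bool
  c : List Bool
  u : List Bool
  w : List Bool

def S6.get (x : S6) : K6 → List Bool
  | .s => x.s | .a => x.a | .b => x.b | .c => x.c | .u => x.u | .w => x.w

def S6.set (x : S6) : K6 → List Bool → S6
  | .s, l => { x with s := l } | .a, l => { x with a := l }
  | .b, l => { x with b := l } | .c, l => { x with c := l }
  | .u, l => { x with u := l } | .w, l => { x with w := l }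

/-- structured programs with recursion -/
inductive Q
  | skip
  | push (k : K6) (x : Bool)
  | seq (p q : Q)
  | case (k : K6) (pn pf pt : Q)
  | loop (k : K6) (pf pt : Q)
  | mu (b : Q)
  | self

/-- big-step semantics with a step count; the first argument is the body `self` refers to -/
inductive Ev : Q → Q → S6 → S6 → ℕ → Prop
  | skip (e : Q) (x : S6) : Ev e .skip x x 1
  | push (e : Q) (k : K6) (b : Bool) (x : S6) : Ev e (.push k b) x (x.set k (b :: x.get k)) 1
  | seq {e p q : Q} {x y z : S6} {m n : ℕ} :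
      Ev e p x y m → Ev e q y z n → Ev e (.seq p q) x z (m + n)
  | caseN {e : Q} {k : K6} {pn pf pt : Q} {x y : S6} {n : ℕ} :
      x.get k = [] → Ev e pn x y n → Ev e (.case k pn pf pt) x y (n + 1)
  | caseF {e : Q} {k : K6} {pn pf pt : Q} {x y : S6} {n : ℕ} {r : List Bool} :
      x.get k = false :: r → Ev e pf (x.set k r) y n → Ev e (.case k pn pf pt) x y (n + 1)
  | caseT {e : Q} {k : K6} {pn pf pt : Q} {x y : S6} {n : ℕ} {r : List Bool} :
      x.get k = true :: r → Ev e pt (x.set k r) y n → Ev e (.case k pn pf pt) x y (n + 1)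
  | loopN {e : Q} {k : K6} {pf pt : Q} {x : S6} : x.get k = [] → Ev e (.loop k pf pt) x x 1
  | loopF {e : Q} {k : K6} {pf pt : Q} {x y z : S6} {m n : ℕ} {r : List Bool} :
      x.get k = false :: r → Ev e pf (x.set k r) y m → Ev e (.loop k pf pt) y z n →
      Ev e (.loop k pf pt) x z (m + n + 1)
  | loopT {e : Q} {k : K6} {pf pt : Q} {x y z : S6} {m n : ℕ} {r : List Bool} :
      x.get k = true :: r → Ev e pt (x.set k r) y m → Ev e (.loop k pf pt) y z n →
      Ev e (.loop k pf pt) x z (m + n + 1)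
  | mu {e b : Q} {x y : S6} {n : ℕ} : Ev b b x y n → Ev e (.mu b) x y (n + 2)
  | self {e : Q} {x y : S6} {n : ℕ} : Ev e e x y n → Ev e .self x y (n + 2)

/-- total length of the stacks -/
def S6.len (x : S6) : ℕ :=
  x.s.length + x.a.length + x.b.length + x.c.length + x.u.length + x.w.length

theorem S6.len_set (x : S6) (k : K6) (l : List Bool) :
    (x.set k l).len + (x.get k).length = x.len + l.length := by
  cases k <;> simp [S6.set, S6.get, S6.len] <;> omega

theorem Ev.len_le {e p : Q} {x y : S6} {n : ℕ} (h : Ev e p x y n) : y.len ≤ x.len + n := by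
  induction h with
  | skip _ x => omega
  | push _ k b x => have := x.len_set k (b :: x.get k); simp at this; omega
  | seq _ _ ih1 ih2 => omega
  | caseN _ _ ih => omega
  | @caseF _ k _ _ _ x _ _ r h _ ih => have := x.len_set k r; rw [h] at this; simp at this; omega
  | @caseT _ k _ _ _ x _ _ r h _ ih => have := x.len_set k r; rw [h] at this; simp at this; omega
  | loopN _ => omega
  | @loopF _ k _ _ x _ _ _ _ r h _ _ ih1 ih2 =>
    have := x.len_set k r; rw [h] at this; simp at this; omega
  | @loopT _ k _ _ x _ _ _ _ r h _ _ ih1 ih2 =>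
    have := x.len_set k r; rw [h] at this; simp at this; omega
  | mu _ ih => omega
  | self _ ih => omega

/-! ## Embedding of the four-stack language -/

def lk : K → K6 | .s => .s | .a => .a | .b => .b | .c => .c

/-- a `PTime` program as a program of the new language -/
def lift : P → Q
  | .skip => .skip
  | .push k x => .push (lk k) x
  | .seq p q => .seq (lift p) (lift q)
  | .case k pn pf pt => .case (lk k) (lift pn) (lift pf) (lift pt)
  | .loop k pf pt => .loop (lk k) (lift pf) (lift pt)

/-- a four-stack state with the two extra stacks -/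
def up (x : St) (u w : List Bool) : S6 := ⟨x.s, x.a, x.b, x.c, u, w⟩

theorem up_get (x : St) (u w : List Bool) (k : K) : (up x u w).get (lk k) = x.get k := by
  cases k <;> rfl

theorem up_set (x : St) (u w : List Bool) (k : K) (l : List Bool) :
    (up x u w).set (lk k) l = up (x.set k l) u w := by cases k <;> rfl

theorem Ev.lift {p : P} {x y : St} {n : ℕ} (h : PTime.Ev p x y n) (e : Q) (u w : List Bool) :
    Ev e (lift p) (up x u w) (up y u w) n := by
  induction h with
  | skip x => exact .skip _ _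
  | push k b x => have := Ev.push e (lk k) b (up x u w); rwa [up_get, up_set] at this
  | seq _ _ ih1 ih2 => exact .seq ih1 ih2
  | caseN h _ ih => exact .caseN (by rwa [up_get]) ih
  | caseF h _ ih => exact .caseF (by rw [up_get]; exact h) (by rwa [up_set])
  | caseT h _ ih => exact .caseT (by rw [up_get]; exact h) (by rwa [up_set])
  | loopN h => exact .loopN (by rwa [up_get])
  | loopF h _ _ ih1 ih2 => exact .loopF (by rw [up_get]; exact h) (by rwa [up_set]) ih2
  | loopT h _ _ ih1 ih2 => exact .loopT (by rw [up_get]; exact h) (by rwa [up_set]) ih2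

/-! ## Compilation -/

/-- labels of a compiled program -/
def Lab : Q → Type
  | .skip => Unit
  | .push _ _ => Unit
  | .seq p q => Lab p ⊕ Lab q
  | .case _ pn pf pt => Unit ⊕ Lab pn ⊕ Lab pf ⊕ Lab pt
  | .loop _ pf pt => Unit ⊕ Lab pf ⊕ Lab pt
  | .mu b => Unit ⊕ Lab b
  | .self => Unit

@[reducible] def labFin : (p : Q) → Fintype (Lab p)
  | .skip => inferInstanceAs (Fintype Unit)
  | .push _ _ => inferInstanceAs (Fintype Unit)
  | .seq p q => @instFintypeSum _ _ (labFin p) (labFin q)
  | .case _ pn pf pt => @instFintypeSum _ _ inferInstance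
      (@instFintypeSum _ _ (labFin pn) (@instFintypeSum _ _ (labFin pf) (labFin pt)))
  | .loop _ pf pt => @instFintypeSum _ _ inferInstance (@instFintypeSum _ _ (labFin pf) (labFin pt))
  | .mu b => @instFintypeSum _ _ inferInstance (labFin b)
  | .self => inferInstanceAs (Fintype Unit)

def entry : (p : Q) → Lab p
  | .skip => ()
  | .push _ _ => ()
  | .seq p _ => Sum.inl (entry p)
  | .case _ _ _ _ => Sum.inl ()
  | .loop _ _ _ => Sum.inl ()
  | .mu _ => Sum.inl ()
  | .self => ()

section
variable (Γ₀ Λ : Type)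

/-- stack alphabets: input stack, call stack, working stacks -/
def Gam : Option (Option K6) → Type
  | none => Γ₀
  | some none => Λ
  | some (some _) => Bool

/-- internal states -/
abbrev Sig : Type := Option Bool × Option Γ₀ × Option Λ

variable {Γ₀ Λ}

def popBr (k : K6) (ln lf lt : Λ) : TM2.Stmt (Gam Γ₀ Λ) Λ (Sig Γ₀ Λ) :=
  TM2.Stmt.pop (some (some k)) (fun v (o : Option Bool) => (o, v.2))
    (TM2.Stmt.goto fun v => match v.1 with | none => ln | some false => lf | some true => lt)

def call (ex l : Λ) : TM2.Stmt (Gam Γ₀ Λ) Λ (Sig Γ₀ Λ) :=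
  TM2.Stmt.push (some none) (fun _ => (ex : Λ)) (TM2.Stmt.goto fun _ => l)

def retS (d : Λ) : TM2.Stmt (Gam Γ₀ Λ) Λ (Sig Γ₀ Λ) :=
  TM2.Stmt.pop (some none) (fun v (o : Option Λ) => (v.1, v.2.1, o))
    (TM2.Stmt.goto fun v => v.2.2.getD d)

def tr (ret : Λ) : (p : Q) → (Lab p → Λ) → Λ → Λ → Lab p → TM2.Stmt (Gam Γ₀ Λ) Λ (Sig Γ₀ Λ)
  | .skip, _, x, _, _ => TM2.Stmt.goto fun _ => x
  | .push k b, _, x, _, _ =>
      TM2.Stmt.push (some (some k)) (fun _ => (b : Bool)) (TM2.Stmt.goto fun _ => x)
  | .seq p q, e, _, en, Sum.inl l => tr ret p (fun l => e (Sum.inl l)) (e (Sum.inr (entry q))) en l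
  | .seq _ q, e, x, en, Sum.inr l => tr ret q (fun l => e (Sum.inr l)) x en l
  | .case k pn pf pt, e, _, _, Sum.inl _ =>
      popBr k (e (Sum.inr (Sum.inl (entry pn)))) (e (Sum.inr (Sum.inr (Sum.inl (entry pf)))))
        (e (Sum.inr (Sum.inr (Sum.inr (entry pt)))))
  | .case _ pn _ _, e, x, en, Sum.inr (Sum.inl l) =>
      tr ret pn (fun l => e (Sum.inr (Sum.inl l))) x en l
  | .case _ _ pf _, e, x, en, Sum.inr (Sum.inr (Sum.inl l)) =>
      tr ret pf (fun l => e (Sum.inr (Sum.inr (Sum.inl l)))) x en l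
  | .case _ _ _ pt, e, x, en, Sum.inr (Sum.inr (Sum.inr l)) =>
      tr ret pt (fun l => e (Sum.inr (Sum.inr (Sum.inr l)))) x en l
  | .loop k pf pt, e, x, _, Sum.inl _ =>
      popBr k x (e (Sum.inr (Sum.inl (entry pf)))) (e (Sum.inr (Sum.inr (entry pt))))
  | .loop _ pf _, e, _, en, Sum.inr (Sum.inl l) =>
      tr ret pf (fun l => e (Sum.inr (Sum.inl l))) (e (Sum.inl ())) en l
  | .loop _ _ pt, e, _, en, Sum.inr (Sum.inr l) =>
      tr ret pt (fun l => e (Sum.inr (Sum.inr l))) (e (Sum.inl ())) en l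
  | .mu b, e, x, _, Sum.inl _ => call x (e (Sum.inr (entry b)))
  | .mu b, e, _, _, Sum.inr l => tr ret b (fun l => e (Sum.inr l)) ret (e (Sum.inr (entry b))) l
  | .self, _, x, en, _ => call x en

/-- the machine stacks -/
def stk (i : List Γ₀) (cs : List Λ) (x : S6) : (k : Option (Option K6)) → List (Gam Γ₀ Λ k)
  | none => i
  | some none => cs
  | some (some k) => x.get k

theorem stk_update (i : List Γ₀) (cs : List Λ) (x : S6) (k : K6) (l : List Bool) :
    Function.update (stk i cs x) (some (some k)) l = stk i cs (x.set k l) := by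
  funext k'
  rcases k' with _ | _ | k'
  · simp [stk]
  · simp [stk]
  · by_cases h : k' = k
    · subst h; rw [Function.update_self]; cases k' <;> rfl
    · rw [Function.update_of_ne (by simpa using h)]
      cases k <;> cases k' <;> first | rfl | exact absurd rfl h

theorem stk_update_none (i j : List Γ₀) (cs : List Λ) (x : S6) :
    Function.update (stk i cs x) none j = stk j cs x := by
  funext k'
  rcases k' with _ | _ | k'
  · simp [stk]
  · rw [Function.update_of_ne (by simp)]; rfl
  · rw [Function.update_of_ne (by simp)]; rfl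

theorem stk_update_cs (i : List Γ₀) (cs cs' : List Λ) (x : S6) :
    Function.update (stk i cs x) (some none) cs' = stk i cs' x := by
  funext k'
  rcases k' with _ | _ | k'
  · rw [Function.update_of_ne (by simp)]; rfl
  · simp [stk]
  · rw [Function.update_of_ne (by simp)]; rfl

theorem S6.set_get (x : S6) (k : K6) : x.set k (x.get k) = x := by cases k <;> rfl

def Steps (M : Λ → TM2.Stmt (Gam Γ₀ Λ) Λ (Sig Γ₀ Λ)) (n : ℕ)
    (c c' : TM2.Cfg (Gam Γ₀ Λ) Λ (Sig Γ₀ Λ)) : Prop :=
  (flip bind (TM2.step M))^[n] (some c) = some c'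

theorem Steps.trans {M : Λ → TM2.Stmt (Gam Γ₀ Λ) Λ (Sig Γ₀ Λ)} {m n : ℕ} {c c' c''}
    (h : Steps M m c c') (h' : Steps M n c' c'') : Steps M (m + n) c c'' := by
  unfold Steps at *
  rw [add_comm, Function.iterate_add_apply, h, h']

theorem Steps.one {M : Λ → TM2.Stmt (Gam Γ₀ Λ) Λ (Sig Γ₀ Λ)} {l v S c'}
    (h : TM2.stepAux (M l) v S = c') : Steps M 1 ⟨some l, v, S⟩ c' := by
  unfold Steps; subst h; rfl

theorem popBr_step (k : K6) (ln lf lt : Λ) (v : Sig Γ₀ Λ) (i : List Γ₀) (cs : List Λ) (x : S6) :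
    TM2.stepAux (popBr k ln lf lt) v (stk i cs x) =
      ⟨some (match (x.get k).head? with | none => ln | some false => lf | some true => lt),
        ((x.get k).head?, v.2), stk i cs (x.set k (x.get k).tail)⟩ := by
  unfold popBr
  rw [TM2.stepAux, TM2.stepAux, ← stk_update]
  rfl

theorem call_step (ex l : Λ) (v : Sig Γ₀ Λ) (i : List Γ₀) (cs : List Λ) (x : S6) :
    TM2.stepAux (call ex l) v (stk i cs x) = ⟨some l, v, stk i (ex :: cs) x⟩ := by
  unfold call
  rw [TM2.stepAux, TM2.stepAux, ← stk_update_cs i cs (ex :: cs)]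
  rfl

theorem ret_step (d ex : Λ) (v : Sig Γ₀ Λ) (i : List Γ₀) (cs : List Λ) (x : S6) :
    TM2.stepAux (retS d) v (stk i (ex :: cs) x) = ⟨some ex, (v.1, v.2.1, some ex), stk i cs x⟩ := by
  unfold retS
  rw [TM2.stepAux, TM2.stepAux, ← stk_update_cs i (ex :: cs) cs]
  rfl

theorem Ev.sim {e p : Q} {x y : S6} {n : ℕ} (h : Ev e p x y n)
    (M : Λ → TM2.Stmt (Gam Γ₀ Λ) Λ (Sig Γ₀ Λ)) (ret d : Λ) (hret : M ret = retS d) :
    ∀ (eE : Lab e → Λ), (∀ l, M (eE l) = tr ret e eE ret (eE (entry e)) l) →
      ∀ (em : Lab p → Λ) (ex : Λ), (∀ l, M (em l) = tr ret p em ex (eE (entry e)) l) →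
      ∀ (cs : List Λ) (v : Sig Γ₀ Λ), ∃ v' : Sig Γ₀ Λ,
        Steps M n ⟨some (em (entry p)), v, stk [] cs x⟩ ⟨some ex, v', stk [] cs y⟩ := by
  induction h with
  | skip _ x =>
    intro eE hE e ex hM cs v
    exact ⟨v, Steps.one (by rw [hM]; rfl)⟩
  | push _ k b x =>
    intro eE hE e ex hM cs v
    refine ⟨v, Steps.one ?_⟩
    rw [hM, ← stk_update]; rfl
  | seq _ _ ih1 ih2 =>
    intro eE hE e ex hM cs v
    obtain ⟨v1, h1⟩ := ih1 eE hE (fun l => e (Sum.inl l)) _ (fun l => hM (Sum.inl l)) cs v
    obtain ⟨v2, h2⟩ := ih2 eE hE (fun l => e (Sum.inr l)) ex (fun l => hM (Sum.inr l)) cs v1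
    exact ⟨v2, h1.trans h2⟩
  | @caseN _ k pn pf pt x y n hk _ ih =>
    intro eE hE e ex hM cs v
    obtain ⟨v2, h2⟩ := ih eE hE (fun l => e (Sum.inr (Sum.inl l))) ex
      (fun l => hM (Sum.inr (Sum.inl l))) cs (none, v.2)
    refine ⟨v2, ?_⟩
    rw [add_comm]
    refine Steps.trans (Steps.one ?_) h2
    rw [hM]; refine (popBr_step _ _ _ _ _ _ _ _).trans ?_
    have : x.set k [] = x := by rw [← hk, S6.set_get]
    rw [hk]; simp [this]
  | @caseF _ k pn pf pt x y n r hk _ ih =>
    intro eE hE e ex hM cs v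
    obtain ⟨v2, h2⟩ := ih eE hE (fun l => e (Sum.inr (Sum.inr (Sum.inl l)))) ex
      (fun l => hM (Sum.inr (Sum.inr (Sum.inl l)))) cs (some false, v.2)
    refine ⟨v2, ?_⟩
    rw [add_comm]
    refine Steps.trans (Steps.one ?_) h2
    rw [hM]; refine (popBr_step _ _ _ _ _ _ _ _).trans ?_
    rw [hk]; rfl
  | @caseT _ k pn pf pt x y n r hk _ ih =>
    intro eE hE e ex hM cs v
    obtain ⟨v2, h2⟩ := ih eE hE (fun l => e (Sum.inr (Sum.inr (Sum.inr l)))) ex
      (fun l => hM (Sum.inr (Sum.inr (Sum.inr l)))) cs (some true, v.2)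
    refine ⟨v2, ?_⟩
    rw [add_comm]
    refine Steps.trans (Steps.one ?_) h2
    rw [hM]; refine (popBr_step _ _ _ _ _ _ _ _).trans ?_
    rw [hk]; rfl
  | @loopN _ k pf pt x hk =>
    intro eE hE e ex hM cs v
    refine ⟨(none, v.2), Steps.one ?_⟩
    rw [hM]; refine (popBr_step _ _ _ _ _ _ _ _).trans ?_
    have : x.set k [] = x := by rw [← hk, S6.set_get]
    rw [hk]; simp [this]
  | @loopF _ k pf pt x y z m n r hk _ _ ih1 ih2 =>
    intro eE hE e ex hM cs v
    obtain ⟨v1, h1⟩ := ih1 eE hE (fun l => e (Sum.inr (Sum.inl l))) _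
      (fun l => hM (Sum.inr (Sum.inl l))) cs (some false, v.2)
    obtain ⟨v2, h2⟩ := ih2 eE hE e ex hM cs v1
    refine ⟨v2, ?_⟩
    rw [add_comm]
    refine Steps.trans (Steps.one ?_) (h1.trans h2)
    rw [hM]; refine (popBr_step _ _ _ _ _ _ _ _).trans ?_
    rw [hk]; rfl
  | @loopT _ k pf pt x y z m n r hk _ _ ih1 ih2 =>
    intro eE hE e ex hM cs v
    obtain ⟨v1, h1⟩ := ih1 eE hE (fun l => e (Sum.inr (Sum.inr l))) _
      (fun l => hM (Sum.inr (Sum.inr l))) cs (some true, v.2)
    obtain ⟨v2, h2⟩ := ih2 eE hE e ex hM cs v1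
    refine ⟨v2, ?_⟩
    rw [add_comm]
    refine Steps.trans (Steps.one ?_) (h1.trans h2)
    rw [hM]; refine (popBr_step _ _ _ _ _ _ _ _).trans ?_
    rw [hk]; rfl
  | @mu _ b x y n _ ih =>
    intro eE hE e ex hM cs v
    obtain ⟨v1, h1⟩ := ih (fun l => e (Sum.inr l)) (fun l => hM (Sum.inr l))
      (fun l => e (Sum.inr l)) ret (fun l => hM (Sum.inr l)) (ex :: cs) v
    refine ⟨(v1.1, v1.2.1, some ex), ?_⟩
    rw [show n + 2 = 1 + n + 1 by omega]
    refine (Steps.trans (Steps.one ?_) h1).trans (Steps.one ?_)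
    · rw [hM]; exact call_step _ _ _ _ _ _
    · rw [hret]; exact ret_step _ _ _ _ _ _
  | @self e0 x y n _ ih =>
    intro eE hE e ex hM cs v
    obtain ⟨v1, h1⟩ := ih eE hE eE ret hE (ex :: cs) v
    refine ⟨(v1.1, v1.2.1, some ex), ?_⟩
    rw [show n + 2 = 1 + n + 1 by omega]
    refine (Steps.trans (Steps.one ?_) h1).trans (Steps.one ?_)
    · rw [hM]; exact call_step _ _ _ _ _ _
    · rw [hret]; exact ret_step _ _ _ _ _ _

/-- push the first `w` code bits of the symbol in the state on stack `a` -/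
def pushCode (code : Γ₀ → List Bool) (q : TM2.Stmt (Gam Γ₀ Λ) Λ (Sig Γ₀ Λ)) :
    ℕ → ℕ → TM2.Stmt (Gam Γ₀ Λ) Λ (Sig Γ₀ Λ)
  | _, 0 => q
  | j, w + 1 => TM2.Stmt.push (some (some K6.a))
      (fun v => ((v.2.1.elim [] code).getD j false : Bool)) (pushCode code q (j + 1) w)

theorem pushCode_step (code : Γ₀ → List Bool) (q : TM2.Stmt (Gam Γ₀ Λ) Λ (Sig Γ₀ Λ))
    (o : Option Bool) (o' : Option Λ) (g : Γ₀) (i : List Γ₀) (w : ℕ) : ∀ (j : ℕ) (l : List Bool),
    j + w = (code g).length →
    TM2.stepAux (pushCode code q j w) (o, some g, o') (stk i [] ⟨[], l, [], [], [], []⟩) =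
      TM2.stepAux q (o, some g, o')
        (stk i [] ⟨[], ((code g).drop j).reverse ++ l, [], [], [], []⟩) := by
  induction w with
  | zero =>
    intro j l h
    rw [List.drop_eq_nil_of_le (by omega)]; rfl
  | succ w ih =>
    intro j l h
    rw [pushCode, TM2.stepAux]
    have h1 : j < (code g).length := by omega
    have := stk_update i ([] : List Λ) ⟨[], l, [], [], [], []⟩ K6.a ((code g).getD j false :: l)
    refine Eq.trans (congrArg (TM2.stepAux _ _) this) ?_
    have h2 := ih (j + 1) ((code g).getD j false :: l) (by omega)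
    refine Eq.trans h2 ?_
    rw [List.drop_eq_getElem_cons h1, List.reverse_cons, List.append_assoc,
      List.getD_eq_getElem _ _ h1]
    rfl

variable [Fintype Γ₀]

/-- the machine for program `p` with input code `code` of width `w`; labels `(false,false)` read
the input, `(false,true)` halt, `(true,false)` return, `(true,true)` the empty environment -/
def mach (code : Γ₀ → List Bool) (w : ℕ) (p : Q) : FinTM2 where
  K := Option (Option K6)
  k₀ := none
  k₁ := some (some K6.s)
  Γ := Gam Γ₀ ((Bool × Bool) ⊕ Lab p)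
  Λ := (Bool × Bool) ⊕ Lab p
  main := Sum.inl (false, false)
  ΛFin := @instFintypeSum _ _ inferInstance (labFin p)
  σ := Sig Γ₀ ((Bool × Bool) ⊕ Lab p)
  σFin := by
    letI : Fintype (Lab p) := labFin p
    infer_instance
  initialState := (none, none, none)
  Γk₀Fin := inferInstanceAs (Fintype Γ₀)
  m := fun l => match l with
    | Sum.inl (false, false) => TM2.Stmt.pop none (fun v (o : Option Γ₀) => (v.1, o, v.2.2))
        (TM2.Stmt.branch (fun v => v.2.1.isSome)
          (pushCode code (TM2.Stmt.goto fun _ => Sum.inl (false, false)) 0 w)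
          (TM2.Stmt.goto fun _ => Sum.inr (entry p)))
    | Sum.inl (false, true) => TM2.Stmt.load (fun _ => (none, none, none)) TM2.Stmt.halt
    | Sum.inl (true, false) => retS (Sum.inl (false, true))
    | Sum.inl (true, true) => TM2.Stmt.goto fun _ => Sum.inl (true, false)
    | Sum.inr l => tr (Sum.inl (true, false)) p Sum.inr (Sum.inl (false, true))
        (Sum.inl (true, true)) l

theorem mach_prologue (code : Γ₀ → List Bool) (w : ℕ) (hw : ∀ g, (code g).length = w) (p : Q)
    (i : List Γ₀) : ∀ (l : List Bool) (v : Sig Γ₀ ((Bool × Bool) ⊕ Lab p)),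
    ∃ v' : Sig Γ₀ ((Bool × Bool) ⊕ Lab p),
    Steps (Λ := (Bool × Bool) ⊕ Lab p) (mach code w p).m (i.length + 1)
      ⟨some (Sum.inl (false, false)), v, stk i [] ⟨[], l, [], [], [], []⟩⟩
      ⟨some (Sum.inr (entry p)), v',
        stk [] [] ⟨[], (i.flatMap code).reverse ++ l, [], [], [], []⟩⟩ := by
  induction i with
  | nil =>
    intro l v
    refine ⟨(v.1, none, v.2.2), Steps.one ?_⟩
    have := stk_update_none ([] : List Γ₀) [] ([] : List ((Bool × Bool) ⊕ Lab p))
      ⟨[], l, [], [], [], []⟩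
    exact congrArg (fun S => (⟨some (Sum.inr (entry p)), (v.1, none, v.2.2), S⟩ :
      TM2.Cfg (Gam Γ₀ _) ((Bool × Bool) ⊕ Lab p) (Sig Γ₀ _))) this
  | cons g i ih =>
    intro l v
    obtain ⟨v', h⟩ := ih ((code g).reverse ++ l) (v.1, some g, v.2.2)
    refine ⟨v', ?_⟩
    have e : (g :: i).length + 1 = 1 + (i.length + 1) := by simp; omega
    rw [e]
    refine Steps.trans (Steps.one ?_) (by simpa using h)
    have h1 := stk_update_none (g :: i) i ([] : List ((Bool × Bool) ⊕ Lab p))
      ⟨[], l, [], [], [], []⟩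
    have h2 := pushCode_step (Λ := (Bool × Bool) ⊕ Lab p) code
      (TM2.Stmt.goto fun _ => Sum.inl (false, false)) v.1 v.2.2 g i w 0 l (by rw [hw]; simp)
    refine Eq.trans (congrArg (TM2.stepAux
      (pushCode code (TM2.Stmt.goto fun _ => Sum.inl (false, false)) 0 w)
      (v.1, some g, v.2.2)) h1) ?_
    rw [h2]; simp

/-- Main compilation theorem. -/
theorem computable_of_prog {α β : Type} (ea : α → List Γ₀) (eb : β → List Bool) (f : α → β)
    (code : Γ₀ → List Bool) (w : ℕ) (hw : ∀ g, (code g).length = w) (p : Q) (t : ℕ → ℕ)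
    (h : ∀ a, ∃ n ≤ t (ea a).length,
      Ev .skip p ⟨[], ((ea a).flatMap code).reverse, [], [], [], []⟩
        ⟨eb (f a), [], [], [], [], []⟩ n) :
    Crest.DTime.TimeBoundComputable ea eb f (fun n => t n + n + 2) := by
  classical
  choose n hn hev using h
  refine ⟨{ tm := mach code w p
            inputAlphabet := Equiv.refl Γ₀
            outputAlphabet := Equiv.refl Bool
            time := fun n => t n + n + 2
            outputsFun := fun a => ?_ }, fun _ => le_rfl⟩
  refine { steps := ((ea a).length + 1) + n a + 1, evals_in_steps := ?_, steps_le_m := ?_ }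
  · obtain ⟨v1, h1⟩ := mach_prologue code w hw p (ea a) [] (none, none, none)
    obtain ⟨v2, h2⟩ := (hev a).sim (Γ₀ := Γ₀) (Λ := (Bool × Bool) ⊕ Lab p) (mach code w p).m
      (Sum.inl (true, false)) (Sum.inl (false, true)) rfl (fun _ => Sum.inl (true, true))
      (fun _ => rfl) Sum.inr (Sum.inl (false, true)) (fun l => rfl) [] v1
    rw [List.append_nil] at h1
    have h3 : Steps (Λ := (Bool × Bool) ⊕ Lab p) (mach code w p).m 1
        ⟨some (Sum.inl (false, true)), v2, stk [] [] ⟨eb (f a), [], [], [], [], []⟩⟩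
        ⟨none, (none, none, none), stk [] [] ⟨eb (f a), [], [], [], [], []⟩⟩ := Steps.one rfl
    have h4 := (h1.trans h2).trans h3
    have e1 : initList (mach code w p) (List.map (Equiv.refl Γ₀).invFun (ea a)) =
        ⟨some (Sum.inl (false, false)), (none, none, none),
          stk (ea a) [] ⟨[], [], [], [], [], []⟩⟩ := by
      unfold initList
      congr 1
      funext k
      rcases k with _ | _ | k
      · exact (List.map_id _)
      · rfl
      · cases k <;> rfl
    have e2 : haltList (mach code w p) (List.map (Equiv.refl Bool).invFun (eb (f a))) =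
        ⟨none, (none, none, none), stk [] [] ⟨eb (f a), [], [], [], [], []⟩⟩ := by
      unfold haltList
      congr 1
      funext k
      rcases k with _ | _ | k
      · rfl
      · rfl
      · cases k
        · exact (List.map_id _)
        all_goals rfl
    refine Eq.trans ?_ (congrArg some e2.symm)
    refine Eq.trans (congrArg (fun c => (flip bind (mach code w p).step)^[_] (some c)) e1) ?_
    exact h4
  · have := hn a
    simp; omega

end

end Crest.Agent.R326
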