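import Crest.Agent.R326.Moduli
import Crest.Agent.R326.DPT

/-!
# Row 326, the global data are polynomial-time computable (task R326-ModPT)

Primality of a unary number is `2 ≤ q ∧ ∀ m < q, m ∣ q → m = 1`; logarithms are obtained by
counting; inside `map`s over `moduli y` the elements are at most `y`.
-/

set_option autoImplicit false

namespace Crest.Agent.R326

open Crest.Agent.PTime

section

variable {α : Type*} [Enc α]

theorem MP.log_eq_sum (b n : ℕ) : Nat.log b n =
    ∑ e ∈ Finset.range n.size, if 1 < b ∧ b ^ (e + 1) ≤ n then 1 else 0 := by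
  by_cases hb : 1 < b
  · rcases Nat.eq_zero_or_pos n with rfl | hn
    · simp
    · have h1 : Nat.log b n ≤ n.size := by
        refine (Nat.log_lt_of_lt_pow hn.ne' ?_).le
        exact (Nat.lt_size_self n).trans_le (Nat.pow_le_pow_left hb _)
      rw [← Finset.card_filter]
      have : (Finset.range n.size).filter (fun e => 1 < b ∧ b ^ (e + 1) ≤ n) =
          Finset.range (Nat.log b n) := by
        ext e
        simp only [Finset.mem_filter, Finset.mem_range, hb, true_and,
          ← Nat.le_log_iff_pow_le hb hn.ne']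
        omega
      rw [this, Finset.card_range]
  · simp [hb, Nat.log_of_left_le_one (not_lt.1 hb)]

theorem MP.pt_log {b n : α → ℕ} (hb : PT b) (hn : PT n) : PT (fun a => Nat.log (b a) (n a)) :=
  PT.congr (PT.sum_range (f := fun a e => if 1 < b a ∧ b a ^ (e + 1) ≤ n a then 1 else 0)
    hn.size (PB.size hn) (by fun_prop)) fun a => MP.log_eq_sum _ _

theorem MP.pt_prime {u : α → U} (hu : PT u) : PT (fun a => (u a).val.Prime) := by
  refine PT.congr_prop (q := fun a => 2 ≤ (u a).val ∧ ∀ m < (u a).val, m ∣ (u a).val → m = 1)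
    (PT.and (by fun_prop) (PT.forall_lt (p := fun a m => m ∣ (u a).val → m = 1) hu.val (PB.val hu)
      (PT.imp (by fun_prop) (by fun_prop)))) fun a => Nat.prime_def_lt

theorem MP.pt_idem {S s : α → ℕ} (hS : PT S) (hs : PT s) (hb : PB s) :
    PT (fun a => idem (S a) (s a)) := by
  unfold idem
  fun_prop

theorem MP.pt_dig {σ n x : α → ℕ} (hσ : PT σ) (hn : PT n) (hx : PT x) :
    PT (fun a => dig (σ a) (n a) (x a)) := by
  unfold dig
  fun_prop

end

theorem pt_moduli : PT (fun y : U => moduli y.val) := by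
  have h1 : PT (fun p : U × U => p.2.val.Prime) := MP.pt_prime PT.id.snd
  have h2 : PT (fun p : U × U => Nat.log p.2.val p.1.val) := MP.pt_log (by fun_prop) (by fun_prop)
  refine PT.congr (PT.flatMap_range (n := fun y : U => y.val + 1)
    (f := fun y q => if q.Prime ∧ q ≠ 2 then [q ^ Nat.log q y.val] else []) (by fun_prop)
    (by fun_prop) (PT.ite (h1.and (by fun_prop))
      (PT.cons (PT.pow (by fun_prop) h2 (PB.log (by fun_prop))) (PT.const _)) (PT.const _)))
    fun y => ?_
  unfold moduli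
  induction List.range (y.val + 1) with
  | nil => rfl
  | cons q l ih =>
    rw [List.flatMap_cons, ← ih]
    by_cases h : q.Prime ∧ q ≠ 2
    · rw [List.filter_cons_of_pos (by simpa using h), if_pos h]
      rfl
    · rw [List.filter_cons_of_neg (by simpa using h), if_neg h]
      rfl

theorem pt_SS : PT (fun y : U => SS y.val) := pt_moduli.list_prod

theorem MP.pt_map {α β : Type*} [Enc α] [Enc β] {y : α → U} {F : α → ℕ → β} (hy : PT y)
    (hF : PT (fun x : α × U => F x.1 x.2.val)) :
    PT (fun a => (moduli (y a).val).map (F a)) := by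
  have h1 : PT (fun p : α × ℕ => (p.1, (⟨min p.2 (y p.1).val⟩ : U))) :=
    PT.pair (by fun_prop) (PT.toU (by fun_prop) (PB.min_right (by fun_prop)))
  refine PT.congr (PT.map (f := fun a s => F a (min s (y a).val)) (hF.comp h1)
    (pt_moduli.comp hy)) fun a => List.map_congr_left fun s hs => ?_
  rw [min_eq_left (moduli_spec hs).2.2.1]

theorem pt_unitsY : PT (fun y : U => unitsY y.val) := by
  have h1 : PT (fun x : U × U => SS x.1.val) := pt_SS.comp PT.id.fst
  have h2 : PT (fun x : U × U => idem (SS x.1.val) x.2.val) :=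
    MP.pt_idem h1 (by fun_prop) (by fun_prop)
  have h3 := DP.pt_res h1 ((PT.const 1).int_sub ((PT.const 2).int_mul h2.natCast_int))
  have h4 := MP.pt_map (y := fun y : U => y)
    (F := fun y s => res (SS y.val) (1 - 2 * (idem (SS y.val) s : ℤ))) PT.id h3
  unfold unitsY
  exact h4

theorem pt_KK : PT (fun y : U => U.mk (KK y.val)) := by
  have h1 : PT (fun y : U => Nat.log 2 y.val) := pt_log2 (by fun_prop)
  have h2 : PB (fun y : U => Nat.log 2 y.val) := PB.log (g := fun _ => 2) (by fun_prop)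
  unfold KK Klen
  exact PT.toU ((PT.const _).mul (((PT.const _).mul (((PT.const _).mul h1).add (PT.const _))).add
    (PT.const _))) ((PB.const _).mul (((PB.const _).mul (((PB.const _).mul h2).add
      (PB.const _))).add (PB.const _)))

theorem MP.pt_layAt {α : Type*} [Enc α] (inv : Bool) {y s : α → U} {j a b : α → ℕ} (hy : PT y)
    (hs : PT s) (hj : PT j) (ha : PT a) (hb : PT b) :
    PT (fun x => layAt (y x).val inv (j x) (s x).val (a x) (b x)) := by
  have h1 : PT (fun x => (⟨Nat.log 2 (y x).val⟩ : U)) :=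
    PT.toU (pt_log2 hy.val) (PB.log (g := fun _ => 2) hy.val)
  have h2 := (pt_dprog inv).comp ((h1.pair hs).pair (ha.pair hb))
  have h3 := PT.getD hj h2 (PT.const (((0, 0), cq 1 0) : (ℤ × ℤ) × Coef))
  unfold layAt
  exact h3

theorem pt_tauY (inv : Bool) : PT (fun x : U × ℕ => tauY x.1.val inv x.2) := by
  have h0 : PT (fun x : U × ℕ => SS x.1.val) := pt_SS.comp PT.id.fst
  have h1 : PT (fun x : (U × ℕ) × U => SS x.1.1.val) := h0.comp PT.id.fst
  have h2 : PT (fun x : (U × ℕ) × U => (idem (SS x.1.1.val) x.2.val : ℤ)) :=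
    (MP.pt_idem h1 (by fun_prop) (by fun_prop)).natCast_int
  have h3 : PT (fun x : (U × ℕ) × U => layAt x.1.1.val inv x.1.2 x.2.val 0 0) :=
    MP.pt_layAt inv (by fun_prop) (by fun_prop) (by fun_prop) (PT.const _) (PT.const _)
  have h4 : PT (fun x : U × ℕ => (((SS x.1.val + 1) / 2 : ℕ) : ℤ)) :=
    ((h0.add (PT.const _)).div (PT.const _)).natCast_int
  unfold tauY
  exact PT.pair
    (DP.pt_res h0 ((MP.pt_map (F := fun (x : U × ℕ) s =>
      (idem (SS x.1.val) s : ℤ) * (layAt x.1.val inv x.2 s 0 0).1.1) PT.id.fst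
      (h2.int_mul h3.fst.fst)).int_list_sum.int_mul h4))
    (DP.pt_res h0 ((MP.pt_map (F := fun (x : U × ℕ) s =>
      (idem (SS x.1.val) s : ℤ) * (layAt x.1.val inv x.2 s 0 0).1.2) PT.id.fst
      (h2.int_mul h3.fst.snd)).int_list_sum.int_mul h4))

theorem MP.pt_coefs (inv : Bool) : PT (fun x : U × ℕ × ℕ => coefs x.1.val inv x.2.1 x.2.2) := by
  have h1 : PT (fun x : (U × ℕ × ℕ) × U => SS x.1.1.val) := pt_SS.comp PT.id.fst.fst
  have h2 : PT (fun x : (U × ℕ × ℕ) × U =>
      layAt x.1.1.val inv x.1.2.1 x.2.val (dig (SS x.1.1.val) (SS x.1.1.val) x.1.2.2 % x.2.val)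
        (dig 1 (SS x.1.1.val) x.1.2.2 % x.2.val)) :=
    MP.pt_layAt inv (by fun_prop) (by fun_prop) (by fun_prop)
      ((MP.pt_dig h1 h1 (by fun_prop)).mod (by fun_prop))
      ((MP.pt_dig (PT.const _) h1 (by fun_prop)).mod (by fun_prop))
  exact MP.pt_map (F := fun (x : U × ℕ × ℕ) s => Coef.mulq (1 / 2) 0
    (layAt x.1.val inv x.2.1 s (dig (SS x.1.val) (SS x.1.val) x.2.2 % s)
      (dig 1 (SS x.1.val) x.2.2 % s)).2) PT.id.fst (pt_mulq (PT.const _) (PT.const _) h2.snd)

/-- table entries: `x = ((y, f, p), j, index)` -/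
theorem pt_tbl (inv : Bool) : PT (fun x : (U × U × U) × ℕ × ℕ =>
    Cl.mk x.1.2.2.val (tbl x.1.1.val x.1.2.1.val inv x.2.1 x.2.2)) := by
  have h1 : PT (fun x : (U × U × U) × ℕ × ℕ => coefs x.1.1.val inv x.2.1 x.2.2) :=
    (MP.pt_coefs inv).comp (g := fun x : (U × U × U) × ℕ × ℕ => (x.1.1, x.2.1, x.2.2))
      (by fun_prop)
  have h2 : PT (fun x : (U × U × U) × ℕ × ℕ => (⟨bY x.1.1.val⟩ : U)) := by
    unfold bY
    exact PT.toU (by fun_prop) (PB.size (by fun_prop))
  have h3 := pt_apx.comp (PT.pair PT.id.fst.snd.fst (h2.pair h1))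
  have h4 := pt_cl_ofInt.comp (PT.pair PT.id.fst.snd.snd (h3.fst.pair h3.snd))
  unfold tbl
  exact h4

end Crest.Agent.R326
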