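import Crest.Agent.R326.GDefs
import Crest.Agent.R326.DOk

/-!
# Row 326, the moduli (task R326-Moduli)

PLAN.  Elements of `moduli y` are `q ^ log q y` with `q` an odd prime `≤ y`; `q ≤ s ≤ y < q s`
gives `y < s²`.  `2 ^ log 2 y * SS y = Nat.lcmUpto y` (`Nat.factorization_lcmUpto`,
`Nat.eq_of_factorization_eq`, or `Nat.lcmUpto_eq_prod_pow_log`-type lemmas in Mathlib; see
`R324/Main.lean` for `lcmUpto_succ_le` and `Chebyshev.two_pow_le_mul_lcmUpto`).
`idem_spec`: `S / s` is coprime to `s`, so `Nat.exists_mul_emod_eq_one_of_coprime` gives a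
witness and `find?` succeeds.  
-/

set_option autoImplicit false

namespace Crest.Agent.R326

open Crest.Agent.PTime

theorem mem_moduli {y s : ℕ} :
    s ∈ moduli y ↔ ∃ q, (q ≤ y ∧ q.Prime ∧ q ≠ 2) ∧ q ^ Nat.log q y = s := by
  simp [moduli, Nat.lt_succ_iff]

theorem SS_eq_prod (y : ℕ) : SS y =
    ∏ q ∈ (Finset.range (y + 1)).filter (fun q => q.Prime ∧ q ≠ 2), q ^ Nat.log q y := rfl

theorem two_pow_mul_SS (y : ℕ) : 2 ^ Nat.log 2 y * SS y = Nat.lcmUpto y := by
  rw [Nat.lcmUpto_eq_prod_pow_log, SS_eq_prod, Nat.primesLE_eq_filter_range,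
    ← Finset.prod_filter_mul_prod_filter_not (Finset.filter Nat.Prime _) (fun q => q = 2),
    Finset.filter_filter, Finset.filter_filter]
  congr 1
  rcases lt_or_ge y 2 with h | h
  · rw [Nat.log_of_lt h, pow_zero, Finset.prod_eq_one]
    intro q hq
    rw [(Finset.mem_filter.1 hq).2.2, Nat.log_of_lt h, pow_zero]
  · have : (Finset.range (y + 1)).filter (fun q => q.Prime ∧ q = 2) = {2} := by
      ext q
      simp only [Finset.mem_filter, Finset.mem_range, Finset.mem_singleton]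
      exact ⟨fun h => h.2.2, fun h' => by subst h'; exact ⟨by omega, Nat.prime_two, rfl⟩⟩
    rw [this, Finset.prod_singleton]

theorem mod_lcm_succ_le (y : ℕ) : Nat.lcmUpto (y + 1) ≤ (y + 1) * Nat.lcmUpto y := by
  refine Nat.le_of_dvd (Nat.mul_pos y.succ_pos (Nat.lcmUpto_pos y)) (Finset.lcm_dvd fun b hb => ?_)
  rcases (Finset.mem_Icc.1 hb).2.eq_or_lt with h | h
  · exact h ▸ dvd_mul_right _ _
  · exact (Finset.dvd_lcm (f := id) (Finset.mem_Icc.2
      ⟨(Finset.mem_Icc.1 hb).1, by omega⟩)).mul_left _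

theorem mod_log_pos {q y : ℕ} (hq : q.Prime) (h : q ≤ y) : 0 < Nat.log q y :=
  Nat.log_pos hq.one_lt h

theorem mod_res_lt {S : ℕ} (hS : 0 < S) (z : ℤ) : res S z < S := by
  haveI : NeZero S := ⟨hS.ne'⟩
  rw [res_eq]
  exact ZMod.val_lt _

theorem mod_res_cast {S s : ℕ} (hS : 0 < S) (h : s ∣ S) (z : ℤ) :
    ((res S z : ℕ) : ZMod s) = (z : ZMod s) := by
  have h1 : ((res S z : ℕ) : ℤ) = z % S :=
    Int.toNat_of_nonneg (Int.emod_nonneg _ (by exact_mod_cast hS.ne'))
  rw [← Int.cast_natCast, h1, ZMod.intCast_eq_intCast_iff]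
  exact (Int.mod_modEq z S).of_dvd (Int.natCast_dvd_natCast.2 h)

theorem moduli_spec {y s : ℕ} (hs : s ∈ moduli y) : Odd s ∧ 3 ≤ s ∧ s ≤ y ∧ y < s * s := by
  obtain ⟨q, ⟨h1, h2, h3⟩, rfl⟩ := mem_moduli.1 hs
  have h4 := mod_log_pos h2 h1
  have h5 : q ≤ q ^ Nat.log q y := Nat.le_self_pow h4.ne' q
  have h6 := h2.two_le
  have h7 := Nat.lt_pow_succ_log_self h2.one_lt y
  refine ⟨(h2.odd_of_ne_two h3).pow, by omega, Nat.pow_log_le_self q (by omega), ?_⟩
  rw [pow_succ] at h7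
  exact h7.trans_le (Nat.mul_le_mul_left _ h5)

theorem moduli_nodup (y : ℕ) : (moduli y).Nodup := by
  refine List.Nodup.map_on ?_ (List.nodup_range.filter _)
  intro q hq q' hq' h
  simp only [List.mem_filter, List.mem_range, decide_eq_true_eq] at hq hq'
  have h1 : q ∣ q' ^ Nat.log q' y := h ▸ dvd_pow_self q (mod_log_pos hq.2.1 (by omega)).ne'
  exact (Nat.prime_dvd_prime_iff_eq hq.2.1 hq'.2.1).1 (hq.2.1.dvd_of_dvd_pow h1)

theorem moduli_coprime {y s s' : ℕ} (hs : s ∈ moduli y) (hs' : s' ∈ moduli y) (h : s ≠ s') :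
    s.Coprime s' := by
  obtain ⟨q, ⟨h1, h2, h3⟩, rfl⟩ := mem_moduli.1 hs
  obtain ⟨q', ⟨h1', h2', h3'⟩, rfl⟩ := mem_moduli.1 hs'
  exact Nat.coprime_pow_primes _ _ h2 h2' fun h' => h (by rw [h'])

theorem length_moduli_le (y : ℕ) : (moduli y).length ≤ y := by
  rw [moduli, List.length_map, List.range_succ_eq_map, 
    List.filter_cons_of_neg (by simp [Nat.not_prime_zero])]
  exact (List.length_filter_le _ _).trans (by simp)

theorem SS_pos (y : ℕ) : 0 < SS y := by
  exact List.prod_pos fun s hs => by have := (moduli_spec hs).2.1; omega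

theorem SS_odd (y : ℕ) : Odd (SS y) := by
  rw [SS_eq_prod]
  refine Finset.prod_induction _ Odd (fun a b => Odd.mul) odd_one fun q hq => ?_
  have := (Finset.mem_filter.1 hq).2
  exact (this.1.odd_of_ne_two this.2).pow

theorem three_pow_le_SS (y : ℕ) : 3 ^ (moduli y).length ≤ SS y := by
  exact List.pow_card_le_prod _ _ fun s hs => (moduli_spec hs).2.1

theorem SS_le (y : ℕ) : SS y ≤ 2 ^ (y * y) := by
  refine (List.prod_le_pow_card _ (2 ^ y) fun s hs =>
    (moduli_spec hs).2.2.1.trans y.lt_two_pow_self.le).trans ?_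
  rw [pow_mul]
  exact Nat.pow_le_pow_right (by positivity) (length_moduli_le y)

theorem SS_succ_le (y : ℕ) : SS (y + 1) ≤ (y + 1) * SS y := by
  have h1 := mod_lcm_succ_le y
  rw [← two_pow_mul_SS, ← two_pow_mul_SS] at h1
  have h2 : 2 ^ Nat.log 2 y ≤ 2 ^ Nat.log 2 (y + 1) :=
    Nat.pow_le_pow_right (by norm_num) (Nat.log_mono_right (Nat.le_succ y))
  refine Nat.le_of_mul_le_mul_left (h1.trans ?_) (show 0 < 2 ^ Nat.log 2 (y + 1) by positivity)
  rw [mul_left_comm]
  exact Nat.mul_le_mul_right _ h2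

theorem SS_mono : Monotone SS := by
  intro y y' h
  rw [SS_eq_prod, SS_eq_prod]
  refine le_trans (Finset.prod_le_prod' fun q hq => Nat.pow_le_pow_right
    (Finset.mem_filter.1 hq).2.1.pos (Nat.log_mono_right h)) ?_
  refine Finset.prod_le_prod_of_subset_of_one_le' (Finset.filter_subset_filter _
    (Finset.range_mono (by omega))) fun q hq _ => ?_
  exact Nat.one_le_pow _ _ (Finset.mem_filter.1 hq).2.1.pos

theorem two_pow_le_SS (y : ℕ) : 2 ^ y ≤ (y + 1) ^ 2 * SS y := by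
  refine (Chebyshev.two_pow_le_mul_lcmUpto y).trans ?_
  rw [← two_pow_mul_SS, sq, mul_assoc]
  refine Nat.mul_le_mul_left _ (Nat.mul_le_mul_right _ ?_)
  rcases Nat.eq_zero_or_pos y with rfl | h
  · simp
  · exact (Nat.pow_log_le_self 2 h.ne').trans (Nat.le_succ y)

theorem dvd_SS {y s : ℕ} (hs : s ∈ moduli y) : s ∣ SS y := List.dvd_prod hs

/-- Chinese remainder theorem, uniqueness -/
theorem modEq_SS {y a b : ℕ} (h : ∀ s ∈ moduli y, a ≡ b [MOD s]) : a ≡ b [MOD SS y] := by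
  have := (Nat.modEq_list_map_prod_iff (a := a) (b := b) (s := id) (l := moduli y)
    ((moduli_nodup y).pairwise_of_forall_ne fun s hs s' hs' hne => moduli_coprime hs hs' hne)).2 h
  simpa [SS] using this

theorem idem_spec {y s s' : ℕ} (hs : s ∈ moduli y) (hs' : s' ∈ moduli y) :
    (idem (SS y) s : ZMod s') = if s = s' then 1 else 0 := by
  have h3 := (moduli_spec hs).2.1
  have hT : SS y / s = ((moduli y).erase s).prod := by
    rw [SS, ← List.prod_erase hs, Nat.mul_div_cancel_left _ (by omega)]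
  split_ifs with h
  · subst h
    have hc : (SS y / s).Coprime s := by
      rw [hT, Nat.coprime_list_prod_left_iff]
      intro t ht
      rw [(moduli_nodup y).mem_erase_iff] at ht
      exact moduli_coprime ht.2 hs ht.1
    obtain ⟨r, hr, hr'⟩ := Nat.exists_mul_mod_eq_one_of_coprime hc (by omega)
    have h1 : ((List.range s).find? fun r => decide (SS y / s * r % s = 1)).isSome :=
      List.find?_isSome.2 ⟨r, List.mem_range.2 hr, by simpa using hr'⟩
    obtain ⟨r0, h2⟩ := Option.isSome_iff_exists.1 h1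
    have h4 := List.find?_some h2
    rw [decide_eq_true_eq] at h4
    rw [idem, h2, Option.getD_some, ← ZMod.natCast_mod, h4, Nat.cast_one]
  · rw [ZMod.natCast_eq_zero_iff, idem, hT]
    exact (List.dvd_prod (((moduli_nodup y).mem_erase_iff).2 ⟨Ne.symm h, hs'⟩)).mul_right _

theorem units2_unitsY (y : ℕ) : Units2 (SS y) (unitsY y) := by
  intro u hu
  obtain ⟨s, hs, rfl⟩ := List.mem_map.1 hu
  refine ⟨mod_res_lt (SS_pos y) _, modEq_SS fun s' hs' => ?_⟩
  rw [← ZMod.natCast_eq_natCast_iff]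
  push_cast
  rw [mod_res_cast (SS_pos y) (dvd_SS hs')]
  push_cast
  rw [idem_spec hs hs']
  split_ifs <;> ring

theorem length_unitsY (y : ℕ) : (unitsY y).length = (moduli y).length := by simp [unitsY]

theorem tauY_lt (y : ℕ) (inv : Bool) (j : ℕ) :
    (tauY y inv j).1 < SS y ∧ (tauY y inv j).2 < SS y := by
  exact ⟨mod_res_lt (SS_pos y) _, mod_res_lt (SS_pos y) _⟩

theorem ok_coefs (y : ℕ) (inv : Bool) (j x : ℕ) : ∀ c ∈ coefs y inv j x, Coef.Ok (2 ^ bY y) c := by
  intro c hc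
  obtain ⟨s, hs, rfl⟩ := List.mem_map.1 hc
  obtain ⟨-, h3, hy, -⟩ := moduli_spec hs
  have hs0 : 0 < s := by omega
  have key : ∀ a < s, ∀ b < s, Coef.Ok (4 * (s + 1)) (layAt y inv j s a b).2 := by
    intro a ha b hb
    rw [layAt, List.getD_eq_getElem?_getD]
    cases h : ((dprog (Nat.log 2 y) s inv).at a b)[j]? with
    | none =>
      refine ⟨?_, fun h => by simp [cq] at h⟩
      rw [Option.getD_none, val_cq, eC_zero]
      push_cast
      have : (0 : ℝ) ≤ s := Nat.cast_nonneg s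
      simp only [mul_one, norm_one]
      linarith
    | some z =>
      obtain ⟨L, hL, rfl⟩ := List.mem_map.1 (List.mem_of_getElem? h)
      exact ok_dprog _ hs0 inv L hL a ha b hb
  obtain ⟨k1, k2⟩ := key _ (Nat.mod_lt (dig (SS y) (SS y) x) hs0) _
    (Nat.mod_lt (dig 1 (SS y) x) hs0)
  generalize (layAt y inv j s _ _).2 = c at k1 k2 ⊢
  constructor
  · rw [Coef.val_mulq, eC_zero, mul_one, norm_mul]
    have h1 : 4 * (s + 1) ≤ 2 ^ bY y := le_trans (by omega) (Nat.lt_size_self (4 * (y + 1))).le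
    have h2 : ((4 * (s + 1) : ℕ) : ℝ) ≤ ((2 ^ bY y : ℕ) : ℝ) := by exact_mod_cast h1
    have h4 : ‖(((1 / 2 : ℚ)) : ℂ)‖ = 1 / 2 := by simp
    rw [h4]
    linarith [norm_nonneg (Coef.val c)]
  · obtain ⟨l, b⟩ := c
    cases b
    · simp [Coef.mulq]
    · intro _
      simp only [Coef.mulq, cond_true, FS.val_sc]
      exact mul_ne_zero (mul_ne_zero (by simp) (eC_ne_zero _)) (k2 rfl)

theorem KK_le (y : ℕ) : KK y ≤ 400000 * (Nat.log 2 y + 1) := by
  unfold KK Klen
  omega

end Crest.Agent.R326
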