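import Crest.Agent.Lib.PT.Code

/-!
# Row 326, algebra of index maps for the fast transposition (task R326-PAlg)

Coordinates are `z : Fin m ⊕ Fin m → TT` (`inl` = high group `x`, `inr` = low group `y`; inside a
group a larger index is more significant).  A shear whose target is LESS significant than its
control is free, as are multiplications of a coordinate by `-1, 2, 1/2`; exchanging `x i` and
`y j` costs one.
PLAN of `COs.rank1` (`x += a (b · y)`).  If `a = 0` or `b = 0` it is the identity.  Otherwise let
`i` be the LARGEST index with `a i ≠ 0`, `j` the SMALLEST index with `b j ≠ 0`, `a'`, `b'` dyadic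
inverses of `a i`, `b j`.  Let `G s` be `x_t += s * a t * a' * x_i` for all `t < i` and `H s` be
`y_j += s * Σ_{t > j} b t * b' * y_t` (free: Finset induction with `shear`).  With `λ = a i * b j`
and `E12 : x_i += λ y_j`, the map is `G 1 ∘ H (-1) ∘ E12 ∘ H 1 ∘ G (-1)`, and
`E12 = E21 ∘ w ∘ E21` with `E21 : y_j += λ⁻¹ x_i` (free) and `w : (x_i, y_j) ↦ (λ y_j, -λ⁻¹ x_i)`
= the swap followed by two multiplications.  Check the identities by `funext`, case splits and
`ring`/`linear_combination` with `a i * a' = 1`, `b j * b' = 1`.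
`swapAll`: `(x,y) ↦ (x, y - x) ↦ (y, y - x) ↦ (y, -x) ↦ (y, x)`.
-/

set_option autoImplicit false

namespace Crest.Agent.R326

open Crest.Agent.PTime

/-- index scalars, one component for every level `l` -/
abbrev TT : Type := ∀ l : ℕ, ZMod (3 ^ l)

/-- one half -/
def th : TT := fun l => (((3 ^ l + 1) / 2 : ℕ) : ZMod (3 ^ l))

theorem two_mul_th : 2 * th = 1 := by
  funext l
  have h : 2 * ((3 ^ l + 1) / 2) = 3 ^ l + 1 :=
    Nat.mul_div_cancel' (Odd.add_one (Odd.pow (by decide))).two_dvd
  have h2 := congrArg (Nat.cast : ℕ → ZMod (3 ^ l)) h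
  rw [Nat.cast_mul, Nat.cast_add, ZMod.natCast_self, zero_add, Nat.cast_one] at h2
  exact h2

/-- the units `± 2 ^ e` -/
inductive Dy : TT → Prop
  | one : Dy 1
  | neg {c : TT} : Dy c → Dy (-c)
  | dbl {c : TT} : Dy c → Dy (2 * c)
  | half {c : TT} : Dy c → Dy (th * c)

theorem Dy.mul {c d : TT} (hc : Dy c) (hd : Dy d) : Dy (c * d) := by
  induction hc with
  | one => rwa [one_mul]
  | neg _ ih => rw [neg_mul]; exact ih.neg
  | dbl _ ih => rw [mul_assoc]; exact ih.dbl
  | half _ ih => rw [mul_assoc]; exact ih.half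

theorem Dy.inv {c : TT} (hc : Dy c) : ∃ d, Dy d ∧ c * d = 1 := by
  induction hc with
  | one => exact ⟨1, .one, one_mul _⟩
  | neg _ ih =>
    obtain ⟨d, h1, h2⟩ := ih
    exact ⟨-d, h1.neg, by rw [neg_mul_neg, h2]⟩
  | dbl _ ih =>
    obtain ⟨d, h1, h2⟩ := ih
    exact ⟨th * d, h1.half, by rw [mul_mul_mul_comm, two_mul_th, h2, one_mul]⟩
  | half _ ih =>
    obtain ⟨d, h1, h2⟩ := ih
    exact ⟨2 * d, h1.dbl, by rw [mul_mul_mul_comm, mul_comm th, two_mul_th, h2, one_mul]⟩

/-- vectors with entries `0` or dyadic units -/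
def DyV {ι : Type} (a : ι → TT) : Prop := ∀ j, a j = 0 ∨ Dy (a j)

/-- scalars whose components are computable from the level -/
def Cmpb (c : TT) : Prop := PT (fun l : U => (c l.val).val)

private theorem palg_cmpb_mul {c : TT} (hc : Cmpb c) {n : ℕ → ℕ} (hn : PT fun l : U => n l.val)
    {d : TT} (hd : ∀ l, d l = (n l : ℕ)) : Cmpb (d * c) := by
  have e : (fun l : U => ((d * c) l.val).val) =
      fun l : U => n l.val % 3 ^ l.val * (c l.val).val % 3 ^ l.val := by
    funext l
    rw [Pi.mul_apply, ZMod.val_mul, hd, ZMod.val_natCast]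
  unfold Cmpb at hc ⊢
  rw [e]
  have h3 : PT fun l : U => 3 ^ l.val := by fun_prop
  exact ((hn.mod h3).mul hc).mod h3

theorem Dy.cmpb {c : TT} (hc : Dy c) : Cmpb c := by
  induction hc with
  | one =>
    have e : (fun l : U => ((1 : TT) l.val).val) = fun l : U => 1 % 3 ^ l.val := by
      funext l
      rw [Pi.one_apply, ← Nat.cast_one, ZMod.val_natCast]
    unfold Cmpb
    rw [e]
    fun_prop
  | @neg c _ ih =>
    have e : (fun l : U => ((-c) l.val).val) =
        fun l : U => (3 ^ l.val - (c l.val).val) % 3 ^ l.val := by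
      funext l
      rw [Pi.neg_apply, ZMod.neg_val']
    unfold Cmpb at ih ⊢
    rw [e]
    fun_prop
  | dbl _ ih => exact palg_cmpb_mul ih (n := fun _ => 2) (by fun_prop) fun l => by simp
  | half _ ih =>
    exact palg_cmpb_mul ih (n := fun l => (3 ^ l + 1) / 2) (by fun_prop) fun l => rfl

variable {m : ℕ}

/-- coordinate vectors -/
abbrev CV (m : ℕ) : Type := Fin m ⊕ Fin m → TT

/-- the first coordinate is less significant than the second -/
def Below : Fin m ⊕ Fin m → Fin m ⊕ Fin m → Prop
  | .inl i, .inl j => i < j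
  | .inl _, .inr _ => False
  | .inr _, .inl _ => True
  | .inr i, .inr j => i < j

/-- `x += N y` -/
def shearM (N : Matrix (Fin m) (Fin m) TT) (z : CV m) : CV m :=
  Sum.elim (fun i => z (.inl i) + ∑ j, N i j * z (.inr j)) (fun j => z (.inr j))

theorem shearM_zero (z : CV m) : shearM 0 z = z := by
  funext k
  cases k <;> simp [shearM]

theorem shearM_add (N N' : Matrix (Fin m) (Fin m) TT) (z : CV m) :
    shearM (N + N') z = shearM N (shearM N' z) := by
  funext k
  cases k with
  | inl i =>
    simp only [shearM, Sum.elim_inl, Sum.elim_inr, Matrix.add_apply, add_mul,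
      Finset.sum_add_distrib]
    ring
  | inr j => rfl

/-- closure system of implementable coordinate maps -/
structure COs (m : ℕ) where
  CO : ℕ → (CV m → CV m) → Prop
  id : CO 0 fun z => z
  comp : ∀ {r r' g g'}, CO r g → CO r' g' → CO (r + r') fun z => g (g' z)
  mono : ∀ {r r' g}, CO r g → r ≤ r' → CO r' g
  shear : ∀ i j c, Below i j → Dy c → CO 0 fun z => Function.update z i (z i + c * z j)
  neg : ∀ i, CO 0 fun z => Function.update z i (-z i)
  dbl : ∀ i, CO 0 fun z => Function.update z i (2 * z i)
  half : ∀ i, CO 0 fun z => Function.update z i (th * z i)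
  swap : ∀ i j : Fin m, CO 1 fun z => z ∘ Equiv.swap (Sum.inl i) (Sum.inr j)

theorem COs.mul (O : COs m) (i : Fin m ⊕ Fin m) {c : TT} (hc : Dy c) :
    O.CO 0 fun z => Function.update z i (c * z i) := by
  induction hc with
  | one => simpa using O.id
  | neg _ ih => simpa using O.comp (O.neg i) ih
  | dbl _ ih => simpa [mul_assoc] using O.comp (O.dbl i) ih
  | half _ ih => simpa [mul_assoc] using O.comp (O.half i) ih

private theorem palg_ne {i j : Fin m ⊕ Fin m} (h : Below i j) : i ≠ j := by
  rintro rfl
  cases i <;> exact lt_irrefl _ h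

private theorem palg_shear (O : COs m) {i j : Fin m ⊕ Fin m} {c : TT}
    (h : c = 0 ∨ (Below i j ∧ Dy c)) : O.CO 0 fun z => Function.update z i (z i + c * z j) := by
  rcases h with rfl | h
  · simpa using O.id
  · exact O.shear i j c h.1 h.2

/-- simultaneous free updates -/
private theorem palg_par (O : COs m) (F : Fin m ⊕ Fin m → CV m → TT) (s : Finset (Fin m ⊕ Fin m))
    (h1 : ∀ i ∈ s, O.CO 0 fun z => Function.update z i (F i z))
    (h2 : ∀ i ∈ s, ∀ a ∈ s, i ≠ a → ∀ z v, F i (Function.update z a v) = F i z) :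
    O.CO 0 fun z i => if i ∈ s then F i z else z i := by
  induction s using Finset.induction_on with
  | empty => simpa using O.id
  | insert a s ha ih =>
    have h3 := O.comp (ih (fun i hi => h1 i (Finset.mem_insert_of_mem hi)) fun i hi b hb =>
      h2 i (Finset.mem_insert_of_mem hi) b (Finset.mem_insert_of_mem hb))
      (h1 a (Finset.mem_insert_self _ _))
    convert h3 using 3 with z i
    by_cases hi : i = a
    · subst hi
      simp [ha]
    · by_cases hs : i ∈ s
      · simp [hs, h2 i (Finset.mem_insert_of_mem hs) a (Finset.mem_insert_self _ _) hi]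
      · simp [hs, hi]

private theorem palg_col (O : COs m) (j : Fin m ⊕ Fin m) {f : Fin m ⊕ Fin m → TT}
    (h : ∀ k, f k = 0 ∨ (Below k j ∧ Dy (f k))) : O.CO 0 fun z k => z k + f k * z j := by
  have h1 := palg_par O (fun k z => z k + f k * z j) (Finset.univ.erase j)
    (fun k _ => palg_shear O (h k)) fun i _ a ha hi z v => by
      rw [Function.update_of_ne hi, Function.update_of_ne (Finset.ne_of_mem_erase ha).symm]
  convert h1 using 3 with z k
  by_cases hk : k = j
  · subst hk
    rcases h k with h0 | h0
    · simp [h0]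
    · exact (palg_ne h0.1 rfl).elim
  · simp [hk]

private theorem palg_row (O : COs m) (i : Fin m ⊕ Fin m) {f : Fin m ⊕ Fin m → TT}
    (h : ∀ k, f k = 0 ∨ (Below i k ∧ Dy (f k))) :
    O.CO 0 fun z => Function.update z i (z i + ∑ k, f k * z k) := by
  suffices H : ∀ s : Finset (Fin m ⊕ Fin m),
      O.CO 0 fun z => Function.update z i (z i + ∑ k ∈ s, f k * z k) from H _
  intro s
  induction s using Finset.induction_on with
  | empty => simpa using O.id
  | insert a s ha ih =>
    convert O.comp (palg_shear O (h a)) ih using 2 with z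
    rw [Function.update_idem, Function.update_self, Finset.sum_insert ha]
    congr 1
    rcases h a with h0 | h0
    · simp [h0]
    · rw [Function.update_of_ne (palg_ne h0.1).symm]
      ring

private theorem palg_e12 (O : COs m) (i j : Fin m) {c : TT} (hc : Dy c) :
    O.CO 1 fun z => Function.update z (.inl i) (z (.inl i) + c * z (.inr j)) := by
  obtain ⟨d, hd, hcd⟩ := hc.inv
  have h1 := O.shear (.inr j) (.inl i) d trivial hd
  have h2 := O.comp h1 (O.comp (O.mul (.inl i) hc) (O.comp (O.mul (.inr j) hd.neg)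
    (O.comp (O.swap i j) h1)))
  convert h2 using 2 with z
  funext k
  by_cases hk : k = .inl i
  · subst hk
    simp
    linear_combination (-z (.inl i)) * hcd
  · by_cases hk' : k = .inr j
    · subst hk'
      simp
      linear_combination (-z (.inr j) - d * z (.inl i)) * hcd
    · simp [hk, hk', Equiv.swap_apply_of_ne_of_ne]

private theorem palg_sum {f z : CV m} {a : Fin m ⊕ Fin m} (h : f a = 0) (v : TT) :
    ∑ k, f k * Function.update z a v k = ∑ k, f k * z k := by
  refine Finset.sum_congr rfl fun k _ => ?_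
  by_cases hk : k = a
  · rw [hk, h, zero_mul, zero_mul]
  · rw [Function.update_of_ne hk]

private theorem palg_mid (O : COs m) (i : Fin m) {c : TT} (hc : Dy c) {b : Fin m → TT}
    (hb : DyV b) :
    O.CO 1 fun z => Function.update z (.inl i) (z (.inl i) + c * ∑ t, b t * z (.inr t)) := by
  classical
  rcases (Finset.univ.filter fun t => b t ≠ 0).eq_empty_or_nonempty with h0 | h0
  · have : ∀ t, b t = 0 := fun t => by
      by_contra ht
      exact Finset.eq_empty_iff_forall_notMem.1 h0 t (by simpa using ht)
    simpa [this] using O.mono O.id zero_le_one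
  obtain ⟨j, hj, hmin⟩ := Finset.exists_min_image _ id h0
  have hj0 : b j ≠ 0 := by simpa using hj
  have hj1 : Dy (b j) := (hb j).resolve_left hj0
  obtain ⟨d, hd, hbd⟩ := hj1.inv
  let f : CV m := Sum.elim 0 fun t => if t = j then 0 else b t * d
  have hf : ∀ k, f k = 0 ∨ (Below (.inr j) k ∧ Dy (f k)) := by
    rintro (t | t)
    · exact .inl rfl
    · by_cases ht : t = j
      · exact .inl (if_pos ht)
      · by_cases h1 : b t = 0
        · exact .inl (by simp [f, h1])
        · refine .inr ⟨lt_of_le_of_ne (hmin t (by simpa using h1)) (Ne.symm ht), ?_⟩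
          simp only [f, Sum.elim_inr, if_neg ht]
          exact ((hb t).resolve_left h1).mul hd
  have hf' : ∀ k, (-f) k = 0 ∨ (Below (.inr j) k ∧ Dy ((-f) k)) := fun k =>
    (hf k).imp (fun h => by rw [Pi.neg_apply, h, neg_zero]) fun h => ⟨h.1, h.2.neg⟩
  have f1 : f (.inl i) = 0 := rfl
  have f2 : f (.inr j) = 0 := if_pos rfl
  have hs : ∀ z : CV m, ∑ t, b t * z (.inr t) = b j * (z (.inr j) + ∑ k, f k * z k) := by
    intro z
    rw [Fintype.sum_sum_type, ← Finset.add_sum_erase _ _ (Finset.mem_univ j),
      ← Finset.add_sum_erase _ (fun t => f (.inr t) * z (.inr t)) (Finset.mem_univ j), f2]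
    simp only [f, Sum.elim_inl, Sum.elim_inr, Pi.zero_apply, zero_mul, Finset.sum_const_zero,
      zero_add, mul_add, Finset.mul_sum]
    congr 1
    refine Finset.sum_congr rfl fun t ht => ?_
    rw [if_neg (Finset.ne_of_mem_erase ht)]
    linear_combination (-b t * z (.inr t)) * hbd
  have h2 := O.comp (palg_row O _ hf') (O.comp (palg_e12 O i j (hc.mul hj1)) (palg_row O _ hf))
  convert h2 using 2 with z
  simp only [Pi.neg_apply, neg_mul, Finset.sum_neg_distrib, palg_sum f1, palg_sum f2]
  funext k
  by_cases hk : k = .inl i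
  · subst hk
    rw [Function.update_self, hs]
    simp [mul_assoc]
  · by_cases hk' : k = .inr j
    · subst hk'
      simp [-Fintype.sum_sum_type]
    · simp [hk, hk']

theorem COs.rank1 (O : COs m) {a b : Fin m → TT} (ha : DyV a) (hb : DyV b) :
    O.CO 1 (shearM (Matrix.vecMulVec a b)) := by
  classical
  rcases (Finset.univ.filter fun t => a t ≠ 0).eq_empty_or_nonempty with h0 | h0
  · have : a = 0 := funext fun t => by
      by_contra ht
      exact Finset.eq_empty_iff_forall_notMem.1 h0 t (by simpa using ht)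
    rw [this, Matrix.zero_vecMulVec, funext shearM_zero]
    exact O.mono O.id zero_le_one
  obtain ⟨i, hi, hmax⟩ := Finset.exists_max_image _ (fun t => t) h0
  have hi0 : a i ≠ 0 := by simpa using hi
  have hi1 : Dy (a i) := (ha i).resolve_left hi0
  obtain ⟨d, hd, had⟩ := hi1.inv
  let f : CV m := Sum.elim (fun t => if t = i then 0 else a t * d) 0
  have hf : ∀ k, f k = 0 ∨ (Below k (.inl i) ∧ Dy (f k)) := by
    rintro (t | t)
    · by_cases ht : t = i
      · exact .inl (if_pos ht)
      · by_cases h1 : a t = 0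
        · exact .inl (by simp [f, h1])
        · refine .inr ⟨lt_of_le_of_ne (hmax t (by simpa using h1)) ht, ?_⟩
          simp only [f, Sum.elim_inl, if_neg ht]
          exact ((ha t).resolve_left h1).mul hd
    · exact .inl rfl
  have hf' : ∀ k, (-f) k = 0 ∨ (Below k (.inl i) ∧ Dy ((-f) k)) := fun k =>
    (hf k).imp (fun h => by rw [Pi.neg_apply, h, neg_zero]) fun h => ⟨h.1, h.2.neg⟩
  have h2 := O.comp (palg_col O _ hf) (O.comp (palg_mid O i hi1 hb) (palg_col O _ hf'))
  convert h2 using 1
  funext z k
  rcases k with t | t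
  · simp only [shearM, Sum.elim_inl, Matrix.vecMulVec_apply, mul_assoc, ← Finset.mul_sum]
    by_cases ht : t = i
    · subst ht
      simp [f]
    · simp [f, ht]
      linear_combination (-a t * ∑ j, b j * z (.inr j)) * had
  · simp [shearM, f]

theorem COs.swapAll (O : COs m) : ∃ g1 g2 : CV m → CV m, O.CO 0 g1 ∧ O.CO 0 g2 ∧
    ∀ z, z ∘ Sum.swap = g1 (shearM 1 (g2 z)) := by
  have h1 := palg_par O (fun k z => z k + -1 * z (Sum.elim .inl .inl k))
    (Finset.univ.filter fun k => k.isRight)
    (by
      rintro (t | t) ht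
      · simp at ht
      · exact O.shear (.inr t) (.inl t) (-1) trivial Dy.one.neg)
    (by
      rintro (t | t) ht (u | u) hu htu z v
      · simp at ht
      · simp at ht
      · simp at hu
      · simp [htu])
  have h2 := palg_par O (fun k z => -z k) (Finset.univ.filter fun k => k.isRight)
    (fun k _ => O.neg k) fun i _ a _ hi z v => by rw [Function.update_of_ne hi]
  refine ⟨_, _, O.comp h2 h1, h1, fun z => ?_⟩
  funext k
  cases k <;> simp [shearM, Matrix.one_apply]

end Crest.Agent.R326
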