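import Crest.Agent.R326.PAlg
import Crest.Agent.R326.Dig

/-!
# Row 326, index permutations in coordinates (task R326-PCoord)

An index `x` has a high digit of stride `τ` and a low digit of stride `σ`, both of radix
`(3^l)^m`; their base-`3^l` digits are the coordinates `co`, everything else is `rest`.
PLAN.  `coord_ext` from `dig_ext`/`setDig_dig`/`eq_of_dig_pow`/`dig_dig`
(`x = setDig τ M (dig τ M x) (setDig σ M (dig σ M x) (rest x))`, `ZMod.val_natCast`).
For a sub-digit update `setDig (str i) (3^l) y x` prove once: `rest` is unchanged, `co i` becomes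
`y`, the other coordinates are unchanged (`dig_setDig_high/low` with `Below`-divisibility
`str_dvd`).  All `acts_*` lemmas follow.  `exists_acts`: use `exists_dig_pow` to build the new
high digit.
-/

set_option autoImplicit false

namespace Crest.Agent.R326

variable {m : ℕ}

/-- strides of the coordinates -/
def str (l σ τ : ℕ) : Fin m ⊕ Fin m → ℕ
  | .inl i => τ * (3 ^ l) ^ i.val
  | .inr j => σ * (3 ^ l) ^ j.val

/-- the coordinates of an index -/
def co (l σ τ x : ℕ) (i : Fin m ⊕ Fin m) : ZMod (3 ^ l) := (dig (str l σ τ i) (3 ^ l) x : ℕ)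

/-- the index with all coordinates set to zero -/
def rest (m l σ τ x : ℕ) : ℕ := setDig σ ((3 ^ l) ^ m) 0 (setDig τ ((3 ^ l) ^ m) 0 x)

/-- the index map `π` acts on the coordinates as `g` (at level `l`) -/
def Acts (l σ τ : ℕ) (π : ℕ → ℕ) (g : CV m → CV m) : Prop :=
  ∀ x (z : CV m), (∀ i, z i l = co l σ τ x i) →
    rest m l σ τ (π x) = rest m l σ τ x ∧ ∀ i, g z i l = co l σ τ (π x) i

/-- admissible shapes -/
def Shp (m l σ τ : ℕ) : Prop := 0 < σ ∧ 0 < τ ∧ σ * (3 ^ l) ^ m ∣ τ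

variable {l σ τ : ℕ}

theorem pc_pow_dvd (i : Fin m) : (3 ^ l) ^ i.val * 3 ^ l ∣ (3 ^ l) ^ m := by
  rw [← pow_succ]
  exact pow_dvd_pow _ i.2

theorem pc_low_dvd (h : Shp m l σ τ) (j : Fin m) : σ * (3 ^ l) ^ j.val * 3 ^ l ∣ τ := by
  rw [mul_assoc]
  exact (mul_dvd_mul_left σ (pc_pow_dvd j)).trans h.2.2

theorem pc_dig (σ x : ℕ) (i : Fin m) : dig (σ * (3 ^ l) ^ i.val) (3 ^ l) x =
    dig ((3 ^ l) ^ i.val) (3 ^ l) (dig σ ((3 ^ l) ^ m) x) := (dig_dig (pc_pow_dvd i) x).symm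

theorem pc_sub {a n b M : ℕ} (ha : 0 < a) (hn : 0 < n) (h1 : a * n ∣ b * M) (h2 : b ∣ a)
    (y y' x : ℕ) : setDig b M y' (setDig a n y x) = setDig b M y' x := by
  rw [setDig, setDig_div_of_dvd ha hn h1, setDig_mod_of_dvd h2, setDig]

theorem pc_tri (i j : Fin m ⊕ Fin m) (h : j ≠ i) : Below i j ∨ Below j i := by
  rcases i with i | i <;> rcases j with j | j <;> simp only [Below]
  · exact lt_or_gt_of_ne fun e => h (by rw [e])
  · simp
  · simp
  · exact lt_or_gt_of_ne fun e => h (by rw [e])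

theorem str_pos (h : Shp m l σ τ) (i : Fin m ⊕ Fin m) : 0 < str l σ τ i := by
  have h1 := h.1
  have h2 := h.2.1
  cases i <;> (rw [str]; positivity)

theorem str_dvd (h : Shp m l σ τ) {i j : Fin m ⊕ Fin m} (hij : Below i j) :
    str l σ τ i * 3 ^ l ∣ str l σ τ j := by
  rcases i with i | i <;> rcases j with j | j
  · rw [str, str, mul_assoc, ← pow_succ]
    exact mul_dvd_mul_left τ (pow_dvd_pow _ hij)
  · exact hij.elim
  · exact (pc_low_dvd h i).mul_right _
  · rw [str, str, mul_assoc, ← pow_succ]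
    exact mul_dvd_mul_left σ (pow_dvd_pow _ hij)

theorem str_dvd_top (h : Shp m l σ τ) (i : Fin m ⊕ Fin m) :
    str l σ τ i * 3 ^ l ∣ τ * (3 ^ l) ^ m := by
  rcases i with i | i
  · rw [str, mul_assoc]
    exact mul_dvd_mul_left τ (pc_pow_dvd i)
  · exact (pc_low_dvd h i).mul_right _

theorem coord_ext (h : Shp m l σ τ) {x x' : ℕ} (h1 : rest m l σ τ x = rest m l σ τ x')
    (h2 : ∀ i : Fin m ⊕ Fin m, co l σ τ x i = co l σ τ x' i) : x = x' := by
  have h3 : 0 < 3 ^ l := by positivity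
  have hM : 0 < (3 ^ l) ^ m := by positivity
  have key : ∀ {a : ℕ}, (∀ i : Fin m, ((dig (a * (3 ^ l) ^ i.val) (3 ^ l) x : ℕ) : ZMod (3 ^ l)) =
      (dig (a * (3 ^ l) ^ i.val) (3 ^ l) x' : ℕ)) →
      dig a ((3 ^ l) ^ m) x = dig a ((3 ^ l) ^ m) x' := by
    intro a hh
    refine eq_of_dig_pow (dig_lt hM x) (dig_lt hM x') fun i hi => ?_
    have := hh ⟨i, hi⟩
    rwa [ZMod.natCast_eq_natCast_iff', Nat.mod_eq_of_lt (dig_lt h3 _),
      Nat.mod_eq_of_lt (dig_lt h3 _), pc_dig, pc_dig] at this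
  have e : ∀ x, x = setDig τ ((3 ^ l) ^ m) (dig τ ((3 ^ l) ^ m) x)
      (setDig σ ((3 ^ l) ^ m) (dig σ ((3 ^ l) ^ m) x) (rest m l σ τ x)) := fun x => by
    rw [rest, setDig_setDig h.1 hM, setDig_comm h.1 hM h.2.1 hM h.2.2, setDig_dig h.1 hM,
      setDig_setDig h.2.1 hM, setDig_dig h.2.1 hM]
  rw [e x, e x', h1, key fun i => h2 (.inl i), key fun i => h2 (.inr i)]

theorem Acts.comp {π π' : ℕ → ℕ} {g g' : CV m → CV m} (h : Acts l σ τ π g) (h' : Acts l σ τ π' g') :
    Acts l σ τ (fun x => π (π' x)) (fun z => g (g' z)) := by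
  intro x z hz
  obtain ⟨a1, a2⟩ := h' x z hz
  obtain ⟨b1, b2⟩ := h _ _ a2
  exact ⟨b1.trans a1, b2⟩

theorem acts_id : Acts (m := m) l σ τ (fun x => x) (fun z => z) := by
  exact fun x z hz => ⟨rfl, hz⟩

theorem Acts.unique (hs : Shp m l σ τ) {π π' : ℕ → ℕ} {g : CV m → CV m} (h : Acts l σ τ π g)
    (h' : Acts l σ τ π' g) (x : ℕ) : π x = π' x := by
  let z : CV m := fun i l' => ((dig (str l σ τ i) (3 ^ l) x : ℕ) : ZMod (3 ^ l'))
  obtain ⟨a1, a2⟩ := h x z fun _ => rfl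
  obtain ⟨b1, b2⟩ := h' x z fun _ => rfl
  exact coord_ext hs (a1.trans b1.symm) fun i => (a2 i).symm.trans (b2 i)

theorem rest_setDig (hs : Shp m l σ τ) (i : Fin m ⊕ Fin m) (y x : ℕ) :
    rest m l σ τ (setDig (str l σ τ i) (3 ^ l) y x) = rest m l σ τ x := by
  have h3 : 0 < 3 ^ l := by positivity
  unfold rest
  rcases i with i | i
  · rw [pc_sub (str_pos hs _) h3 (str_dvd_top hs _) (dvd_mul_right _ _)]
  · rw [← setDig_comm (str_pos hs (.inr i)) h3 hs.2.1 (by positivity) (pc_low_dvd hs i),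
      pc_sub (str_pos hs _) h3 _ (dvd_mul_right _ _)]
    rw [str, mul_assoc]
    exact mul_dvd_mul_left σ (pc_pow_dvd i)

theorem co_setDig (hs : Shp m l σ τ) (i : Fin m ⊕ Fin m) (y x : ℕ) :
    co l σ τ (setDig (str l σ τ i) (3 ^ l) y x) =
      Function.update (co l σ τ x) i (y : ZMod (3 ^ l)) := by
  have h3 : 0 < 3 ^ l := by positivity
  funext j
  by_cases h : j = i
  · subst h
    rw [Function.update_self, co, dig_setDig (str_pos hs _) h3, ZMod.natCast_mod]
  · rw [Function.update_of_ne h, co, co]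
    rcases pc_tri i j h with h | h
    · rw [dig_setDig_high (str_pos hs _) h3 (str_dvd hs h)]
    · rw [dig_setDig_low (str_dvd hs h)]

theorem acts_upd (hs : Shp m l σ τ) (i : Fin m ⊕ Fin m) (f : CV m → TT) (y : ℕ → ℕ)
    (h : ∀ x (z : CV m), (∀ i, z i l = co l σ τ x i) → f z l = (y x : ZMod (3 ^ l))) :
    Acts l σ τ (fun x => setDig (str l σ τ i) (3 ^ l) (y x) x)
      (fun z => Function.update z i (f z)) := by
  intro x z hz
  refine ⟨rest_setDig hs i _ x, fun j => ?_⟩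
  rw [co_setDig hs]
  by_cases e : j = i
  · subst e
    simp only [Function.update_self]
    exact h x z hz
  · simp only [Function.update_of_ne e]
    exact hz j

theorem exists_acts (hs : Shp m l σ τ) (N : Matrix (Fin m) (Fin m) TT) :
    ∃ π, Acts l σ τ π (shearM N) := by
  have h3 : 0 < 3 ^ l := by positivity
  have hM : 0 < (3 ^ l) ^ m := by positivity
  haveI : NeZero (3 ^ l) := ⟨h3.ne'⟩
  choose D h1 h2 using fun x : ℕ => exists_dig_pow h3 m fun i => if h : i < m then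
    (co l σ τ x (.inl ⟨i, h⟩ : Fin m ⊕ Fin m) +
      ∑ j, N ⟨i, h⟩ j l * co l σ τ x (.inr j : Fin m ⊕ Fin m)).val else 0
  refine ⟨fun x => setDig τ ((3 ^ l) ^ m) (D x) x, fun x z hz => ⟨?_, fun i => ?_⟩⟩
  · simp only [rest]
    rw [setDig_setDig hs.2.1 hM]
  · rcases i with i | i
    · simp only [co, str]
      rw [pc_dig, dig_setDig hs.2.1 hM, Nat.mod_eq_of_lt (h1 x), h2 x i i.2, dif_pos i.2,
        ZMod.natCast_mod, ZMod.natCast_zmod_val]
      simp only [shearM, Sum.elim_inl, Pi.add_apply, Finset.sum_apply, Pi.mul_apply, hz]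
    · simp only [co, str]
      rw [dig_setDig_low (pc_low_dvd hs i)]
      exact hz _

theorem acts_shear (hs : Shp m l σ τ) (i j : Fin m ⊕ Fin m) (c : TT) :
    Acts l σ τ (shr (str l σ τ i) (3 ^ l) (str l σ τ j) (3 ^ l) fun u => u * (c l).val % 3 ^ l)
      (fun z => Function.update z i (z i + c * z j)) := by
  haveI : NeZero (3 ^ l) := ⟨by positivity⟩
  refine acts_upd hs i (fun z => z i + c * z j) _ fun x z hz => ?_
  rw [Nat.cast_add, ZMod.natCast_mod, Nat.cast_mul, ZMod.natCast_zmod_val, Pi.add_apply,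
    Pi.mul_apply, hz, hz, mul_comm]
  rfl

theorem acts_mul (hs : Shp m l σ τ) (i : Fin m ⊕ Fin m) (c : TT) (u : ℕ)
    (hu : (u : ZMod (3 ^ l)) = c l) :
    Acts l σ τ (mulD (str l σ τ i) (3 ^ l) u) (fun z => Function.update z i (c * z i)) := by
  refine acts_upd hs i (fun z => c * z i) _ fun x z hz => ?_
  rw [Nat.cast_mul, hu, Pi.mul_apply, hz]
  rfl

theorem acts_swap (hs : Shp m l σ τ) (i j : Fin m) :
    Acts l σ τ (swp (str l σ τ (.inr j : Fin m ⊕ Fin m)) (str l σ τ (.inl i : Fin m ⊕ Fin m)) (3 ^ l))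
      (fun z => z ∘ Equiv.swap (Sum.inl i) (Sum.inr j)) := by
  intro x z hz
  refine ⟨by rw [swp, rest_setDig hs, rest_setDig hs], fun i' => ?_⟩
  simp only [Function.comp_apply]
  rw [swp, co_setDig hs, co_setDig hs, hz, Equiv.swap_comm]
  exact congrFun (Equiv.comp_swap_eq_update _ _ (co l σ τ x)) i'

theorem acts_swapAll (hs : Shp m l σ τ) :
    Acts (m := m) l σ τ (swp σ τ ((3 ^ l) ^ m)) (fun z => z ∘ Sum.swap) := by
  have hM : 0 < (3 ^ l) ^ m := by positivity
  intro x z hz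
  refine ⟨?_, fun i => ?_⟩
  · rw [rest, swp, ← setDig_comm hs.1 hM hs.2.1 hM hs.2.2, setDig_setDig hs.1 hM,
      setDig_setDig hs.2.1 hM, rest]
  · simp only [Function.comp_apply]
    rw [hz]
    rcases i with i | i
    · simp only [co, str, Sum.swap_inl]
      rw [pc_dig, pc_dig τ, dig_swp_high hs.1 hM hs.2.1 hs.2.2]
    · simp only [co, str, Sum.swap_inr]
      rw [pc_dig, pc_dig σ, dig_swp_low hs.1 hM]

end Crest.Agent.R326
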