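import Crest.Agent.R326.Net
import Crest.Agent.R326.PAlg
import Crest.Agent.R324.Shear

/-!
# Row 326, the network for the transposition (task R326-PNet)

PLAN.  Instantiate `network` with `k = ZMod 2`, `I = K := Option (Fin 22)` (`h2 = 21`),
`Tr := R324.Tri (Fin 22)` (`v = 1540`, cf. `R324.card_tri16`), `Jc = Fin 22`,
`o S T := (S ∩ T).card = 1`, `r0 = 1`, frames `F = Matrix (K×K×K) (K×K×K) TT` acting through
`ρ (N.submatrix e e)` for an equivalence `e : Fin 12167 ≃ K×K×K` (`Fintype.equivFinOfCardEq`),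
`A := {p : (K → TT) × (K → TT) // DyV p.1 ∧ DyV p.2}`, `mat p := vecMulVec p.1 p.2`,
`ev j = (e_j, e_j)`, `uv S = (th • u_S, u'_S)` with `u_S = (1_S, 1)`, `u'_S = (1_S, -1)`
(`none` is the extra coordinate `*`), `w a b c (i,j,k) (i',j',k') = mat a i i' * mat b j j' *
mat c k k'` (`= vecMulVec` of the tensor products, whose entries are `0` or `Dy`; `-w` has the
first vector negated), `Cl Φ := ∃ Ψ : Matrix K K TT →+ F, ∀ a, Φ a = Ψ (mat a)`.
* `Σ_j mat (ev j) = 1`; `u'_S · u_T = |S ∩ T| - 1` for `S ≠ T` or in general `u'_S·u_T = |S∩T|-1`,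
  so `φ_S = mat (uv S)` is idempotent and `φ_S φ_T = 0` if `o S T`.
* (A) `E = 1 - φ_S` kills `u_S`, hence `E = Σ_{j ≠ *} (E e_j) (e_j - [j ∈ S] e_*)ᵀ` (22 terms;
  the entries of `E` are `0, 1, ±th`; note `1 - th = th`).
* (B) `E = 1 - φ_S - φ_T`, `S ∩ T = {j0}`, kills `u_S` and `u_T`; pick `j1 ∈ S \ T`; then
  `E e_* = -Σ_{j∈T} E e_j` and `E e_{j1} = Σ_{j∈T} E e_j - Σ_{j ∈ S, j≠j1} E e_j`, so
  `E = Σ_{j ≠ *, j1} (E e_j) (e_j - [j∈T] e_* + ([j∈T] - [j∈S]) e_{j1})ᵀ` (21 terms; the entries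
  of `E` lie in `{0, ±1, ±th}`, those of the second vectors in `{0, ±1}`).
* `tri` over `ZMod 2` (`-1 = 1`): `B = 1`, `Q T j = [j ∈ T]`, `Pm j S = [j ∈ S]`; the coefficient of
  `x S` is `[|S∩T| = 1] + |S∩T|`, which is `1` for `S = T` and `0` otherwise.
* `mv_fin`: `w + w` is rank one (double the first vector).
* `W = card (Wire ..)`, `r = W * 12167 - 22 * 1540^2`; use `card_wire`; transport the wires along
  `Fintype.equivFin`.  Never let Lean evaluate `W`.
-/

set_option autoImplicit false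

namespace Crest.Agent.R326

/-- number of sub-digits in one recursion step of the transposition -/
def mP : ℕ := 12167

namespace PNetA

open Crest.Agent.R324 (Tri)
open Matrix

/-- zero or a dyadic unit -/
def D0 (c : TT) : Prop := c = 0 ∨ Dy c

theorem D0.zero : D0 0 := Or.inl rfl
theorem D0.one : D0 1 := Or.inr Dy.one
theorem D0.neg {c : TT} (h : D0 c) : D0 (-c) := h.imp (fun h => by simp [h]) Dy.neg
theorem D0.mul {c d : TT} (h : D0 c) (h' : D0 d) : D0 (c * d) := by
  rcases h with rfl | h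
  · exact Or.inl (zero_mul _)
  · exact h'.imp (fun h => by simp [h]) h.mul
theorem D0.th : D0 th := Or.inr (by simpa using Dy.one.half)
theorem D0.two : D0 2 := Or.inr (by simpa using Dy.one.dbl)
theorem D0.of_eq {c d : TT} (h : D0 c) (e : d = c) : D0 d := e ▸ h

/-- indicator -/
def ind (p : Prop) [Decidable p] : TT := if p then 1 else 0

theorem D0.ind (p : Prop) [Decidable p] : D0 (ind p) := by
  unfold PNetA.ind
  split_ifs
  exacts [D0.one, D0.zero]

variable {J : Type} [Fintype J] [DecidableEq J]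

/-- pairs of dyadic vectors -/
abbrev AA (J : Type) : Type := {p : (Option J → TT) × (Option J → TT) // DyV p.1 ∧ DyV p.2}

/-- the rank one matrix of a pair -/
def mat (a : AA J) : Matrix (Option J) (Option J) TT := vecMulVec a.1.1 a.1.2

/-- `(1_S, ε)` -/
def uu (ε : TT) (S : Finset J) (i : Option J) : TT := i.elim ε fun j => ind (j ∈ S)

omit [Fintype J] in
theorem uu_D0 {ε : TT} (h : D0 ε) (S : Finset J) (i : Option J) : D0 (uu ε S i) := by
  cases i
  exacts [h, D0.ind _]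

/-- basis projections -/
def ev (i : Option J) : AA J :=
  ⟨(fun j => ind (j = i), fun j => ind (j = i)), fun _ => D0.ind _, fun _ => D0.ind _⟩

/-- the projection attached to a triple -/
def uv (S : Finset J) : AA J :=
  ⟨(fun i => th * uu 1 S i, uu (-1) S), fun i => D0.th.mul (uu_D0 D0.one S i),
    uu_D0 D0.one.neg S⟩

/-- tensor product of three vectors -/
def t3 {K : Type} (a b c : K → TT) (p : K × K × K) : TT := a p.1 * b p.2.1 * c p.2.2

theorem t3_dy {K : Type} {a b c : K → TT} (ha : DyV a) (hb : DyV b) (hc : DyV c) :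
    DyV (t3 a b c) := fun p => D0.mul (D0.mul (ha p.1) (hb p.2.1)) (hc p.2.2)

/-- frames -/
abbrev FF (J : Type) : Type :=
  Matrix (Option J × Option J × Option J) (Option J × Option J × Option J) TT

/-- tensor product of three rank one matrices -/
def ww (a b c : AA J) : FF J := vecMulVec (t3 a.1.1 b.1.1 c.1.1) (t3 a.1.2 b.1.2 c.1.2)

/-- maps that factor additively through `mat` -/
def Cl (Φ : AA J → FF J) : Prop :=
  ∃ Ψ : Matrix (Option J) (Option J) TT →+ FF J, ∀ a, Φ a = Ψ (mat a)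

theorem sum_ev : ∑ i : Option J, mat (ev i) = 1 := by
  ext i j : 1
  rw [Matrix.sum_apply, Finset.sum_eq_single i (fun b _ hb => by
    simp [mat, ev, vecMulVec_apply, ind, hb.symm]) (by simp)]
  simp [mat, ev, vecMulVec_apply, ind, one_apply, eq_comm]

theorem sum_ww : ∑ i : Option J, ∑ j, ∑ l, ww (ev i) (ev j) (ev l) = 1 := by
  ext p p' : 1
  obtain ⟨a, b, c⟩ := p
  obtain ⟨a', b', c'⟩ := p'
  simp only [Matrix.sum_apply]
  rw [Finset.sum_eq_single a (fun i _ hi => by
      simp [ww, t3, ev, vecMulVec_apply, ind, hi.symm]) (by simp),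
    Finset.sum_eq_single b (fun i _ hi => by
      simp [ww, t3, ev, vecMulVec_apply, ind, hi.symm]) (by simp),
    Finset.sum_eq_single c (fun i _ hi => by
      simp [ww, t3, ev, vecMulVec_apply, ind, hi.symm]) (by simp)]
  simp only [ww, t3, ev, vecMulVec_apply, ind, one_apply, Prod.mk.injEq, if_true, eq_comm (a := a'),
    eq_comm (a := b'), eq_comm (a := c')]
  by_cases h1 : a = a' <;> by_cases h2 : b = b' <;> by_cases h3 : c = c' <;> simp [h1, h2, h3]

/-- `E u_T` -/
def kl (E : Matrix (Option J) (Option J) TT) (T : Finset J) (i : Option J) : TT :=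
  E i none + ∑ j, E i (some j) * ind (j ∈ T)

theorem kl_sub (E E' : Matrix (Option J) (Option J) TT) (T : Finset J) (i : Option J) :
    kl (E - E') T i = kl E T i - kl E' T i := by
  simp only [kl, Matrix.sub_apply, sub_mul, Finset.sum_sub_distrib]
  ring

theorem kl_one (T : Finset J) (i : Option J) : kl 1 T i = uu 1 T i := by
  cases i <;> simp [kl, uu, one_apply]

theorem kl_uv (S T : Finset J) (i : Option J) :
    kl (mat (uv S)) T i = th * uu 1 S i * (((S ∩ T).card : TT) - 1) := by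
  have : ∀ j, ind (j ∈ S) * ind (j ∈ T) = if j ∈ S ∩ T then 1 else 0 := fun j => by
    by_cases a : j ∈ S <;> by_cases b : j ∈ T <;> simp [ind, a, b]
  simp only [kl, mat, uv, vecMulVec_apply, uu, Option.elim_none, Option.elim_some, mul_assoc,
    ← Finset.mul_sum, this, Finset.sum_boole]
  rw [Finset.filter_mem_eq_inter, Finset.univ_inter]
  ring

theorem kl_self {S : Finset J} (hS : S.card = 3) (i : Option J) :
    kl (mat (uv S)) S i = uu 1 S i := by
  rw [kl_uv, Finset.inter_self, hS]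
  push_cast
  linear_combination uu 1 S i * two_mul_th

omit [Fintype J] in
theorem col_D0 (S T : Finset J) (i : Option J) (j : J) :
    D0 ((1 - mat (uv S) - mat (uv T)) i (some j)) := by
  have h := two_mul_th
  simp only [Matrix.sub_apply, mat, uv, vecMulVec_apply, uu, Option.elim_some, one_apply]
  split_ifs with hi
  · subst hi
    by_cases a : j ∈ S <;> by_cases b : j ∈ T <;> simp only [Option.elim_some, ind, a, b, if_true,
      if_false]
    · exact D0.zero.of_eq (by linear_combination -h)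
    · exact D0.th.of_eq (by linear_combination -h)
    · exact D0.th.of_eq (by linear_combination -h)
    · exact D0.one.of_eq (by ring)
  · have k : ∀ (S : Finset J), (i.elim 1 fun j => ind (j ∈ S)) * ind (j ∈ S) = 0 ∨
        (i.elim 1 fun j => ind (j ∈ S)) * ind (j ∈ S) = 1 := fun S => by
      cases i <;> simp only [Option.elim, ind] <;> split_ifs <;> simp
    rw [mul_assoc, mul_assoc]
    rcases k S with a | a <;> rcases k T with b | b <;> rw [a, b]
    · exact D0.zero.of_eq (by ring)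
    · exact D0.th.neg.of_eq (by ring)
    · exact D0.th.neg.of_eq (by ring)
    · exact D0.one.neg.of_eq (by linear_combination -h)

omit [Fintype J] in
theorem col_D0' (S : Finset J) (i : Option J) (j : J) : D0 ((1 - mat (uv S)) i (some j)) :=
  (col_D0 S ∅ i j).of_eq (by simp [mat, uv, vecMulVec_apply, uu, ind])

variable {M : Type} [AddCommGroup M] [Module (ZMod 2) M] {Y : Sys (ZMod 2) M}
  {ρ : FF J → M →ₗ[ZMod 2] M} (h0 : ∀ x, ρ 0 x = x) (ha : ∀ a b x, ρ (a + b) x = ρ a (ρ b x))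
  {Ψ : Matrix (Option J) (Option J) TT →+ FF J} {r : ℕ}

omit [Fintype J] [DecidableEq J] in
include h0 ha in
theorem mv_dec (hr : ∀ a, Y.Mv ρ r (Ψ (mat a))) (E : Matrix (Option J) (Option J) TT)
    (s : Finset J) (b : J → Option J → TT) (h1 : ∀ i j, D0 (E i (some j))) (h2 : ∀ j i, D0 (b j i))
    (hE : ∀ i i', E i i' = ∑ j ∈ s, E i (some j) * b j i') : Y.Mv ρ (s.card * r) (Ψ E) := by
  refine (Sys.Mv.sum h0 ha s fun j _ =>
    hr ⟨(fun i => E i (some j), b j), fun i => h1 i j, h2 j⟩).congr rfl ?_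
  rw [← map_sum]
  congr 1
  ext i i' : 1
  rw [Matrix.sum_apply, hE]
  rfl

include h0 ha in
theorem mv_A (hr : ∀ a, Y.Mv ρ r (Ψ (mat a))) {S : Finset J} (hS : S.card = 3) :
    Y.Mv ρ (Fintype.card J * r) (Ψ (1 - mat (uv S))) := by
  refine mv_dec h0 ha hr _ Finset.univ (fun j i => i.elim (-ind (j ∈ S)) fun j' => ind (j' = j))
    (col_D0' S) (fun j i => ?_) fun i i' => ?_
  · cases i
    exacts [(D0.ind _).neg, D0.ind _]
  · have k : kl (1 - mat (uv S)) S i = 0 := by rw [kl_sub, kl_one, kl_self hS, sub_self]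
    generalize 1 - mat (uv S) = E at k ⊢
    cases i'
    · simp only [Option.elim_none, mul_neg, Finset.sum_neg_distrib]
      exact eq_neg_of_add_eq_zero_left k
    · simp [ind]

include h0 ha in
theorem mv_B (hr : ∀ a, Y.Mv ρ r (Ψ (mat a))) {S T : Finset J} (hS : S.card = 3) (hT : T.card = 3)
    (ho : (S ∩ T).card = 1) :
    Y.Mv ρ ((Fintype.card J - 1) * r) (Ψ (1 - mat (uv S) - mat (uv T))) := by
  obtain ⟨j1, hj⟩ := Finset.card_pos.1 (show 0 < (S \ T).card by
    have := Finset.card_sdiff_add_card_inter S T; omega)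
  rw [Finset.mem_sdiff] at hj
  refine (mv_dec h0 ha hr _ (Finset.univ.erase j1) (fun j i => i.elim (-ind (j ∈ T)) fun j' =>
    if j' = j1 then ind (j ∈ T) - ind (j ∈ S) else ind (j' = j))
    (col_D0 S T) (fun j i => ?_) fun i i' => ?_).congr
    (by rw [Finset.card_erase_of_mem (Finset.mem_univ _), Finset.card_univ]) rfl
  · cases i
    · exact (D0.ind _).neg
    · simp only [Option.elim_some]
      split_ifs
      · by_cases a : j ∈ S <;> by_cases b : j ∈ T <;> simp only [ind, a, b, if_true, if_false]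
        · exact D0.zero.of_eq (by ring)
        · exact D0.one.neg.of_eq (by ring)
        · exact D0.one.of_eq (by ring)
        · exact D0.zero.of_eq (by ring)
      · exact D0.ind _
  · have k1 : kl (1 - mat (uv S) - mat (uv T)) S i = 0 := by
      rw [kl_sub, kl_sub, kl_one, kl_self hS, kl_uv, Finset.inter_comm, ho]
      simp
    have k2 : kl (1 - mat (uv S) - mat (uv T)) T i = 0 := by
      rw [kl_sub, kl_sub, kl_one, kl_self hT, kl_uv, ho]
      simp
    generalize 1 - mat (uv S) - mat (uv T) = E at k1 k2 ⊢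
    rw [kl, ← Finset.add_sum_erase _ _ (Finset.mem_univ j1)] at k1 k2
    rw [ind, if_pos hj.1] at k1
    rw [ind, if_neg hj.2] at k2
    rcases i' with _ | j'
    · simp only [Option.elim_none, mul_neg, Finset.sum_neg_distrib]
      linear_combination k2
    · simp only [Option.elim_some]
      split_ifs with h
      · subst h
        simp only [mul_sub, Finset.sum_sub_distrib]
        linear_combination k1 - k2
      · simp [ind, h]

theorem inter_card {S T : Tri J} (h : S ≠ T) : (S.1 ∩ T.1).card ≤ 2 := by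
  have h2 : (S.1 ∩ T.1).card ≤ 3 := (Finset.card_le_card Finset.inter_subset_left).trans S.2.le
  have h3 : (S.1 ∩ T.1).card ≠ 3 := fun h' => h (Subtype.ext (by
    have a := Finset.eq_of_subset_of_card_le (Finset.inter_subset_left (s₁ := S.1) (s₂ := T.1))
      (by rw [h', S.2])
    have b := Finset.eq_of_subset_of_card_le (Finset.inter_subset_right (s₁ := S.1) (s₂ := T.1))
      (by rw [h', T.2])
    rw [← a, b]))
  omega

/-- orthogonality -/
def oo (S T : Tri J) : Prop := (S.1 ∩ T.1).card = 1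

instance (S T : Tri J) : Decidable (oo S T) := by unfold oo; infer_instance

theorem tri_id (x : Tri J → M) (y : M) (T : Tri J) :
    y + ∑ S ∈ Finset.univ.filter (oo · T), (1 : ZMod 2) • x S +
      ∑ j : J, (if j ∈ T.1 then 1 else 0 : ZMod 2) •
        ∑ S : Tri J, (if j ∈ S.1 then 1 else 0 : ZMod 2) • x S = y + (1 : ZMod 2) • x T := by
  have h1 : ∑ j : J, (if j ∈ T.1 then 1 else 0 : ZMod 2) •
        ∑ S : Tri J, (if j ∈ S.1 then 1 else 0 : ZMod 2) • x S
      = ∑ S : Tri J, ((S.1 ∩ T.1).card : ZMod 2) • x S := by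
    simp only [Finset.smul_sum, smul_smul]
    rw [Finset.sum_comm]
    refine Finset.sum_congr rfl fun S _ => ?_
    rw [← Finset.sum_smul]
    congr 1
    have : ∀ j, (if j ∈ T.1 then 1 else 0) * (if j ∈ S.1 then 1 else 0 : ZMod 2)
        = (if j ∈ S.1 ∩ T.1 then 1 else 0) := by
      intro j
      by_cases a : j ∈ T.1 <;> by_cases b : j ∈ S.1 <;> simp [a, b]
    simp only [this, Finset.sum_boole]
    rw [Finset.filter_mem_eq_inter, Finset.univ_inter]
  rw [h1, add_assoc, Finset.sum_filter, ← Finset.sum_add_distrib, Finset.sum_eq_single T]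
  · have : ¬ oo T T := by simp [oo, T.2]
    rw [if_neg this, Finset.inter_self, T.2, zero_add]
    rfl
  · intro S _ hST
    split_ifs with ho
    · rw [← add_smul, show (S.1 ∩ T.1).card = 1 from ho,
        show (1 + ((1 : ℕ) : ZMod 2)) = 0 from rfl, zero_smul]
    · have h3 := inter_card hST
      have h4 : (S.1 ∩ T.1).card = 0 ∨ (S.1 ∩ T.1).card = 2 := by unfold oo at ho; omega
      rcases h4 with h4 | h4
      · simp [h4]
      · rw [h4, show ((2 : ℕ) : ZMod 2) = 0 from rfl, zero_smul, add_zero]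
  · simp

omit [Fintype J] [DecidableEq J] in
theorem mv_one (h1 : ∀ a b, DyV a → DyV b → Y.Op 1 (ρ (vecMulVec a b)))
    {a b : Option J × Option J × Option J → TT} (ha : DyV a) (hb : DyV b) :
    Y.Mv ρ 1 (vecMulVec a b) := by
  refine ⟨h1 a b ha hb, ?_⟩
  rw [← neg_vecMulVec]
  exact h1 _ _ (fun i => D0.neg (ha i)) hb

/-- the network data -/
def data {n : ℕ} (hJ : Fintype.card J = n + 1) (ρ : FF J → M →ₗ[ZMod 2] M) (h0 : ∀ x, ρ 0 x = x)
    (ha : ∀ a b x, ρ (a + b) x = ρ a (ρ b x))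
    (h1 : ∀ a b, DyV a → DyV b → Y.Op 1 (ρ (vecMulVec a b))) :
    NetData Y (FF J) (AA J) (Option J) (Tri J) J oo where
  ρ := ρ
  ρ_zero := h0
  ρ_add := ha
  ev := ev
  uv S := uv S.1
  w := ww
  Cl := Cl
  cl_sub := by
    rintro _ _ ⟨Ψ, h⟩ ⟨Ψ', h'⟩
    exact ⟨Ψ - Ψ', fun a => by simp [h, h']⟩
  cl_sum Φ h := by
    choose Ψ h using h
    exact ⟨∑ i, Ψ i, fun a => by simp [h]⟩
  cl1 b c := ⟨AddMonoidHom.mk' (fun N => of fun p p' =>
      N p.1 p'.1 * (mat b p.2.1 p'.2.1 * mat c p.2.2 p'.2.2))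
      fun _ _ => by ext p p' : 1; simp [add_mul],
    fun a => by ext p p' : 1; simp [ww, mat, t3, vecMulVec_apply]; ring⟩
  cl2 a c := ⟨AddMonoidHom.mk' (fun N => of fun p p' =>
      N p.2.1 p'.2.1 * (mat a p.1 p'.1 * mat c p.2.2 p'.2.2))
      fun _ _ => by ext p p' : 1; simp [add_mul],
    fun a => by ext p p' : 1; simp [ww, mat, t3, vecMulVec_apply]; ring⟩
  cl3 a b := ⟨AddMonoidHom.mk' (fun N => of fun p p' =>
      N p.2.2 p'.2.2 * (mat a p.1 p'.1 * mat b p.2.1 p'.2.1))
      fun _ _ => by ext p p' : 1; simp [add_mul],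
    fun a => by ext p p' : 1; simp [ww, mat, t3, vecMulVec_apply]; ring⟩
  h2 := n
  card_I := by rw [Fintype.card_option, hJ]
  r0 := 1
  mv_w a b c := mv_one h1 (t3_dy a.2.1 b.2.1 c.2.1) (t3_dy a.2.2 b.2.2 c.2.2)
  mv_A := by
    rintro Φ r ⟨Ψ, h⟩ hr S
    simp only [h] at hr ⊢
    exact (mv_A h0 ha hr S.2).congr (by rw [hJ]) (by rw [← map_sum, sum_ev, map_sub])
  mv_B := by
    rintro Φ r ⟨Ψ, h⟩ hr S T ho
    simp only [h] at hr ⊢
    exact (mv_B h0 ha hr S.2 T.2 ho).congr (by rw [hJ, Nat.add_sub_cancel])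
      (by rw [← map_sum, sum_ev, map_sub, map_sub])
  mv_fin S T R := by
    refine (mv_one h1 (a := fun p => 2 * t3 _ _ _ p) (fun p => D0.two.mul
      (t3_dy (uv S.1).2.1 (uv T.1).2.1 (uv R.1).2.1 p))
      (t3_dy (uv S.1).2.2 (uv T.1).2.2 (uv R.1).2.2)).congr rfl ?_
    ext p p' : 1
    simp only [ww, vecMulVec_apply, Matrix.add_apply]
    ring
  tri σ hσ := by
    have hs : σ = 1 := hσ.elim id id
    have hi : ∀ (p : Prop) [Decidable p], (if p then 1 else 0 : ZMod 2) ∈ Y.Sc := fun p _ => by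
      split_ifs
      exacts [Y.Sc.one_mem, Y.Sc.zero_mem]
    subst hs
    exact ⟨_, _, _, fun S T => Y.Sc.one_mem, fun T j => hi _, fun j S => hi _, tri_id⟩

theorem net0 [Nonempty (Tri J)] {n : ℕ} (hJ : Fintype.card J = n + 1) (ρ : FF J → M →ₗ[ZMod 2] M)
    (h0 : ∀ x, ρ 0 x = x) (ha : ∀ a b x, ρ (a + b) x = ρ a (ρ b x))
    (h1 : ∀ a b, DyV a → DyV b → Y.Op 1 (ρ (vecMulVec a b))) {W R : ℕ}
    (hW : Fintype.card (Wire (Tri J) oo) = W)
    (hR : W * (Fintype.card J + 1) ^ 3 + Fintype.card (Tri J) ^ 3 + 3 * Fintype.card (Tri J) ^ 2 *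
      (Fintype.card J + 1) * Fintype.card J ≤ R + 2 * Fintype.card (Tri J) ^ 3)
    (x : Fin W → M) {r : ℕ} (hx : Y.Av r (Set.range x)) :
    Y.Av (r + R) (Set.range fun j => ρ 1 (x j)) := by
  let ew := Fintype.equivFinOfCardEq hW
  refine Y.mono (network (data hJ ρ h0 ha h1) R
    (by rw [hW, Fintype.card_option]; simpa [data] using hR) (x ∘ ew) (r := r)
    (by rwa [ew.surjective.range_comp])) le_rfl ?_
  rintro _ ⟨j, rfl⟩
  obtain ⟨i, rfl⟩ := ew.surjective j
  rw [← sum_ww]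
  exact ⟨i, rfl⟩

theorem card_tri : Fintype.card (Tri (Fin 22)) = 1540 := by
  rw [Fintype.card_finset_len, Fintype.card_fin]; rfl

end PNetA

open PNetA in
theorem exists_pnet : ∃ W r : ℕ, 2 ≤ W ∧ W ≤ mP ^ 4 ∧ (r : ℝ) ≤ (mP - 3 / 10 ^ 6) * W ∧
    ∀ (M : Type) [AddCommGroup M] [Module (ZMod 2) M] (Y : Sys (ZMod 2) M)
      (ρ : Matrix (Fin mP) (Fin mP) TT → M →ₗ[ZMod 2] M), (∀ x, ρ 0 x = x) →
      (∀ a b x, ρ (a + b) x = ρ a (ρ b x)) →
      (∀ a b : Fin mP → TT, DyV a → DyV b → Y.Op 1 (ρ (Matrix.vecMulVec a b))) →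
      ∀ (x : Fin W → M) (r0 : ℕ), Y.Av r0 (Set.range x) →
        Y.Av (r0 + r) (Set.range fun j => ρ 1 (x j)) := by
  obtain ⟨W, hW⟩ : ∃ W, Fintype.card (Wire (R324.Tri (Fin 22)) oo) = W := ⟨_, rfl⟩
  obtain ⟨w1, w2⟩ := card_wire (R324.Tri (Fin 22)) oo
  rw [hW, card_tri] at w1 w2
  obtain ⟨r, hr⟩ : ∃ r, r + 22 * 1540 ^ 2 = W * 12167 := ⟨W * 12167 - 22 * 1540 ^ 2, by omega⟩
  refine ⟨W, r, by omega, by unfold mP; omega, ?_, fun M _ _ Y ρ h0 ha h1 x r0 hx => ?_⟩
  · have a1 : (r : ℝ) + 22 * 1540 ^ 2 = W * 12167 := by exact_mod_cast hr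
    have a2 : (W : ℝ) ≤ 2 * 1540 ^ 3 + 3 * 1540 ^ 4 := by exact_mod_cast w2
    unfold mP
    push_cast
    linarith
  · let e : Option (Fin 22) × Option (Fin 22) × Option (Fin 22) ≃ Fin mP :=
      Fintype.equivFinOfCardEq (by simp [mP])
    haveI : Nonempty (R324.Tri (Fin 22)) := Fintype.card_pos_iff.1 (by rw [card_tri]; norm_num)
    have key := net0 (n := 21) (J := Fin 22) (by simp)
      (fun N => ρ (N.submatrix e.symm e.symm)) h0 (fun a b x => ha _ _ x)
      (fun a b ha hb => h1 (a ∘ e.symm) (b ∘ e.symm) (fun i => ha _) fun i => hb _) hW (R := r)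
      (by rw [card_tri, Fintype.card_fin]; omega) x hx
    simpa only [Matrix.submatrix_one_equiv] using key

/-- number of registers -/
noncomputable def WP : ℕ := exists_pnet.choose
/-- number of recursive calls -/
noncomputable def rP : ℕ := exists_pnet.choose_spec.choose

theorem two_le_WP : 2 ≤ WP := exists_pnet.choose_spec.choose_spec.1
theorem WP_le : WP ≤ mP ^ 4 := exists_pnet.choose_spec.choose_spec.2.1
theorem rP_le : (rP : ℝ) ≤ (mP - 3 / 10 ^ 6) * WP := exists_pnet.choose_spec.choose_spec.2.2.1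

theorem pnet {M : Type} [AddCommGroup M] [Module (ZMod 2) M] (Y : Sys (ZMod 2) M)
    (ρ : Matrix (Fin mP) (Fin mP) TT → M →ₗ[ZMod 2] M) (h0 : ∀ x, ρ 0 x = x)
    (ha : ∀ a b x, ρ (a + b) x = ρ a (ρ b x))
    (h1 : ∀ a b : Fin mP → TT, DyV a → DyV b → Y.Op 1 (ρ (Matrix.vecMulVec a b)))
    (x : Fin WP → M) (r0 : ℕ) (hx : Y.Av r0 (Set.range x)) :
    Y.Av (r0 + rP) (Set.range fun j => ρ 1 (x j)) :=
  exists_pnet.choose_spec.choose_spec.2.2.2 M Y ρ h0 ha h1 x r0 hx

end Crest.Agent.R326
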