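import Crest.Agent.R326.Net
import Crest.Agent.R324.Net

/-!
# Row 326, the network for the tensor passes (task R326-TNet)

PLAN.  Instantiate `network` with `I = Fin 16` (`h2 = 14`), `Tr = R324.Tri I` (`v = 560`,
`R324.card_tri16`), `o = R324.orth`, `Jc = Option I` (17 central wires), `r0 = 0`,
`A = I → ZMod 2`, `ev = R324.ev`, `uv S = R324.uv S.1`, `w = R324.w3`,
`F = (I×I×I → ZMod 2) → ZMod 4` acting through `ρ (fun ξ => σ (ξ ∘ e.symm))`-type transport along
`e : Fin 4096 ≃ I×I×I` (`q a` goes to `q (a ∘ e)`, `tau` likewise: `Equiv.sum_comp` in `dot`).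
`Cl` = `Quad` of `R324/Shear.lean` (four-term relation up to a free move); port `mv_q`,
`mv_tau`, `mv_two_q`, `mv_four` (`R324/Sym.lean`), `quad_q`, `Quad.sub/sum`, `mv_ins`, `mv_rest`,
`mv_A`, `mv_B` to `Sys.Mv` (costs in `ℕ`), and `F3_eq`.
`tri`: as `R324.tri_id` but WITHOUT `1/3`: `B S T = -σ (|S∩T| - 1) hf`,
`Pm (some j) S = [j ∈ S]`, `Pm none S = 1`, `Q T (some j) = σ hf [j ∈ T]`, `Q T none = -σ hf`, so
the central wires contribute `σ hf (|S∩T| - 1)` (`= σ` for `S = T`, `0` if `|S∩T| = 1`).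
`W = card (Wire ..)`, `r = W * 4096 - 304 * 560^2`.  Never let Lean evaluate `W`.
-/

set_option autoImplicit false

namespace Crest.Agent.R326

open Crest.Agent.R324 (q tau)

/-- number of units merged in one recursion step -/
def mT : ℕ := 4096

namespace TNetA

open Crest.Agent.R324 (lift dot dot_add ev uv Tri orth t3 w3 F3 F3_eq exists_notMem)

variable {k M : Type} [CommRing k] [AddCommGroup M] [Module k M] {Y : Sys k M}

section Sym

variable {J : Type} [Fintype J] [DecidableEq J] {ρ : ((J → ZMod 2) → ZMod 4) → M →ₗ[k] M}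

omit [DecidableEq J] in
theorem mv_tau (ht : ∀ a, Y.Op 0 (ρ (tau a))) (a : J → ZMod 2) : Y.Mv ρ 0 (tau a) := by
  have : -tau a = tau a := by
    ext ξ
    have : ∀ b, -(2 * lift b) = 2 * lift b := by decide
    exact this _
  unfold Sys.Mv
  rw [this]
  exact ⟨ht a, ht a⟩

omit [DecidableEq J] in
theorem mv_q (ha : ∀ a b x, ρ (a + b) x = ρ a (ρ b x)) (hq : ∀ a, Y.Op 1 (ρ (q a)))
    (ht : ∀ a, Y.Op 0 (ρ (tau a))) (a : J → ZMod 2) : Y.Mv ρ 1 (q a) := by
  have : -q a = q a + tau a := by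
    ext ξ
    have : ∀ b, -lift b = lift b + 2 * lift b := by decide
    exact this _
  unfold Sys.Mv
  rw [this, show ⇑(ρ (q a + tau a)) = fun x => ρ (q a) (ρ (tau a) x) from funext (ha _ _)]
  exact ⟨hq a, (hq a).comp (ht a)⟩

omit [DecidableEq J] in
theorem mv_two_q (ht : ∀ a, Y.Op 0 (ρ (tau a))) (a : J → ZMod 2) : Y.Mv ρ 0 (q a + q a) :=
  (mv_tau ht a).congr rfl (by ext ξ; simp [q, tau, two_mul])

omit [DecidableEq J] in
theorem mv_four (ht : ∀ a, Y.Op 0 (ρ (tau a))) (a b c d : J → ZMod 2) :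
    Y.Mv ρ 0 (q a + q b + q c + q d
      - (q (a + b + c) + q (a + b + d) + q (a + c + d) + q (b + c + d))) := by
  refine (mv_tau ht (a + b + c + d)).congr rfl ?_
  ext ξ
  simp only [q, tau, dot_add, Pi.add_apply, Pi.sub_apply]
  generalize dot a ξ = x
  generalize dot b ξ = y
  generalize dot c ξ = z
  generalize dot d ξ = w
  revert x y z w
  decide

end Sym

section Triples

variable {F : Type} [AddCommGroup F] {ρ : F → M →ₗ[k] M} {I : Type} [Fintype I] [DecidableEq I]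

variable (Y ρ) in
/-- the four-term relation holds for `Φ` up to a free move -/
def Quad {E : Type} [Add E] (Φ : E → F) : Prop :=
  ∀ a b c d, Y.Mv ρ 0 (Φ a + Φ b + Φ c + Φ d
    - (Φ (a + b + c) + Φ (a + b + d) + Φ (a + c + d) + Φ (b + c + d)))

variable (h0 : ∀ x, ρ 0 x = x) (ha : ∀ a b x, ρ (a + b) x = ρ a (ρ b x))
  {Φ : (I → ZMod 2) → F} {r : ℕ}

include ha in
theorem Quad.sub {E : Type} [Add E] {Φ Ψ : E → F} (h : Quad Y ρ Φ) (h' : Quad Y ρ Ψ) :
    Quad Y ρ fun a => Φ a - Ψ a := fun a b c d =>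
  ((h a b c d).add ha (h' a b c d).neg).congr rfl (by beta_reduce; abel)

include h0 ha in
theorem Quad.sum {E ι : Type} [Add E] (s : Finset ι) {Φ : ι → E → F}
    (h : ∀ i, Quad Y ρ (Φ i)) : Quad Y ρ fun a => ∑ i ∈ s, Φ i a := fun a b c d =>
  (Sys.Mv.sum h0 ha s fun i _ => h i a b c d).congr (by simp)
    (by simp only [Finset.sum_sub_distrib, Finset.sum_add_distrib])

omit [Fintype I] in
include ha in
theorem mv_ins (hq : Quad Y ρ Φ) (hr : ∀ a, Y.Mv ρ r (Φ a)) {S : Finset I} (hS : S.card = 3)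
    {x : I} (hx : x ∉ S) : Y.Mv ρ (3 * r) (∑ i ∈ insert x S, Φ (ev i) - Φ (uv S)) := by
  obtain ⟨a, b, c, hab, hac, hbc, rfl⟩ := Finset.card_eq_three.1 hS
  rw [Finset.sum_insert hx, uv, Finset.sum_insert (by simp [hab, hac]), Finset.sum_pair hbc,
    Finset.sum_insert (by simp [hab, hac]), Finset.sum_pair hbc, ← add_assoc (ev a)]
  exact ((((hq (ev a) (ev b) (ev c) (ev x)).add ha (hr (ev a + ev b + ev x))).add ha
    (hr (ev a + ev c + ev x))).add ha (hr (ev b + ev c + ev x))).congr (by ring) (by abel)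

include h0 ha in
theorem mv_rest (hr : ∀ a, Y.Mv ρ r (Φ a)) (R : Finset I) {n : ℕ}
    (hn : n + R.card = Fintype.card I) :
    Y.Mv ρ (n * r) (∑ i, Φ (ev i) - ∑ i ∈ R, Φ (ev i)) := by
  refine (Sys.Mv.sum h0 ha Rᶜ fun i _ => hr (ev i)).congr ?_ ?_
  · rw [Finset.card_compl, ← hn, Nat.add_sub_cancel]
  · rw [← Finset.sum_add_sum_compl R]; abel

include h0 ha in
theorem mv_A {n : ℕ} (hI : Fintype.card I = n + 8) (hq : Quad Y ρ Φ) (hr : ∀ a, Y.Mv ρ r (Φ a))
    {S : Finset I} (hS : S.card = 3) : Y.Mv ρ ((n + 7) * r) (∑ i, Φ (ev i) - Φ (uv S)) := by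
  obtain ⟨x, hx⟩ := exists_notMem S (by omega)
  exact ((mv_rest h0 ha hr (insert x S) (n := n + 4)
    (by rw [Finset.card_insert_of_notMem hx]; omega)).add ha (mv_ins ha hq hr hS hx)).congr
    (by ring) (by abel)

include h0 ha in
theorem mv_B {n : ℕ} (hI : Fintype.card I = n + 8) (hq : Quad Y ρ Φ) (hr : ∀ a, Y.Mv ρ r (Φ a))
    {S T : Finset I} (hS : S.card = 3) (hT : T.card = 3)
    (ho : (S ∩ T).card = 0 ∨ (S ∩ T).card = 2) :
    Y.Mv ρ ((n + 6) * r) (∑ i, Φ (ev i) - Φ (uv S) - Φ (uv T)) := by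
  have hU := Finset.card_union_add_card_inter S T
  rcases ho with ho | ho
  · obtain ⟨x, hx⟩ := exists_notMem (S ∪ T) (by omega)
    obtain ⟨y, hy⟩ := exists_notMem (insert x (S ∪ T)) (by
      rw [Finset.card_insert_of_notMem hx]; omega)
    simp only [Finset.mem_insert, Finset.mem_union, not_or] at hx hy
    have hd : Disjoint (insert x S) (insert y T) := by
      rw [Finset.disjoint_insert_left, Finset.disjoint_insert_right,
        Finset.disjoint_iff_inter_eq_empty, ← Finset.card_eq_zero]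
      simp [hx.2, hy.2.1, Ne.symm hy.1, ho]
    refine (((mv_rest h0 ha hr (insert x S ∪ insert y T) (n := n) ?_).add ha
      (mv_ins ha hq hr hS hx.1)).add ha (mv_ins ha hq hr hT hy.2.2)).congr (by ring) ?_
    · rw [Finset.card_union_of_disjoint hd, Finset.card_insert_of_notMem hx.1,
        Finset.card_insert_of_notMem hy.2.2, hS, hT, hI]
    · rw [Finset.sum_union hd]; abel
  · obtain ⟨a, b, hab, e⟩ := Finset.card_eq_two.1 ho
    obtain ⟨c, ec⟩ := Finset.card_eq_one.1 (show (S \ T).card = 1 by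
      have := Finset.card_sdiff_add_card_inter S T; omega)
    obtain ⟨d, ed⟩ := Finset.card_eq_one.1 (show (T \ S).card = 1 by
      have := Finset.card_sdiff_add_card_inter T S; rw [Finset.inter_comm] at this; omega)
    have e1 : uv S = ev a + ev b + ev c := by
      rw [uv, ← Finset.sum_inter_add_sum_sdiff S T, e, ec, Finset.sum_pair hab, Finset.sum_singleton]
    have e2 : uv T = ev a + ev b + ev d := by
      rw [uv, ← Finset.sum_inter_add_sum_sdiff T S, Finset.inter_comm, e, ed, Finset.sum_pair hab,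
        Finset.sum_singleton]
    have e3 : ∑ i ∈ S ∪ T, Φ (ev i) = Φ (ev a) + Φ (ev b) + Φ (ev c) + Φ (ev d) := by
      rw [← Finset.union_sdiff_self_eq_union, Finset.sum_union Finset.disjoint_sdiff,
        ← Finset.sum_inter_add_sum_sdiff S T, e, ec, ed, Finset.sum_pair hab, Finset.sum_singleton,
        Finset.sum_singleton]
    refine ((((mv_rest h0 ha hr (S ∪ T) (n := n + 4) (by omega)).add ha
      (hq (ev a) (ev b) (ev c) (ev d))).add ha
      (hr (ev a + ev c + ev d))).add ha (hr (ev b + ev c + ev d))).congr (by ring) ?_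
    rw [e1, e2, e3]; abel

theorem inter_card {S T : Tri I} (h : S ≠ T) : (S.1 ∩ T.1).card ≤ 2 := by
  have h2 : (S.1 ∩ T.1).card ≤ 3 := (Finset.card_le_card Finset.inter_subset_left).trans S.2.le
  have h3 : (S.1 ∩ T.1).card ≠ 3 := fun h' => h (Subtype.ext (by
    have a := Finset.eq_of_subset_of_card_le (Finset.inter_subset_left (s₁ := S.1) (s₂ := T.1))
      (by rw [h', S.2])
    have b := Finset.eq_of_subset_of_card_le (Finset.inter_subset_right (s₁ := S.1) (s₂ := T.1))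
      (by rw [h', T.2])
    rw [← a, b]))
  omega

theorem tri_id {h : k} (h2 : 2 * h = 1) (σ : k) (x : Tri I → M) (y : M) (T : Tri I) :
    y + ∑ S ∈ Finset.univ.filter (orth · T), (-(σ * h * (((S.1 ∩ T.1).card : k) - 1))) • x S +
      ∑ j : Option I, (j.elim (-(σ * h)) fun j => σ * h * (if j ∈ T.1 then 1 else 0)) •
        ∑ S : Tri I, (j.elim 1 fun j => if j ∈ S.1 then 1 else 0 : k) • x S = y + σ • x T := by
  have h1 : ∑ j : Option I, (j.elim (-(σ * h)) fun j => σ * h * (if j ∈ T.1 then 1 else 0)) •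
        ∑ S : Tri I, (j.elim 1 fun j => if j ∈ S.1 then 1 else 0 : k) • x S
      = ∑ S : Tri I, (σ * h * (((S.1 ∩ T.1).card : k) - 1)) • x S := by
    simp only [Finset.smul_sum, smul_smul]
    rw [Finset.sum_comm]
    refine Finset.sum_congr rfl fun S _ => ?_
    rw [← Finset.sum_smul]
    congr 1
    have : ∀ j, σ * h * (if j ∈ T.1 then 1 else 0) * (if j ∈ S.1 then 1 else 0 : k)
        = σ * h * (if j ∈ S.1 ∩ T.1 then 1 else 0) := by
      intro j
      by_cases a : j ∈ T.1 <;> by_cases b : j ∈ S.1 <;> simp [a, b]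
    simp only [Fintype.sum_option, Option.elim, this, ← Finset.mul_sum, Finset.sum_boole]
    rw [Finset.filter_mem_eq_inter, Finset.univ_inter]
    ring
  rw [h1, add_assoc, Finset.sum_filter, ← Finset.sum_add_distrib, Finset.sum_eq_single T]
  · have : ¬ orth T T := by simp [orth, T.2]
    rw [if_neg this, Finset.inter_self, T.2, zero_add]
    congr 2
    push_cast
    linear_combination σ * h2
  · intro S _ hST
    split_ifs with ho
    · rw [← add_smul, neg_add_cancel, zero_smul]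
    · have h3 := inter_card hST
      have h4 : (S.1 ∩ T.1).card = 1 := by unfold orth at ho; omega
      simp [h4]
  · simp

end Triples

variable {I : Type} [Fintype I] [DecidableEq I]

/-- the network data -/
def data {n : ℕ} (hI : Fintype.card I = n + 8) {h : k} (h2 : 2 * h = 1) (hh : h ∈ Y.Sc)
    (ρ : ((I × I × I → ZMod 2) → ZMod 4) → M →ₗ[k] M) (h0 : ∀ x, ρ 0 x = x)
    (ha : ∀ a b x, ρ (a + b) x = ρ a (ρ b x)) (hq : ∀ a, Y.Op 1 (ρ (q a)))
    (ht : ∀ a, Y.Op 0 (ρ (tau a))) :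
    NetData Y ((I × I × I → ZMod 2) → ZMod 4) (I → ZMod 2) I (Tri I) (Option I) orth where
  ρ := ρ
  ρ_zero := h0
  ρ_add := ha
  ev := ev
  uv S := uv S.1
  w := w3
  Cl := Quad Y ρ
  cl_sub _ _ h h' := h.sub ha h'
  cl_sum _ h := Quad.sum h0 ha _ h
  cl1 b c a1 a2 a3 a4 := by
    have : ∀ a a', t3 (a + a') b c = t3 a b c + t3 a' b c := fun _ _ => by
      ext p; simp [t3, add_mul]
    simp only [w3, this]; exact mv_four ht _ _ _ _
  cl2 a c a1 a2 a3 a4 := by
    have : ∀ b b', t3 a (b + b') c = t3 a b c + t3 a b' c := fun _ _ => by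
      ext p; simp [t3, add_mul, mul_add]
    simp only [w3, this]; exact mv_four ht _ _ _ _
  cl3 a b a1 a2 a3 a4 := by
    have : ∀ c c', t3 a b (c + c') = t3 a b c + t3 a b c' := fun _ _ => by
      ext p; simp [t3, mul_add]
    simp only [w3, this]; exact mv_four ht _ _ _ _
  h2 := n + 6
  card_I := hI
  r0 := 0
  mv_w _ _ _ := mv_q ha hq ht _
  mv_A _ _ h hr S := mv_A h0 ha hI h hr S.2
  mv_B _ _ h hr S T ho := mv_B h0 ha hI h hr S.2 T.2 ho
  mv_fin _ _ _ := mv_two_q ht _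
  tri σ hσ := by
    have h1 := Y.Sc.one_mem
    have hs : σ * h ∈ Y.Sc := Y.Sc.mul_mem (by
      rcases hσ with rfl | rfl
      exacts [h1, Y.Sc.neg_mem h1]) hh
    have hi : ∀ (p : Prop) [Decidable p], (if p then 1 else 0 : k) ∈ Y.Sc := fun p _ => by
      split_ifs
      exacts [h1, Y.Sc.zero_mem]
    refine ⟨_, _, _, fun S T => ?_, fun T j => ?_, fun j S => ?_, tri_id h2 σ⟩
    · exact Y.Sc.neg_mem (Y.Sc.mul_mem hs (Y.Sc.sub_mem (natCast_mem _ _) h1))
    · cases j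
      exacts [Y.Sc.neg_mem hs, Y.Sc.mul_mem hs (hi _)]
    · cases j
      exacts [h1, hi _]

theorem net0 [Nonempty (Tri I)] {n : ℕ} (hI : Fintype.card I = n + 8) {h : k} (h2 : 2 * h = 1)
    (hh : h ∈ Y.Sc) (ρ : ((I × I × I → ZMod 2) → ZMod 4) → M →ₗ[k] M) (h0 : ∀ x, ρ 0 x = x)
    (ha : ∀ a b x, ρ (a + b) x = ρ a (ρ b x)) (hq : ∀ a, Y.Op 1 (ρ (q a)))
    (ht : ∀ a, Y.Op 0 (ρ (tau a))) {W R : ℕ} (hW : Fintype.card (Wire (Tri I) orth) = W)
    (hR : W * Fintype.card I ^ 3 + 3 * Fintype.card (Tri I) ^ 2 * Fintype.card I *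
      (Fintype.card I + 1) ≤ R + 2 * Fintype.card (Tri I) ^ 3)
    (x : Fin W → M) {r : ℕ} (hx : Y.Av r (Set.range x)) :
    Y.Av (r + R) (Set.range fun j => ρ (F3 I) (x j)) := by
  let ew := Fintype.equivFinOfCardEq hW
  refine Y.mono (network (data hI h2 hh ρ h0 ha hq ht) R
    (by rw [hW, Fintype.card_option]; simpa [data] using hR) (x ∘ ew) (r := r)
    (by rwa [ew.surjective.range_comp])) le_rfl ?_
  rintro _ ⟨j, rfl⟩
  obtain ⟨i, rfl⟩ := ew.surjective j
  exact ⟨i, rfl⟩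

theorem card_tri : Fintype.card (Tri (Fin 16)) = 560 := by
  rw [Fintype.card_finset_len, Fintype.card_fin]; rfl

end TNetA

open TNetA in
theorem exists_tnet : ∃ W r : ℕ, mT ≤ W ∧ W ≤ mT ^ 4 ∧ (r : ℝ) ≤ (mT - 3 / 10 ^ 4) * W ∧
    ∀ (k M : Type) [CommRing k] [AddCommGroup M] [Module k M] (Y : Sys k M) (h : k),
      2 * h = 1 → h ∈ Y.Sc →
      ∀ (ρ : ((Fin mT → ZMod 2) → ZMod 4) → M →ₗ[k] M), (∀ x, ρ 0 x = x) →
      (∀ a b x, ρ (a + b) x = ρ a (ρ b x)) → (∀ a, Y.Op 1 (ρ (q a))) → (∀ a, Y.Op 0 (ρ (tau a))) →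
      ∀ (x : Fin W → M) (r0 : ℕ), Y.Av r0 (Set.range x) →
        Y.Av (r0 + r) (Set.range fun j => ρ (∑ i, q (Pi.single i 1)) (x j)) := by
  obtain ⟨W, hW⟩ : ∃ W, Fintype.card (Wire (R324.Tri (Fin 16)) R324.orth) = W := ⟨_, rfl⟩
  obtain ⟨w1, w2⟩ := card_wire (R324.Tri (Fin 16)) R324.orth
  rw [hW, card_tri] at w1 w2
  obtain ⟨r, hr⟩ : ∃ r, r + 304 * 560 ^ 2 = W * 4096 := ⟨W * 4096 - 304 * 560 ^ 2, by omega⟩
  refine ⟨W, r, by unfold mT; omega, by unfold mT; omega, ?_,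
    fun k M _ _ _ Y h h2 hh ρ h0 ha hq ht x r0 hx => ?_⟩
  · have a1 : (r : ℝ) + 304 * 560 ^ 2 = W * 4096 := by exact_mod_cast hr
    have a2 : (W : ℝ) ≤ 2 * 560 ^ 3 + 3 * 560 ^ 4 := by exact_mod_cast w2
    unfold mT
    push_cast
    linarith
  · let e : Fin 16 × Fin 16 × Fin 16 ≃ Fin mT := Fintype.equivFinOfCardEq (by simp [mT])
    have hd : ∀ (a : Fin 16 × Fin 16 × Fin 16 → ZMod 2) (ξ : Fin mT → ZMod 2),
        R324.dot a (ξ ∘ e) = R324.dot (a ∘ e.symm) ξ := fun a ξ => by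
      simp only [R324.dot]
      rw [← e.sum_comp]
      simp
    haveI : Nonempty (R324.Tri (Fin 16)) := Fintype.card_pos_iff.1 (by rw [card_tri]; norm_num)
    have key := net0 (n := 8) (I := Fin 16) (by simp) h2 hh
      (fun σ => ρ fun ξ => σ (ξ ∘ e)) h0 (fun a b x => ha _ _ x)
      (fun a => by simp only [q, hd]; exact hq (a ∘ e.symm))
      (fun a => by simp only [tau, hd]; exact ht (a ∘ e.symm)) hW (R := r)
      (by rw [card_tri, Fintype.card_fin]; omega) x hx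
    have e1 : (fun ξ : Fin mT → ZMod 2 => R324.F3 (Fin 16) (ξ ∘ e)) = ∑ i, q (Pi.single i 1) := by
      funext ξ
      rw [R324.F3_eq, Finset.sum_apply, Finset.sum_apply, ← e.sum_comp]
      simp only [q, R324.dot_single, Function.comp]
    simpa only [e1] using key

/-- number of registers -/
noncomputable def WT : ℕ := exists_tnet.choose
/-- number of recursive calls -/
noncomputable def rT : ℕ := exists_tnet.choose_spec.choose

theorem mT_le_WT : mT ≤ WT := exists_tnet.choose_spec.choose_spec.1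
theorem WT_le : WT ≤ mT ^ 4 := exists_tnet.choose_spec.choose_spec.2.1
theorem rT_le : (rT : ℝ) ≤ (mT - 3 / 10 ^ 4) * WT := exists_tnet.choose_spec.choose_spec.2.2.1

theorem tnet {k M : Type} [CommRing k] [AddCommGroup M] [Module k M] (Y : Sys k M) (h : k)
    (h2 : 2 * h = 1) (hh : h ∈ Y.Sc) (ρ : ((Fin mT → ZMod 2) → ZMod 4) → M →ₗ[k] M)
    (h0 : ∀ x, ρ 0 x = x) (ha : ∀ a b x, ρ (a + b) x = ρ a (ρ b x)) (hq : ∀ a, Y.Op 1 (ρ (q a)))
    (ht : ∀ a, Y.Op 0 (ρ (tau a))) (x : Fin WT → M) (r0 : ℕ) (hx : Y.Av r0 (Set.range x)) :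
    Y.Av (r0 + rT) (Set.range fun j => ρ (∑ i, q (Pi.single i 1)) (x j)) :=
  exists_tnet.choose_spec.choose_spec.2.2.2 k M Y h h2 hh ρ h0 ha hq ht x r0 hx

end Crest.Agent.R326
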