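import Crest.Agent.R326.PNet
import Crest.Agent.R326.TNet

/-!
# Row 326, potentials of the two recursions (task R326-Pot)

PLAN.  `gP_le`: with `θ = 1 - 2/10^11`, `λ = mP - 3/10^6`, show `λ < mP ^ θ`
(`mP ^ (-δ) = exp (-δ log mP) ≥ 1 - 10 δ`, `log 12167 < 10`; cf. `R324.pow_th0`).  Prove
`gP k ≤ C * k ^ θ - B`-type or: first `gP k ≤ gP (mP * (k / mP)) + mP`, hence
`gP k ≤ (λ * gP (k / mP)) + mP + 2` for `k ≥ mP`, `gP k ≤ mP` for `k < mP`; strong induction on
the claim `gP k + B ≤ C * (k+1)^θ`-like, or the simpler `gP k ≤ C * λ' ^ (Nat.log mP k)` with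
`λ' = mP ^ θ > λ` (`C (λ' - λ) ≥ mP + 2`), and `λ' ^ log ≤ k ^ θ`.
`gT_le` is the same with `gT t ≤ C * (mT ^ θ) ^ t`, `θ = 1 - 1/10^9`.
-/

set_option autoImplicit false

namespace Crest.Agent.R326

/-- potential of the transposition of `k` ternary digits -/
noncomputable def gP (k : ℕ) : ℕ :=
  if _h : k = 0 then 1 else if k % mP = 0 then rP * gP (k / mP) / WP + 2 else gP (k - 1) + 1
decreasing_by
  · exact Nat.div_lt_self (Nat.pos_of_ne_zero _h) (by decide)
  · omega

/-- potential of the tensor recursion of depth `t` -/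
noncomputable def gT : ℕ → ℕ
  | 0 => 1
  | t + 1 => rT * gT t / WT + 2

theorem gP_zero : gP 0 = 1 := by rw [gP]; simp

theorem gP_pos (k : ℕ) : 0 < gP k := by
  rw [gP]
  split_ifs <;> exact Nat.succ_pos _

theorem gP_of_not_dvd {k : ℕ} (h : k % mP ≠ 0) : gP k = gP (k - 1) + 1 := by
  have h0 : k ≠ 0 := by
    rintro rfl
    exact h (Nat.zero_mod _)
  rw [gP, dif_neg h0, if_neg h]

private theorem pot_div (a W : ℕ) (hW : 0 < W) : a + W ≤ W * (a / W + 2) := by
  have := Nat.lt_mul_div_succ a hW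
  rw [Nat.mul_add] at this ⊢
  omega

private theorem pot_eq {k : ℕ} (h0 : k ≠ 0) (h : k % mP = 0) :
    gP k = rP * gP (k / mP) / WP + 2 := by
  rw [gP, dif_neg h0, if_pos h]

theorem gP_of_dvd {k : ℕ} (h0 : k ≠ 0) (h : k % mP = 0) :
    rP * gP (k / mP) + WP ≤ WP * gP k := by
  rw [pot_eq h0 h]
  exact pot_div _ _ (lt_of_lt_of_le two_pos two_le_WP)

theorem gT_pos (t : ℕ) : 0 < gT t := by
  cases t with
  | zero => exact one_pos
  | succ t => exact Nat.succ_pos _

private theorem pot_WT : 0 < WT := lt_of_lt_of_le (by decide) mT_le_WT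

theorem gT_succ (t : ℕ) : rT * gT t + WT ≤ WT * gT (t + 1) :=
  pot_div _ _ pot_WT

private theorem pot_add (l r : ℕ) (hr : r < mP) : gP (mP * l + r) = gP (mP * l) + r := by
  induction r with
  | zero => rfl
  | succ r ih =>
    rw [gP_of_not_dvd (by rw [Nat.mul_add_mod, Nat.mod_eq_of_lt hr]; omega),
      show mP * l + (r + 1) - 1 = mP * l + r by omega, ih (by omega), add_assoc]

private theorem pot_cast {r W g : ℕ} {c : ℝ} (hW : 0 < W) (h : (r : ℝ) ≤ c * W) :
    ((r * g / W : ℕ) : ℝ) ≤ c * g := by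
  have hW' : (0 : ℝ) < W := by exact_mod_cast hW
  refine Nat.cast_div_le.trans ?_
  rw [div_le_iff₀ hW']
  push_cast
  have := mul_le_mul_of_nonneg_right h (Nat.cast_nonneg g : (0 : ℝ) ≤ g)
  linarith

private theorem pot_rpow {m d : ℝ} (hm : 0 < m) (hl : Real.log m ≤ 10) (hd : 0 ≤ d) :
    m - 10 * d * m ≤ m ^ (1 - d) := by
  have h1 : m ^ (1 - d) = m * Real.exp (-(Real.log m * d)) := by
    rw [Real.rpow_sub hm, Real.rpow_one, Real.rpow_def_of_pos hm, Real.exp_neg, div_eq_mul_inv]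
  have h3 := Real.add_one_le_exp (-(Real.log m * d))
  have h4 := mul_le_mul_of_nonneg_right hl hd
  rw [h1]
  nlinarith

private theorem pot_log {m : ℝ} (hm : 0 < m) (h : m ≤ 2 ^ 14) : Real.log m ≤ 10 := by
  have h1 := Real.log_le_log hm h
  rw [Real.log_pow] at h1
  have := Real.log_two_lt_d9
  push_cast at h1
  linarith

theorem gP_le : ∃ C : ℝ, 0 ≤ C ∧ ∀ k : ℕ, (gP k : ℝ) ≤ C * ((k : ℝ) + 1) ^ (1 - 2 / 10 ^ 11 : ℝ) := by
  have hth : (0 : ℝ) ≤ 1 - 2 / 10 ^ 11 := by norm_num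
  have hm : (mP : ℝ) = 12167 := by norm_num [mP]
  have hp := pot_rpow (m := 12167) (d := 2 / 10 ^ 11) (by norm_num)
    (pot_log (by norm_num) (by norm_num)) (by norm_num)
  generalize (1 - 2 / 10 ^ 11 : ℝ) = θ at hth hp
  have key : ∀ k : ℕ, k ≠ 0 → (gP k : ℝ) ≤ 10 ^ 11 * (k : ℝ) ^ θ := by
    intro k
    induction k using Nat.strong_induction_on with
    | _ k ih =>
      intro hk
      have hmP : 0 < mP := by decide
      have e1 := pot_add (k / mP) (k % mP) (Nat.mod_lt _ hmP)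
      rw [Nat.div_add_mod] at e1
      have e2 : ((k % mP : ℕ) : ℝ) ≤ 12167 := by
        rw [← hm]; exact_mod_cast (Nat.mod_lt _ hmP).le
      rcases Nat.eq_zero_or_pos (k / mP) with h0 | h0
      · rw [h0, mul_zero, gP_zero] at e1
        have h1 : (1 : ℝ) ≤ (k : ℝ) ^ θ :=
          Real.one_le_rpow (by exact_mod_cast Nat.pos_of_ne_zero hk) hth
        rw [e1]
        push_cast
        linarith
      · have e3 := pot_eq (k := mP * (k / mP)) (Nat.mul_pos hmP h0).ne' (Nat.mul_mod_right _ _)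
        rw [Nat.mul_div_cancel_left _ hmP] at e3
        have e4 := pot_cast (g := gP (k / mP)) (lt_of_lt_of_le two_pos two_le_WP) rP_le
        have e5 := ih (k / mP) (Nat.div_lt_self (Nat.pos_of_ne_zero hk) (by decide)) h0.ne'
        have h1 : (1 : ℝ) ≤ ((k / mP : ℕ) : ℝ) ^ θ := Real.one_le_rpow (by exact_mod_cast h0) hth
        have h2 : ((12167 : ℝ) * ((k / mP : ℕ) : ℝ)) ^ θ ≤ (k : ℝ) ^ θ := by
          refine Real.rpow_le_rpow (by positivity) ?_ hth
          rw [← hm]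
          exact_mod_cast Nat.mul_div_le k mP
        rw [Real.mul_rpow (by norm_num) (by positivity)] at h2
        have h3 := mul_le_mul_of_nonneg_right hp (zero_le_one.trans h1)
        rw [hm] at e4
        rw [e1, e3]
        push_cast
        nlinarith
  refine ⟨10 ^ 11, by positivity, fun k => ?_⟩
  rcases eq_or_ne k 0 with rfl | hk
  · simp [gP_zero]
    norm_num
  · refine (key k hk).trans (mul_le_mul_of_nonneg_left ?_ (by positivity))
    exact Real.rpow_le_rpow (by positivity) (by linarith) hth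

theorem gT_le : ∃ C : ℝ, 0 ≤ C ∧ ∀ t : ℕ,
    (gT t : ℝ) ≤ C * ((mT : ℝ) ^ t) ^ (1 - 1 / 10 ^ 9 : ℝ) := by
  have hth : (0 : ℝ) ≤ 1 - 1 / 10 ^ 9 := by norm_num
  have hm : (mT : ℝ) = 4096 := by norm_num [mT]
  have hp := pot_rpow (m := 4096) (d := 1 / 10 ^ 9) (by norm_num)
    (pot_log (by norm_num) (by norm_num)) (by norm_num)
  generalize (1 - 1 / 10 ^ 9 : ℝ) = θ at hth hp
  refine ⟨10 ^ 5, by positivity, fun t => ?_⟩
  rw [hm]
  induction t with
  | zero => simp [gT]; norm_num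
  | succ t ih =>
    have e4 := pot_cast (g := gT t) pot_WT rT_le
    have h1 : (1 : ℝ) ≤ ((4096 : ℝ) ^ t) ^ θ := Real.one_le_rpow (one_le_pow₀ (by norm_num)) hth
    have h3 := mul_le_mul_of_nonneg_right hp (zero_le_one.trans h1)
    rw [hm] at e4
    rw [pow_succ' _ t, Real.mul_rpow (by norm_num) (by positivity), gT]
    push_cast
    nlinarith

end Crest.Agent.R326
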