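import Crest.Agent.R326.Kern
import Crest.Agent.R326.ImplFin
import Crest.Agent.R326.PCoord
import Crest.Agent.R326.Pot

/-!
# Row 326, the fast transposition of bit arrays
-/

set_option autoImplicit false

namespace Crest.Agent.R326

open Crest.Agent.PTime

instance : Enc (ZMod 2) := ⟨fun x => enc (decide (x = 1))⟩

namespace PRec

/-- input of the recursion -/
structure In where
  k : ℕ
  σ : ℕ
  τ : ℕ
  N : ℕ
  v : ℕ → ZMod 2

instance : Enc In := ⟨fun x => enc (U.mk x.k, U.mk x.σ, U.mk x.τ, GArr.mk x.N x.v)⟩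

def In.pre (x : In) : Prop :=
  0 < x.N ∧ x.σ * 3 ^ x.k ∣ x.τ ∧ x.τ * 3 ^ x.k ∣ x.N ∧ ∃ t, x.k < mP ^ (t + 1) ∧ WP ^ t ∣ x.σ

def In.out (x : In) : GArr (ZMod 2) := ⟨x.N, fun i => x.v (swp x.σ x.τ (3 ^ x.k) i)⟩

noncomputable def In.φ (x : In) : ℕ := x.N * gP x.k

section
variable {α : Type*} [Enc α] {pre : α → Prop} {c : α → ℕ}

theorem tc_tuple {g : α → In} (h : TC pre c g) :
    TC pre c (fun a => (U.mk (g a).k, U.mk (g a).σ, U.mk (g a).τ, GArr.mk (g a).N (g a).v)) :=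
  h.of_enc fun _ _ => rfl

theorem tu_k {g : α → In} (h : TC pre c g) : TU pre c (fun a => (g a).k) := (tc_tuple h).fst
theorem tu_σ {g : α → In} (h : TC pre c g) : TU pre c (fun a => (g a).σ) := (tc_tuple h).snd.fst
theorem tu_τ {g : α → In} (h : TC pre c g) : TU pre c (fun a => (g a).τ) :=
  (tc_tuple h).snd.snd.fst
theorem ta_v {g : α → In} (h : TC pre c g) : TA pre c (fun a => (g a).N) (fun a => (g a).v) :=
  (tc_tuple h).snd.snd.snd

theorem tc_mk {k σ τ N : α → ℕ} {v : α → ℕ → ZMod 2} (hk : TU pre c k) (hσ : TU pre c σ)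
    (hτ : TU pre c τ) (hv : TA pre c N v) :
    TC pre c (fun a => In.mk (k a) (σ a) (τ a) (N a) (v a)) :=
  (TC.pair hk (TC.pair hσ (TC.pair hτ hv))).of_enc fun _ _ => rfl

end

theorem sz_z2 (x : ZMod 2) : sz x ≤ 3 := sz_bool _

theorem In.pre.pos {x : In} (h : x.pre) : 0 < x.σ ∧ 0 < x.τ ∧ x.σ ≤ x.N ∧ x.τ ≤ x.N ∧
    3 ^ x.k ≤ x.N := by
  obtain ⟨h1, h2, h3, -⟩ := h
  have h4 := Nat.le_of_dvd h1 h3
  have h5 : 0 < x.τ * 3 ^ x.k := Nat.pos_of_dvd_of_pos h3 h1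
  have hτ : 0 < x.τ := Nat.pos_of_mul_pos_right h5
  have h6 := Nat.le_of_dvd hτ h2
  have h7 : 0 < x.σ * 3 ^ x.k := Nat.pos_of_dvd_of_pos h2 hτ
  have hσ : 0 < x.σ := Nat.pos_of_mul_pos_right h7
  have h8 : 0 < 3 ^ x.k := by positivity
  refine ⟨hσ, hτ, ?_, ?_, ?_⟩ <;> nlinarith

theorem sz_in_le {x : In} (h : x.pre) : sz x ≤ 20 * x.N := by
  obtain ⟨-, -, h1, h2, h3⟩ := h.pos
  have h4 : x.k < 3 ^ x.k := Nat.lt_pow_self (by norm_num)
  have h5 : sz (GArr.mk x.N x.v) ≤ x.N * (3 + 1) + 1 := sz_arr_le fun i _ => sz_z2 _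
  have h6 : sz x = sz (U.mk x.k) + (sz (U.mk x.σ) + (sz (U.mk x.τ) + sz (GArr.mk x.N x.v) + 1) + 1)
    + 1 := rfl
  rw [h6, sz_U, sz_U, sz_U]
  have := h.1
  simp only
  omega

theorem le_sz_in (x : In) : x.N ≤ sz x := by
  have h5 := le_sz_arr x.N x.v
  have h6 : sz x = sz (U.mk x.k) + (sz (U.mk x.σ) + (sz (U.mk x.τ) + sz (GArr.mk x.N x.v) + 1) + 1)
    + 1 := rfl
  omega

/-- inputs treated by the network -/
def Big (x : In) : Prop := x.pre ∧ x.k ≠ 0 ∧ x.k % mP = 0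

abbrev A : Type := {x : In // Big x}

def lv (a : A) : ℕ := a.1.k / mP
noncomputable def sg' (a : A) : ℕ := a.1.σ / WP
noncomputable def ta' (a : A) : ℕ := a.1.τ / WP
noncomputable def NN (a : A) : ℕ := a.1.N / WP

theorem mP_pos : 0 < mP := by decide
theorem WP_pos : 0 < WP := lt_of_lt_of_le (by norm_num) two_le_WP

theorem big_facts (a : A) : a.1.k = lv a * mP ∧ lv a < a.1.k ∧ a.1.σ = sg' a * WP ∧
    a.1.τ = ta' a * WP ∧ a.1.N = NN a * WP ∧ 3 ^ a.1.k = (3 ^ lv a) ^ mP ∧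
    Shp mP (lv a) (sg' a) (ta' a) ∧ ta' a * (3 ^ lv a) ^ mP ∣ NN a ∧ 0 < NN a ∧
    ∃ t, lv a < mP ^ (t + 1) ∧ WP ^ t ∣ sg' a := by
  obtain ⟨x, hx, h0, hm⟩ := a
  obtain ⟨hσ, hτ, -⟩ := hx.pos
  obtain ⟨h1, h2, h3, t, h4, h5⟩ := hx
  have hk : x.k = x.k / mP * mP := (Nat.div_mul_cancel (Nat.dvd_of_mod_eq_zero hm)).symm
  have hk2 : mP ≤ x.k := Nat.le_of_dvd (Nat.pos_of_ne_zero h0) (Nat.dvd_of_mod_eq_zero hm)
  obtain ⟨t, rfl⟩ : ∃ t', t = t' + 1 := by
    rcases t with _ | t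
    · simp at h4; omega
    · exact ⟨t, rfl⟩
  have w1 : WP ∣ x.σ := (Dvd.intro_left _ (pow_succ WP t).symm).trans h5
  have w2 : WP ∣ x.τ := (w1.mul_right _).trans h2
  have w3 : WP ∣ x.N := (w2.mul_right _).trans h3
  have e1 := (Nat.div_mul_cancel w1).symm
  have e2 := (Nat.div_mul_cancel w2).symm
  have e3 := (Nat.div_mul_cancel w3).symm
  have e4 : 3 ^ x.k = (3 ^ (x.k / mP)) ^ mP := by rw [← pow_mul, ← hk]
  have hW := WP_pos
  refine ⟨hk, Nat.div_lt_self (Nat.pos_of_ne_zero h0) (by decide), e1, e2, e3, e4,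
    ⟨Nat.div_pos (Nat.le_of_dvd hσ w1) hW, Nat.div_pos (Nat.le_of_dvd hτ w2) hW, ?_⟩, ?_,
    Nat.div_pos (Nat.le_of_dvd h1 w3) hW, t, ?_, ?_⟩
  · refine Nat.dvd_of_mul_dvd_mul_right hW ?_
    show x.σ / WP * (3 ^ (x.k / mP)) ^ mP * WP ∣ x.τ / WP * WP
    rw [← e2, ← e4, mul_right_comm, ← e1]; exact h2
  · refine Nat.dvd_of_mul_dvd_mul_right hW ?_
    show x.τ / WP * (3 ^ (x.k / mP)) ^ mP * WP ∣ x.N / WP * WP
    rw [← e3, ← e4, mul_right_comm, ← e2]; exact h3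
  · show x.k / mP < _
    rw [Nat.div_lt_iff_lt_mul mP_pos, ← pow_succ]; exact h4
  · refine Nat.dvd_of_mul_dvd_mul_right hW ?_
    show WP ^ t * WP ∣ x.σ / WP * WP
    rw [← e1, ← pow_succ]; exact h5

theorem shp (a : A) : Shp mP (lv a) (sg' a) (ta' a) := (big_facts a).2.2.2.2.2.2.1
theorem NN_pos (a : A) : 0 < NN a := (big_facts a).2.2.2.2.2.2.2.2.1

theorem str_dvd_NN (a : A) (i : Fin mP ⊕ Fin mP) :
    str (lv a) (sg' a) (ta' a) i * 3 ^ lv a ∣ NN a :=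
  (str_dvd_top (shp a) i).trans (big_facts a).2.2.2.2.2.2.2.1

theorem NN_le (a : A) : NN a ≤ sz a := (Nat.div_le_self _ _).trans (le_sz_in a.1)

theorem sq_le_NN (a : A) : 3 ^ lv a * 3 ^ lv a ≤ NN a := by
  have h1 := str_dvd_NN a (.inl ⟨1, by decide⟩)
  have h2 := Nat.le_of_dvd (NN_pos a) h1
  have h3 := (shp a).2.1
  simp only [str, pow_one] at h2
  have h4 : 0 < 3 ^ lv a := by positivity
  nlinarith [Nat.mul_le_mul_right (3 ^ lv a * 3 ^ lv a) h3]

theorem lin_add2 : Lin (fun x : ZMod 2 × ZMod 2 => x.1 + x.2) := by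
  have h1 : Lin (fun x : ZMod 2 × ZMod 2 => decide (x.1 = 1)) :=
    (TC.fst TC.id).of_enc fun _ _ => rfl
  have h2 : Lin (fun x : ZMod 2 × ZMod 2 => decide (x.2 = 1)) :=
    (TC.snd TC.id).of_enc fun _ _ => rfl
  refine (h1.bxor h2).of_enc fun x _ => ?_
  show enc (decide (x.1 + x.2 = 1)) = _
  congr 1
  generalize x.1 = a; generalize x.2 = b
  revert a b; decide

/-- the context of the network computation -/
noncomputable def C : Ctx (ZMod 2) A (ℕ → ZMod 2) (GArr (ZMod 2)) (U × U × U) where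
  H := fun e K0 a => Orc In.pre In.k In.φ In.out e K0 a.1.k
  ψ := fun a => NN a * gP (lv a)
  c := fun _ => 0
  par := fun a => (⟨lv a⟩, ⟨sg' a⟩, ⟨ta' a⟩)
  rep := fun a v => ⟨NN a, v⟩
  Sc := ⊤
  bd_par := by
    have h : Lin (fun a : A => a.1) := TC.id.of_enc fun _ _ => rfl
    exact Bd.sz (TC.pair ((tu_k h).div (TU.const mP))
      (TC.pair ((tu_σ h).div (TU.const WP)) ((tu_τ h).div (TU.const WP))))
  bd_reg := ⟨5, fun a v => by
    have h1 : sz (GArr.mk (NN a) v) ≤ NN a * (3 + 1) + 1 := sz_arr_le fun i _ => sz_z2 _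
    have h2 := NN_le a
    have h3 := sz_pos a
    omega⟩
  add := by
    have h : Lin (fun x : Reg2 (fun (a : A) (v : ℕ → ZMod 2) => GArr.mk (NN a) v) =>
      (GArr.mk (NN x.a) x.v, GArr.mk (NN x.a) x.v')) := TC.id.of_enc fun _ _ => rfl
    have h1 : TA (fun _ => True) (fun _ => 0)
      (fun x : Reg2 (fun (a : A) (v : ℕ → ZMod 2) => GArr.mk (NN a) v) => NN x.a)
      (fun x => x.v) := h.fst
    have h2 : TA (fun _ => True) (fun _ => 0)
      (fun x : Reg2 (fun (a : A) (v : ℕ → ZMod 2) => GArr.mk (NN a) v) => NN x.a)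
      (fun x => x.v') := h.snd
    exact (h1.zip h2).map lin_add2
  smul := by
    intro s _
    have h : Lin (fun x : Reg (fun a : A => ((⟨lv a⟩, ⟨sg' a⟩, ⟨ta' a⟩) : U × U × U))
        (fun (a : A) (v : ℕ → ZMod 2) => GArr.mk (NN a) v) =>
      (((⟨lv x.a⟩, ⟨sg' x.a⟩, ⟨ta' x.a⟩) : U × U × U), GArr.mk (NN x.a) x.v)) :=
      TC.id.of_enc fun _ _ => rfl
    have h1 := TA.of_tc h.snd
    rcases R324.bit_cases s with rfl | rfl
    · exact TA.congr (h1.map (TC.const (0 : ZMod 2))) (fun _ _ => rfl) fun _ _ _ _ => by simp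
    · exact TA.congr h1 (fun _ _ => rfl) fun _ _ _ _ => by simp

abbrev RG : Type := Reg C.par C.rep

section
variable {pre : RG → Prop}

theorem r_l : TU pre C.cR (fun x => lv x.a) := (C.tc_par).fst
theorem r_σ : TU pre C.cR (fun x => sg' x.a) := (C.tc_par).snd.fst
theorem r_τ : TU pre C.cR (fun x => ta' x.a) := (C.tc_par).snd.snd
theorem r_v : TA pre C.cR (fun x => NN x.a) (fun x => x.v) := C.tc_reg

theorem r_bd {g : RG → ℕ} (h : ∀ x, g x ≤ NN x.a) : Bd pre C.cR g :=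
  (r_v.bd).mono fun x _ => h x

theorem r_R : TU pre C.cR (fun x => 3 ^ lv x.a) :=
  TU.pow 3 r_l (r_bd fun x => le_trans (Nat.le_mul_self _) (sq_le_NN x.a))

theorem r_str (i : Fin mP ⊕ Fin mP) :
    TU pre C.cR (fun x => str (lv x.a) (sg' x.a) (ta' x.a) i) := by
  have hb : ∀ (x : RG) (i : Fin mP ⊕ Fin mP), str (lv x.a) (sg' x.a) (ta' x.a) i ≤ NN x.a :=
    fun x i => Nat.le_of_dvd (NN_pos _) ((Dvd.intro _ rfl).trans (str_dvd_NN x.a i))
  have hp : ∀ j : Fin mP, TU pre C.cR (fun x => (3 ^ lv x.a) ^ j.val) := fun j =>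
    (TU.pow 3 (r_l.mul_const j.val) (r_bd fun x => by
      have h1 := hb x (.inl j)
      have h2 := (shp x.a).2.1
      simp only [str] at h1
      rw [pow_mul]
      exact le_trans (Nat.le_mul_of_pos_left _ h2) h1)).congr fun x _ => by rw [pow_mul]
  rcases i with j | j
  · exact r_τ.mul (hp j) (r_bd fun x => hb x (.inl j))
  · exact r_σ.mul (hp j) (r_bd fun x => hb x (.inr j))

theorem exists_pow_le (e : ℕ) : ∃ K : ℕ, ∀ l : ℕ, (2 * l + 1) ^ e ≤ K * 3 ^ l := by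
  obtain ⟨K, hK⟩ := exists_sz_pow_le e
  refine ⟨2 ^ e * (2 * K), fun l => ?_⟩
  have h1 := hK (2 ^ l)
  have h2 := size_le_sz (2 ^ l)
  rw [Nat.size_pow] at h2
  have h3 : (2 * l + 1) ^ e ≤ (2 * sz (2 ^ l : ℕ)) ^ e := Nat.pow_le_pow_left (by omega) e
  have h4 : 2 ^ l ≤ 3 ^ l := Nat.pow_le_pow_left (by norm_num) l
  have h5 : 0 < 2 ^ l := by positivity
  rw [mul_pow] at h3
  refine h3.trans ?_
  rw [mul_assoc]
  refine Nat.mul_le_mul_left _ (h1.trans ?_)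
  nlinarith

theorem r_val {c : TT} (hc : Cmpb c) : TU pre C.cR (fun x => (c (lv x.a)).val) := by
  refine TU.ofBin (TC.pt (f := fun l : U => (c l.val).val) hc r_l fun e => ?_) (r_R.bd.mono
    fun x _ => (ZMod.val_lt _).le)
  obtain ⟨K, hK⟩ := exists_pow_le e
  refine (r_R.bd.const_mul K).mono fun x _ => ?_
  rw [sz_U]; exact hK _

end

/-- implementable coordinate maps -/
def CO (r : ℕ) (g : CV mP → CV mP) : Prop :=
  ∃ π : A → ℕ → ℕ, (∀ a, Acts (lv a) (sg' a) (ta' a) (π a) g) ∧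
    C.OpI r (fun a v x => v (π a x))

theorem co_of {π : A → ℕ → ℕ} {g : CV mP → CV mP} (h1 : ∀ a, Acts (lv a) (sg' a) (ta' a) (π a) g)
    (h2 : TA (fun _ : RG => True) C.cR (fun x => NN x.a) (fun x i => x.v (π x.a i))) : CO 0 g :=
  ⟨π, h1, Ctx.OpI.of_TC h2⟩

theorem odd_three_pow (l : ℕ) : Odd (3 ^ l) := Odd.pow (by decide)

noncomputable def cos : COs mP where
  CO := CO
  id := co_of (π := fun _ x => x) (fun _ => acts_id) r_v
  comp := by
    rintro r r' g g' ⟨π, h1, h2⟩ ⟨π', h1', h2'⟩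
    exact ⟨fun a x => π a (π' a x), fun a => (h1 a).comp (h1' a),
      (h2'.comp h2).congr (by omega) fun _ _ => rfl⟩
  mono := by
    rintro r r' g ⟨π, h1, h2⟩ hr
    exact ⟨π, h1, h2.congr hr fun _ _ => rfl⟩
  shear := by
    intro i j c hij hc
    refine co_of (fun a => acts_shear (shp a) i j c) (TA.shr r_v (r_str i) r_R (r_str j) ?_ ?_)
    · refine TA.ofList (TC.multiples r_R (r_val hc.cmpb) r_R (TU.const 0)
        (fun x _ => ⟨by positivity, (ZMod.val_lt _).le⟩) (r_bd fun x => sq_le_NN x.a))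
        (fun _ _ => by simp) fun x _ u hu => by simp
    · exact fun x _ => ⟨NN_pos _, str_dvd (shp _) hij, str_dvd_NN _ _,
        fun u _ => (Nat.mod_lt _ (by positivity)).le⟩
  neg := by
    intro i
    have h := co_of (fun a => acts_mul (shp a) i (-1) (3 ^ lv a - 1) (by
      rw [Nat.cast_sub (Nat.one_le_pow _ _ (by norm_num)), ZMod.natCast_self]; simp))
      (TA.negD r_v (r_str i) r_R fun x _ => ⟨NN_pos _, str_dvd_NN _ _⟩)
    simpa using h
  dbl := fun i => co_of (fun a => acts_mul (shp a) i 2 2 (by simp))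
      (TA.dblD r_v (r_str i) r_R fun x _ => ⟨NN_pos _, str_dvd_NN _ _, odd_three_pow _⟩)
  half := fun i => co_of (fun a => acts_mul (shp a) i th ((3 ^ lv a + 1) / 2) rfl)
      (TA.halfD r_v (r_str i) r_R fun x _ => ⟨NN_pos _, str_dvd_NN _ _, odd_three_pow _⟩)
  swap := by
    intro i j
    refine ⟨_, fun a => acts_swap (shp a) i j, ?_⟩
    refine TB.call (f := In.out) (n := fun x : RG => x.a.1.k)
      (tc_mk r_l (r_str (.inr j)) (r_str (.inl i)) r_v) (fun x _ => ?_) (fun e K0 x _ h => h)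
    obtain ⟨t, h1, h2⟩ := (big_facts x.a).2.2.2.2.2.2.2.2.2
    exact ⟨⟨NN_pos _, str_dvd (shp x.a) (show Below (.inr j) (.inl i) from trivial),
      str_dvd_NN x.a (.inl i), t, h1, h2.mul_right _⟩, (big_facts x.a).2.1, by simp [In.φ, C]⟩

/-- the index map of a frame -/
noncomputable def πN (N : Matrix (Fin mP) (Fin mP) TT) (a : A) : ℕ → ℕ :=
  (exists_acts (shp a) N).choose

theorem acts_πN (N : Matrix (Fin mP) (Fin mP) TT) (a : A) :
    Acts (lv a) (sg' a) (ta' a) (πN N a) (shearM N) := (exists_acts (shp a) N).choose_spec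

/-- frames -/
noncomputable def ρ (N : Matrix (Fin mP) (Fin mP) TT) :
    (A → ℕ → ZMod 2) →ₗ[ZMod 2] (A → ℕ → ZMod 2) where
  toFun u a x := u a (πN N a x)
  map_add' _ _ := rfl
  map_smul' _ _ := rfl

theorem ρ_zero (u : A → ℕ → ZMod 2) : ρ 0 u = u := by
  funext a x
  have h := acts_πN 0 a
  rw [show shearM (0 : Matrix (Fin mP) (Fin mP) TT) = fun z => z from funext shearM_zero] at h
  exact congrArg (u a) (h.unique (shp a) acts_id x)

theorem ρ_add (N N' : Matrix (Fin mP) (Fin mP) TT) (u : A → ℕ → ZMod 2) :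
    ρ (N + N') u = ρ N (ρ N' u) := by
  funext a x
  have h := acts_πN (N + N') a
  rw [add_comm, show shearM (N' + N) = fun z => shearM N' (shearM N z) from
    funext (shearM_add _ _)] at h
  rw [add_comm]
  exact congrArg (u a) (h.unique (shp a) ((acts_πN N' a).comp (acts_πN N a)) x)

theorem op_rank1 (a b : Fin mP → TT) (ha : DyV a) (hb : DyV b) :
    C.sys.Op 1 (ρ (Matrix.vecMulVec a b)) := by
  obtain ⟨π, h1, h2⟩ := cos.rank1 ha hb
  have h3 := h2.op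
  convert h3 using 1
  funext u x i
  exact congrArg (u x) ((acts_πN _ x).unique (shp x) (h1 x) i)

theorem tb_big : TB (fun _ : A => True) C.H (fun a => rP * C.ψ a) C.c (fun a => a.1.out) := by
  obtain ⟨g1, g2, ⟨π1, a1, o1⟩, ⟨π2, a2, o2⟩, hg⟩ := cos.swapAll
  have hv : Lin (fun a : A => a.1) := TC.id.of_enc fun _ _ => rfl
  have h0 : C.sys.Av 0 (Set.range fun (j : Fin WP) (a : A) (y : ℕ) => a.1.v (ins 1 WP j y)) := by
    refine C.av_init _ (TC.pair ((tu_k hv).div (TU.const mP))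
      (TC.pair ((tu_σ hv).div (TU.const WP)) ((tu_τ hv).div (TU.const WP)))) fun j => ?_
    refine TA.pile WP j j.2 (ta_v hv) (TU.const 1) fun a _ => ⟨one_pos, ?_⟩
    rw [one_mul, (big_facts a).2.2.2.2.1]; exact Dvd.intro_left _ rfl
  have h1 := o1.op.range h0
  have h2 := pnet C.sys ρ ρ_zero ρ_add op_rank1 _ 0 h1
  have h3 := o2.op.range h2
  rw [zero_add] at h3
  have e : ∀ (a : A) (y : ℕ), π1 a (πN 1 a (π2 a y)) = swp (sg' a) (ta' a) ((3 ^ lv a) ^ mP) y := by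
    intro a y
    have h4 := (a1 a).comp ((acts_πN 1 a).comp (a2 a))
    have h5 := acts_swapAll (shp a)
    rw [show (fun z : CV mP => z ∘ Sum.swap) = fun z => g1 (shearM 1 (g2 z)) from funext hg] at h5
    exact h4.unique (shp a) h5 y
  refine C.final_comp (n := WP) (fun j a y =>
    a.1.v (ins 1 WP j (swp (sg' a) (ta' a) ((3 ^ lv a) ^ mP) y))) ?_ _ ?_
  · convert h3 using 4 with j a
    funext y
    exact congrArg (fun z => a.1.v (ins 1 WP j z)) (e a y).symm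
  · refine TA.congr (TA.merge WP WP_pos (C.tc_regs).snd (TU.const 1)
      fun _ _ => ⟨one_pos, one_dvd _⟩) (fun z _ => (big_facts z.a).2.2.2.2.1) fun z _ i _ => ?_
    obtain ⟨-, -, e1, e2, -, e3, hs, -⟩ := big_facts z.a
    show z.a.1.v (swp z.a.1.σ z.a.1.τ (3 ^ z.a.1.k) i) = _
    rw [← swp_ins_one hs.1 hs.2.1 (by positivity) (dig_lt WP_pos i), ins_del one_pos WP_pos, ← e1,
      ← e2, ← e3]

noncomputable def ψ (x : In) : ℕ :=
  if x.k = 0 then 0 else if x.k % mP = 0 then rP * (x.N / WP * gP (x.k / mP))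
    else x.N * gP (x.k - 1)

theorem tb_body : TB In.pre (fun e K0 x => Orc In.pre In.k In.φ In.out e K0 x.k) ψ (fun _ => 0)
    In.out := by
  have key : TB In.pre (fun e K0 x => Orc In.pre In.k In.φ In.out e K0 x.k) ψ (fun _ => 0)
      (fun x => if x.k = 0 then x.out else if x.k % mP = 0 then x.out else x.out) := by
    refine TB.ite' ((tu_k TC.id).eq (TU.const 0)) (TB.of_TC ?_)
      (TB.ite' (((tu_k TC.id).mod (TU.const mP)).eq (TU.const 0)) ?_ ?_)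
    · refine TA.congr (ta_v TC.id) (fun _ _ => rfl) fun x hx i _ => ?_
      show x.v (swp x.σ x.τ (3 ^ x.k) i) = _
      rw [hx.2, pow_zero, swp_one hx.1.pos.1 hx.1.pos.2.1]
    · refine TB.mono (TB.of_subtype (pre := Big) (ψ := ψ) (c := fun _ => 0)
        (H := fun e K0 x => Orc In.pre In.k In.φ In.out e K0 x.k) (f := In.out) ?_)
        (fun x hx => ⟨hx.1.1, hx.1.2, hx.2⟩) (fun _ _ _ _ h => h) (fun _ _ => le_rfl) Bd.self
        (fun _ _ => rfl)
      refine tb_big.mono (fun _ h => h) (fun _ _ _ _ h => h) (fun a _ => ?_) Bd.self fun _ _ => rfl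
      rw [ψ, if_neg a.2.2.1, if_pos a.2.2.2]; rfl
    · have hp : ∀ x : In, x.k ≠ 0 → 3 ^ x.k = 3 ^ (x.k - 1) * 3 := fun x h => by
        rw [← pow_succ]; congr 1; omega
      have hR : TU (fun x : In => (x.pre ∧ ¬x.k = 0) ∧ ¬x.k % mP = 0) (fun _ => 0)
          (fun x => 3 ^ (x.k - 1)) :=
        TU.pow 3 ((tu_k TC.id).sub (TU.const 1)) ((ta_v TC.id).bd.mono fun x hx =>
          le_trans (Nat.pow_le_pow_right (by norm_num) (Nat.sub_le _ _)) hx.1.1.pos.2.2.2.2)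
      have d1 : ∀ x : In, x.pre → x.k ≠ 0 → x.σ * 3 ^ (x.k - 1) * 3 ∣ x.τ := fun x h h0 => by
        rw [mul_assoc, ← hp x h0]; exact h.2.1
      have d2 : ∀ x : In, x.pre → x.k ≠ 0 → x.τ * 3 ^ (x.k - 1) * 3 ∣ x.N := fun x h h0 => by
        rw [mul_assoc, ← hp x h0]; exact h.2.2.1
      have hg := tc_mk ((tu_k TC.id).sub (TU.const 1)) (tu_σ TC.id) (tu_τ TC.id)
        (TA.swpC 3 (ta_v TC.id)
          ((tu_σ TC.id).mul hR ((ta_v TC.id).bd.mono fun x hx => le_trans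
            (Nat.le_of_dvd hx.1.1.pos.2.1 ((Dvd.intro _ rfl).trans (d1 x hx.1.1 hx.1.2)))
            hx.1.1.pos.2.2.2.1))
          ((tu_τ TC.id).mul hR ((ta_v TC.id).bd.mono fun x hx =>
            Nat.le_of_dvd hx.1.1.1 ((Dvd.intro _ rfl).trans (d2 x hx.1.1 hx.1.2))))
          fun x hx => ⟨hx.1.1.1, (d1 x hx.1.1 hx.1.2).mul_right _, d2 x hx.1.1 hx.1.2⟩)
      refine TB.mono (TB.call (f := In.out) (μ := In.k) (φ := In.φ) (n := fun x => x.k) (ψ := ψ)
        (H := fun e K0 x => Orc In.pre In.k In.φ In.out e K0 x.k) hg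
        (fun x hx => ?_) fun _ _ _ _ h => h)
        (fun _ h => h) (fun _ _ _ _ h => h) (fun _ _ => le_rfl) Bd.self fun x hx => ?_
      · obtain ⟨t, h1, h2⟩ := hx.1.1.2.2.2
        refine ⟨⟨hx.1.1.1, (Dvd.intro _ rfl).trans (d1 x hx.1.1 hx.1.2),
          (Dvd.intro _ rfl).trans (d2 x hx.1.1 hx.1.2), t, lt_of_le_of_lt (Nat.sub_le _ _) h1, h2⟩,
          Nat.sub_one_lt hx.1.2, ?_⟩
        rw [ψ, if_neg hx.1.2, if_neg hx.2]; rfl
      · refine enc_arr_congr rfl fun i _ => ?_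
        congr 1
        show x.v (swp x.σ x.τ (3 ^ x.k) i) = _
        rw [hp x hx.1.2, swp_mul hx.1.1.pos.1 (by positivity) (by norm_num) hx.1.1.pos.2.1
          (by rw [← hp x hx.1.2]; exact hx.1.1.2.1)]
  exact key.mono (fun _ h => h) (fun _ _ _ _ h => h) (fun _ _ => le_rfl) Bd.self
    fun x _ => by simp

theorem tc_out : TC In.pre In.φ In.out := by
  refine TC.rec tb_body ⟨20, fun x hx => ?_⟩
  have h1 := sz_in_le hx
  have h2 : ψ x + x.N ≤ x.φ := by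
    unfold ψ In.φ
    split_ifs with h0 hm
    · rw [h0, gP_zero]; omega
    · have h3 := (big_facts ⟨x, hx, h0, hm⟩).2.2.2.2.1
      have h4 := Nat.mul_le_mul_left (x.N / WP) (gP_of_dvd h0 hm)
      change x.N = x.N / WP * WP at h3
      generalize x.N / WP = N' at *
      rw [h3]; nlinarith
    · rw [gP_of_not_dvd hm]; nlinarith
  omega

end PRec

/-- exchange of two digits of radix `3 ^ k` in a bit array -/
theorem TA.swapB {α : Type*} [Enc α] {pre : α → Prop} {c N k σ τ : α → ℕ} {v : α → ℕ → ZMod 2}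
    (h : TA pre c N v) (hk : TU pre c k) (hσ : TU pre c σ) (hτ : TU pre c τ)
    (h0 : ∀ a, pre a → 0 < N a ∧ σ a * 3 ^ k a ∣ τ a ∧ τ a * 3 ^ k a ∣ N a ∧
      ∃ t, k a < mP ^ (t + 1) ∧ WP ^ t ∣ σ a)
    (hb : Bd pre c (fun a => N a * gP (k a))) :
    TA pre c N (fun a x => v a (swp (σ a) (τ a) (3 ^ k a) x)) :=
  PRec.tc_out.comp' (PRec.tc_mk hk hσ hτ h) h0 hb

end Crest.Agent.R326
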