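import Crest.Agent.R326.PhiTC

/-!
# Row 326, the parameters (task R326-Par: inequalities)

`n` is the length of the factors, `L = size n`.
PLAN.  All inequalities hold for large `n` (`∀ᶠ`/`∃ n0`).  At `y = 3 L` the test fails
(`two_pow_le_SS`: `S ≥ 2^(3L) / (3L+1)² > 2 n`), so `pY n < 3 L` and the test fails at `pY n + 1`
(`Nat.findGreatest_is_greatest`): `n < h(y+1)³ L⁵ ≤ ((y+1) S)³ L⁵` (`SS_succ_le`).  It holds at
`y = 81` for large `n` (`Nat.le_findGreatest`).  Hence `h³ L⁵ ≤ n`, `L⁵ ≤ q ≤ 8 (3L)³ L⁵ + 1`,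
`h³ q ≤ 2 n`.  `KK y * dlt y ≤ L⁵`, `WP ^ log ≤ k⁴ ≤ L⁵` (`WP_le`, `k ≤ 3L·…`: `3^(k-1) < S ≤ n`)
for large `L`, so `p ≤ 40 q ≤ L^10` and `S³ p ≤ 8 h³ · 40 q ≤ 640 n`.  Batch condition: if `t = 0`
then `2^l = 2^d ≤ S`; otherwise `l ≤ d / 2 + 1`, `2^d ≤ S` gives `2^(d/2) ≤ √S`, and
`WT^t ≤ mT^(4t) ≤ mT^(t EE) ≤ L`, `L² ≤ S` for large `n`; so `WT^t 2^l ≤ 2 S`.
-/

set_option autoImplicit false

namespace Crest.Agent.R326

open Crest.Agent.PTime

theorem exists_EE : ∃ E : ℕ, E = 10 ^ 11 := ⟨_, rfl⟩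
/-- the constant `10^11`, hidden from evaluation -/
noncomputable def EE : ℕ := exists_EE.choose
theorem EE_eq : EE = 10 ^ 11 := exists_EE.choose_spec

def hY (y : ℕ) : ℕ := (SS y + 1) / 2
def pY (n : ℕ) : ℕ := Nat.findGreatest (fun y => hY y ^ 3 * n.size ^ 5 ≤ n) (3 * n.size)
def pS (n : ℕ) : ℕ := SS (pY n)
def pH (n : ℕ) : ℕ := hY (pY n)
def pQ (n : ℕ) : ℕ := (n + pH n ^ 3 - 1) / pH n ^ 3
def pB (n : ℕ) : ℕ := 2 * pQ n + 9 * (KK (pY n) * dlt (pY n)) + 3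
def pF (n : ℕ) : ℕ := pB n + 2
def pK (n : ℕ) : ℕ := Nat.clog 3 (pS n)
noncomputable def pP (n : ℕ) : ℕ :=
  WP ^ Nat.log mP (pK n) * ((pF n + pB n + 3) / WP ^ Nat.log mP (pK n) + 1)
noncomputable def pT (n : ℕ) : ℕ := Nat.log mT n.size / EE
noncomputable def pL (n : ℕ) : ℕ := ((moduli (pY n)).length + mT ^ pT n - 1) / mT ^ pT n

/-- the facts about the parameters -/
structure ParOk (n : ℕ) : Prop where
  y81 : 81 ≤ pY n
  y_le : pY n ≤ 3 * n.size
  k_le : pK n ≤ 3 * n.size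
  phi : PhiOk (pY n) (pF n) (pP n) (pK n) (pT n) (pL n) (pS n ^ 3)
  h_pos : 0 < pH n
  h_le : pH n ≤ pS n
  h_two : 2 * pH n ≤ pS n + 1
  q_pos : 0 < pQ n
  len : n ≤ pH n ^ 3 * pQ n
  marg : pF n + pB n + 3 ≤ pP n
  vol : pS n ^ 3 * pP n ≤ 640 * n
  p_le : pP n ≤ n.size ^ 10

theorem par_poly_le (C e : ℕ) : ∃ L0 : ℕ, ∀ L, L0 ≤ L → C * L ^ e ≤ 2 ^ L := by
  have h := (isLittleO_pow_const_const_pow_of_one_lt (R := ℝ) e (r := 2) (by norm_num)).const_mul_left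
    (C : ℝ)
  obtain ⟨L0, hL⟩ := Filter.eventually_atTop.1 (h.bound one_pos)
  refine ⟨L0, fun L hL0 => ?_⟩
  have h1 := hL L hL0
  rw [one_mul, Real.norm_of_nonneg (by positivity), Real.norm_of_nonneg (by positivity)] at h1
  exact_mod_cast h1

theorem par_ceil {n a : ℕ} (ha : 0 < a) : n ≤ a * ((n + a - 1) / a) ∧
    a * ((n + a - 1) / a) + 1 ≤ n + a := by
  have h1 := Nat.div_add_mod (n + a - 1) a
  have h2 := Nat.mod_lt (n + a - 1) ha
  omega

theorem par_batch {S L d t : ℕ} (hS : L ^ 2 ≤ S) (hL : 0 < L) (hd : 3 ^ d ≤ S)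
    (ht : t * EE ≤ Nat.log mT L) : WT ^ t * 2 ^ ((d + mT ^ t - 1) / mT ^ t) ≤ 3 * S := by
  have h2 : 2 ^ d ≤ S := (Nat.pow_le_pow_left (by norm_num) d).trans hd
  rcases Nat.eq_zero_or_pos t with rfl | ht0
  · simp only [pow_zero, one_mul, Nat.add_sub_cancel, Nat.div_one]
    omega
  · have hM : 2 ≤ mT ^ t := le_trans (by decide) (Nat.le_self_pow ht0.ne' mT)
    obtain ⟨-, h3⟩ := par_ceil (n := d) (a := mT ^ t) (by omega)
    generalize (d + mT ^ t - 1) / mT ^ t = l at h3 ⊢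
    have h4 : 2 * l ≤ d + 2 := by
      rcases l with _ | l
      · omega
      · have := Nat.mul_le_mul_right l hM
        rw [Nat.mul_succ] at h3
        omega
    have h5 : WT ^ t ≤ L := by
      calc WT ^ t ≤ (mT ^ 4) ^ t := Nat.pow_le_pow_left WT_le t
        _ = mT ^ (4 * t) := by rw [pow_mul]
        _ ≤ mT ^ Nat.log mT L := by
            refine Nat.pow_le_pow_right (by decide) (le_trans ?_ ht)
            rw [mul_comm]
            exact Nat.mul_le_mul_left t (by rw [EE_eq]; norm_num)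
        _ ≤ L := Nat.pow_log_le_self _ hL.ne'
    have h6 : (2 ^ l) ^ 2 ≤ 4 * S := by
      calc (2 ^ l) ^ 2 = 2 ^ (2 * l) := by rw [← pow_mul, mul_comm]
        _ ≤ 2 ^ (d + 2) := Nat.pow_le_pow_right (by norm_num) h4
        _ ≤ 4 * S := by rw [pow_add]; omega
    refine (Nat.pow_le_pow_iff_left (n := 2) (by norm_num)).1 ?_
    calc (WT ^ t * 2 ^ l) ^ 2 = (WT ^ t) ^ 2 * (2 ^ l) ^ 2 := mul_pow _ _ _
      _ ≤ S * (4 * S) := Nat.mul_le_mul ((Nat.pow_le_pow_left h5 2).trans hS) h6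
      _ ≤ (3 * S) ^ 2 := by nlinarith

theorem par_Kd {y L : ℕ} (hy : 0 < y) (hyL : y ≤ 3 * L) (hL : 10000 ≤ L) :
    KK y * dlt y ≤ L ^ 5 := by
  have h1 : KK y ≤ 1200000 * L := by
    have := KK_le y
    have := Nat.log_lt_self 2 hy.ne'
    omega
  have h2 : bY y ≤ 4 * (y + 1) := Nat.size_le.2 Nat.lt_two_pow_self
  have h3 : dlt y ≤ 60 * L ^ 2 := by
    have h4 : (bY y + 2) * (moduli y).length ≤ (12 * L + 6) * (3 * L) :=
      Nat.mul_le_mul (by omega) ((length_moduli_le y).trans hyL)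
    unfold dlt
    nlinarith
  calc KK y * dlt y ≤ 1200000 * L * (60 * L ^ 2) := Nat.mul_le_mul h1 h3
    _ = 72000000 * L ^ 3 := by ring
    _ ≤ L ^ 2 * L ^ 3 := Nat.mul_le_mul_right _ (by nlinarith)
    _ = L ^ 5 := by ring

theorem par_w {k L : ℕ} (hk : k ≤ 3 * L) (hL : 81 ≤ L) : WP ^ Nat.log mP k ≤ L ^ 5 := by
  rcases Nat.eq_zero_or_pos k with rfl | hk0
  · simpa using Nat.one_le_pow _ _ (by omega)
  · calc WP ^ Nat.log mP k ≤ (mP ^ 4) ^ Nat.log mP k := Nat.pow_le_pow_left WP_le _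
      _ = (mP ^ Nat.log mP k) ^ 4 := by rw [← pow_mul, ← pow_mul, mul_comm]
      _ ≤ (3 * L) ^ 4 := Nat.pow_le_pow_left ((Nat.pow_log_le_self _ hk0.ne').trans hk) _
      _ = 81 * L ^ 4 := by ring
      _ ≤ L * L ^ 4 := Nat.mul_le_mul_right _ hL
      _ = L ^ 5 := by ring

theorem par_hY (y : ℕ) : 0 < hY y ∧ hY y ≤ SS y ∧ 2 * hY y ≤ SS y + 1 ∧ SS y ≤ 2 * hY y := by
  have := SS_pos y
  unfold hY
  omega

theorem exists_parOk : ∃ n0 : ℕ, ∀ n, n0 ≤ n → ParOk n := by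
  obtain ⟨L1, hL1⟩ := par_poly_le (2 * hY 81 ^ 3) 5
  obtain ⟨L2, hL2⟩ := par_poly_le 432 14
  obtain ⟨L3, hL3⟩ := par_poly_le 32 2
  refine ⟨2 ^ (L1 + L2 + L3 + 10000), fun n hn => ?_⟩
  have hL : L1 + L2 + L3 + 10000 < n.size := Nat.lt_size.2 hn
  have hnL : n < 2 ^ n.size := Nat.lt_size_self n
  have hLn : 2 ^ n.size ≤ 2 * n := by
    have h1 : 2 ^ (n.size - 1) ≤ n := Nat.lt_size.1 (by omega)
    rw [show n.size = n.size - 1 + 1 by omega, pow_succ]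
    omega
  have h81 : hY 81 ^ 3 * n.size ^ 5 ≤ n := by
    have := hL1 n.size (by omega)
    rw [mul_assoc] at this
    omega
  have hy81 : 81 ≤ pY n :=
    Nat.le_findGreatest (P := fun y => hY y ^ 3 * n.size ^ 5 ≤ n) (by omega) h81
  have hyle : pY n ≤ 3 * n.size := Nat.findGreatest_le _
  have hP : pH n ^ 3 * n.size ^ 5 ≤ n :=
    Nat.findGreatest_spec (P := fun y => hY y ^ 3 * n.size ^ 5 ≤ n) (m := 81) (by omega) h81
  obtain ⟨hh0, hh1, hh2, hh3⟩ : 0 < pH n ∧ pH n ≤ pS n ∧ 2 * pH n ≤ pS n + 1 ∧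
    pS n ≤ 2 * pH n := par_hY (pY n)
  have hL5 : n.size ≤ n.size ^ 5 := Nat.le_self_pow (by norm_num) _
  have hh3n : pH n ^ 3 ≤ n := le_trans (Nat.le_mul_of_pos_right _ (by omega)) hP
  have hhn : pH n ≤ n := le_trans (Nat.le_self_pow (by norm_num) _) hh3n
  have hylt : pY n < 3 * n.size := by
    refine lt_of_le_of_ne hyle fun h => ?_
    have h1 := two_pow_le_SS (pY n)
    change _ ≤ _ * pS n at h1
    rw [h] at h1
    have h2 := hL3 n.size (by omega)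
    have h3 : (3 * n.size + 1) ^ 2 * pS n < (16 * n.size ^ 2) * (2 * 2 ^ n.size) :=
      Nat.mul_lt_mul_of_le_of_lt (by nlinarith) (by omega)
        (Nat.mul_pos (by norm_num) (pow_pos (by omega) _))
    have h4 : 2 ^ n.size * 2 ^ n.size ≤ 2 ^ (3 * n.size) := by
      rw [← pow_add]; exact Nat.pow_le_pow_right (by norm_num) (by omega)
    have h5 := Nat.mul_le_mul_right (2 ^ n.size) h2
    linarith
  have hN : n < 216 * n.size ^ 8 * pH n ^ 3 := by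
    have h1 : ¬ hY (pY n + 1) ^ 3 * n.size ^ 5 ≤ n :=
      Nat.findGreatest_is_greatest (P := fun y => hY y ^ 3 * n.size ^ 5 ≤ n)
        (Nat.lt_succ_self _) hylt
    have h2 : hY (pY n + 1) ≤ 3 * n.size * (2 * pH n) :=
      (par_hY _).2.1.trans ((SS_succ_le _).trans (Nat.mul_le_mul hylt hh3))
    calc n < hY (pY n + 1) ^ 3 * n.size ^ 5 := not_le.1 h1
      _ ≤ (3 * n.size * (2 * pH n)) ^ 3 * n.size ^ 5 :=
          Nat.mul_le_mul_right _ (Nat.pow_le_pow_left h2 3)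
      _ = _ := by ring
  have hS : n.size ^ 2 ≤ pS n := by
    by_contra hc
    have h1 : pH n ^ 3 ≤ (n.size ^ 2) ^ 3 := Nat.pow_le_pow_left (by omega) 3
    have h2 := hL2 n.size (by omega)
    have h3 := Nat.mul_le_mul_left (216 * n.size ^ 8) h1
    have h4 : 216 * n.size ^ 8 * (n.size ^ 2) ^ 3 = 216 * n.size ^ 14 := by ring
    omega
  have hS1 : 1 < pS n := lt_of_lt_of_le (Nat.one_lt_pow (by norm_num) (by omega)) hS
  have hc0 : 0 < pH n ^ 3 := by positivity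
  obtain ⟨hq1, hq2⟩ : n ≤ pH n ^ 3 * pQ n ∧ pH n ^ 3 * pQ n + 1 ≤ n + pH n ^ 3 := par_ceil hc0
  have hq3 : n.size ^ 5 ≤ pQ n := Nat.le_of_mul_le_mul_left (hP.trans hq1) hc0
  have hq4 : pQ n ≤ 216 * n.size ^ 8 := by
    refine Nat.le_of_lt_succ (Nat.lt_of_mul_lt_mul_left (a := pH n ^ 3) ?_)
    rw [Nat.mul_succ, mul_comm _ (216 * n.size ^ 8)]
    omega
  have hk : pK n ≤ 3 * n.size := by
    refine Nat.clog_le_of_le_pow ?_
    calc pS n ≤ 2 ^ (n.size + 1) := by rw [pow_succ]; omega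
      _ ≤ 2 ^ (3 * n.size) := Nat.pow_le_pow_right (by norm_num) (by omega)
      _ ≤ 3 ^ (3 * n.size) := Nat.pow_le_pow_left (by norm_num) _
  have hK := par_Kd (y := pY n) (L := n.size) (by omega) hyle (by omega)
  have hw := par_w hk (by omega)
  have hw0 : 0 < WP ^ Nat.log mP (pK n) := pow_pos (lt_of_lt_of_le two_pos two_le_WP) _
  have hp1 : pF n + pB n + 3 < pP n := Nat.lt_mul_div_succ _ hw0
  have hp2 : pP n ≤ 40 * pQ n := by
    have h1 := Nat.mul_div_le (pF n + pB n + 3) (WP ^ Nat.log mP (pK n))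
    have h2 : pP n = WP ^ Nat.log mP (pK n) * ((pF n + pB n + 3) / WP ^ Nat.log mP (pK n)) +
      WP ^ Nat.log mP (pK n) := Nat.mul_succ _ _
    have h3 : pF n = pB n + 2 := rfl
    have h4 : pB n = 2 * pQ n + 9 * (KK (pY n) * dlt (pY n)) + 3 := rfl
    omega
  have hp3 : pQ n ≤ pP n := by
    have h4 : pB n = 2 * pQ n + 9 * (KK (pY n) * dlt (pY n)) + 3 := rfl
    omega
  refine ⟨hy81, hyle, hk, ⟨by positivity, ⟨pS n, by unfold pS; ring⟩, ?_, ⟨SS_pos _,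
    Nat.le_pow_clog (by norm_num) _, ?_, by omega, Nat.log mP (pK n),
    Nat.lt_pow_succ_log_self (by decide) _, dvd_mul_right _ _⟩,
    (par_ceil (pow_pos (by decide) _)).1, ?_, by omega⟩, hh0, hh1, hh2, by omega, hq1, hp1.le,
    ?_, ?_⟩
  · have h1 := par_batch (t := pT n) hS (by omega) (three_pow_le_SS (pY n))
      (Nat.div_mul_le_self _ _)
    calc _ ≤ pS n * pS n * (3 * pS n) := Nat.mul_le_mul_left _ h1
      _ = _ := by ring
  · have h1 := Nat.pow_pred_clog_lt_self (b := 3) (by norm_num) hS1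
    have h2 : 0 < pK n := Nat.clog_pos (by norm_num) hS1
    change 3 ^ (pK n - 1) < pS n at h1
    change 3 ^ pK n ≤ 3 * pS n
    rw [show pK n = pK n - 1 + 1 by omega, pow_succ]
    omega
  · have h1 := length_moduli_le (pY n)
    have h2 : 3 * n.size ≤ n.size ^ 5 := by
      calc 3 * n.size ≤ n.size ^ 4 * n.size :=
            Nat.mul_le_mul_right _ (le_trans (by omega) (Nat.le_self_pow (by norm_num) _))
        _ = _ := by ring
    omega
  · calc pS n ^ 3 * pP n ≤ (2 * pH n) ^ 3 * (40 * pQ n) :=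
          Nat.mul_le_mul (Nat.pow_le_pow_left hh3 3) hp2
      _ = 320 * (pH n ^ 3 * pQ n) := by ring
      _ ≤ 640 * n := by omega
  · calc pP n ≤ 8640 * n.size ^ 8 := by omega
      _ ≤ n.size ^ 2 * n.size ^ 8 :=
          Nat.mul_le_mul_right _ (le_trans (by omega) (Nat.le_self_pow (by norm_num) _))
      _ = _ := by ring

end Crest.Agent.R326
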