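import Crest.Agent.R326.Par
import Crest.Agent.R326.ModPT

/-!
# Row 326, the parameters are polynomial-time computable (task R326-ParPT)

`Nat.findGreatest` is the last element of a filtered range, `Nat.clog` is expressed by `Nat.log`.
The values `pQ`, `pF`, `pP`, `pK` are truncated to make them polynomially bounded for all `n`.
-/

set_option autoImplicit false

namespace Crest.Agent.R326

open Crest.Agent.PTime

theorem PP.findGreatest_eq (P : ℕ → Prop) [DecidablePred P] (k : ℕ) :
    Nat.findGreatest P k =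
      ((List.range (k + 1)).flatMap fun i => if P i then [i] else []).getLast?.getD 0 := by
  induction k with
  | zero => by_cases h : P 0 <;> simp [h]
  | succ k ih =>
    rw [List.range_succ, List.flatMap_append, Nat.findGreatest_succ, ih]
    by_cases h : P (k + 1) <;> simp [h]

theorem PP.clog_eq (n : ℕ) : Nat.clog 3 n = if n ≤ 1 then 0 else Nat.log 3 (n - 1) + 1 := by
  split_ifs with h
  · exact Nat.clog_of_right_le_one h 3
  · apply le_antisymm
    · rw [Nat.clog_le_iff_le_pow (by norm_num)]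
      have := Nat.lt_pow_succ_log_self (b := 3) (by norm_num) (n - 1)
      rw [Nat.succ_eq_add_one] at this
      omega
    · rw [Nat.add_one_le_iff, Nat.lt_clog_iff_pow_lt (by norm_num)]
      have := Nat.pow_log_le_self 3 (show n - 1 ≠ 0 by omega)
      omega

theorem PP.pt_hY {α : Type*} [Enc α] {y : α → U} (hy : PT y) : PT (fun a => hY (y a).val) := by
  have h := ((pt_SS.comp hy).add (PT.const 1)).div (PT.const 2)
  unfold hY
  exact h

theorem PP.pt_pY : PT pY := by
  have h1 : PT (fun p : ℕ × U => hY p.2.val) := PP.pt_hY PT.id.snd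
  have h2 : PT (fun p : ℕ × U => hY p.2.val ^ 3 * p.1.size ^ 5 ≤ p.1) :=
    ((h1.pow (PT.const 3) (PB.const 3)).mul (by fun_prop)).le (by fun_prop)
  have h3 := PT.flatMap_range (n := fun n : ℕ => 3 * n.size + 1)
    (f := fun n y => if hY y ^ 3 * n.size ^ 5 ≤ n then [y] else []) (by fun_prop) (by fun_prop)
    (PT.ite h2 (by fun_prop) (PT.const _))
  exact PT.congr (h3.getLast?.getD_option (PT.const 0)) fun n => PP.findGreatest_eq _ _

theorem PP.pb_pY : PB pY :=
  PB.mono (g := fun n : ℕ => 3 * n.size) (by fun_prop) fun _ => Nat.findGreatest_le _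

theorem PP.pt_pYU : PT (fun n => (⟨pY n⟩ : U)) := PP.pt_pY.toU PP.pb_pY

theorem PP.pt_pS : PT pS := by
  have h := pt_SS.comp PP.pt_pYU
  unfold pS
  exact h

theorem PP.pt_pQ : PT pQ := by
  have h : PT pH := by
    have h := PP.pt_hY PP.pt_pYU
    unfold pH
    exact h
  have h3 := h.pow (PT.const 3) (PB.const 3)
  have h4 := ((PT.id.add h3).sub (PT.const 1)).div h3
  unfold pQ
  exact h4

theorem PP.pt_len : PT (fun n => (moduli (pY n)).length) := by
  have h := (pt_moduli.comp PP.pt_pYU).length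
  exact h

theorem PP.pt_pB : PT pB := by
  have h1 : PT (fun n => KK (pY n)) := by
    have h := (pt_KK.comp PP.pt_pYU).val
    exact h
  have h2 : PT (fun n => dlt (pY n)) := by
    have h := ((((PT.const 4).mul (PP.pt_pY.add (PT.const 1))).size.add (PT.const 2)).mul
      PP.pt_len).add (PT.const 4)
    unfold dlt bY
    exact h
  have h3 := (((PT.const 2).mul PP.pt_pQ).add ((PT.const 9).mul (h1.mul h2))).add (PT.const 3)
  unfold pB
  exact h3

theorem PP.pt_pF : PT pF := by
  have h := PP.pt_pB.add (PT.const 2)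
  unfold pF
  exact h

theorem PP.pt_pK : PT pK := by
  have h := PT.ite (PP.pt_pS.le (PT.const 1)) (PT.const 0)
    ((MP.pt_log (PT.const 3) (PP.pt_pS.sub (PT.const 1))).add (PT.const 1))
  exact PT.congr h fun n => PP.clog_eq _

theorem PP.pt_pP : PT pP := by
  have h1 := (PT.const WP).pow (MP.pt_log (PT.const mP) PP.pt_pK)
    (PB.log (g := fun _ => mP) PP.pt_pK)
  have h2 := h1.mul ((((PP.pt_pF.add PP.pt_pB).add (PT.const 3)).div h1).add (PT.const 1))
  unfold pP
  exact h2

theorem PP.pt_pT : PT pT := by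
  have h := (MP.pt_log (PT.const mT) (PT.id (α := ℕ)).size).div (PT.const EE)
  unfold pT
  exact h

theorem PP.pb_pT : PB pT := by
  have h := PB.div (g := fun _ => EE) (PB.log (g := fun _ => mT) (PT.id (α := ℕ)).size)
  unfold pT
  exact h

theorem PP.pt_pL : PT pL := by
  have h1 := (PT.const mT).pow PP.pt_pT PP.pb_pT
  have h2 := ((PP.pt_len.add h1).sub (PT.const 1)).div h1
  unfold pL
  exact h2

theorem PP.pb_pL : PB pL := by
  refine PB.mono (g := fun n => pY n + (n.size + 1)) (PP.pb_pY.add (by fun_prop)) fun n => ?_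
  have h1 : mT ^ pT n ≤ n.size + 1 := by
    refine (Nat.pow_le_pow_right (by norm_num [mT]) (Nat.div_le_self _ _)).trans ?_
    rcases Nat.eq_zero_or_pos n.size with h0 | h0
    · simp [h0]
    · exact (Nat.pow_log_le_self mT h0.ne').trans (Nat.le_succ _)
  have h2 := length_moduli_le (pY n)
  have h3 : pL n ≤ (moduli (pY n)).length + mT ^ pT n - 1 := Nat.div_le_self _ _
  omega

/-- the small parameters are polynomial-time computable from `n` in binary, in unary -/
theorem pt_par : ∃ g : ℕ → U × U × U × U × U × U × U, PT g ∧ ∀ n, ParOk n →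
    g n = (⟨pY n⟩, ⟨pQ n⟩, ⟨pF n⟩, ⟨pP n⟩, ⟨pK n⟩, ⟨pT n⟩, ⟨pL n⟩) := by
  have hm : ∀ {f : ℕ → ℕ}, PT f → PT (fun n => (⟨min (f n) (n.size ^ 10)⟩ : U)) := fun hf =>
    PT.toU (hf.min (by fun_prop)) (PB.min_right (by fun_prop))
  have hk : PT (fun n => (⟨min (pK n) (3 * n.size)⟩ : U)) :=
    PT.toU (PP.pt_pK.min (by fun_prop)) (PB.min_right (by fun_prop))
  refine ⟨_, PP.pt_pYU.pair ((hm PP.pt_pQ).pair ((hm PP.pt_pF).pair ((hm PP.pt_pP).pair
    (hk.pair ((PP.pt_pT.toU PP.pb_pT).pair (PP.pt_pL.toU PP.pb_pL)))))), fun n hn => ?_⟩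
  have h1 := hn.marg
  have h2 := hn.p_le
  have h3 : 2 * pQ n ≤ pB n := by
    unfold pB
    omega
  rw [min_eq_left (show pQ n ≤ n.size ^ 10 by omega), min_eq_left (show pF n ≤ n.size ^ 10 by omega),
    min_eq_left h2, min_eq_left hn.k_le]

end Crest.Agent.R326
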