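import Crest.Agent.R326.T2
import Crest.Agent.R326.ModPT

/-!
# Row 326, cost of the global transform (task R326-PhiTC)

PLAN.  `TU.SS`: `TC.pt pt_SS` (the argument `U y` is small by `hb`), `TU.ofBin`.
`TL.layer`: `TA.shf`, `TL.t2`, `TA.shf`, `TA.cyc` of the table (`N / S²` copies), `TL.mulR`.
`TL.phi`: the units in unary (`pt_unitsY`, then `TC.map'` with `TU.ofBin`, each `< S`); the list,
over `j < KK y`, of the data `(U τ₁, U τ₂, table)` (`TC.range`, `TC.mapEnv`, `TC.ofPT pt_tbl`,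
`pt_tauY`; all binary numbers involved have size `≤ poly (y)` by `SS_le`, `KK_le`); then
`TC.foldl` with a ghost state type `{y f p k t l N, v}` coded as (parameters, units, array) and a
ghost element type `{y f p j}` coded as the data of layer `j`; every step costs
`N p (gT t (l + gP k)) + N p ν p`.
-/

set_option autoImplicit false

namespace Crest.Agent.R326

open Crest.Agent.PTime

/-- the conditions on the parameters of the transform -/
def PhiOk (y f p k t l N : ℕ) : Prop :=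
  0 < N ∧ SS y * SS y ∣ N ∧ SS y * SS y * (WT ^ t * 2 ^ l) ≤ 3 * N ∧ SwOk (SS y) k p ∧
    (moduli y).length ≤ mT ^ t * l ∧ (moduli y).length ≤ p ∧ f ≤ p

variable {α : Type*} [Enc α] {pre : α → Prop} {c N y f k t l p : α → ℕ} {v : α → ℕ → LL}
  {ν : ℕ → ℕ}

namespace PhA

theorem bd_poly (hb : ∀ e : ℕ, Bd pre c (fun a => SS (y a) * SS (y a) * (y a + p a + 1) ^ e))
    {g m : α → ℕ} (hg : ∀ a, pre a → g a ≤ SS (y a) * SS (y a) * (2000000 * (y a + p a + 1) ^ 2))
    (hm : ∀ a, pre a → m a ≤ 2000000 * (y a + p a + 1) ^ 2) (e : ℕ) :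
    Bd pre c (fun a => g a * m a ^ e) := by
  refine ((hb (2 * (e + 1))).const_mul (2000000 ^ (e + 1))).mono fun a ha => ?_
  calc _ ≤ SS (y a) * SS (y a) * (2000000 * (y a + p a + 1) ^ 2) *
        (2000000 * (y a + p a + 1) ^ 2) ^ e :=
        Nat.mul_le_mul (hg a ha) (Nat.pow_le_pow_left (hm a ha) e)
    _ = _ := by rw [mul_assoc, ← pow_succ', mul_pow, ← pow_mul]; ring

theorem le_big {y z g : ℕ} (h : g ≤ z) : g ≤ SS y * SS y * z :=
  h.trans (Nat.le_mul_of_pos_left _ (Nat.mul_pos (SS_pos y) (SS_pos y)))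

theorem small (hb : ∀ e : ℕ, Bd pre c (fun a => SS (y a) * SS (y a) * (y a + p a + 1) ^ e))
    (e : ℕ) : Bd pre c (fun a => sz (U.mk (y a)) ^ e) :=
  (bd_poly hb (g := fun _ => 1) (m := fun a => sz (U.mk (y a)))
    (fun a _ => le_big (Nat.mul_pos (by norm_num) (by positivity)))
    (fun a _ => by rw [sz_U]; nlinarith [Nat.zero_le (p a), Nat.zero_le (y a)]) e).mono
    fun a _ => by rw [one_mul]

/-- a table of values of a polynomial-time function -/
theorem tab {ε β : Type*} [Enc ε] [Enc β] {g : ε × ℕ → β} (hg : PT g) {env : α → ε} {n : α → ℕ}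
    (he : TC pre c env) (hn : TU pre c n)
    (hb : ∀ e : ℕ, Bd pre c (fun a => n a * (sz (env a) + sz (n a) + 1) ^ e)) :
    TA pre c n (fun a i => g (env a, i)) := by
  obtain ⟨e, h1⟩ := TC.ofPT hg
  have h2 : TA pre c n (fun _ i => i) :=
    GArrA.ofL (TC.range hn fun e => (hb e).mono fun a _ =>
      Nat.mul_le_mul_left _ (Nat.pow_le_pow_left (by omega) e)) fun a _ => by simp
  refine TA.mapEnv (f := fun x i => g (x, i)) h2 h1 he (fun _ _ _ _ => trivial)
    ((((hb e).const_mul (4 ^ e)).add (hb 1)).mono fun a _ => ?_)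
  calc _ ≤ ∑ _i ∈ Finset.range (n a), ((4 * (sz (env a) + sz (n a) + 1)) ^ e +
        (sz (env a) + sz (n a) + 1)) := by
        refine Finset.sum_le_sum fun i hi => Nat.add_le_add (Nat.pow_le_pow_left ?_ e) (by omega)
        have := sz_le_of_le (Finset.mem_range.1 hi).le
        rw [sz_pair]
        omega
    _ = _ := by rw [Finset.sum_const, Finset.card_range, smul_eq_mul, mul_pow]; ring

end PhA

open PhA

theorem TU.SS (hy : TU pre c y)
    (hb : ∀ e : ℕ, Bd pre c (fun a => SS (y a) * SS (y a) * (y a + p a + 1) ^ e)) :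
    TU pre c (fun a => SS (y a)) := by
  have h := TC.pt pt_SS hy.tc (small hb)
  exact TU.ofBin h ((hb 0).mono fun a _ => by
    rw [pow_zero, mul_one]; exact Nat.le_mul_self _)

theorem TL.layer {S : α → ℕ} {us : α → List ℕ} {τ : α → ℕ × ℕ} {w : α → ℕ → LL} (hν : MulT ν)
    (h : TL pre c p N v) (hw : TL pre c p (fun a => S a * S a) w) (hp : TU pre c p)
    (hf : TU pre c f) (hS : TU pre c S) (hk : TU pre c k) (ht : TU pre c t) (hl : TU pre c l)
    (hus : TC pre c (fun a => (us a).map U.mk)) (h1 : TU pre c fun a => (τ a).1)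
    (h2 : TU pre c fun a => (τ a).2)
    (h0 : ∀ a, pre a → 0 < N a ∧ S a * S a ∣ N a ∧ S a * S a * (WT ^ t a * 2 ^ l a) ≤ 3 * N a ∧
      SwOk (S a) (k a) (p a) ∧ Units2 (S a) (us a) ∧ (us a).length ≤ mT ^ t a * l a ∧
      (us a).length ≤ p a ∧ f a ≤ p a)
    (hb : Bd pre c (fun a => N a * p a * (gT (t a) * (l a + gP (k a)) + ν (p a)))) :
    TL pre c p N (fun a x => R326.mulR (f a) (p a) (core (S a) ii (us a) (τ a) (v a) x)
      (w a (x % (S a * S a)))) := by
  have a1 : TL pre c p N (fun a x => v a (shf (S a) (τ a) x)) :=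
    TA.shf h hS h1 h2 fun a ha => ⟨(h0 a ha).1, (h0 a ha).2.1⟩
  have a2 := TL.t2 a1 hp hS hk ht hl hus (fun a ha => by
    obtain ⟨b1, b2, b3, b4, b5, b6, b7, -⟩ := h0 a ha
    exact ⟨b1, b2, b3, b4, b5, b6, b7⟩)
    (hb.mono fun a _ => Nat.mul_le_mul_left _ (Nat.le_add_right _ _))
  have a3 : TL pre c p N (fun a x => core (S a) ii (us a) (τ a) (v a) x) :=
    TA.shf (t := fun a => (S a - (τ a).1, S a - (τ a).2)) a2 hS (hS.sub h1) (hS.sub h2)
      fun a ha => ⟨(h0 a ha).1, (h0 a ha).2.1⟩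
  have a4 : TL pre c p N (fun a x => w a (x % (S a * S a))) := by
    refine (TA.cyc hw (h.len.div hw.len) ((h.bd.const_mul 8).mono fun a ha => ?_)).congr
      (fun a ha => (Nat.div_mul_cancel (h0 a ha).2.1).symm) fun _ _ _ _ => rfl
    have b1 := sz_tl_le (p a) (S a * S a) (w a)
    have b2 : 0 < S a * S a := Nat.pos_of_dvd_of_pos (h0 a ha).2.1 (h0 a ha).1
    calc _ ≤ N a / (S a * S a) * (S a * S a * (8 * (p a + 1))) :=
          Nat.mul_le_mul_left _ (b1.trans (by nlinarith))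
      _ = _ := by rw [← mul_assoc, Nat.div_mul_cancel (h0 a ha).2.1]; ring
  exact TL.mulR hν a3 a4 hf (fun a ha => (h0 a ha).2.2.2.2.2.2.2)
    (hb.mono fun a _ => Nat.mul_le_mul_left _ (Nat.le_add_left _ _))

namespace PhA

/-- state of the loop over the layers -/
structure St where
  y : ℕ
  f : ℕ
  p : ℕ
  k : ℕ
  t : ℕ
  l : ℕ
  N : ℕ
  v : ℕ → LL

/-- its code -/
def St.code (s : St) : (U × U × U × U × U × U) × List U × GArr Cl :=
  ((⟨s.f⟩, ⟨s.p⟩, ⟨s.k⟩, ⟨s.t⟩, ⟨s.l⟩, ⟨SS s.y⟩), (unitsY s.y).map U.mk,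
    ⟨s.N, fun i => Cl.mk s.p (s.v i)⟩)

instance : Enc St := ⟨fun s => enc s.code⟩

/-- the data of a layer -/
structure El (inv : Bool) where
  y : ℕ
  f : ℕ
  p : ℕ
  j : ℕ

/-- its code -/
noncomputable def El.code {inv : Bool} (e : El inv) : (U × U) × GArr Cl :=
  ((⟨(tauY e.y inv e.j).1⟩, ⟨(tauY e.y inv e.j).2⟩),
    ⟨SS e.y * SS e.y, fun i => Cl.mk e.p (tbl e.y e.f inv e.j i)⟩)

noncomputable instance (inv : Bool) : Enc (El inv) := ⟨fun e => enc e.code⟩

/-- one layer -/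
noncomputable def step (inv : Bool) (s : St) (e : El inv) : St :=
  ⟨s.y, s.f, s.p, s.k, s.t, s.l, s.N, layL s.y s.f s.p inv s.v e.j⟩

theorem tc_St {y f p k t l N : α → ℕ} {v : α → ℕ → LL} (hf : TU pre c f) (hp : TU pre c p)
    (hk : TU pre c k) (ht : TU pre c t) (hl : TU pre c l) (hS : TU pre c fun a => SS (y a))
    (hu : TC pre c fun a => (unitsY (y a)).map U.mk) (h : TL pre c p N v) :
    TC pre c fun a => St.mk (y a) (f a) (p a) (k a) (t a) (l a) (N a) (v a) :=
  ((hf.tc.pair (hp.tc.pair (hk.tc.pair (ht.tc.pair (hl.tc.pair hS.tc))))).pair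
    (hu.pair h)).of_enc fun _ _ => rfl

theorem tc_arr {y f p k t l N : α → ℕ} {v : α → ℕ → LL}
    (h : TC pre c fun a => St.mk (y a) (f a) (p a) (k a) (t a) (l a) (N a) (v a)) :
    TL pre c p N v :=
  (TC.of_enc (f := fun a => (St.mk (y a) (f a) (p a) (k a) (t a) (l a) (N a) (v a)).code) h
    fun _ _ => rfl).snd.snd

theorem tc_step (inv : Bool) (hν : MulT ν) :
    TC (fun x : St × El inv => PhiOk x.1.y x.1.f x.1.p x.1.k x.1.t x.1.l x.1.N ∧ x.2.y = x.1.y ∧
        x.2.f = x.1.f ∧ x.2.p = x.1.p)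
      (fun x => x.1.N * x.1.p * (gT x.1.t * (x.1.l + gP x.1.k) + ν x.1.p))
      (fun x => step inv x.1 x.2) := by
  generalize hpre : (fun x : St × El inv => PhiOk x.1.y x.1.f x.1.p x.1.k x.1.t x.1.l x.1.N ∧
    x.2.y = x.1.y ∧ x.2.f = x.1.f ∧ x.2.p = x.1.p) = pre
  generalize hc : (fun x : St × El inv =>
    x.1.N * x.1.p * (gT x.1.t * (x.1.l + gP x.1.k) + ν x.1.p)) = c
  have a1 : TC pre c fun x => x.1.code := TC.id.fst.of_enc fun _ _ => rfl
  have a2 : TC pre c fun x => (El.mk x.1.y x.1.f x.1.p x.2.j : El inv).code :=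
    TC.id.snd.of_enc fun x hx => by
      subst hpre
      obtain ⟨-, h1, h2, h3⟩ := hx
      rw [← h1, ← h2, ← h3]
      rfl
  simp only [El.code] at a2
  have h1 : TU pre c fun x => (tauY x.1.y inv x.2.j).1 := a2.fst.fst
  have h2 : TU pre c fun x => (tauY x.1.y inv x.2.j).2 := a2.fst.snd
  have hf : TU pre c fun x => x.1.f := a1.fst.fst
  have hp : TU pre c fun x => x.1.p := a1.fst.snd.fst
  have hk : TU pre c fun x => x.1.k := a1.fst.snd.snd.fst
  have ht : TU pre c fun x => x.1.t := a1.fst.snd.snd.snd.fst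
  have hl : TU pre c fun x => x.1.l := a1.fst.snd.snd.snd.snd.fst
  have hS : TU pre c fun x => SS x.1.y := a1.fst.snd.snd.snd.snd.snd
  have hu : TC pre c fun x => (unitsY x.1.y).map U.mk := a1.snd.fst
  have hv : TL pre c (fun x => x.1.p) (fun x => x.1.N) fun x => x.1.v := a1.snd.snd
  have hw : TL pre c (fun x => x.1.p) (fun x => SS x.1.y * SS x.1.y)
    fun x => tbl x.1.y x.1.f inv x.2.j := a2.snd
  have h0 : ∀ x, pre x → 0 < x.1.N ∧ SS x.1.y * SS x.1.y ∣ x.1.N ∧
      SS x.1.y * SS x.1.y * (WT ^ x.1.t * 2 ^ x.1.l) ≤ 3 * x.1.N ∧ SwOk (SS x.1.y) x.1.k x.1.p ∧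
      Units2 (SS x.1.y) (unitsY x.1.y) ∧ (unitsY x.1.y).length ≤ mT ^ x.1.t * x.1.l ∧
      (unitsY x.1.y).length ≤ x.1.p ∧ x.1.f ≤ x.1.p := by
    intro x hx
    subst hpre
    obtain ⟨⟨b1, b2, b3, b4, b5, b6, b7⟩, -⟩ := hx
    exact ⟨b1, b2, b3, b4, units2_unitsY _, by rwa [length_unitsY], by rwa [length_unitsY], b7⟩
  have hb : Bd pre c fun x => x.1.N * x.1.p * (gT x.1.t * (x.1.l + gP x.1.k) + ν x.1.p) := by
    rw [hc]; exact Bd.self
  have hlay := TL.layer (α := St × El inv) (us := fun x => unitsY x.1.y)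
    (τ := fun x => tauY x.1.y inv x.2.j) (S := fun x => SS x.1.y)
    (w := fun x => tbl x.1.y x.1.f inv x.2.j) hν hv hw hp hf hS hk ht hl hu h1 h2 h0 hb
  exact tc_St hf hp hk ht hl hS hu hlay

theorem foldl_step (inv : Bool) (y f p k t l N : ℕ) (js : List ℕ) : ∀ v : ℕ → LL,
    (js.map (El.mk y f p)).foldl (step inv) ⟨y, f, p, k, t, l, N, v⟩ =
      ⟨y, f, p, k, t, l, N, js.foldl (layL y f p inv) v⟩ := by
  induction js with
  | nil => exact fun _ => rfl
  | cons j js ih => exact fun v => ih _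

theorem sz_St {y f p k t l N : ℕ} (h : PhiOk y f p k t l N) (v : ℕ → LL) :
    sz (St.mk y f p k t l N v) ≤ 60 * (N * p) := by
  obtain ⟨b1, b2, b3, ⟨b4, -, b5, b6, -⟩, -, b7, b8⟩ := h
  have c1 : SS y ≤ N := (Nat.le_mul_self _).trans (Nat.le_of_dvd b1 b2)
  have c2 : k < 3 ^ k := Nat.lt_pow_self (by norm_num)
  have c3 : WT ^ t * 2 ^ l ≤ 3 * N := (le_big le_rfl).trans b3
  have hW : 1 < WT := lt_of_lt_of_le (by decide) mT_le_WT
  have c4 : t < WT ^ t := Nat.lt_pow_self hW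
  have c5 : l < 2 ^ l := Nat.lt_two_pow_self
  have c6 : WT ^ t ≤ WT ^ t * 2 ^ l := Nat.le_mul_of_pos_right _ (by positivity)
  have c7 : 2 ^ l ≤ WT ^ t * 2 ^ l := Nat.le_mul_of_pos_left _ (by positivity)
  have c8 := sz_tl_le p N v
  have c9 : sz ((unitsY y).map U.mk) ≤ p * (2 * N + 1 + 1) + 1 := by
    refine (sz_list_le (B := 2 * N + 1) fun u hu => ?_).trans ?_
    · obtain ⟨u, hu', rfl⟩ := List.mem_map.1 hu
      have := (units2_unitsY y u hu').1
      rw [sz_U]
      change 2 * u + 1 ≤ _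
      omega
    · rw [List.length_map, length_unitsY]
      exact Nat.add_le_add_right (Nat.mul_le_mul_right _ b7) _
  have d1 : N ≤ N * p := Nat.le_mul_of_pos_right _ b6
  have d2 : p ≤ N * p := Nat.le_mul_of_pos_left _ b1
  have d3 : p * (2 * N + 1 + 1) = 2 * (N * p) + 2 * p := by ring
  have d4 : N * (8 * p + 4) = 8 * (N * p) + 4 * N := by ring
  change sz (St.mk y f p k t l N v).code ≤ _
  simp only [St.code, sz_pair, sz_U]
  omega

end PhA

theorem TL.phi (inv : Bool) (hν : MulT ν) (h : TL pre c p N v) (hy : TU pre c y) (hp : TU pre c p)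
    (hf : TU pre c f) (hk : TU pre c k) (ht : TU pre c t) (hl : TU pre c l)
    (h0 : ∀ a, pre a → PhiOk (y a) (f a) (p a) (k a) (t a) (l a) (N a))
    (hb : Bd pre c (fun a =>
      KK (y a) * (N a * p a * (gT (t a) * (l a + gP (k a)) + ν (p a)))))
    (hb' : ∀ e : ℕ, Bd pre c (fun a => SS (y a) * SS (y a) * (y a + p a + 1) ^ e)) :
    TL pre c p N (fun a => PhiL (y a) (f a) (p a) inv (v a)) := by
  have hS : TU pre c fun a => SS (y a) := TU.SS hy hb'
  have hK0 := TC.pt pt_KK hy.tc (small hb')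
  have hK : TU pre c fun a => KK (y a) := hK0
  have hu0 := TC.pt pt_unitsY hy.tc (small hb')
  have hY : ∀ a, y a + 1 ≤ (y a + p a + 1) ^ 2 ∧ p a + 1 ≤ (y a + p a + 1) ^ 2 ∧
      y a * y a + y a + p a + 1 ≤ (y a + p a + 1) ^ 2 := fun a =>
    ⟨by nlinarith [Nat.zero_le (p a), Nat.zero_le (y a)],
      by nlinarith [Nat.zero_le (p a), Nat.zero_le (y a)],
      by nlinarith [Nat.zero_le (p a), Nat.zero_le (y a)]⟩
  have hKle : ∀ a, KK (y a) ≤ 400000 * (y a + 1) := fun a =>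
    (KK_le _).trans (Nat.mul_le_mul_left _ (Nat.succ_le_succ (Nat.log_le_self _ _)))
  have bd1 : ∀ {g : α → ℕ},
      (∀ a, pre a → g a ≤ SS (y a) * SS (y a) * (2000000 * (y a + p a + 1) ^ 2)) → Bd pre c g :=
    fun hg => (bd_poly hb' hg (m := fun _ => 0) (fun _ _ => Nat.zero_le _) 0).mono fun a _ => by simp
  have tU : TC (fun _ : ℕ => True) (fun n => n) U.mk := TU.ofBin TC.id Bd.self
  have hu : TC pre c fun a => (unitsY (y a)).map U.mk := by
    refine TC.map' tU hu0 (fun _ _ _ _ => trivial) (bd1 fun a _ => ?_)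
    have b1 := List.sum_le_card_nsmul (unitsY (y a)) (SS (y a))
      fun u hu => (units2_unitsY _ u hu).1.le
    rw [length_unitsY, smul_eq_mul, mul_comm] at b1
    rw [List.map_id']
    refine b1.trans (Nat.mul_le_mul (Nat.le_mul_self _) ?_)
    have := length_moduli_le (y a)
    have := (hY a).1
    omega
  have hSS : TU pre c fun a => SS (y a) * SS (y a) :=
    hS.mul hS ((hb' 0).mono fun a _ => by simp)
  have hKS : ∀ a, pre a → KK (y a) * (SS (y a) * SS (y a)) ≤
      SS (y a) * SS (y a) * (2000000 * (y a + p a + 1) ^ 2) := fun a _ => by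
    rw [mul_comm]
    refine Nat.mul_le_mul_left _ ?_
    have := hKle a
    have := (hY a).1
    omega
  have szS : ∀ a, SS (y a) * SS (y a) < 2 ^ (2 * (y a * y a) + 1) := fun a => by
    calc _ ≤ 2 ^ (y a * y a) * 2 ^ (y a * y a) := Nat.mul_le_mul (SS_le _) (SS_le _)
      _ < _ := by rw [← pow_add]; exact Nat.pow_lt_pow_right (by norm_num) (by omega)
  have t1 := tab (g := fun x : ((U × U × U) × ℕ) × ℕ => Cl.mk x.1.1.2.2.val
      (tbl x.1.1.1.val x.1.1.2.1.val inv (x.2 / x.1.2) (x.2 % x.1.2)))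
    ((pt_tbl inv).comp (g := fun x : ((U × U × U) × ℕ) × ℕ => (x.1.1, x.2 / x.1.2, x.2 % x.1.2))
      (by fun_prop))
    ((hy.tc.pair (hf.tc.pair hp.tc)).pair hSS.toBin) (hK.mul hSS (bd1 hKS))
    (bd_poly hb' hKS fun a ha => by
      have b1 := sz_le_of_lt (szS a)
      have b2 : KK (y a) * (SS (y a) * SS (y a)) < 2 ^ (KK (y a) + (2 * (y a * y a) + 1)) := by
        rw [pow_add]
        exact Nat.mul_lt_mul'' Nat.lt_two_pow_self (szS a)
      have b3 := sz_le_of_lt b2
      have b4 := hKle a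
      have b5 := (hY a).2.2
      have b6 := (h0 a ha).2.2.2.2.2.2
      simp only [sz_pair, sz_U]
      omega)
  have hS0 : ∀ a, 0 < SS (y a) * SS (y a) := fun a => Nat.mul_pos (SS_pos _) (SS_pos _)
  have t2 : TA pre c (fun a => KK (y a)) fun a j => GArr.mk (SS (y a) * SS (y a))
      fun i => Cl.mk (p a) (tbl (y a) (f a) inv j i) := by
    refine (t1.rows hSS fun a _ => ⟨hS0 a, dvd_mul_left _ _⟩).of_enc
      (fun a _ => (Nat.mul_div_cancel _ (hS0 a)).symm) fun a _ j _ => enc_arr_congr rfl fun i hi => ?_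
    simp only
    rw [Nat.mul_add_mod_of_lt hi, mul_comm j, Nat.mul_add_div (hS0 a), Nat.div_eq_of_lt hi, add_zero]
  have t3 := tab (pt_tauY inv) hy.tc hK (bd_poly hb'
    (fun a _ => le_big (by have := hKle a; have := (hY a).1; omega)) fun a _ => by
      have b1 := sz_le_self (KK (y a))
      have b4 := hKle a
      have b5 := (hY a).1
      simp only [sz_U]
      omega)
  have t4 := t3.map' (f := fun x : ℕ × ℕ => (U.mk x.1, U.mk x.2)) (pre' := fun _ => True)
    (c' := fun x => x.1 + x.2)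
    ((TU.ofBin TC.id.fst (Bd.self.mono fun _ _ => Nat.le_add_right _ _)).tc.pair
      (TU.ofBin TC.id.snd (Bd.self.mono fun _ _ => Nat.le_add_left _ _)).tc)
    (fun _ _ _ _ => trivial) (((bd1 hKS).const_mul 2).mono fun a _ => by
      calc _ ≤ ∑ _i ∈ Finset.range (KK (y a)), 2 * (SS (y a) * SS (y a)) :=
            Finset.sum_le_sum fun j _ => by
              have b1 := tauY_lt (y a) inv j
              have b2 := Nat.le_mul_self (SS (y a))
              simp only
              omega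
        _ = _ := by rw [Finset.sum_const, Finset.card_range, smul_eq_mul]; ring)
  have hL : TC pre c fun a => (List.range (KK (y a))).map (El.mk (inv := inv) (y a) (f a) (p a)) :=
    TA.toList ((t4.zip t2).of_enc (fun _ _ => rfl) fun _ _ _ _ => rfl)
  have hF := TC.foldl (tc_step inv hν) hL (tc_St hf hp hk ht hl hS hu h)
    (fun a s => ∃ v, s = ⟨y a, f a, p a, k a, t a, l a, N a, v⟩)
    (fun a _ => 61 * (N a * p a * (gT (t a) * (l a + gP (k a)) + ν (p a))))
    (fun a _ => ⟨_, rfl⟩) (by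
      rintro a ha b hb _ ⟨v, rfl⟩
      obtain ⟨j, -, rfl⟩ := List.mem_map.1 hb
      refine ⟨⟨h0 a ha, rfl, rfl, rfl⟩, ⟨_, rfl⟩, ?_⟩
      have b1 := sz_St (h0 a ha) v
      have b2 : N a * p a ≤ N a * p a * (gT (t a) * (l a + gP (k a)) + ν (p a)) :=
        Nat.le_mul_of_pos_right _ (Nat.add_pos_left (Nat.mul_pos (gT_pos _)
          (Nat.add_pos_right _ (gP_pos _))) _)
      simp only
      omega)
    ((hb.const_mul 61).mono fun a _ => by
      rw [List.map_const', List.sum_replicate, List.length_map, List.length_range, smul_eq_mul]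
      exact le_of_eq (by ring))
  have hG : TC pre c fun a => St.mk (y a) (f a) (p a) (k a) (t a) (l a) (N a)
      (PhiL (y a) (f a) (p a) inv (v a)) := hF.congr fun _ _ => (foldl_step ..).symm
  exact tc_arr hG

end Crest.Agent.R326
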