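import Crest.Agent.R326.Mach

/-!
# Row 326, raw cost calculus (task R326-Raw)

`Raw pre c f`: some program turns `enc a` into `enc (f a)` on top of stack `s` within
`K * (c a + 1)` steps (for all `a` with `pre a`), leaving what is below on `s` and the stacks
`u`, `w` unchanged, `a b c` empty before and after.  The cost does NOT contain `sz a`: the natives
below only pay for the PREFIX of the input they touch.

PLAN.  Copy the `EvLe` lemmas of `Lib/PT/Tree.lean` (skip, push, seq, caseF, caseT, loopN/F/T) and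
lift the programs `mvA, aToS, pDup, pSwap, pDrop, pushBits, pop1, clrA` through `EvLe.lift`
(`up ⟨s,a,b,c⟩ u w = ⟨s,a,b,c,u,w⟩` by `rfl`).  A pair is coded `true :: x.bits ++ y.bits`.
* `onFst`: pop, run, push true.  `dropFst`: pop, pDrop.  `pushConst`: pushBits, push true.
* `assocL`: pop, mvA, pop, aToS, push true, push true.  `assocR`: pop, pop, mvA, push true, aToS,
  push true.  `swap`: pop, pSwap, push true.  `dup`: pDup, push true.
* `onSnd`: pop, mvA, move `a` to `u` (loop; now `u = x.bits ++ u₀`), run, scan one tree from `u`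
  to `a` (copy of `scanA` reading `u`, counter on `c`), aToS, push true.
* `caseList`: pop, `case s`: false -> run `f`; true -> push true twice, run `g`.
* `mapAcc`: pop, move the list to `u` (mvA + loop), push false on `w`, push true on `c`, then
  `loop c skip (case u skip skip body)` with body = scan a tree `u → a`, aToS, push true, run `f`,
  pop, mvA, move `a` to `w`, push true on `w`, push true on `c` (see `PT.while_loop`); so `w` holds
  the code of the reversed output list.  Finally push false on `s` and a second loop of the same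
  shape moves the trees of `w` back (scan `w → a`, aToS, push true on `s`); push true.
  Induct on the list with generalised state and accumulated outputs.
-/

set_option autoImplicit false

namespace Crest.Agent.R326

open Crest.Agent.PTime

/-- evaluation within a time bound -/
def EvLe (e p : Q) (x y : S6) (n : ℕ) : Prop := ∃ m ≤ n, Ev e p x y m

/-- states with empty scratch stacks -/
abbrev mk6 (s u w : List Bool) : S6 := ⟨s, [], [], [], u, w⟩

/-- program `p` (in environment `e`) turns tree `x` into tree `y` on top of the main stack -/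
def Cmp (e p : Q) (x y : T) (n : ℕ) : Prop :=
  ∀ r u w : List Bool, EvLe e p (mk6 (x.bits ++ r) u w) (mk6 (y.bits ++ r) u w) n

theorem EvLe.mono {e p x y m n} (h : EvLe e p x y m) (hmn : m ≤ n) : EvLe e p x y n := by
  obtain ⟨k, hk, h⟩ := h; exact ⟨k, hk.trans hmn, h⟩

theorem EvLe.seq {e p q x y z m n} (h : EvLe e p x y m) (h' : EvLe e q y z n) :
    EvLe e (.seq p q) x z (m + n) := by
  obtain ⟨k, hk, h⟩ := h; obtain ⟨k', hk', h'⟩ := h'
  exact ⟨k + k', by omega, h.seq h'⟩

theorem EvLe.lift {p : P} {x y : St} {n : ℕ} (h : PTime.EvLe p x y n) (e : Q) (u w : List Bool) :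
    EvLe e (lift p) (up x u w) (up y u w) n := by
  obtain ⟨k, hk, h⟩ := h; exact ⟨k, hk, Ev.lift h e u w⟩

theorem Cmp.mono {e p x y m n} (h : Cmp e p x y m) (hmn : m ≤ n) : Cmp e p x y n :=
  fun r u w => (h r u w).mono hmn

theorem Cmp.seq {e p q x y z m n} (h : Cmp e p x y m) (h' : Cmp e q y z n) :
    Cmp e (.seq p q) x z (m + n) := fun r u w => (h r u w).seq (h' r u w)

theorem Cmp.size_le {e p x y n} (h : Cmp e p x y n) : y.size ≤ x.size + n := by
  obtain ⟨m, hm, h⟩ := h [] [] []
  have := h.len_le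
  simp [S6.len] at this; omega

theorem Cmp.lift {p : P} {x y : T} {n : ℕ} (h : PTime.Cmp p x y n) (e : Q) :
    Cmp e (lift p) x y n := fun r u w => EvLe.lift (h r) e u w

theorem Cmp.mu {b x y n} (h : Cmp b b x y n) (e : Q) : Cmp e (.mu b) x y (n + 2) := fun r u w => by
  obtain ⟨m, hm, h⟩ := h r u w; exact ⟨m + 2, by omega, .mu h⟩

theorem Cmp.self {b x y n} (h : Cmp b b x y n) : Cmp b .self x y (n + 2) := fun r u w => by
  obtain ⟨m, hm, h⟩ := h r u w; exact ⟨m + 2, by omega, .self h⟩

theorem EvLe.skip (e : Q) (x : S6) : EvLe e .skip x x 1 := ⟨1, le_rfl, .skip e x⟩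

theorem EvLe.push (e : Q) (k : K6) (b : Bool) (x : S6) :
    EvLe e (.push k b) x (x.set k (b :: x.get k)) 1 := ⟨1, le_rfl, .push e k b x⟩

theorem EvLe.caseF {e k pn pf pt x y n r} (h : x.get k = false :: r)
    (h' : EvLe e pf (x.set k r) y n) : EvLe e (.case k pn pf pt) x y (n + 1) := by
  obtain ⟨m, hm, h'⟩ := h'; exact ⟨m + 1, by omega, .caseF h h'⟩

theorem EvLe.caseT {e k pn pf pt x y n r} (h : x.get k = true :: r)
    (h' : EvLe e pt (x.set k r) y n) : EvLe e (.case k pn pf pt) x y (n + 1) := by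
  obtain ⟨m, hm, h'⟩ := h'; exact ⟨m + 1, by omega, .caseT h h'⟩

theorem EvLe.loopN {e k pf pt x} (h : x.get k = []) : EvLe e (.loop k pf pt) x x 1 :=
  ⟨1, le_rfl, .loopN h⟩

theorem EvLe.loopF {e k pf pt x y z m n r} (h : x.get k = false :: r)
    (h' : EvLe e pf (x.set k r) y m) (h'' : EvLe e (.loop k pf pt) y z n) :
    EvLe e (.loop k pf pt) x z (m + n + 1) := by
  obtain ⟨m', hm, h'⟩ := h'; obtain ⟨n', hn, h''⟩ := h''
  exact ⟨m' + n' + 1, by omega, .loopF h h' h''⟩

theorem EvLe.loopT {e k pf pt x y z m n r} (h : x.get k = true :: r)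
    (h' : EvLe e pt (x.set k r) y m) (h'' : EvLe e (.loop k pf pt) y z n) :
    EvLe e (.loop k pf pt) x z (m + n + 1) := by
  obtain ⟨m', hm, h'⟩ := h'; obtain ⟨n', hn, h''⟩ := h''
  exact ⟨m' + n' + 1, by omega, .loopT h h' h''⟩

namespace RawA

theorem node_bits (x y : T) (r : List Bool) :
    (T.node x y).bits ++ r = true :: (x.bits ++ (y.bits ++ r)) := by simp [T.bits]

theorem pop (e : Q) (b : Bool) (r a u w : List Bool) :
    EvLe e (lift (pop1 .s)) ⟨b :: r, a, [], [], u, w⟩ ⟨r, a, [], [], u, w⟩ 2 :=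
  EvLe.lift (ev_pop1 b r a [] []) e u w

theorem pushS (e : Q) (b : Bool) (r a u w : List Bool) :
    EvLe e (.push .s b) ⟨r, a, [], [], u, w⟩ ⟨b :: r, a, [], [], u, w⟩ 1 := EvLe.push e .s b _

theorem toA (e : Q) (t : T) (r u w : List Bool) :
    EvLe e (lift mvA) (mk6 (t.bits ++ r) u w) ⟨r, t.bits.reverse, [], [], u, w⟩ (5 * t.size + 2) := by
  have := EvLe.lift (ev_mvA t r [] []) e u w
  rwa [List.append_nil] at this

theorem fromA (e : Q) (t : T) (r u w : List Bool) :
    EvLe e (lift aToS) ⟨r, t.bits.reverse, [], [], u, w⟩ (mk6 (t.bits ++ r) u w) (2 * t.size + 1) := by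
  have := EvLe.lift (ev_aToS t.bits.reverse r [] []) e u w
  rwa [List.reverse_reverse, List.length_reverse, T.length_bits] at this

/-- move stack `a` to stack `u` -/
def aToU : Q := .loop .a (.push .u false) (.push .u true)

theorem ev_aToU (e : Q) (s y a : List Bool) : ∀ x : List Bool,
    EvLe e aToU ⟨s, a, [], [], x, y⟩ ⟨s, [], [], [], a.reverse ++ x, y⟩ (2 * a.length + 1) := by
  induction a with
  | nil => intro x; exact EvLe.loopN rfl
  | cons b a ih =>
    intro x
    have := ih (b :: x)
    rw [List.reverse_cons, List.append_assoc]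
    cases b
    · exact EvLe.mono (EvLe.loopF (r := a) rfl (EvLe.push _ _ _ _) this) (by simp; omega)
    · exact EvLe.mono (EvLe.loopT (r := a) rfl (EvLe.push _ _ _ _) this) (by simp; omega)

/-- loop of the scan moving one tree from `u` to `a` -/
def scanU : Q := .loop .c .skip (.case .u .skip (.push .a false)
  (.seq (.push .a true) (.seq (.push .c true) (.push .c true))))

theorem ev_scanU (e : Q) (s y : List Bool) (t : T) : ∀ (r a c : List Bool) (z : S6) (n : ℕ),
    EvLe e scanU ⟨s, t.bits.reverse ++ a, [], c, r, y⟩ z n →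
    EvLe e scanU ⟨s, a, [], true :: c, t.bits ++ r, y⟩ z (n + 5 * t.size) := by
  induction t with
  | leaf =>
    intro r a c z n h
    refine EvLe.mono (EvLe.loopT (r := c) rfl (EvLe.caseF (r := r) rfl (EvLe.push _ _ _ _)) h) ?_
    simp [T.size]; omega
  | node l r' ihl ihr =>
    intro r a c z n h
    have h1 := ihr r (l.bits.reverse ++ true :: a) c z n (by simpa [T.bits] using h)
    have h2 := ihl (r'.bits ++ r) (true :: a) (true :: c) z _ h1
    refine EvLe.mono (EvLe.loopT (r := c) rfl (EvLe.caseT (r := l.bits ++ (r'.bits ++ r))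
      (by simp [T.bits, S6.get, S6.set])
      ((EvLe.push _ _ _ _).seq ((EvLe.push _ _ _ _).seq (EvLe.push _ _ _ _)))) h2) ?_
    simp [T.size]; omega

/-- move the top tree from `s` to `u` -/
def stashU : Q := .seq (lift mvA) aToU

theorem ev_stashU (e : Q) (t : T) (r x y : List Bool) :
    EvLe e stashU ⟨t.bits ++ r, [], [], [], x, y⟩ ⟨r, [], [], [], t.bits ++ x, y⟩
      (7 * t.size + 3) := by
  have := (toA e t r _ _).seq (ev_aToU e r y t.bits.reverse x)
  rw [List.reverse_reverse] at this
  exact this.mono (by simp; omega)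

/-- move the top tree from `u` to `s` -/
def backU : Q := .seq (.push .c true) (.seq scanU (lift aToS))

theorem ev_backU (e : Q) (t : T) (r x y : List Bool) :
    EvLe e backU ⟨r, [], [], [], t.bits ++ x, y⟩ ⟨t.bits ++ r, [], [], [], x, y⟩
      (7 * t.size + 3) := by
  have h1 := ev_scanU e r y t x [] [] _ _ (EvLe.loopN rfl)
  rw [List.append_nil] at h1
  exact ((EvLe.push e .c true ⟨r, [], [], [], t.bits ++ x, y⟩).seq
    (h1.seq (fromA e t r _ _))).mono (by omega)

/-- move stack `a` to stack `w` -/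
def aToW : Q := .loop .a (.push .w false) (.push .w true)

theorem ev_aToW (e : Q) (s y a : List Bool) : ∀ x : List Bool,
    EvLe e aToW ⟨s, a, [], [], y, x⟩ ⟨s, [], [], [], y, a.reverse ++ x⟩ (2 * a.length + 1) := by
  induction a with
  | nil => intro x; exact EvLe.loopN rfl
  | cons b a ih =>
    intro x
    have := ih (b :: x)
    rw [List.reverse_cons, List.append_assoc]
    cases b
    · exact EvLe.mono (EvLe.loopF (r := a) rfl (EvLe.push _ _ _ _) this) (by simp; omega)
    · exact EvLe.mono (EvLe.loopT (r := a) rfl (EvLe.push _ _ _ _) this) (by simp; omega)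

/-- loop of the scan moving one tree from `w` to `a` -/
def scanW : Q := .loop .c .skip (.case .w .skip (.push .a false)
  (.seq (.push .a true) (.seq (.push .c true) (.push .c true))))

theorem ev_scanW (e : Q) (s y : List Bool) (t : T) : ∀ (r a c : List Bool) (z : S6) (n : ℕ),
    EvLe e scanW ⟨s, t.bits.reverse ++ a, [], c, y, r⟩ z n →
    EvLe e scanW ⟨s, a, [], true :: c, y, t.bits ++ r⟩ z (n + 5 * t.size) := by
  induction t with
  | leaf =>
    intro r a c z n h
    refine EvLe.mono (EvLe.loopT (r := c) rfl (EvLe.caseF (r := r) rfl (EvLe.push _ _ _ _)) h) ?_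
    simp [T.size]; omega
  | node l r' ihl ihr =>
    intro r a c z n h
    have h1 := ihr r (l.bits.reverse ++ true :: a) c z n (by simpa [T.bits] using h)
    have h2 := ihl (r'.bits ++ r) (true :: a) (true :: c) z _ h1
    refine EvLe.mono (EvLe.loopT (r := c) rfl (EvLe.caseT (r := l.bits ++ (r'.bits ++ r))
      (by simp [T.bits, S6.get, S6.set])
      ((EvLe.push _ _ _ _).seq ((EvLe.push _ _ _ _).seq (EvLe.push _ _ _ _)))) h2) ?_
    simp [T.size]; omega

/-- move the top tree from `s` to `w` -/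
def stashW : Q := .seq (lift mvA) aToW

theorem ev_stashW (e : Q) (t : T) (r x y : List Bool) :
    EvLe e stashW ⟨t.bits ++ r, [], [], [], y, x⟩ ⟨r, [], [], [], y, t.bits ++ x⟩
      (7 * t.size + 3) := by
  have := (toA e t r _ _).seq (ev_aToW e r y t.bits.reverse x)
  rw [List.reverse_reverse] at this
  exact this.mono (by simp; omega)

/-- move the top tree from `w` to `s` -/
def backW : Q := .seq (.push .c true) (.seq scanW (lift aToS))

theorem ev_backW (e : Q) (t : T) (r x y : List Bool) :
    EvLe e backW ⟨r, [], [], [], y, t.bits ++ x⟩ ⟨t.bits ++ r, [], [], [], y, x⟩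
      (7 * t.size + 3) := by
  have h1 := ev_scanW e r y t x [] [] _ _ (EvLe.loopN rfl)
  rw [List.append_nil] at h1
  exact ((EvLe.push e .c true ⟨r, [], [], [], y, t.bits ++ x⟩).seq
    (h1.seq (fromA e t r _ _))).mono (by omega)

end RawA
open RawA

/-- run a program on the first component of a pair -/
def qFst (p : Q) : Q := .seq (lift (pop1 .s)) (.seq p (.push .s true))

theorem Cmp.fst {e p x y n} (h : Cmp e p x y n) (z : T) :
    Cmp e (qFst p) (.node x z) (.node y z) (n + 3) := by
  intro r u w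
  rw [node_bits, node_bits]
  exact ((pop e _ _ _ _ _).seq ((h _ u w).seq (pushS e _ _ _ _ _))).mono (by omega)

/-- branch on a boolean in the first component (which is consumed) -/
def qIf (pt pf : Q) : Q := .seq (lift (pop1 .s))
  (.case .s .skip pf (.seq (lift (pop1 .s)) (.seq (lift (pop1 .s)) pt)))

theorem Cmp.ifT {e pt x y n} (h : Cmp e pt x y n) (pf : Q) :
    Cmp e (qIf pt pf) (.node (enc true) x) y (n + 7) := by
  intro r u w
  rw [node_bits]
  exact ((pop e _ _ _ _ _).seq (EvLe.caseT (r := false :: false :: (x.bits ++ r)) rfl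
    ((pop e _ _ _ _ _).seq ((pop e _ _ _ _ _).seq (h r u w))))).mono (by omega)

theorem Cmp.ifF {e pf x y n} (h : Cmp e pf x y n) (pt : Q) :
    Cmp e (qIf pt pf) (.node (enc false) x) y (n + 7) := by
  intro r u w
  rw [node_bits]
  exact ((pop e _ _ _ _ _).seq (EvLe.caseF (r := x.bits ++ r) rfl (h r u w))).mono (by omega)

variable {α β γ σ : Type*} [Enc α] [Enc β] [Enc γ] [Enc σ]

/-- raw time bound -/
def Raw (pre : α → Prop) (c : α → ℕ) (f : α → β) : Prop :=
  ∃ (p : Q) (K : ℕ), ∀ (e : Q) (a : α), pre a → Cmp e p (enc a) (enc (f a)) (K * (c a + 1))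

theorem Raw.id : Raw (fun _ : α => True) (fun _ => 0) (fun a => a) := by
  exact ⟨.skip, 1, fun e a _ r u w => EvLe.skip e _⟩

/-- weaken precondition and cost, change the value up to encoding -/
theorem Raw.mono {pre pre' : α → Prop} {c c' : α → ℕ} {f : α → β} {g : α → γ} (h : Raw pre c f)
    (h1 : ∀ a, pre' a → pre a) (h2 : ∃ K, ∀ a, pre' a → c a ≤ K * (c' a + 1))
    (h3 : ∀ a, pre' a → enc (g a) = enc (f a)) : Raw pre' c' g := by
  obtain ⟨p, K, hp⟩ := h
  obtain ⟨K', h2⟩ := h2
  refine ⟨p, K * (K' + 1), fun e a ha => ?_⟩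
  rw [h3 a ha]
  refine (hp e a (h1 a ha)).mono ?_
  have := h2 a ha
  rw [mul_assoc]
  exact Nat.mul_le_mul_left _ (by rw [add_mul]; omega)

/-- change the (ghost) input type -/
theorem Raw.recode {pre : α → Prop} {c : α → ℕ} {f : α → β} (h : Raw pre c f) (ι : γ → α)
    (hι : ∀ x, enc (ι x) = enc x) :
    Raw (fun x => pre (ι x)) (fun x => c (ι x)) (fun x => f (ι x)) := by
  obtain ⟨p, K, hp⟩ := h
  exact ⟨p, K, fun e x hx => hι x ▸ hp e (ι x) hx⟩

theorem Raw.comp {pre : α → Prop} {c : α → ℕ} {g : α → β} {pre' : β → Prop} {c' : β → ℕ}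
    {f : β → γ} (hf : Raw pre' c' f) (hg : Raw pre c g) :
    Raw (fun a => pre a ∧ pre' (g a)) (fun a => c a + c' (g a)) (fun a => f (g a)) := by
  obtain ⟨p, K, hp⟩ := hg
  obtain ⟨p', K', hp'⟩ := hf
  refine ⟨.seq p p', K + K', fun e a ha => ((hp e a ha.1).seq (hp' e _ ha.2)).mono ?_⟩
  rw [add_mul]
  beta_reduce
  exact add_le_add (Nat.mul_le_mul_left _ (by omega)) (Nat.mul_le_mul_left _ (by omega))

theorem Raw.sz_le {pre : α → Prop} {c : α → ℕ} {f : α → β} (h : Raw pre c f) :
    ∃ K, ∀ a, pre a → sz (f a) ≤ sz a + K * (c a + 1) := by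
  obtain ⟨p, K, hp⟩ := h
  exact ⟨K, fun a ha => (hp .skip a ha).size_le⟩

theorem Raw.onFst {pre : α → Prop} {c : α → ℕ} {f : α → β} (h : Raw pre c f) :
    Raw (fun x : α × γ => pre x.1) (fun x => c x.1) (fun x => (f x.1, x.2)) := by
  obtain ⟨p, K, hp⟩ := h
  exact ⟨qFst p, K + 3, fun e x hx => ((hp e x.1 hx).fst (enc x.2)).mono
    (by beta_reduce; rw [add_mul]; omega)⟩

theorem Raw.onSnd {pre : α → Prop} {c : α → ℕ} {f : α → β} (h : Raw pre c f) :
    Raw (fun x : γ × α => pre x.2) (fun x => sz x.1 + c x.2) (fun x => (x.1, f x.2)) := by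
  obtain ⟨p, K, hp⟩ := h
  refine ⟨.seq (lift (pop1 .s)) (.seq stashU (.seq p (.seq backU (.push .s true)))), K + 14,
    fun e x hx r u w => ?_⟩
  rw [enc_prod, enc_pair, node_bits, node_bits]
  refine ((pop e _ _ _ _ _).seq ((ev_stashU e _ _ _ _).seq ((hp e x.2 hx r _ _).seq
    ((ev_backU e _ _ _ _).seq (pushS e _ _ _ _ _))))).mono ?_
  have : K * (c x.2 + 1) ≤ K * (sz x.1 + c x.2 + 1) := Nat.mul_le_mul_left _ (by omega)
  beta_reduce
  rw [add_mul]
  unfold sz at *
  omega

theorem Raw.assocL : Raw (fun _ : α × β × γ => True) (fun x => sz x.1)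
    (fun x => ((x.1, x.2.1), x.2.2)) := by
  refine ⟨.seq (lift (pop1 .s)) (.seq (lift mvA) (.seq (lift (pop1 .s)) (.seq (lift aToS)
    (.seq (.push .s true) (.push .s true))))), 9, fun e x _ r u w => ?_⟩
  obtain ⟨a, b, c⟩ := x
  simp only [enc_pair, node_bits]
  refine ((pop e _ _ _ _ _).seq ((toA e _ _ _ _).seq ((pop e _ _ _ _ _).seq ((fromA e _ _ _ _).seq
    ((pushS e _ _ _ _ _).seq (pushS e _ _ _ _ _)))))).mono ?_
  unfold sz
  omega

theorem Raw.assocR : Raw (fun _ : (α × β) × γ => True) (fun x => sz x.1.1)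
    (fun x => (x.1.1, x.1.2, x.2)) := by
  refine ⟨.seq (lift (pop1 .s)) (.seq (lift (pop1 .s)) (.seq (lift mvA) (.seq (.push .s true)
    (.seq (lift aToS) (.push .s true))))), 9, fun e x _ r u w => ?_⟩
  obtain ⟨⟨a, b⟩, c⟩ := x
  simp only [enc_pair, node_bits]
  refine ((pop e _ _ _ _ _).seq ((pop e _ _ _ _ _).seq ((toA e _ _ _ _).seq ((pushS e _ _ _ _ _).seq
    ((fromA e _ _ _ _).seq (pushS e _ _ _ _ _)))))).mono ?_
  unfold sz
  omega

theorem Raw.swap : Raw (fun _ : α × β => True) (fun x => sz x) (fun x => (x.2, x.1)) := by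
  refine ⟨.seq (lift (pop1 .s)) (.seq (lift pSwap) (.push .s true)), 9, fun e x _ r u w => ?_⟩
  obtain ⟨a, b⟩ := x
  simp only [enc_pair, node_bits, sz_pair]
  refine ((pop e _ _ _ _ _).seq ((EvLe.lift (ev_swap _ _ r) e u w).seq
    (pushS e _ _ _ _ _))).mono ?_
  unfold sz
  omega

theorem Raw.dup : Raw (fun _ : α => True) (fun x => sz x) (fun x => (x, x)) := by
  refine ⟨.seq (lift pDup) (.push .s true), 12, fun e x _ r u w => ?_⟩
  simp only [enc_pair, node_bits]
  refine ((EvLe.lift (ev_dup _ r) e u w).seq (pushS e _ _ _ _ _)).mono ?_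
  unfold sz
  omega

theorem Raw.dropFst : Raw (fun _ : α × β => True) (fun x => sz x.1) (fun x => x.2) := by
  refine ⟨.seq (lift (pop1 .s)) (lift pDrop), 7, fun e x _ r u w => ?_⟩
  obtain ⟨a, b⟩ := x
  simp only [enc_pair, node_bits]
  refine ((pop e _ _ _ _ _).seq (EvLe.lift (ev_drop _ _) e u w)).mono ?_
  unfold sz
  omega

theorem Raw.pushConst (b : β) : Raw (fun _ : α => True) (fun _ => 0) (fun x => (b, x)) := by
  refine ⟨.seq (lift (pushBits (enc b).bits)) (.push .s true), (enc b).bits.length + 2,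
    fun e x _ r u w => ?_⟩
  simp only [enc_pair, node_bits]
  exact ((EvLe.lift (ev_pushBits _ _) e u w).seq (pushS e _ _ _ _ _)).mono (by omega)

/-- `(a, b, c) ↦ (b, a, c)` (from `assocL`, `onFst swap`, `assocR`) -/
theorem Raw.swapTop : Raw (fun _ : α × β × γ => True) (fun x => sz x.1 + sz x.2.1)
    (fun x => (x.2.1, x.1, x.2.2)) := by
  refine (Raw.assocR.comp ((Raw.swap.onFst (γ := γ)).comp Raw.assocL)).mono
    (fun _ _ => ⟨⟨trivial, trivial⟩, trivial⟩) ⟨2, fun a _ => ?_⟩ fun _ _ => rfl
  simp only [sz_pair]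
  omega

/-- `(a, c) ↦ (a, a, c)` -/
theorem Raw.dupFst : Raw (fun _ : α × γ => True) (fun x => sz x.1)
    (fun x => (x.1, x.1, x.2)) := by
  refine (Raw.assocR.comp (Raw.dup.onFst (γ := γ))).mono
    (fun _ _ => ⟨trivial, trivial⟩) ⟨2, fun a _ => ?_⟩ fun _ _ => rfl
  simp only
  omega

/-- case distinction on a bare list (`case s`: push the popped bit back and run the branch) -/
theorem Raw.caseList0 {pre1 : Unit → Prop} {c1 : Unit → ℕ} {f : Unit → σ}
    {pre2 : β × List β → Prop} {c2 : β × List β → ℕ} {g : β × List β → σ}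
    (hf : Raw pre1 c1 f) (hg : Raw pre2 c2 g) :
    Raw (fun l : List β => List.casesOn l (pre1 ()) fun b t => pre2 (b, t))
      (fun l => List.casesOn l (c1 ()) fun b t => c2 (b, t))
      (fun l => (List.casesOn l (f ()) fun b t => g (b, t) : σ)) := by
  obtain ⟨p, K, hp⟩ := hf
  obtain ⟨p', K', hp'⟩ := hg
  refine ⟨.case .s .skip (.seq (.push .s false) p) (.seq (.push .s true) p'), K + K' + 2,
    fun e l hl r u w => ?_⟩
  cases l with
  | nil =>
    refine (EvLe.caseF (r := r) rfl ((pushS e _ _ _ _ _).seq (hp e () hl r u w))).mono ?_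
    simp only [add_mul]
    omega
  | cons b t =>
    have := hp' e (b, t) hl r u w
    rw [enc_pair, node_bits] at this
    rw [enc_cons, node_bits]
    refine (EvLe.caseT (r := (enc b).bits ++ ((enc t).bits ++ r)) rfl
      ((pushS e _ _ _ _ _).seq this)).mono ?_
    simp only [add_mul]
    omega

theorem Raw.caseList {pre1 : γ → Prop} {c1 : γ → ℕ} {f : γ → σ}
    {pre2 : (β × List β) × γ → Prop} {c2 : (β × List β) × γ → ℕ} {g : (β × List β) × γ → σ}
    (hf : Raw pre1 c1 f) (hg : Raw pre2 c2 g) :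
    Raw (fun x : List β × γ => List.casesOn x.1 (pre1 x.2) fun b t => pre2 ((b, t), x.2))
      (fun x => List.casesOn x.1 (c1 x.2) fun b t => c2 ((b, t), x.2))
      (fun x => (List.casesOn x.1 (f x.2) fun b t => g ((b, t), x.2) : σ)) := by
  obtain ⟨p, K, hp⟩ := hf
  obtain ⟨p', K', hp'⟩ := hg
  refine ⟨.seq (lift (pop1 .s)) (.case .s .skip p (.seq (.push .s true) (.seq (.push .s true) p'))),
    K + K' + 5, fun e x hx r u w => ?_⟩
  obtain ⟨l, y⟩ := x
  cases l with
  | nil =>
    rw [enc_pair, node_bits]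
    refine ((pop e _ _ _ _ _).seq (EvLe.caseF (r := (enc y).bits ++ r) rfl (hp e y hx r u w))).mono ?_
    simp only [add_mul]
    omega
  | cons b t =>
    have := hp' e ((b, t), y) hx r u w
    rw [enc_pair, enc_pair, node_bits, node_bits] at this
    rw [enc_pair, enc_cons, node_bits, node_bits]
    refine ((pop e _ _ _ _ _).seq (EvLe.caseT
      (r := (enc b).bits ++ ((enc t).bits ++ ((enc y).bits ++ r))) rfl
      ((pushS e _ _ _ _ _).seq ((pushS e _ _ _ _ _).seq this)))).mono ?_
    simp only [add_mul]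
    omega

theorem Raw.caseBool {pre1 pre2 : γ → Prop} {c1 c2 : γ → ℕ} {f g : γ → σ}
    (hf : Raw pre1 c1 f) (hg : Raw pre2 c2 g) :
    Raw (fun x : Bool × γ => cond x.1 (pre1 x.2) (pre2 x.2))
      (fun x => cond x.1 (c1 x.2) (c2 x.2)) (fun x => cond x.1 (f x.2) (g x.2)) := by
  obtain ⟨p, K, hp⟩ := hf
  obtain ⟨p', K', hp'⟩ := hg
  refine ⟨qIf p p', K + K' + 7, fun e x hx => ?_⟩
  obtain ⟨b, y⟩ := x
  cases b
  · refine ((hp' e y hx).ifF p).mono ?_
    simp only [add_mul, cond_false]
    omega
  · refine ((hp e y hx).ifT p').mono ?_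
    simp only [add_mul, cond_true]
    omega

/-- map with an accumulator -/
def mapAcc {β γ σ : Type*} (f : β × σ → γ × σ) : List β → σ → List γ × σ
  | [], s => ([], s)
  | b :: l, s => ((f (b, s)).1 :: (mapAcc f l (f (b, s)).2).1, (mapAcc f l (f (b, s)).2).2)

/-- all steps of `mapAcc` satisfy `P` -/
def accAll {β γ σ : Type*} (P : β × σ → Prop) (f : β × σ → γ × σ) : List β → σ → Prop
  | [], _ => True
  | b :: l, s => P (b, s) ∧ accAll P f l (f (b, s)).2

/-- sum of `c` over the steps of `mapAcc` -/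
def accSum {β γ σ : Type*} (c : β × σ → ℕ) (f : β × σ → γ × σ) : List β → σ → ℕ
  | [], _ => 0
  | b :: l, s => c (b, s) + accSum c f l (f (b, s)).2

theorem Raw.mapAcc {pre : β × σ → Prop} {c : β × σ → ℕ} {f : β × σ → γ × σ} (h : Raw pre c f) :
    Raw (fun x : List β × σ => accAll pre f x.1 x.2)
      (fun x => sz x.1 + accSum (fun y => c y + sz (f y).1) f x.1 x.2)
      (fun x => mapAcc f x.1 x.2) := by
  obtain ⟨p, K, hp⟩ := h
  set loop1 : Q := .loop .c .skip (.case .u .skip .skip (.seq backU (.seq (.push .s true)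
    (.seq p (.seq (lift (pop1 .s)) (.seq stashW (.seq (.push .w true) (.push .c true))))))))
    with hloop1
  set loop2 : Q := .loop .c .skip (.case .w .skip .skip (.seq backW (.seq (.push .s true)
    (.push .c true)))) with hloop2
  have key1 : ∀ (e : Q) (r u w : List Bool) (l : List β) (s : σ) (acc : List γ), accAll pre f l s →
      EvLe e loop1 ⟨(enc s).bits ++ r, [], [], [true], (enc l).bits ++ u, (enc acc).bits ++ w⟩
        (mk6 ((enc (R326.mapAcc f l s).2).bits ++ r) u
          ((enc ((R326.mapAcc f l s).1.reverse ++ acc)).bits ++ w))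
        ((K + 13) * (sz l + accSum (fun y => c y + sz (f y).1) f l s)) := by
    intro e r u w l
    induction l with
    | nil =>
      intro s acc _
      refine (EvLe.loopT (r := []) rfl (EvLe.caseF (r := u) rfl (EvLe.skip _ _))
        (EvLe.loopN rfl)).mono ?_
      simp only [sz_nil, accSum]
      omega
    | cons b l ih =>
      intro s acc hs
      have h1 := hp e (b, s) hs.1 r ((enc l).bits ++ u) ((enc acc).bits ++ w)
      rw [enc_pair, enc_prod, node_bits, node_bits] at h1
      have h2 := ih (f (b, s)).2 ((f (b, s)).1 :: acc) hs.2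
      rw [enc_cons, node_bits] at h2
      rw [enc_cons, node_bits, R326.mapAcc, List.reverse_cons, List.append_assoc]
      refine (EvLe.loopT (r := []) rfl (EvLe.caseT (r := (enc b).bits ++ ((enc l).bits ++ u)) rfl
        ((ev_backU e _ _ _ _).seq ((pushS e _ _ _ _ _).seq (h1.seq ((pop e _ _ _ _ _).seq
          ((ev_stashW e _ _ _ _).seq ((EvLe.push e .w true _).seq (EvLe.push e .c true _))))))))
        h2).mono ?_
      have h3 : K * (c (b, s) + 1) ≤ K * (sz b + 1 + (c (b, s) + sz (f (b, s)).1)) :=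
        Nat.mul_le_mul_left _ (by omega)
      rw [sz_cons, accSum, show sz b + sz l + 1 + (c (b, s) + sz (f (b, s)).1 +
        accSum (fun y => c y + sz (f y).1) f l (f (b, s)).2) =
        (sz b + 1 + (c (b, s) + sz (f (b, s)).1)) +
        (sz l + accSum (fun y => c y + sz (f y).1) f l (f (b, s)).2) by omega]
      generalize sz l + accSum (fun y => c y + sz (f y).1) f l (f (b, s)).2 = A
      rw [mul_add (K + 13) _ A, add_mul K 13 (_ + _)]
      unfold sz at *
      omega
  have key2 : ∀ (e : Q) (r u w : List Bool) (acc out : List γ),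
      EvLe e loop2 ⟨(enc out).bits ++ r, [], [], [true], u, (enc acc).bits ++ w⟩
        (mk6 ((enc (acc.reverse ++ out)).bits ++ r) u w) (7 * sz acc) := by
    intro e r u w acc
    induction acc with
    | nil =>
      intro out
      exact (EvLe.loopT (r := []) rfl (EvLe.caseF (r := w) rfl (EvLe.skip _ _))
        (EvLe.loopN rfl)).mono (by simp)
    | cons y acc ih =>
      intro out
      have h2 := ih (y :: out)
      rw [enc_cons, node_bits] at h2
      rw [enc_cons, node_bits, List.reverse_cons, List.append_assoc]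
      refine (EvLe.loopT (r := []) rfl (EvLe.caseT (r := (enc y).bits ++ ((enc acc).bits ++ w)) rfl
        ((ev_backW e _ _ _ _).seq ((pushS e _ _ _ _ _).seq (EvLe.push e .c true _)))) h2).mono ?_
      rw [sz_cons]
      unfold sz
      omega
  have key3 : ∀ (l : List β) (s : σ), sz (R326.mapAcc f l s).1 ≤
      sz l + accSum (fun y => c y + sz (f y).1) f l s := by
    intro l
    induction l with
    | nil => intro s; simp [R326.mapAcc]
    | cons b l ih =>
      intro s
      have := ih (f (b, s)).2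
      simp only [R326.mapAcc, accSum, sz_cons]
      omega
  refine ⟨.seq (lift (pop1 .s)) (.seq stashU (.seq (.push .w false) (.seq (.push .c true)
    (.seq loop1 (.seq (.push .s false) (.seq (.push .c true) (.seq loop2 (.push .s true)))))))),
    K + 27, fun e x hx r u w => ?_⟩
  obtain ⟨l, s⟩ := x
  have h1 := key1 e r u w l s [] hx
  have h2 := key2 e ((enc (R326.mapAcc f l s).2).bits ++ r) u w (R326.mapAcc f l s).1.reverse []
  have h3 := key3 l s
  rw [List.append_nil] at h1
  rw [List.reverse_reverse, List.append_nil, sz_reverse] at h2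
  rw [enc_pair, enc_prod, node_bits, node_bits]
  refine ((pop e _ _ _ _ _).seq ((ev_stashU e _ _ _ _).seq ((EvLe.push e .w false _).seq
    ((EvLe.push e .c true _).seq (h1.seq ((pushS e false _ _ _ _).seq ((EvLe.push e .c true _).seq
      (h2.seq (pushS e _ _ _ _ _))))))))).mono ?_
  simp only
  generalize accSum (fun y => c y + sz (f y).1) f l s = A at *
  rw [show K + 27 = (K + 13) + 14 by omega, add_mul (K + 13), mul_add (K + 13) _ 1]
  unfold sz at *
  omega

/-- polynomial-time functions -/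
theorem Raw.pt {f : α → β} (h : PT f) : ∃ e : ℕ, Raw (fun _ => True) (fun a => sz a ^ e) f := by
  obtain ⟨p, q, hp⟩ := h
  have key : ∃ K e : ℕ, ∀ n, 0 < n → q.eval n ≤ K * n ^ e := by
    clear hp
    induction q using Polynomial.induction_on' with
    | add q1 q2 h1 h2 =>
      obtain ⟨K1, e1, h1⟩ := h1
      obtain ⟨K2, e2, h2⟩ := h2
      refine ⟨K1 + K2, e1 + e2, fun n hn => ?_⟩
      rw [Polynomial.eval_add, add_mul]
      exact add_le_add
        ((h1 n hn).trans (Nat.mul_le_mul_left _ (Nat.pow_le_pow_right hn (by omega))))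
        ((h2 n hn).trans (Nat.mul_le_mul_left _ (Nat.pow_le_pow_right hn (by omega))))
    | monomial k c => exact ⟨c, k, fun n _ => by simp⟩
  obtain ⟨K, k, hk⟩ := key
  exact ⟨k, lift p, K, fun e a _ => (Cmp.lift (hp a) e).mono
    ((hk _ (sz_pos a)).trans (Nat.mul_le_mul_left _ (Nat.le_succ _)))⟩

/-- Bridge to the Prelude (copy `PT.computable`: `lift pIn`, the program, `lift pOutLoop`,
`lift aToS`; the output length is bounded with `Cmp.size_le`). -/
theorem Raw.computable {α β Γ₀ : Type} [Fintype Γ₀] (ea : α → List Γ₀) (eb : β → List Bool)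
    (f : α → β) (code : Γ₀ → List Bool) (w : ℕ) (hw : ∀ g, (code g).length = w)
    {pre : List Bool → Prop} {c : List Bool → ℕ} {g : List Bool → List Bool} (hg : Raw pre c g)
    (t : ℕ → ℕ) (h : ∀ a, pre ((ea a).flatMap code) ∧ g ((ea a).flatMap code) = eb (f a) ∧
      c ((ea a).flatMap code) ≤ t (ea a).length) :
    ∃ K : ℕ, Crest.DTime.TimeBoundComputable ea eb f (fun n => K * (t n + n + 1)) := by
  obtain ⟨K1, hs⟩ := hg.sz_le
  obtain ⟨p, K, hp⟩ := hg
  obtain ⟨M, hM⟩ := computable_of_prog ea eb f code w hw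
    (.seq (lift pIn) (.seq p (.seq (lift pOutLoop) (lift aToS))))
    (fun n => (K + 9 * K1 + 41 * w + 15) * (t n + n + 1)) fun a => by
      obtain ⟨a1, a2, a3⟩ := h a
      set x := (ea a).flatMap code with hx
      have hlen : x.length = w * (ea a).length := by
        rw [hx, List.length_flatMap]; simp [hw, mul_comm]
      have h0 := sz_bits_le x
      have h1 := ev_pIn_loop x.reverse []
      have h2 := hp .skip x a1 [] [] []
      have h3 := ev_pOutLoop (g x) []
      have h4 := ev_aToS (g x).reverse [] [] []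
      simp only [List.reverse_reverse, List.append_nil] at h1 h2 h3 h4
      have h5 := (EvLe.lift ((PTime.EvLe.push .s false ⟨[], x.reverse, [], []⟩).seq h1)
        .skip [] []).seq (h2.seq ((EvLe.lift h3 .skip [] []).seq (EvLe.lift h4 .skip [] [])))
      rw [← a2]
      refine EvLe.mono h5 ?_
      have h8 := hs x a1
      have h9 := length_le_sz (g x)
      have h10 : K * (c x + 1) ≤ K * (t (ea a).length + (ea a).length + 1) :=
        Nat.mul_le_mul_left _ (by omega)
      have h11 : K1 * (c x + 1) ≤ K1 * (t (ea a).length + (ea a).length + 1) :=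
        Nat.mul_le_mul_left _ (by omega)
      have h12 : w * (ea a).length ≤ w * (t (ea a).length + (ea a).length + 1) :=
        Nat.mul_le_mul_left _ (by omega)
      simp only [List.length_reverse, add_mul, mul_assoc]
      omega
  refine ⟨K + 9 * K1 + 41 * w + 15 + 2, M, fun n => (hM n).trans ?_⟩
  beta_reduce
  rw [add_mul _ 2]
  omega

end Crest.Agent.R326
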