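import Crest.Agent.R326.Asym
import Crest.Agent.R326.ParPT
import Crest.Agent.R326.Load
import Crest.Agent.R326.Glob

/-!
# Row 326, the step theorem (task R326-Step)

PLAN.  Fix `n0` from `exists_parOk`; branch on `n0 ≤ length` (`TC.ite'`, `TU.le`).  Small inputs:
`TC.pt pt_mulB` (the size is bounded by a constant).  Large inputs: `n` in binary (`TU.toBin`),
parameters by `TC.pt` with `pt_par` (`exists_sz_pow_le`), `S` by `TU.SS`, `h = (S+1)/2`;
`TL.load` twice, `fwd` (three `TL.phi false`, two `TL.swap` with `σ = 1`, `τ = S`, `S * S`),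
`TL.mulR`, `bwd`, `TA.unload`, `TC.unpack`.  Correctness: `Rep.ofNat` (`ch_lt`), `Rep.fwd`,
`Rep.mul`, `Rep.bwd` (exponents `q`, `q + 3KΔ`, `2q + 6KΔ + 3`, `pB`), `PhiC_false/true`,
`zeta_prim`, `conv_thm`, `kron_cv`, `sum_ch`.  Budgets: `vol`, `cost_main`, `cost_KK`,
`cost_tbl`, `p_le` with monotonicity of `ν`, `gT_pos`, `1 ≤ KK`.
-/

set_option autoImplicit false

namespace Crest.Agent.R326

open Crest.Agent.PTime

section

variable {α : Type*} [Enc α] {pre : α → Prop} {c y f k t l p : α → ℕ} {ν : ℕ → ℕ}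

theorem ST.one_le_KK (y : ℕ) : 1 ≤ KK y := by
  unfold KK Klen
  omega

/-- the three-dimensional transforms -/
theorem ST.fwd_bwd (inv : Bool) (hν : MulT ν) (hy : TU pre c y) (hp : TU pre c p)
    (hf : TU pre c f) (hk : TU pre c k) (ht : TU pre c t) (hl : TU pre c l)
    (h0 : ∀ a, pre a → PhiOk (y a) (f a) (p a) (k a) (t a) (l a) (SS (y a) ^ 3))
    (hb : Bd pre c (fun a =>
      KK (y a) * (SS (y a) ^ 3 * p a * (gT (t a) * (l a + gP (k a)) + ν (p a)))))
    (hb' : ∀ e : ℕ, Bd pre c (fun a => SS (y a) * SS (y a) * (y a + p a + 1) ^ e))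
    {v : α → ℕ → LL} (h : TL pre c p (fun a => SS (y a) ^ 3) v) :
    TL pre c p (fun a => SS (y a) ^ 3)
      (fun a => fwd (SS (y a)) (PhiL (y a) (f a) (p a) inv) (v a)) ∧
    TL pre c p (fun a => SS (y a) ^ 3)
      (fun a => bwd (SS (y a)) (PhiL (y a) (f a) (p a) inv) (v a)) := by
  have hS : TU pre c (fun a => SS (y a)) := TU.SS hy hb'
  have hSS : TU pre c (fun a => SS (y a) * SS (y a)) :=
    hS.mul hS ((hb' 0).mono fun a _ => by simp)
  have hbs : Bd pre c (fun a => SS (y a) ^ 3 * p a * gP (k a)) := by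
    refine hb.mono fun a _ => le_trans (Nat.mul_le_mul_left _ ?_)
      (Nat.le_mul_of_pos_left _ (ST.one_le_KK _))
    have h1 : l a + gP (k a) ≤ gT (t a) * (l a + gP (k a)) := Nat.le_mul_of_pos_left _ (gT_pos _)
    omega
  have phi : ∀ {w : α → ℕ → LL}, TL pre c p (fun a => SS (y a) ^ 3) w →
      TL pre c p (fun a => SS (y a) ^ 3) (fun a => PhiL (y a) (f a) (p a) inv (w a)) :=
    fun hw => TL.phi inv hν hw hy hp hf hk ht hl h0 hb hb'
  have s1 : ∀ {w : α → ℕ → LL}, TL pre c p (fun a => SS (y a) ^ 3) w →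
      TL pre c p (fun a => SS (y a) ^ 3)
        (fun a x => w a (swp 1 (SS (y a)) (SS (y a)) x)) :=
    fun hw => TL.swap (σ := fun _ => 1) hw hp hS hk (TU.const 1) hS
      (fun a ha => ⟨(h0 a ha).1, by simp, (h0 a ha).2.1, (h0 a ha).2.2.2.1⟩) hbs
  have s2 : ∀ {w : α → ℕ → LL}, TL pre c p (fun a => SS (y a) ^ 3) w →
      TL pre c p (fun a => SS (y a) ^ 3)
        (fun a x => w a (swp 1 (SS (y a) * SS (y a)) (SS (y a)) x)) :=
    fun hw => TL.swap (σ := fun _ => 1) hw hp hS hk (TU.const 1) hSS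
      (fun a ha => ⟨(h0 a ha).1, by simp, Dvd.intro 1 (by ring), (h0 a ha).2.2.2.1⟩) hbs
  exact ⟨phi (s2 (phi (s1 (phi h)))), phi (s1 (phi (s2 (phi h))))⟩

end

theorem ST.ld_le (h S q : ℕ) (l : List Bool) (i : ℕ) : ld h S (ch q l) i ≤ 2 ^ q := by
  unfold ld
  split_ifs
  · exact (ch_lt _ _ _).le
  · exact Nat.zero_le _

/-- correctness of the rounded computation -/
theorem ST.rep {n : ℕ} (hn : ParOk n) (a b : List Bool) :
    Rep (pF n) (pB n) (bwd (SS (pY n)) (PhiL (pY n) (pF n) (pP n) true) fun i =>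
      mulR (pF n) (pP n)
        (fwd (SS (pY n)) (PhiL (pY n) (pF n) (pP n) false)
          (fun i => ((2 ^ pF n * ld (pH n) (pS n) (ch (pQ n) a) i : ℕ) : LL)) i)
        (fwd (SS (pY n)) (PhiL (pY n) (pF n) (pP n) false)
          (fun i => ((2 ^ pF n * ld (pH n) (pS n) (ch (pQ n) b) i : ℕ) : LL)) i))
      (fun i => (cv (pH n) (pS n) (ch (pQ n) a) (ch (pQ n) b) i : ℂ)) := by
  have hm := hn.marg
  have hB : pB n = 2 * pQ n + 9 * (KK (pY n) * dlt (pY n)) + 3 := rfl
  have r1 := fun l : List Bool => (Rep.ofNat (f := pF n) (ST.ld_le (pH n) (pS n) (pQ n) l)).fwd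
    (y := pY n) (p := pP n) (by omega) false
  have r2 := (r1 a).mul (p := pP n) (r1 b) (by omega) (by omega)
  have r3 := (r2.bwd (y := pY n) (p := pP n) (by omega) true).mono (β' := pB n) (by omega)
  have e1 : PhiC (pY n) false = dft (SS (pY n)) (zeta (pY n)) 1 := funext (PhiC_false hn.y81)
  have e2 : PhiC (pY n) true = dft (SS (pY n)) (zeta (pY n))⁻¹ (1 / SS (pY n)) :=
    funext (PhiC_true hn.y81)
  have e3 := conv_thm hn.h_pos hn.h_two (zeta_prim (pY n)) (ch (pQ n) a) (ch (pQ n) b)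
  rw [e1, e2] at r3
  rw [← e3]
  exact r3

theorem ST.large {ν : ℕ → ℕ} (hν : MulT ν) (hm : Monotone ν) :
    TC (fun x : List Bool × List Bool => x.1.length = x.2.length ∧ ParOk x.1.length)
      (fun x => x.1.length * (GG x.1.length + x.1.length.size.size * ν (x.1.length.size ^ 10)))
      mulB := by
  set pre : List Bool × List Bool → Prop := fun x => x.1.length = x.2.length ∧ ParOk x.1.length
    with hpre
  set c : List Bool × List Bool → ℕ := fun x =>
    x.1.length * (GG x.1.length + x.1.length.size.size * ν (x.1.length.size ^ 10)) with hc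
  have hn : TU pre c (fun x => x.1.length) := TU.length TC.id.fst
  have bd : ∀ {g : List Bool × List Bool → ℕ} (k : ℕ),
      (∀ x, pre x → g x ≤ k * x.1.length) → Bd pre c g :=
    fun k hk => (hn.bd.const_mul k).mono hk
  obtain ⟨g, hg, hg'⟩ := pt_par
  have hG : TC pre c (fun x => g x.1.length) := by
    refine TC.pt hg hn.toBin fun e => ?_
    obtain ⟨K, hK⟩ := exists_sz_pow_le e
    exact ((hn.bd.add (Bd.const 1)).const_mul K).mono fun x _ => hK _
  have hy : TU pre c (fun x => pY x.1.length) :=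
    (TU.val hG.fst).congr fun x hx => by rw [hg' _ hx.2]
  have hq : TU pre c (fun x => pQ x.1.length) :=
    (TU.val hG.snd.fst).congr fun x hx => by rw [hg' _ hx.2]
  have hf : TU pre c (fun x => pF x.1.length) :=
    (TU.val hG.snd.snd.fst).congr fun x hx => by rw [hg' _ hx.2]
  have hp : TU pre c (fun x => pP x.1.length) :=
    (TU.val hG.snd.snd.snd.fst).congr fun x hx => by rw [hg' _ hx.2]
  have hk : TU pre c (fun x => pK x.1.length) :=
    (TU.val hG.snd.snd.snd.snd.fst).congr fun x hx => by rw [hg' _ hx.2]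
  have ht : TU pre c (fun x => pT x.1.length) :=
    (TU.val hG.snd.snd.snd.snd.snd.fst).congr fun x hx => by rw [hg' _ hx.2]
  have hl : TU pre c (fun x => pL x.1.length) :=
    (TU.val hG.snd.snd.snd.snd.snd.snd).congr fun x hx => by rw [hg' _ hx.2]
  have hb' : ∀ e : ℕ, Bd pre c (fun x => SS (pY x.1.length) * SS (pY x.1.length) *
      (pY x.1.length + pP x.1.length + 1) ^ e) := by
    intro e
    obtain ⟨C, hC⟩ := cost_tbl e
    exact bd C fun x hx => hC _ hx.2
  have hS : TU pre c (fun x => pS x.1.length) := TU.SS hy hb'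
  have hh : TU pre c (fun x => pH x.1.length) := (hS.add (TU.const 1)).div (TU.const 2)
  have hvol : Bd pre c (fun x => pS x.1.length ^ 3 * pP x.1.length) := bd 640 fun x hx => hx.2.vol
  have hb : Bd pre c (fun x => KK (pY x.1.length) * (SS (pY x.1.length) ^ 3 * pP x.1.length *
      (gT (pT x.1.length) * (pL x.1.length + gP (pK x.1.length)) + ν (pP x.1.length)))) := by
    obtain ⟨C, hC⟩ := cost_main
    obtain ⟨C', hC'⟩ := cost_KK
    refine (Bd.self.const_mul (640 * (C + C'))).mono fun x hx => ?_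
    have h1 := hC _ hx.2
    have h2 := Nat.mul_le_mul (hC' _ hx.2) (hm hx.2.p_le)
    have h3 : SS (pY x.1.length) ^ 3 * pP x.1.length ≤ 640 * x.1.length := hx.2.vol
    simp only [hc]
    generalize x.1.length.size.size = u at h2 ⊢
    generalize ν (x.1.length.size ^ 10) = w at h2 ⊢
    generalize gT (pT x.1.length) * (pL x.1.length + gP (pK x.1.length)) = A at h1 ⊢
    generalize SS (pY x.1.length) ^ 3 * pP x.1.length = V at h3 ⊢
    generalize ν (pP x.1.length) = m at h2 ⊢
    generalize KK (pY x.1.length) = K at h1 h2 ⊢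
    generalize GG x.1.length = G at h1 ⊢
    calc K * (V * (A + m)) = V * (K * A + K * m) := by ring
      _ ≤ 640 * x.1.length * (C * G + C' * u * w) := Nat.mul_le_mul h3 (add_le_add h1 h2)
      _ ≤ 640 * x.1.length * (C * G + C' * u * w + (C' * G + C * u * w)) :=
        Nat.mul_le_mul_left _ (Nat.le_add_right _ _)
      _ = _ := by ring
  have hQ : ∀ n, 2 * pQ n + 2 ≤ pF n := fun n => by
    unfold pF pB
    omega
  have load : ∀ {u : List Bool × List Bool → List Bool}, TC pre c u →
      (∀ x, pre x → (u x).length = x.1.length) →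
      TL pre c (fun x => pP x.1.length) (fun x => SS (pY x.1.length) ^ 3) (fun x i =>
        ((2 ^ pF x.1.length * ld (pH x.1.length) (pS x.1.length) (ch (pQ x.1.length) (u x)) i :
          ℕ) : LL)) := fun hu hu' =>
    TL.load hu hS hh hq hf hp (fun x hx => ⟨hx.2.q_pos, hx.2.h_pos, hx.2.h_le,
      (hu' x hx).trans_le hx.2.len, by
        have h1 := hx.2.marg
        have h2 : pF x.1.length = pB x.1.length + 2 := rfl
        have h3 := hQ x.1.length
        omega⟩) hvol
  have tr := fun (inv : Bool) {v : List Bool × List Bool → ℕ → LL} =>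
    ST.fwd_bwd (v := v) inv hν hy hp hf hk ht hl (fun x hx => hx.2.phi) hb hb'
  have a1 := (tr false (load TC.id.fst fun _ _ => rfl)).1
  have a2 := (tr false (load TC.id.snd fun _ hx => hx.1.symm)).1
  have a3 := TL.mulR hν a1 a2 hf (fun x hx => by have := hx.2.marg; omega)
    (hb.mono fun x _ => le_trans (Nat.mul_le_mul_left _ (Nat.le_add_left _ _))
      (Nat.le_mul_of_pos_left _ (ST.one_le_KK _)))
  have a4 := (tr true a3).2
  have hF : ∀ n, pB n + 2 ≤ pF n := fun n => by
    unfold pF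
    exact le_rfl
  have a5 := TA.unload (β := fun x => pB x.1.length) (z := fun x =>
    cv (pH x.1.length) (pS x.1.length) (ch (pQ x.1.length) x.1) (ch (pQ x.1.length) x.2))
    a4 hf hp fun x hx => by
      refine ⟨?_, hF _, hx.2.marg⟩
      have := ST.rep hx.2 x.1 x.2
      exact this
  have b1 : ∀ x, pre x → 0 < pQ x.1.length ∧ 0 < pH x.1.length ∧ pH x.1.length ≤ pS x.1.length ∧
      ∀ i < pS x.1.length ^ 3,
        cv (pH x.1.length) (pS x.1.length) (ch (pQ x.1.length) x.1) (ch (pQ x.1.length) x.2) i <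
          2 ^ (pP x.1.length - pF x.1.length) := fun x hx =>
    ⟨hx.2.q_pos, hx.2.h_pos, hx.2.h_le, fun i _ =>
      ((ST.rep hx.2 x.1 x.2).round (hF _) hx.2.marg i).1⟩
  have b2 : Bd pre c
      (fun x => pS x.1.length ^ 3 * (pP x.1.length - pF x.1.length + pQ x.1.length)) :=
    hvol.mono fun x hx => Nat.mul_le_mul_left _ (by
      have h1 := hx.2.marg
      have h3 := hQ x.1.length
      omega)
  have b3 : TA pre c (fun x => pS x.1.length ^ 3) (fun x i =>
      bitsN (pP x.1.length - pF x.1.length) (cv (pH x.1.length) (pS x.1.length)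
        (ch (pQ x.1.length) x.1) (ch (pQ x.1.length) x.2) i)) :=
    a5.congr (fun x _ => by rw [pS]) fun _ _ _ _ => rfl
  have b4 : TU pre c (fun x => 2 * x.1.length) := TU.const_mul 2 hn
  have a6 := TC.unpack b3 hS hh hq b4 b1 b2
  refine a6.congr fun x hx => ?_
  rw [kron_cv hx.2.h_pos hx.2.h_two, sum_ch hx.2.len, sum_ch (hx.1.symm.trans_le hx.2.len), mulB]

theorem mulT_step {ν : ℕ → ℕ} (hν : MulT ν) (hm : Monotone ν) :
    MulT (fun n => GG n + n.size.size * ν (n.size ^ 10)) := by
  obtain ⟨n0, hn0⟩ := exists_parOk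
  have h1 := TC.ite' (pre := fun x : List Bool × List Bool => x.1.length = x.2.length)
    (c := fun x => x.1.length * (GG x.1.length + x.1.length.size.size * ν (x.1.length.size ^ 10)))
    (p := fun x => n0 ≤ x.1.length) (f := mulB) (g := mulB)
    (TU.le (TU.const n0) (TU.length TC.id.fst))
    ((ST.large hν hm).weaken fun x hx => ⟨hx.1, hn0 _ hx.2⟩)
    (TC.pt pt_mulB TC.id fun e => (Bd.const ((8 * n0 + 3) ^ e)).mono fun x hx => by
      refine Nat.pow_le_pow_left ?_ e
      have h1 := sz_bits_le x.1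
      have h2 := sz_bits_le x.2
      have h3 := hx.1
      have h4 := hx.2
      rw [sz_prod]
      omega)
  exact h1.congr fun x _ => (ite_self _).symm

theorem mulT_GG : MulT GG := by
  obtain ⟨e, h0⟩ := mulT_base
  have h1 := mulT_step h0 (fun a b h => Nat.pow_le_pow_left (by omega) e)
  obtain ⟨e', K, hK⟩ := first_step e
  have h2 : MulT (fun n => (n.size + 1) ^ e') := h1.mono ⟨K, hK⟩
  have h3 := mulT_step h2 (fun a b h => Nat.pow_le_pow_left
    (Nat.succ_le_succ (Nat.size_le_size h)) e')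
  exact h3.mono (second_step e')

end Crest.Agent.R326
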