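import Crest.Agent.R326.PRec
import Crest.Agent.R326.Cell

/-!
# Row 326, transposition of cell arrays and index multiplications (task R326-SwapS)

PLAN.  `swapW`: pad both digits from radix `S` to `M = 3 ^ k` with two `TA.resize` (rows
`σ S → σ M`, then rows `τ' S → τ' M` where `τ' = τ / S * M`; filler `replicate ℓ false`), view the
words as arrays of bits (`TA.map`/`of_enc` to `GArr (ZMod 2)` of length `ℓ`, `TA.flat`), apply
`TA.swapB` with strides `σ ℓ`, `τ' ℓ`, regroup (`TA.rows ℓ`), cut with two `TA.resize`.  The padded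
array has at most `9 N ℓ` bits.  The index identity is checked by writing
`x = A (τ S) + i τ + B (σ S) + j σ + s` (`exists_decomp`, `dig_mk`).  `ℓ` in unary is the length of
word `0` (`TA.get`, `TU.length`).
`nuT`: with `E(c) : w += c y` (one `TA.shr` with `σ = 1`, `n = S`, `τ = S`, `m = S * n0`, table
`tb (i / S) * (i % S) % S`, built by `TC.multiples` under `TA.mapEnv` and `TA.flat`) the map
`(y, w) ↦ (u y, u w)` (`u² = 1`) is the composite `E(u), swap, E(-u), swap, E(u), swap, neg_w`: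
`(y,w) → (y, w+uy) → (w+uy, y) → (w+uy, -uw) → (-uw, w+uy) → (-uw, uy) → (uy, -uw) → (uy, uw)`.
(Arrays are pulled back along index maps, so the array operations come in the reverse order; use
`S - u` for `-u`; compare indices with `dig2_ext` and congruences mod `S`, e.g. in `ZMod S`.)
-/

set_option autoImplicit false

namespace Crest.Agent.R326

open Crest.Agent.PTime

/-- the parameters needed for the fast transposition of `S × S` arrays of words of length `ℓ` -/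
def SwOk (S k ℓ : ℕ) : Prop :=
  0 < S ∧ S ≤ 3 ^ k ∧ 3 ^ k ≤ 3 * S ∧ 0 < ℓ ∧ ∃ t, k < mP ^ (t + 1) ∧ WP ^ t ∣ ℓ

variable {α : Type*} [Enc α] {pre : α → Prop} {c N S k σ τ p : α → ℕ}

namespace SwA

/-- a word as an array of bits -/
def bz (l : List Bool) (j : ℕ) : ZMod 2 := cond (l.getD j false) 1 0

theorem enc_bz {l : List Bool} {n : ℕ} (h : l.length = n) : enc l = enc (GArr.mk n (bz l)) := by
  refine enc_list_congr (m := (List.range n).map (bz l)) (by simp [h]) fun i h1 h2 => ?_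
  rw [List.getElem_map, List.getElem_range, bz, List.getD_eq_getElem _ _ h1]
  cases l[i] <;> rfl

theorem swp_lt {σ τ n N x : ℕ} (hN : 0 < N) (h1 : σ * n ∣ τ) (h2 : τ * n ∣ N) (hx : x < N) :
    swp σ τ n x < N := by
  have h3 := Nat.pos_of_dvd_of_pos h2 hN
  have hτ := Nat.pos_of_mul_pos_right h3
  have h4 := Nat.pos_of_dvd_of_pos h1 hτ
  exact setDig_lt (Nat.pos_of_mul_pos_right h4) (Nat.pos_of_mul_pos_left h4)
    (h1.trans ((dvd_mul_right _ _).trans h2))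
    (setDig_lt hτ (Nat.pos_of_mul_pos_left h4) h2 hx _) _

theorem words {ℓ : α → ℕ} {w : α → ℕ → List Bool} (h : TA pre c N w) (hℓ : TU pre c ℓ)
    (hk : TU pre c k) (hσ : TU pre c σ) (hτ : TU pre c τ)
    (h0 : ∀ a, pre a → 0 < N a ∧ 0 < ℓ a ∧ σ a * 3 ^ k a ∣ τ a ∧ τ a * 3 ^ k a ∣ N a ∧
      (∃ t, k a < mP ^ (t + 1) ∧ WP ^ t ∣ ℓ a) ∧ ∀ i < N a, (w a i).length = ℓ a)
    (hb : Bd pre c (fun a => N a * ℓ a * gP (k a))) :
    TA pre c N (fun a x => w a (swp (σ a) (τ a) (3 ^ k a) x)) := by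
  have h1 : TA pre c N (fun a i => GArr.mk (ℓ a) (bz (w a i))) :=
    h.of_enc (fun _ _ => rfl) fun a ha i hi => (enc_bz ((h0 a ha).2.2.2.2.2 i hi)).symm
  have hτN : ∀ a, pre a → σ a ≤ τ a ∧ τ a ≤ N a ∧ 0 < σ a ∧ 0 < τ a := by
    intro a ha
    obtain ⟨a1, -, a3, a4, -⟩ := h0 a ha
    have b1 := Nat.pos_of_mul_pos_right (Nat.pos_of_dvd_of_pos a4 a1)
    exact ⟨Nat.le_of_dvd b1 ((dvd_mul_right _ _).trans a3),
      Nat.le_of_dvd a1 ((dvd_mul_right _ _).trans a4),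
      Nat.pos_of_mul_pos_right (Nat.pos_of_dvd_of_pos a3 b1), b1⟩
  have hb1 : Bd pre c (fun a => N a * ℓ a) :=
    hb.mono fun a _ => Nat.le_mul_of_pos_right _ (gP_pos _)
  have h3 := h1.flat.swapB hk
    (hσ.mul hℓ (hb1.mono fun a ha =>
      Nat.mul_le_mul_right _ ((hτN a ha).1.trans (hτN a ha).2.1)))
    (hτ.mul hℓ (hb1.mono fun a ha => Nat.mul_le_mul_right _ (hτN a ha).2.1)) (fun a ha => by
      obtain ⟨a1, a2, a3, a4, ⟨t, a5, a6⟩, -⟩ := h0 a ha
      refine ⟨Nat.mul_pos a1 a2, ?_, ?_, t, a5, a6.trans (dvd_mul_left _ _)⟩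
      · rw [mul_right_comm]; exact Nat.mul_dvd_mul_right a3 _
      · rw [mul_right_comm]; exact Nat.mul_dvd_mul_right a4 _) hb
  refine (h3.rows hℓ fun a ha => ⟨(h0 a ha).2.1, dvd_mul_left _ _⟩).of_enc
    (fun a ha => (Nat.mul_div_cancel _ (h0 a ha).2.1).symm) fun a ha i hi => ?_
  obtain ⟨a1, a2, a3, a4, -, a6⟩ := h0 a ha
  rw [enc_bz (a6 _ (swp_lt a1 a3 a4 hi))]
  refine enc_arr_congr rfl fun j hj => ?_
  have e : ∀ x, ins 1 (ℓ a) j x = x * ℓ a + j := fun x => by simp [ins, Nat.mod_one]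
  have e1 := swp_ins_one (n := 3 ^ k a) (hτN a ha).2.2.1 (hτN a ha).2.2.2 (by positivity) hj i
  rw [e, e] at e1
  rw [e1, Nat.mul_add_mod_of_lt hj, mul_comm _ (ℓ a), Nat.mul_add_div a2, Nat.div_eq_of_lt hj,
    add_zero]

/-- change of the row length -/
def rs {β : Type*} (d k : ℕ) (z : β) (v : ℕ → β) (x : ℕ) : β :=
  if x % k < d then v (x / k * d + x % k) else z

theorem resz {β : Type*} [Enc β] {v : α → ℕ → β} {z : α → β} {R d : α → ℕ} (h : TA pre c N v)
    (hd : TU pre c d) (hk : TU pre c k) (hz : TC pre c z)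
    (h0 : ∀ a, pre a → 0 < d a ∧ N a = R a * d a)
    (hb : Bd pre c (fun a => R a * k a * sz (z a))) :
    TA pre c (fun a => R a * k a) (fun a => rs (d a) (k a) (z a) (v a)) := by
  have e : ∀ a, pre a → N a / d a = R a := fun a ha => by
    rw [(h0 a ha).2, Nat.mul_div_cancel _ (h0 a ha).1]
  exact (h.resize hd hk hz (fun a ha => ⟨(h0 a ha).1, (h0 a ha).2 ▸ dvd_mul_left _ _⟩)
    (hb.mono fun a ha => by rw [e a ha])).congr (fun a ha => by rw [e a ha]) fun _ _ _ _ => rfl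

theorem rs_lt {R k d x : ℕ} (hx : x < R * k) (h : x % k < d) : x / k * d + x % k < R * d := by
  have h1 : x / k < R := Nat.div_lt_of_lt_mul (by rwa [mul_comm])
  calc _ < x / k * d + d := by omega
    _ = (x / k + 1) * d := by ring
    _ ≤ _ := Nat.mul_le_mul_right _ h1

theorem rs_mk {β : Type*} {v : ℕ → β} {z : β} {k d q r x : ℕ} (hx : x = q * k + r) (h1 : r < k)
    (h2 : r < d) : rs d k z v x = v (q * d + r) := by
  rw [rs, hx, Nat.mul_add_mod_of_lt h1, if_pos h2, mul_comm q k, Nat.mul_add_div (by omega),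
    Nat.div_eq_of_lt h1, add_zero]

theorem lt2 {n σ j s : ℕ} (hj : j < n) (hs : s < σ) : j * σ + s < σ * n := by
  calc j * σ + s < j * σ + σ := by omega
    _ = σ * (j + 1) := by ring
    _ ≤ _ := Nat.mul_le_mul_left _ hj

theorem swp_mk {σ n B a i b j s : ℕ} (hi : i < n) (hb : b < B) (hj : j < n) (hs : s < σ) :
    swp σ (σ * n * B) n (((a * n + i) * B + b) * (σ * n) + (j * σ + s)) =
      ((a * n + j) * B + b) * (σ * n) + (i * σ + s) := by
  have hσ : 0 < σ := by omega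
  have h1 : b * (σ * n) + (j * σ + s) < σ * n * B := lt2 hb (lt2 hj hs)
  have hτ : 0 < σ * n * B := by omega
  have e1 : ((a * n + i) * B + b) * (σ * n) + (j * σ + s) =
      a * (σ * n * B * n) + i * (σ * n * B) + (b * (σ * n) + (j * σ + s)) := by ring
  have e2 : a * (σ * n * B * n) + j * (σ * n * B) + (b * (σ * n) + (j * σ + s)) =
      ((a * n + j) * B + b) * (σ * n) + j * σ + s := by ring
  have h2 : dig σ n (((a * n + i) * B + b) * (σ * n) + (j * σ + s)) = j := by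
    rw [← add_assoc, dig_mk hσ hj hs]
  rw [swp, h2, e1, dig_mk hτ hi h1, setDig, setDig, Dig.mk_div2 hτ hi h1, Dig.mk_mod,
    Nat.mod_eq_of_lt h1, Nat.mod_eq_of_lt hj, Nat.mod_eq_of_lt hi, e2, Dig.mk_div2 hσ hj hs,
    Dig.mk_mod, Nat.mod_eq_of_lt hs, add_assoc]

theorem decomp {σ n B : ℕ} (hσ : 0 < σ) (hn : 0 < n) (hB : 0 < B) (x : ℕ) :
    ∃ a i b j s, i < n ∧ b < B ∧ j < n ∧ s < σ ∧
      x = ((a * n + i) * B + b) * (σ * n) + (j * σ + s) := by
  refine ⟨x / (σ * n) / B / n, x / (σ * n) / B % n, x / (σ * n) % B, dig σ n x, x % σ,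
    Nat.mod_lt _ hn, Nat.mod_lt _ hB, dig_lt hn _, Nat.mod_lt _ hσ, ?_⟩
  rw [Nat.div_add_mod', Nat.div_add_mod', ← add_assoc]
  exact exists_decomp hσ hn x

end SwA

open SwA

theorem TA.swapW {ℓ : α → ℕ} {w : α → ℕ → List Bool} (h : TA pre c N w) (hS : TU pre c S)
    (hk : TU pre c k) (hσ : TU pre c σ) (hτ : TU pre c τ)
    (h0 : ∀ a, pre a → 0 < N a ∧ σ a * S a ∣ τ a ∧ τ a * S a ∣ N a ∧ SwOk (S a) (k a) (ℓ a) ∧
      ∀ i < N a, (w a i).length = ℓ a)
    (hb : Bd pre c (fun a => N a * ℓ a * gP (k a))) :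
    TA pre c N (fun a x => w a (swp (σ a) (τ a) (S a) x)) := by
  obtain ⟨B, hB⟩ : ∃ B : α → ℕ, B = fun a => τ a / (σ a * S a) := ⟨_, rfl⟩
  obtain ⟨A, hA⟩ : ∃ A : α → ℕ, A = fun a => N a / (τ a * S a) := ⟨_, rfl⟩
  have hf : ∀ a, pre a → 0 < σ a ∧ 0 < S a ∧ 0 < A a ∧ 0 < B a ∧ S a ≤ 3 ^ k a ∧
      3 ^ k a ≤ 3 * S a ∧ τ a = σ a * S a * B a ∧ N a = A a * S a * B a * (σ a * S a) := by
    intro a ha
    obtain ⟨a1, a2, a3, ⟨a4, a5, a6, -⟩, -⟩ := h0 a ha
    have b1 : τ a = σ a * S a * B a := by rw [hB]; exact (Nat.mul_div_cancel' a2).symm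
    have b2 : N a = τ a * S a * A a := by rw [hA]; exact (Nat.mul_div_cancel' a3).symm
    have b3 : 0 < τ a * S a * A a := b2 ▸ a1
    have b4 : 0 < σ a * S a * B a := b1 ▸ Nat.pos_of_mul_pos_right (Nat.pos_of_mul_pos_right b3)
    exact ⟨Nat.pos_of_mul_pos_right (Nat.pos_of_mul_pos_right b4), a4, Nat.pos_of_mul_pos_left b3,
      Nat.pos_of_mul_pos_left b4, a5, a6, b1, by rw [b2, b1]; ring⟩
  have hℓ : TU pre c ℓ := (TU.length (h.get (TU.const 0) fun a ha => (h0 a ha).1)).congr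
    fun a ha => ((h0 a ha).2.2.2.2 0 (h0 a ha).1).symm
  have hM : TU pre c fun a => 3 ^ k a :=
    TU.pow 3 hk ((hS.bd.const_mul 3).mono fun a ha => (hf a ha).2.2.2.2.2.1)
  have hz : TC pre c fun a => List.replicate (ℓ a) false := TC.replicate_const false hℓ
  have h9 : ∀ a, pre a → A a * (σ a * 3 ^ k a * B a * 3 ^ k a) ≤ 9 * N a := by
    intro a ha
    obtain ⟨-, -, -, -, -, a6, -, a8⟩ := hf a ha
    calc _ ≤ A a * (σ a * (3 * S a) * B a * (3 * S a)) := by gcongr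
      _ = _ := by rw [a8]; ring
  have bd : ∀ {g : α → ℕ}, (∀ a, pre a → g a ≤ A a * (σ a * 3 ^ k a * B a * 3 ^ k a)) →
      Bd pre c g := fun hg => (h.bd.const_mul 9).mono fun a ha => (hg a ha).trans (h9 a ha)
  have bdz : ∀ {g : α → ℕ}, (∀ a, pre a → g a ≤ A a * (σ a * 3 ^ k a * B a * 3 ^ k a)) →
      Bd pre c fun a => g a * sz (List.replicate (ℓ a) false) := by
    intro g hg
    refine (hb.const_mul 45).mono fun a ha => ?_
    have b1 := sz_bits_le (List.replicate (ℓ a) false)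
    have b2 := (h0 a ha).2.2.2.1.2.2.2.1
    rw [List.length_replicate] at b1
    calc _ ≤ 9 * N a * (5 * ℓ a) := Nat.mul_le_mul ((hg a ha).trans (h9 a ha)) (by omega)
      _ = 45 * (N a * ℓ a * 1) := by ring
      _ ≤ _ := Nat.mul_le_mul_left _ (Nat.mul_le_mul_left _ (gP_pos _))
  have l1 : ∀ a, pre a → σ a * 3 ^ k a * B a * S a ≤ σ a * 3 ^ k a * B a * 3 ^ k a :=
    fun a ha => Nat.mul_le_mul_left _ (hf a ha).2.2.2.2.1
  have l2 : ∀ a, pre a → σ a * 3 ^ k a * B a * 3 ^ k a ≤ A a * (σ a * 3 ^ k a * B a * 3 ^ k a) :=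
    fun a ha => Nat.le_mul_of_pos_left _ (hf a ha).2.2.1
  have l3 : ∀ a, pre a → σ a * 3 ^ k a * B a ≤ A a * (σ a * 3 ^ k a * B a * 3 ^ k a) :=
    fun a ha => (Nat.le_mul_of_pos_right _ (by positivity)).trans (l2 a ha)
  have l4 : ∀ a, pre a → σ a * 3 ^ k a ≤ A a * (σ a * 3 ^ k a * B a * 3 ^ k a) :=
    fun a ha => (Nat.le_mul_of_pos_right _ (hf a ha).2.2.2.1).trans (l3 a ha)
  have l5 : ∀ a, pre a → σ a * S a ≤ σ a * 3 ^ k a :=
    fun a ha => Nat.mul_le_mul_left _ (hf a ha).2.2.2.2.1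
  have l6 : ∀ a, pre a → A a * S a * B a * (σ a * 3 ^ k a) = A a * (σ a * 3 ^ k a * B a * S a) :=
    fun a _ => by ring
  have u1 := hσ.mul hS (bd fun a ha => (l5 a ha).trans (l4 a ha))
  have u2 := hσ.mul hM (bd l4)
  have uB : TU pre c B := hB ▸ hτ.div u1
  have uT := u2.mul uB (bd l3)
  have u3 := uT.mul hS (bd fun a ha => (l1 a ha).trans (l2 a ha))
  have u4 := uT.mul hM (bd l2)
  have p1 : ∀ a, pre a → 0 < σ a * S a := fun a ha => Nat.mul_pos (hf a ha).1 (hf a ha).2.1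
  have p2 : ∀ a, pre a → 0 < σ a * 3 ^ k a * B a * S a := fun a ha =>
    Nat.mul_pos (Nat.mul_pos ((p1 a ha).trans_le (l5 a ha)) (hf a ha).2.2.2.1) (hf a ha).2.1
  have w1 := resz (R := fun a => A a * S a * B a) h u1 u2 hz
    (fun a ha => ⟨p1 a ha, (hf a ha).2.2.2.2.2.2.2⟩)
    (bdz fun a ha => (l6 a ha).trans_le (Nat.mul_le_mul_left _ (l1 a ha)))
  have w2 := resz (R := A) w1 u3 u4 hz (fun a ha => ⟨p2 a ha, l6 a ha⟩) (bdz fun _ _ => le_rfl)
  have w3 := words w2 hℓ hk hσ uT (fun a ha => by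
      obtain ⟨-, -, -, ⟨-, -, -, a7, a8⟩, a9⟩ := h0 a ha
      refine ⟨((p2 a ha).trans_le (l1 a ha)).trans_le (l2 a ha), a7, dvd_mul_right _ _,
        dvd_mul_left _ _, a8, fun i hi => ?_⟩
      unfold rs
      split_ifs with c1 c2
      · refine a9 _ ?_
        rw [(hf a ha).2.2.2.2.2.2.2]
        exact rs_lt (by rw [l6 a ha]; exact rs_lt hi c1) c2
      · exact List.length_replicate
      · exact List.length_replicate)
    ((hb.const_mul 9).mono fun a ha => by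
      calc _ ≤ 9 * N a * ℓ a * gP (k a) :=
            Nat.mul_le_mul_right _ (Nat.mul_le_mul_right _ (h9 a ha))
        _ = _ := by ring)
  have w4 := resz (R := A) w3 u4 u3 hz (fun a ha => ⟨(p2 a ha).trans_le (l1 a ha), rfl⟩)
    (bdz fun a ha => Nat.mul_le_mul_left _ (l1 a ha))
  have w5 := resz (R := fun a => A a * S a * B a) w4 u2 u1 hz
    (fun a ha => ⟨(p1 a ha).trans_le (l5 a ha), (l6 a ha).symm⟩)
    (bdz fun a ha => (Nat.mul_le_mul_left _ (l5 a ha)).trans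
      ((l6 a ha).trans_le (Nat.mul_le_mul_left _ (l1 a ha))))
  refine w5.congr (fun a ha => (hf a ha).2.2.2.2.2.2.2) fun a ha x _ => ?_
  obtain ⟨a1, a2, -, a4, a5, -, a7, -⟩ := hf a ha
  obtain ⟨q, i, b, j, s, hi, hb, hj, hs, rfl⟩ := decomp a1 a2 a4 x
  generalize 3 ^ k a = M at *
  have c1 : ∀ {i j : ℕ}, i < S a → j < S a →
      i * (σ a * M * B a) + (b * (σ a * M) + (j * σ a + s)) < σ a * M * B a * S a :=
    fun hi hj => lt2 hi (lt2 hb (lt2 (hj.trans_le a5) hs))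
  have c2 : σ a * M * B a * S a ≤ σ a * M * B a * M := Nat.mul_le_mul_left _ a5
  rw [a7, swp_mk hi hb hj hs, rs_mk rfl (lt2 hj hs) (lt2 (hj.trans_le a5) hs),
    rs_mk (q := q) (by ring) (c1 hi hj) ((c1 hi hj).trans_le c2),
    show q * (σ a * M * B a * M) + (i * (σ a * M * B a) + (b * (σ a * M) + (j * σ a + s))) =
      ((q * M + i) * B a + b) * (σ a * M) + (j * σ a + s) by ring,
    swp_mk (hi.trans_le a5) hb (hj.trans_le a5) hs,
    rs_mk (q := q) (by ring) ((c1 hj hi).trans_le c2) (c1 hj hi),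
    rs_mk (q := (q * S a + j) * B a + b) (by ring) (lt2 (hi.trans_le a5) hs) (lt2 hi hs)]

theorem TL.swap {v : α → ℕ → LL} (h : TL pre c p N v) (hp : TU pre c p) (hS : TU pre c S)
    (hk : TU pre c k) (hσ : TU pre c σ) (hτ : TU pre c τ)
    (h0 : ∀ a, pre a → 0 < N a ∧ σ a * S a ∣ τ a ∧ τ a * S a ∣ N a ∧ SwOk (S a) (k a) (p a))
    (hb : Bd pre c (fun a => N a * p a * gP (k a))) :
    TL pre c p N (fun a x => v a (swp (σ a) (τ a) (S a) x)) := by
  refine TL.ofWords (TA.swapW (ℓ := fun a => 2 * p a) h.toWords hS hk hσ hτ (fun a ha => ?_)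
    ((hb.const_mul 2).mono fun a _ => le_of_eq (by ring))) hp
  obtain ⟨a1, a2, a3, a4, a5, a6, a7, t, a8, a9⟩ := h0 a ha
  exact ⟨a1, a2, a3, ⟨a4, a5, a6, by omega, t, a8, a9.trans (dvd_mul_left _ _)⟩,
    fun i _ => Cl.length_word _⟩

namespace SwA

/-- add a multiple of the second digit to the lowest digit -/
def shE (S n0 : ℕ) (u : ℕ → ℕ) (x : ℕ) : ℕ :=
  shr 1 S S (n0 * S) (fun i => (0 + i % S * u (i / S)) % S) x

theorem shear {β : Type*} [Enc β] {v : α → ℕ → β} {n0 : α → ℕ} {u : α → ℕ → ℕ} (h : TA pre c N v)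
    (hS : TU pre c S) (hu : TA pre c n0 (fun a i => U.mk (u a i)))
    (h0 : ∀ a, pre a → 0 < N a ∧ S a * S a * n0 a ∣ N a ∧ ∀ i < n0 a, u a i ≤ S a) :
    TA pre c N (fun a x => v a (shE (S a) (n0 a) (u a) x)) := by
  have hp : ∀ a, pre a → 0 < S a := fun a ha => Nat.pos_of_mul_pos_right
    (Nat.pos_of_mul_pos_right (Nat.pos_of_dvd_of_pos (h0 a ha).2.1 (h0 a ha).1))
  have h1 : TC (fun x : U × U => 0 < x.1.val ∧ x.2.val ≤ x.1.val) (fun x => x.1.val * x.1.val)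
      (fun x => GArr.mk x.1.val fun j => U.mk ((0 + j * x.2.val) % x.1.val)) :=
    (TC.multiples (TU.val TC.id.fst) (TU.val TC.id.snd) (TU.val TC.id.fst) (TU.const 0)
      (fun _ h => h) Bd.self).of_enc fun _ _ => rfl
  have h2 := TA.mapEnv (f := fun s u : U => GArr.mk s.val fun j => U.mk ((0 + j * u.val) % s.val))
    hu h1 hS (fun a ha i hi => ⟨hp a ha, (h0 a ha).2.2 i hi⟩) ((h.bd.const_mul 4).mono fun a ha => by
      have b1 := Nat.le_of_dvd (h0 a ha).1 (h0 a ha).2.1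
      have b2 := hp a ha
      simp only [sz_U, Finset.sum_const, Finset.card_range, smul_eq_mul]
      calc n0 a * (S a * S a + (2 * S a + 1)) ≤ n0 a * (4 * (S a * S a)) :=
            Nat.mul_le_mul_left _ (by nlinarith)
        _ = 4 * (S a * S a * n0 a) := by ring
        _ ≤ _ := by omega)
  refine h.shr (TU.const 1) hS hS h2.flat fun a ha => ⟨(h0 a ha).1, by simp, ?_,
    fun i _ => (Nat.mod_lt _ (hp a ha)).le⟩
  rw [mul_comm (n0 a), ← mul_assoc]
  exact (h0 a ha).2.1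

/-- coordinates of an index -/
def Co (S x q : ℕ) (Y W : ZMod S) : Prop :=
  x / (S * S) = q ∧ (dig S S x : ZMod S) = Y ∧ (dig 1 S x : ZMod S) = W

variable {s x q : ℕ} {Y W : ZMod s}

theorem Co.ext (hs : 0 < s) {x' : ℕ} (h : Co s x q Y W) (h' : Co s x' q Y W) : x = x' := by
  have e : ∀ {a b : ℕ}, a < s → b < s → (a : ZMod s) = b → a = b := fun ha hb h => by
    rw [← ZMod.val_cast_of_lt ha, h, ZMod.val_cast_of_lt hb]
  exact dig2_ext hs (h.1.trans h'.1.symm) (e (dig_lt hs _) (dig_lt hs _) (h.2.1.trans h'.2.1.symm))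
    (e (dig_lt hs _) (dig_lt hs _) (h.2.2.trans h'.2.2.symm))

theorem Co.low (hs : 0 < s) (h : Co s x q Y W) (y : ℕ) : Co s (setDig 1 s y x) q Y y :=
  ⟨(setDig_div_of_dvd one_pos hs (by simp) _ _).trans h.1,
    by rw [dig_setDig_high one_pos hs (by simp), h.2.1],
    by rw [dig_setDig one_pos hs, ZMod.natCast_mod]⟩

theorem Co.swp (hs : 0 < s) (h : Co s x q Y W) : Co s (swp 1 s s x) q W Y :=
  ⟨(setDig_div_of_dvd one_pos hs (by simp) _ _).trans ((setDig_div hs hs _ _).trans h.1),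
    by rw [dig_swp_high one_pos hs hs (by simp), h.2.2], by rw [dig_swp_low one_pos hs, h.2.1]⟩

theorem Co.neg (hs : 0 < s) (h : Co s x q Y W) : Co s (mulD 1 s (s - 1) x) q Y (-W) := by
  have := h.low hs ((s - 1) * dig 1 s x)
  rwa [Nat.cast_mul, Nat.cast_pred hs, ZMod.natCast_self, h.2.2, zero_sub, neg_one_mul] at this

theorem Co.shE (hs : 0 < s) (h : Co s x q Y W) (n0 : ℕ) (u : ℕ → ℕ) :
    Co s (shE s n0 u x) q Y (W + Y * u (q % n0)) := by
  have := h.low hs (dig 1 s x + (0 + dig s (n0 * s) x % s * u (dig s (n0 * s) x / s)) % s)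
  have e1 : dig s (n0 * s) x % s = dig s s x := Nat.mod_mod_of_dvd _ (dvd_mul_left _ _)
  have e2 : dig s (n0 * s) x / s = q % n0 := by
    rw [dig, mul_comm n0, Nat.mod_mul_right_div_self, Nat.div_div_eq_div_mul, h.1]
  have e3 : ((dig 1 s x + (0 + dig s (n0 * s) x % s * u (dig s (n0 * s) x / s)) % s : ℕ) : ZMod s) =
      W + Y * u (q % n0) := by
    rw [e1, e2, Nat.cast_add, ZMod.natCast_mod, zero_add, Nat.cast_mul, h.2.1, h.2.2]
  rwa [e3] at this

theorem Co.nu (hs : 0 < s) (h : Co s x q Y W) (u : ℕ) : Co s (nu s u x) q (u * Y) (u * W) :=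
  ⟨(nu_div hs _ _).trans h.1, by rw [dig_nu_high hs, ZMod.natCast_mod, Nat.cast_mul, h.2.1],
    by rw [dig_nu_low hs, ZMod.natCast_mod, Nat.cast_mul, h.2.2]⟩

end SwA

/-- multiply the two low digits by a unit that depends on the next digit (radix `n0`) -/
theorem TL.nuT {n0 : α → ℕ} {tb : α → ℕ → ℕ} {v : α → ℕ → LL} (h : TL pre c p N v)
    (hp : TU pre c p) (hS : TU pre c S) (hk : TU pre c k)
    (htb : TA pre c n0 (fun a i => U.mk (tb a i)))
    (h0 : ∀ a, pre a → 0 < N a ∧ S a * S a * n0 a ∣ N a ∧ SwOk (S a) (k a) (p a) ∧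
      ∀ i < n0 a, tb a i < S a ∧ tb a i * tb a i ≡ 1 [MOD S a])
    (hb : Bd pre c (fun a => N a * p a * gP (k a))) :
    TL pre c p N (fun a x => v a (nu (S a) (tb a (dig (S a * S a) (n0 a) x)) x)) := by
  have hp0 : ∀ a, pre a → 0 < S a := fun a ha => (h0 a ha).2.2.1.1
  have hd : ∀ a, pre a → S a * S a ∣ N a := fun a ha => (dvd_mul_right _ _).trans (h0 a ha).2.1
  have sw : ∀ {v : α → ℕ → LL}, TL pre c p N v →
      TL pre c p N (fun a x => v a (swp 1 (S a) (S a) x)) := fun h =>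
    h.swap hp hS hk (TU.const 1) hS (fun a ha => ⟨(h0 a ha).1, by simp, hd a ha, (h0 a ha).2.2.1⟩) hb
  have e1 : ∀ {v : α → ℕ → LL}, TL pre c p N v →
      TL pre c p N (fun a x => v a (shE (S a) (n0 a) (tb a) x)) := fun h =>
    shear h hS htb fun a ha => ⟨(h0 a ha).1, (h0 a ha).2.1, fun i hi => ((h0 a ha).2.2.2 i hi).1.le⟩
  have htb' : TA pre c n0 (fun a i => U.mk (S a - tb a i)) :=
    TA.mapEnv (f := fun s u : U => U.mk (s.val - u.val)) htb
      (pre' := fun _ => True) (c' := fun _ => 0)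
      ((TU.val TC.id.fst).sub (TU.val TC.id.snd)) hS (fun _ _ _ _ => trivial) ((h.len.bd.const_mul 3).mono fun a ha => by
        have b1 := Nat.le_of_dvd (h0 a ha).1 (h0 a ha).2.1
        have b2 := hp0 a ha
        simp only [sz_U, Finset.sum_const, Finset.card_range, smul_eq_mul]
        calc n0 a * (0 + (2 * S a + 1)) ≤ n0 a * (3 * (S a * S a)) :=
              Nat.mul_le_mul_left _ (by nlinarith)
          _ = 3 * (S a * S a * n0 a) := by ring
          _ ≤ _ := by omega)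
  have e2 : ∀ {v : α → ℕ → LL}, TL pre c p N v →
      TL pre c p N (fun a x => v a (shE (S a) (n0 a) (fun i => S a - tb a i) x)) := fun h =>
    shear h hS htb' fun a ha => ⟨(h0 a ha).1, (h0 a ha).2.1, fun i _ => Nat.sub_le _ _⟩
  have h1 : TL pre c p N (fun a x => v a (mulD 1 (S a) (S a - 1) x)) :=
    TA.negD h (TU.const 1) hS fun a ha =>
      ⟨(h0 a ha).1, by rw [one_mul]; exact (dvd_mul_right _ _).trans (hd a ha)⟩
  refine (e1 (sw (e2 (sw (e1 (sw h1)))))).congr (fun _ _ => rfl) fun a ha x _ => ?_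
  have hs := hp0 a ha
  have c0 : Co (S a) x (x / (S a * S a)) _ _ := ⟨rfl, rfl, rfl⟩
  have c1 := ((((((c0.shE hs (n0 a) (tb a)).swp hs).shE hs (n0 a)
    (fun i => S a - tb a i)).swp hs).shE hs (n0 a) (tb a)).swp hs).neg hs
  have hn : 0 < n0 a := Nat.pos_of_mul_pos_left (Nat.pos_of_dvd_of_pos (h0 a ha).2.1 (h0 a ha).1)
  obtain ⟨b1, b2⟩ := (h0 a ha).2.2.2 _ (Nat.mod_lt (x / (S a * S a)) hn)
  have b3 := (ZMod.natCast_eq_natCast_iff _ _ _).2 b2
  rw [Nat.cast_mul, Nat.cast_one] at b3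
  refine congrArg (fun y => Cl.mk (p a) (v a y))
    ((c0.nu hs (tb a (x / (S a * S a) % n0 a))).ext hs ?_)
  convert c1 using 1 <;> rw [Nat.cast_sub b1.le, ZMod.natCast_self]
  · linear_combination ((dig (S a) (S a) x : ZMod (S a)) * tb a (x / (S a * S a) % n0 a) +
      (dig 1 (S a) x : ZMod (S a))) * b3
  · linear_combination (-(dig (S a) (S a) x : ZMod (S a))) * b3

end Crest.Agent.R326
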