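import Crest.Agent.R326.TRec

/-!
# Row 326, the tensor pass with padding (task R326-T2)

PLAN.  Let `G = S * S * (WT ^ t * 2 ^ l)` (unary by `TU.pow`, `TU.mul`; `G ≤ 3 N`) and
`N' = G * ((N + G - 1) / G) ≤ 4 N`.  Pad the array to length `N'` with zero cells (`TA.resize` with
`d = N`, or `TA.append` + `TA.const`), pad the units with `mT ^ t * l - length` copies of `1 % S`
(`mT ^ t * l ≤ WT ^ t * 2 ^ l`), apply `TL.trec`, cut back (`TA.take`; `Tm_append_ones`,
`Tm_congr`), multiply by `2 ^ length` (`TL.pow2`, `Tm_smul`, `2 * al = 1 + ii`).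
-/

set_option autoImplicit false

namespace Crest.Agent.R326

open Crest.Agent.PTime

variable {α : Type*} [Enc α] {pre : α → Prop} {c N S k t l p : α → ℕ} {v : α → ℕ → LL}
  {us : α → List ℕ}

theorem TL.t2 (h : TL pre c p N v) (hp : TU pre c p) (hS : TU pre c S) (hk : TU pre c k)
    (ht : TU pre c t) (hl : TU pre c l) (hus : TC pre c (fun a => (us a).map U.mk))
    (h0 : ∀ a, pre a → 0 < N a ∧ S a * S a ∣ N a ∧ S a * S a * (WT ^ t a * 2 ^ l a) ≤ 3 * N a ∧
      SwOk (S a) (k a) (p a) ∧ Units2 (S a) (us a) ∧ (us a).length ≤ mT ^ t a * l a ∧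
      (us a).length ≤ p a)
    (hb : Bd pre c (fun a => N a * p a * (gT (t a) * (l a + gP (k a))))) :
    TL pre c p N (fun a => Tm (S a) (1 + ii) (1 - ii) (us a) (v a)) := by
  have hN := TA.len h
  have hWT : 0 < WT := lt_of_lt_of_le (by decide) mT_le_WT
  have k0 : ∀ a, pre a → mT ^ t a ≤ WT ^ t a ∧ WT ^ t a ≤ WT ^ t a * 2 ^ l a ∧
      2 ^ l a ≤ WT ^ t a * 2 ^ l a ∧ mT ^ t a * l a ≤ WT ^ t a * 2 ^ l a ∧
      WT ^ t a * 2 ^ l a ≤ 3 * N a ∧ S a * S a ≤ 3 * N a ∧
      0 < S a * S a * (WT ^ t a * 2 ^ l a) := fun a ha => by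
    obtain ⟨-, -, k1, ⟨k2, -⟩, -⟩ := h0 a ha
    have k3 := Nat.pow_le_pow_left mT_le_WT (t a)
    exact ⟨k3, Nat.le_mul_of_pos_right _ (by positivity), Nat.le_mul_of_pos_left _ (by positivity),
      Nat.mul_le_mul k3 Nat.lt_two_pow_self.le,
      (Nat.le_mul_of_pos_left _ (by positivity)).trans k1,
      (Nat.le_mul_of_pos_right _ (by positivity)).trans k1, by positivity⟩
  have b3 := hN.bd.const_mul 3
  have hG : TU pre c fun a => S a * S a * (WT ^ t a * 2 ^ l a) :=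
    (hS.mul hS (b3.mono fun a ha => (k0 a ha).2.2.2.2.2.1)).mul
      ((TU.pow WT ht (b3.mono fun a ha => (k0 a ha).2.1.trans (k0 a ha).2.2.2.2.1)).mul
        (TU.pow 2 hl (b3.mono fun a ha => (k0 a ha).2.2.1.trans (k0 a ha).2.2.2.2.1))
        (b3.mono fun a ha => (k0 a ha).2.2.2.2.1)) (b3.mono fun a ha => (h0 a ha).2.2.1)
  obtain ⟨M, hM, k1⟩ : ∃ M : α → ℕ, TU pre c M ∧ ∀ a, pre a → N a ≤ M a ∧ M a ≤ 4 * N a ∧
      S a * S a * (WT ^ t a * 2 ^ l a) ∣ M a := by
    have k1 : ∀ n G : ℕ, 0 < G → G ≤ 3 * n →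
        n ≤ G * ((n + G - 1) / G) ∧ G * ((n + G - 1) / G) ≤ 4 * n := fun n G h1 h2 => by
      have h3 := Nat.div_add_mod (n + G - 1) G
      have h4 := Nat.mod_lt (n + G - 1) h1
      omega
    have k2 := fun a ha => k1 _ _ (k0 a ha).2.2.2.2.2.2 (h0 a ha).2.2.1
    exact ⟨_, hG.mul (((hN.add hG).sub (TU.const 1)).div hG)
      ((hN.bd.const_mul 4).mono fun a ha => (k2 a ha).2),
      fun a ha => ⟨(k2 a ha).1, (k2 a ha).2, Dvd.intro _ rfl⟩⟩
  have h1 : TL pre c p M fun a x => if x < N a then v a x else 0 := by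
    refine (TA.append h (TA.const (hM.sub hN) (tc_cl_zero hp) ((h.bd.const_mul 24).mono
      fun a ha => ?_))).congr (fun a ha => by have := (k1 a ha).1; omega)
      fun a _ x _ => apply_ite _ _ _ _
    have k2 := sz_cl_le (p a) 0
    have k3 := (k1 a ha).2.1
    calc (M a - N a) * sz (Cl.mk (p a) 0) ≤ (3 * N a) * (8 * (p a + 1)) :=
          Nat.mul_le_mul (by omega) (by omega)
      _ = _ := by ring
  have hlen : TU pre c fun a => (us a).length := (TU.length hus).congr fun a _ => by simp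
  have hm : TU pre c fun a => mT ^ t a * l a - (us a).length :=
    ((TU.pow mT ht (b3.mono fun a ha =>
      (k0 a ha).1.trans ((k0 a ha).2.1.trans (k0 a ha).2.2.2.2.1))).mul hl
      (b3.mono fun a ha => (k0 a ha).2.2.2.1.trans (k0 a ha).2.2.2.2.1)).sub hlen
  have h2 : TC pre c fun a =>
      (us a ++ List.replicate (mT ^ t a * l a - (us a).length) (1 % S a)).map U.mk :=
    (hus.append (TC.replicate hm ((TU.const 1).mod hS).tc ((hm.bd.mul_const 3).mono fun a _ =>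
      Nat.mul_le_mul_left _ (by
        have := Nat.mod_le 1 (S a)
        rw [sz_U]
        simp only
        omega)))).congr fun a _ => by simp
  have h3 := TL.trec (l := l) h1 hp hS hk ht h2 (fun a ha => by
    obtain ⟨p1, -, -, p2, p3, p4, -⟩ := h0 a ha
    refine ⟨p1.trans_le (k1 a ha).1, (k1 a ha).2.2, p2, fun u hu => ?_, by simp; omega⟩
    rcases List.mem_append.1 hu with hu | hu
    · exact p3 u hu
    · rw [List.eq_of_mem_replicate hu]
      exact ⟨Nat.mod_lt _ p2.1, (Nat.mod_modEq 1 _).mul (Nat.mod_modEq 1 _)⟩)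
    ((hb.const_mul 4).mono fun a ha => by
      rw [← mul_assoc 4, ← mul_assoc 4]
      exact Nat.mul_le_mul_right _ (Nat.mul_le_mul_right _ (k1 a ha).2.1))
  have h4 : TL pre c p N _ := TA.take h3 hN fun a ha => (k1 a ha).1
  refine TA.congr (h4.pow2 hlen fun a ha => (h0 a ha).2.2.2.2.2.2) (fun _ _ => rfl)
    fun a ha x hx => ?_
  obtain ⟨-, p1, -, ⟨p2, -⟩, -⟩ := h0 a ha
  have e1 : 1 + ii = 2 * al := by rw [al, ← mul_assoc, two_mul_hf, one_mul]
  have e2 : 1 - ii = 2 * be := by rw [be, ← mul_assoc, two_mul_hf, one_mul]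
  beta_reduce
  rw [e1, e2, Tm_smul, Tm_append_ones p2 al_add_be,
    Tm_congr p2 p1 al be (us a) (w := v a) (fun y hy => if_pos hy) x hx]

end Crest.Agent.R326
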