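import Crest.Agent.R326.Raw

/-!
# Row 326, the user-level cost calculus (task R326-TC)

* `TC pre c f`: `f` is computed in `O(c a + sz a)` steps on inputs with `pre a`.
* `Lin f`: linear time on all inputs.   * `Bd pre c g`: `g a = O(c a + sz a)`.
* `TU pre c n`: the number `n a` is computed IN UNARY.
* `TB pre H ψ c f`: as `TC`, but the program may call `self`; cost `K0 * ψ a + K * (c a + sz a)`
  whenever the oracle hypothesis `H e K0 a` holds.  `TC.rec` ties the knot.
Input types may be "ghost" types: `Enc` need not be injective, so `pre`, `c`, `f` may mention data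
that is not encoded (`TC.recode`, `TC.congr`).
`TC`, `TU`, `Bd` are `fun_prop` predicates (hypotheses about local fvars are found).

PLAN.  Everything follows from `Raw.lean` by `Raw.comp`/`Raw.mono`; remember `1 ≤ sz a`
(`sz_pos`).  `pair`: dup, onFst g, swap, onFst f.  `fst`: swap, dropFst.  `cond'`: pair `(b a, a)`
then `Raw.caseBool`.  `list_cases`: pair `(l a, a)`, `Raw.caseList`.  For `TB` unfold and use
`Cmp.seq`, `Cmp.fst`, `Cmp.ifT/ifF`; `TB.pair`: first compute `(a, g a)` by `TC.pair`, then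
`Cmp.fst`.  `TC.rec`: with `K0 = D * (K + 2)` show `Orc pre μ φ f b K0 n` for the body `b` by
induction on `n` (`Cmp.self`), then `Cmp.mu`.
-/

set_option autoImplicit false

namespace Crest.Agent.R326

open Crest.Agent.PTime

variable {α β γ σ : Type*} [Enc α] [Enc β] [Enc γ] [Enc σ]

/-- time `O(c a + sz a)` -/
@[fun_prop] def TC (pre : α → Prop) (c : α → ℕ) (f : α → β) : Prop :=
  Raw pre (fun a => c a + sz a) f

/-- linear time -/
abbrev Lin (f : α → β) : Prop := TC (fun _ => True) (fun _ => 0) f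

/-- `g` is within the budget -/
@[fun_prop] def Bd (pre : α → Prop) (c : α → ℕ) (g : α → ℕ) : Prop :=
  ∃ K : ℕ, ∀ a, pre a → g a ≤ K * (c a + sz a)

/-- unary numbers -/
@[fun_prop] def TU (pre : α → Prop) (c : α → ℕ) (n : α → ℕ) : Prop :=
  TC pre c (fun a => U.mk (n a))

section
variable {pre : α → Prop} {c : α → ℕ}

/-! ## `Bd` -/

theorem Bd.mono {f g : α → ℕ} (hg : Bd pre c g) (h : ∀ a, pre a → f a ≤ g a) : Bd pre c f := by
  obtain ⟨K, hK⟩ := hg
  exact ⟨K, fun a ha => (h a ha).trans (hK a ha)⟩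

theorem Bd.weaken {pre' : α → Prop} {g : α → ℕ} (hg : Bd pre c g) (h : ∀ a, pre' a → pre a) :
    Bd pre' c g := by
  obtain ⟨K, hK⟩ := hg
  exact ⟨K, fun a ha => hK a (h a ha)⟩

theorem Bd.self : Bd pre c c := by
  exact ⟨1, fun a _ => by omega⟩

theorem TCA.bd_sz : Bd pre c (fun a => sz a) := ⟨1, fun a _ => by beta_reduce; omega⟩

/-- transitivity: a budget that is itself within the budget -/
theorem Bd.trans {c' g : α → ℕ} (hg : Bd pre c' g) (h : Bd pre c c') : Bd pre c g := by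
  obtain ⟨K, hK⟩ := hg
  obtain ⟨K', hK'⟩ := h
  refine ⟨K * (K' + 1), fun a ha => (hK a ha).trans ?_⟩
  have := hK' a ha
  rw [mul_assoc]
  exact Nat.mul_le_mul_left _ (by rw [add_mul]; omega)

@[fun_prop] theorem Bd.const (k : ℕ) : Bd pre c (fun _ => k) := by
  refine ⟨k, fun a _ => Nat.le_mul_of_pos_right _ ?_⟩
  have := sz_pos a
  omega

@[fun_prop] theorem Bd.add {f g : α → ℕ} (hf : Bd pre c f) (hg : Bd pre c g) :
    Bd pre c (fun a => f a + g a) := by
  obtain ⟨K, hK⟩ := hf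
  obtain ⟨K', hK'⟩ := hg
  exact ⟨K + K', fun a ha => by rw [add_mul]; exact add_le_add (hK a ha) (hK' a ha)⟩

@[fun_prop] theorem Bd.const_mul (k : ℕ) {g : α → ℕ} (hg : Bd pre c g) :
    Bd pre c (fun a => k * g a) := by
  obtain ⟨K, hK⟩ := hg
  exact ⟨k * K, fun a ha => by rw [mul_assoc]; exact Nat.mul_le_mul_left _ (hK a ha)⟩

@[fun_prop] theorem Bd.mul_const (k : ℕ) {g : α → ℕ} (hg : Bd pre c g) :
    Bd pre c (fun a => g a * k) := by
  exact (hg.const_mul k).mono fun a _ => (mul_comm _ _).le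

@[fun_prop] theorem Bd.sz {f : α → β} (hf : TC pre c f) : Bd pre c (fun a => sz (f a)) := by
  obtain ⟨K, hK⟩ := Raw.sz_le hf
  refine ⟨1 + K * 2, fun a ha => (hK a ha).trans ?_⟩
  have h1 := sz_pos a
  have h2 : K * (c a + PTime.sz a + 1) ≤ K * (2 * (c a + PTime.sz a)) :=
    Nat.mul_le_mul_left _ (by omega)
  rw [add_mul, mul_assoc]
  omega

@[fun_prop] theorem Bd.length {l : α → List β} (hl : TC pre c l) :
    Bd pre c (fun a => (l a).length) := by
  exact (Bd.sz hl).mono fun a _ => length_le_sz _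

theorem TU.bd {n : α → ℕ} (h : TU pre c n) : Bd pre c n := by
  exact (Bd.sz h).mono fun a _ => by rw [sz_U]; simp only; omega

/-- transport along a computed map -/
theorem Bd.comp' {pre' : β → Prop} {c' g : β → ℕ} {f : α → β} (hg : Bd pre' c' g)
    (hf : Bd pre c (fun a => PTime.sz (f a))) (h1 : ∀ a, pre a → pre' (f a))
    (h2 : Bd pre c (fun a => c' (f a))) : Bd pre c (fun a => g (f a)) := by
  obtain ⟨K, hK⟩ := hg
  exact ((h2.add hf).const_mul K).mono fun a ha => hK _ (h1 a ha)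

/-- powers of the size of a binary number -/
theorem exists_sz_pow_le (e : ℕ) : ∃ K : ℕ, ∀ n : ℕ, PTime.sz n ^ e ≤ K * (n + 1) := by
  refine ⟨5 ^ e * e.factorial * 3 ^ e * 2, fun n => ?_⟩
  rcases Nat.eq_zero_or_pos n with rfl | hn
  · have : PTime.sz (0 : ℕ) = 1 := rfl
    rw [this, one_pow]
    have := e.factorial_pos
    exact Nat.succ_le_of_lt (by positivity)
  · have h1 : PTime.sz n ≤ 4 * n.size + 1 := sz_le_of_lt (Nat.lt_size_self n)
    have h2 : 0 < n.size := Nat.size_pos.2 hn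
    have h3 : 2 ^ n.size ≤ 2 * (n + 1) := by
      obtain ⟨k, hk⟩ : ∃ k, n.size = k + 1 := ⟨n.size - 1, by omega⟩
      have : 2 ^ k ≤ n := Nat.lt_size.1 (by omega)
      rw [hk, pow_succ]; omega
    have h4 : ∀ s : ℕ, s ^ e ≤ e.factorial * 3 ^ e * 2 ^ s := fun s => by
      have k1 : ((s : ℝ) / 3) ^ e / e.factorial ≤ Real.exp (s / 3) :=
        Real.pow_div_factorial_le_exp _ (by positivity) e
      have k2 : Real.exp (s / 3) ≤ 2 ^ s := by
        rw [show (s : ℝ) / 3 = s * (1 / 3) by ring, Real.exp_nat_mul]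
        refine pow_le_pow_left₀ (Real.exp_pos _).le ?_ s
        have := Real.exp_bound_div_one_sub_of_interval (x := 1 / 3) (by norm_num) (by norm_num)
        linarith
      have k3 : (0 : ℝ) < e.factorial := by exact_mod_cast e.factorial_pos
      have k4 := k1.trans k2
      rw [div_pow, div_div, div_le_iff₀ (by positivity)] at k4
      have : ((s ^ e : ℕ) : ℝ) ≤ ((e.factorial * 3 ^ e * 2 ^ s : ℕ) : ℝ) := by
        push_cast; linarith
      exact_mod_cast this
    calc PTime.sz n ^ e ≤ (5 * n.size) ^ e := Nat.pow_le_pow_left (by omega) e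
      _ = 5 ^ e * n.size ^ e := mul_pow _ _ _
      _ ≤ 5 ^ e * (e.factorial * 3 ^ e * (2 * (n + 1))) :=
          Nat.mul_le_mul_left _ ((h4 _).trans (Nat.mul_le_mul_left _ h3))
      _ = _ := by ring

/-! ## `TC` -/

theorem TC.of_raw {f : α → β} {pre' : α → Prop} {c' : α → ℕ} (h : Raw pre' c' f)
    (h1 : ∀ a, pre a → pre' a) (h2 : Bd pre c c') : TC pre c f := by
  obtain ⟨K, hK⟩ := h2
  exact h.mono h1 ⟨K, fun a ha => (hK a ha).trans (Nat.mul_le_mul_left _ (Nat.le_succ _))⟩
    fun _ _ => rfl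

theorem TC.mono {f : α → β} {pre' : α → Prop} {c' : α → ℕ} (h : TC pre' c' f)
    (h1 : ∀ a, pre a → pre' a) (h2 : Bd pre c c') : TC pre c f := by
  exact TC.of_raw h h1 (h2.add TCA.bd_sz)

theorem TC.weaken {f : α → β} {pre' : α → Prop} (h : TC pre' c f)
    (h1 : ∀ a, pre a → pre' a) : TC pre c f := h.mono h1 Bd.self

theorem TC.of_lin {f : α → β} (h : Lin f) : TC pre c f := h.mono (fun _ _ => trivial) (Bd.const 0)

theorem TC.of_enc {f : α → β} {g : α → γ} (h : TC pre c g)
    (h1 : ∀ a, pre a → enc (f a) = enc (g a)) : TC pre c f := by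
  exact Raw.mono h (fun _ h => h) ⟨1, fun _ _ => by omega⟩ h1

theorem TC.congr {f g : α → β} (h : TC pre c g) (h1 : ∀ a, pre a → f a = g a) : TC pre c f :=
  h.of_enc fun a ha => by rw [h1 a ha]

theorem TC.recode {f : α → β} (h : TC pre c f) (ι : γ → α) (hι : ∀ x, enc (ι x) = enc x) :
    TC (fun x => pre (ι x)) (fun x => c (ι x)) (fun x => f (ι x)) := by
  refine Raw.mono (Raw.recode h ι hι) (fun _ h => h) ⟨1, fun x _ => ?_⟩ fun _ _ => rfl
  have : sz (ι x) = sz x := congrArg T.size (hι x)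
  beta_reduce
  omega

@[fun_prop] theorem TC.id : TC pre c (fun a => a) := by
  exact TC.of_raw Raw.id (fun _ _ => trivial) (Bd.const 0)

@[fun_prop] theorem TC.const (b : β) : TC pre c (fun _ => b) := by
  exact TC.of_raw (Raw.dropFst.comp (Raw.swap.comp (Raw.pushConst b)))
    (fun _ _ => ⟨⟨trivial, trivial⟩, trivial⟩)
    (((Bd.const (sz b + 1)).add (TCA.bd_sz.const_mul 2)).mono fun a _ => by
      simp only [sz_pair]; omega)

theorem TC.comp' {pre' : β → Prop} {c' : β → ℕ} {f : β → γ} {g : α → β} (hf : TC pre' c' f)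
    (hg : TC pre c g) (h1 : ∀ a, pre a → pre' (g a)) (h2 : Bd pre c (fun a => c' (g a))) :
    TC pre c (fun a => f (g a)) := by
  exact TC.of_raw (Raw.comp hf hg) (fun a ha => ⟨ha, h1 a ha⟩)
    ((Bd.self.add TCA.bd_sz).add (h2.add (Bd.sz hg)))

@[fun_prop] theorem TC.comp {f : β → γ} {g : α → β}
    (hf : TC (fun _ => True) (fun _ => 0) f) (hg : TC pre c g) : TC pre c (fun a => f (g a)) :=
  hf.comp' hg (fun _ _ => trivial) (Bd.const 0)

/-- composition with a linear-time function that has a precondition -/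
theorem TC.comp0 {pre' : β → Prop} {f : β → γ} {g : α → β} (hf : TC pre' (fun _ => 0) f)
    (hg : TC pre c g) (h1 : ∀ a, pre a → pre' (g a)) : TC pre c (fun a => f (g a)) :=
  hf.comp' hg h1 (Bd.const 0)

@[fun_prop] theorem TC.pair {f : α → β} {g : α → γ} (hf : TC pre c f) (hg : TC pre c g) :
    TC pre c (fun a => (f a, g a)) := by
  exact TC.of_raw ((Raw.onFst hf).comp (Raw.swap.comp ((Raw.onFst hg).comp Raw.dup)))
    (fun a ha => ⟨⟨⟨trivial, ha⟩, trivial⟩, ha⟩)
    ((((Bd.self.const_mul 2).add (TCA.bd_sz.const_mul 4)).add ((Bd.sz hg).add (Bd.const 1))).mono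
      fun a _ => by simp only [sz_pair]; omega)

@[fun_prop] theorem TC.fst {f : α → β × γ} (hf : TC pre c f) : TC pre c (fun a => (f a).1) := by
  exact TC.of_raw (Raw.dropFst.comp (Raw.swap.comp hf)) (fun a ha => ⟨⟨ha, trivial⟩, trivial⟩)
    (((Bd.self.add TCA.bd_sz).add ((Bd.sz hf).const_mul 2)).mono fun a _ => by
      have := sz_prod (f a)
      dsimp only
      omega)

@[fun_prop] theorem TC.snd {f : α → β × γ} (hf : TC pre c f) : TC pre c (fun a => (f a).2) := by
  exact TC.of_raw (Raw.dropFst.comp hf) (fun a ha => ⟨ha, trivial⟩)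
    (((Bd.self.add TCA.bd_sz).add (Bd.sz hf)).mono fun a _ => by
      have := sz_prod (f a)
      omega)

theorem TC.cond' {b : α → Bool} {f g : α → β} (hb : TC pre c b)
    (hf : TC (fun a => pre a ∧ b a = true) c f) (hg : TC (fun a => pre a ∧ b a = false) c g) :
    TC pre c (fun a => cond (b a) (f a) (g a)) := by
  refine TC.of_raw ((Raw.caseBool hf hg).comp (hb.pair TC.id)) (fun a ha => ⟨ha, ?_⟩)
    (((Bd.self.add TCA.bd_sz).const_mul 2).mono fun a _ => ?_)
  · cases h : b a <;> simp [ha]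
  · cases h : b a <;> simp <;> omega

@[fun_prop] theorem TC.cond {b : α → Bool} {f g : α → β} (hb : TC pre c b) (hf : TC pre c f)
    (hg : TC pre c g) : TC pre c (fun a => cond (b a) (f a) (g a)) :=
  hb.cond' (hf.weaken fun _ h => h.1) (hg.weaken fun _ h => h.1)

@[fun_prop] theorem TC.decide {p : α → Prop} [∀ a, Decidable (p a)] (hp : TC pre c p) :
    TC pre c (fun a => decide (p a)) := hp.of_enc fun _ _ => (enc_prop _).symm

theorem TC.of_decide {p : α → Prop} {f : α → Bool} (hf : TC pre c f)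
    (h : ∀ a, pre a → (p a ↔ f a = true)) : TC pre c p := by
  classical
  refine hf.of_enc fun a ha => ?_
  rw [enc_prop]
  congr 1
  by_cases hp : p a
  · simp [hp, (h a ha).1 hp]
  · have : f a = false := by simpa using fun h' => hp ((h a ha).2 h')
    simp [hp, this]

theorem TC.ite' {p : α → Prop} [∀ a, Decidable (p a)] {f g : α → β} (hp : TC pre c p)
    (hf : TC (fun a => pre a ∧ p a) c f) (hg : TC (fun a => pre a ∧ ¬ p a) c g) :
    TC pre c (fun a => if p a then f a else g a) := by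
  exact (hp.decide.cond' (hf.weaken fun a ha => ⟨ha.1, by simpa using ha.2⟩)
    (hg.weaken fun a ha => ⟨ha.1, by simpa using ha.2⟩)).congr fun a _ => by
      by_cases h : p a <;> simp [h]

@[fun_prop] theorem TC.ite {p : α → Prop} [∀ a, Decidable (p a)] {f g : α → β} (hp : TC pre c p)
    (hf : TC pre c f) (hg : TC pre c g) : TC pre c (fun a => if p a then f a else g a) :=
  hp.ite' (hf.weaken fun _ h => h.1) (hg.weaken fun _ h => h.1)

@[fun_prop] theorem TC.bnot {f : α → Bool} (hf : TC pre c f) : TC pre c (fun a => !(f a)) := by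
  exact (hf.cond (TC.const false) (TC.const true)).congr fun a _ => by cases f a <;> rfl

@[fun_prop] theorem TC.band {f g : α → Bool} (hf : TC pre c f) (hg : TC pre c g) :
    TC pre c (fun a => f a && g a) := by
  exact (hf.cond hg (TC.const false)).congr fun a _ => by cases f a <;> rfl

@[fun_prop] theorem TC.bor {f g : α → Bool} (hf : TC pre c f) (hg : TC pre c g) :
    TC pre c (fun a => f a || g a) := by
  exact (hf.cond (TC.const true) hg).congr fun a _ => by cases f a <;> rfl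

@[fun_prop] theorem TC.bxor {f g : α → Bool} (hf : TC pre c f) (hg : TC pre c g) :
    TC pre c (fun a => xor (f a) (g a)) := by
  exact (hf.cond hg.bnot hg).congr fun a _ => by cases f a <;> simp

@[fun_prop] theorem TC.cons {f : α → β} {l : α → List β} (hf : TC pre c f) (hl : TC pre c l) :
    TC pre c (fun a => f a :: l a) := (hf.pair hl).of_enc fun _ _ => rfl

/-- case distinction on a list; the `cons` branch sees the input, the head and the tail -/
theorem TC.list_cases {l : α → List β} {f : α → γ} {g : α → β → List β → γ} (hl : TC pre c l)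
    (hf : TC (fun a => pre a ∧ l a = []) c f)
    (hg : TC (fun p : α × β × List β => pre p.1 ∧ l p.1 = p.2.1 :: p.2.2) (fun p => c p.1)
      (fun p => g p.1 p.2.1 p.2.2)) :
    TC pre c (fun a => (List.casesOn (l a) (f a) (g a) : γ)) := by
  have hg' : TC (fun x : (β × List β) × α => pre x.2 ∧ l x.2 = x.1.1 :: x.1.2) (fun x => c x.2)
      (fun x => g x.2 x.1.1 x.1.2) :=
    hg.comp' (g := fun x : (β × List β) × α => (x.2, x.1)) (TC.id.snd.pair TC.id.fst)
      (fun _ h => h) Bd.self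
  refine (TC.of_raw ((Raw.caseList hf hg').comp (hl.pair TC.id)) (fun a ha => ⟨ha, ?_⟩)
    ((((Bd.self.add TCA.bd_sz).const_mul 2).add ((Bd.sz hl).add (Bd.const 1))).mono
      fun a _ => ?_)).congr fun a _ => ?_
  · cases h : l a <;> simp [ha, h]
  · cases h : l a <;> simp <;> omega
  · cases h : l a <;> rfl

@[fun_prop] theorem TC.tail {l : α → List β} (hl : TC pre c l) :
    TC pre c (fun a => (l a).tail) := by
  exact (TC.list_cases (f := fun _ => []) (g := fun _ _ t => t) hl (TC.const _)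
    TC.id.snd.snd).congr fun a _ => by cases l a <;> rfl

@[fun_prop] theorem TC.isEmpty {l : α → List β} (hl : TC pre c l) :
    TC pre c (fun a => (l a).isEmpty) := by
  exact (TC.list_cases (f := fun _ => true) (g := fun _ _ _ => false) hl (TC.const _)
    (TC.const _)).congr fun a _ => by cases l a <;> rfl

@[fun_prop] theorem TC.headD {l : α → List β} {d : α → β} (hl : TC pre c l) (hd : TC pre c d) :
    TC pre c (fun a => (l a).headD (d a)) := by
  exact (TC.list_cases (f := d) (g := fun _ b _ => b) hl (hd.weaken fun _ h => h.1)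
    TC.id.snd.fst).congr fun a _ => by cases l a <;> rfl

/-- a polynomial-time function -/
theorem TC.ofPT {f : β → γ} (hf : PT f) : ∃ e : ℕ, TC (fun _ => True) (fun b => PTime.sz b ^ e) f := by
  obtain ⟨e, he⟩ := Raw.pt hf
  exact ⟨e, TC.of_raw he (fun _ _ => trivial) Bd.self⟩

/-- a polynomial-time function of a small argument -/
theorem TC.pt {f : β → γ} {g : α → β} (hf : PT f) (hg : TC pre c g)
    (hb : ∀ e : ℕ, Bd pre c (fun a => PTime.sz (g a) ^ e)) : TC pre c (fun a => f (g a)) := by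
  obtain ⟨e, he⟩ := TC.ofPT hf
  exact he.comp' hg (fun _ _ => trivial) (hb e)

@[fun_prop] theorem TU.tc {n : α → ℕ} (h : TU pre c n) : TC pre c (fun a => U.mk (n a)) := h

@[fun_prop] theorem TU.val {u : α → U} (h : TC pre c u) : TU pre c (fun a => (u a).val) := h

@[fun_prop] theorem TU.const (k : ℕ) : TU pre c (fun _ => k) := TC.const _

theorem TU.congr {n m : α → ℕ} (h : TU pre c m) (h1 : ∀ a, pre a → n a = m a) : TU pre c n :=
  TC.congr h fun a ha => by rw [h1 a ha]

theorem TU.weaken {n : α → ℕ} {pre' : α → Prop} (h : TU pre' c n) (h1 : ∀ a, pre a → pre' a) :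
    TU pre c n := TC.weaken h h1

end

/-! ## programs with an oracle -/

/-- time `K0 * ψ a + O(c a + sz a)` under the oracle hypothesis `H e K0 a` -/
def TB (pre : α → Prop) (H : Q → ℕ → α → Prop) (ψ c : α → ℕ) (f : α → β) : Prop :=
  ∃ (p : Q) (K : ℕ), ∀ (e : Q) (K0 : ℕ) (a : α), pre a → H e K0 a →
    Cmp e p (enc a) (enc (f a)) (K0 * ψ a + K * (c a + sz a))

/-- `self` computes `f` within `K0 * φ` on the inputs of measure `< n` -/
def Orc (pre : α → Prop) (μ φ : α → ℕ) (f : α → β) (e : Q) (K0 n : ℕ) : Prop :=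
  ∀ a, pre a → μ a < n → Cmp e .self (enc a) (enc (f a)) (K0 * φ a)

section
variable {pre : α → Prop} {H : Q → ℕ → α → Prop} {ψ c : α → ℕ}

theorem TB.of_TC {f : α → β} (h : TC pre c f) : TB pre H ψ c f := by
  obtain ⟨p, K, hp⟩ := h
  refine ⟨p, K * 2, fun e K0 a ha _ => (hp e a ha).mono ?_⟩
  have h1 := sz_pos a
  have h2 : K * (c a + sz a + 1) ≤ K * (2 * (c a + sz a)) := Nat.mul_le_mul_left _ (by omega)
  rw [mul_assoc]
  exact h2.trans (Nat.le_add_left _ _)

theorem TB.mono {pre' : α → Prop} {H' : Q → ℕ → α → Prop} {ψ' c' : α → ℕ} {f : α → β} {g : α → γ}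
    (h : TB pre' H' ψ' c' g) (h1 : ∀ a, pre a → pre' a)
    (h2 : ∀ e K0 a, pre a → H e K0 a → H' e K0 a) (h3 : ∀ a, pre a → ψ' a ≤ ψ a)
    (h4 : Bd pre c c') (h5 : ∀ a, pre a → enc (f a) = enc (g a)) : TB pre H ψ c f := by
  obtain ⟨p, K, hp⟩ := h
  obtain ⟨K', hK'⟩ := h4.add TCA.bd_sz
  refine ⟨p, K * K', fun e K0 a ha hH => ?_⟩
  rw [h5 a ha, mul_assoc]
  exact (hp e K0 a (h1 a ha) (h2 e K0 a ha hH)).mono
    (add_le_add (Nat.mul_le_mul_left _ (h3 a ha)) (Nat.mul_le_mul_left _ (hK' a ha)))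

theorem TB.recode {f : α → β} (h : TB pre H ψ c f) (ι : γ → α) (hι : ∀ x, enc (ι x) = enc x) :
    TB (fun x => pre (ι x)) (fun e K0 x => H e K0 (ι x)) (fun x => ψ (ι x)) (fun x => c (ι x))
      (fun x => f (ι x)) := by
  obtain ⟨p, K, hp⟩ := h
  refine ⟨p, K, fun e K0 x hx hH => ?_⟩
  have := hp e K0 (ι x) hx hH
  rwa [hι x, show sz (ι x) = sz x from congrArg T.size (hι x)] at this

theorem TB.of_subtype {f : α → β}
    (h : TB (fun _ : {a // pre a} => True) (fun e K0 x => H e K0 x.1) (fun x => ψ x.1)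
      (fun x => c x.1) (fun x => f x.1)) : TB pre H ψ c f := by
  obtain ⟨p, K, hp⟩ := h
  exact ⟨p, K, fun e K0 a ha hH => hp e K0 ⟨a, ha⟩ trivial hH⟩

theorem TB.comp {pre' : β → Prop} {H' : Q → ℕ → β → Prop} {ψ' c' : β → ℕ} {ψ1 : α → ℕ}
    {f : β → γ} {g : α → β} (hf : TB pre' H' ψ' c' f) (hg : TB pre H ψ1 c g)
    (h1 : ∀ a, pre a → pre' (g a)) (h2 : ∀ e K0 a, pre a → H e K0 a → H' e K0 (g a))
    (h3 : ∀ a, pre a → ψ1 a + ψ' (g a) ≤ ψ a) (h4 : Bd pre c (fun a => c' (g a) + sz (g a))) :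
    TB pre H ψ c (fun a => f (g a)) := by
  obtain ⟨p, K, hp⟩ := hg
  obtain ⟨p', K', hp'⟩ := hf
  obtain ⟨K2, hK2⟩ := h4
  refine ⟨.seq p p', K + K' * K2, fun e K0 a ha hH =>
    ((hp e K0 a ha hH).seq (hp' e K0 _ (h1 a ha) (h2 e K0 a ha hH))).mono ?_⟩
  have k1 := Nat.mul_le_mul_left K0 (h3 a ha)
  have k2 := Nat.mul_le_mul_left K' (hK2 a ha)
  rw [mul_add] at k1
  rw [add_mul, mul_assoc]
  beta_reduce at k2
  omega

theorem TB.pair {f : α → β} {g : α → γ} (hf : TB pre H ψ c f) (hg : TC pre c g) :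
    TB pre H ψ c (fun a => (f a, g a)) := by
  obtain ⟨p, K, hp⟩ := hf
  obtain ⟨p', K', hp'⟩ := TB.of_TC (H := H) (ψ := fun _ => 0) (TC.id.pair hg)
  refine ⟨.seq p' (qFst p), K' + K + 3, fun e K0 a ha hH =>
    ((hp' e K0 a ha hH).seq ((hp e K0 a ha hH).fst (enc (g a)))).mono ?_⟩
  have := sz_pos a
  rw [add_mul, add_mul]
  beta_reduce
  omega

theorem TB.ite' {p : α → Prop} [∀ a, Decidable (p a)] {f g : α → β} (hp : TC pre c p)
    (hf : TB (fun a => pre a ∧ p a) H ψ c f) (hg : TB (fun a => pre a ∧ ¬ p a) H ψ c g) :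
    TB pre H ψ c (fun a => if p a then f a else g a) := by
  obtain ⟨p1, K1, hp1⟩ := hf
  obtain ⟨p2, K2, hp2⟩ := hg
  obtain ⟨p', K', hp'⟩ := TB.of_TC (H := H) (ψ := fun _ => 0) (hp.decide.pair TC.id)
  refine ⟨.seq p' (qIf p1 p2), K' + K1 + K2 + 7, fun e K0 a ha hH => ?_⟩
  have h0 := sz_pos a
  have h1 := hp' e K0 a ha hH
  beta_reduce at h1 ⊢
  rw [add_mul, add_mul, add_mul]
  by_cases h : p a
  · rw [decide_eq_true h] at h1
    rw [if_pos h]
    exact (h1.seq ((hp1 e K0 a ⟨ha, h⟩ hH).ifT p2)).mono (by omega)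
  · rw [decide_eq_false h] at h1
    rw [if_neg h]
    exact (h1.seq ((hp2 e K0 a ⟨ha, h⟩ hH).ifF p1)).mono (by omega)

/-- a recursive call on a computed argument -/
theorem TB.call {pre' : β → Prop} {μ φ : β → ℕ} {f : β → γ} {g : α → β} {n : α → ℕ}
    (hg : TC pre c g) (h1 : ∀ a, pre a → pre' (g a) ∧ μ (g a) < n a ∧ φ (g a) ≤ ψ a)
    (h2 : ∀ e K0 a, pre a → H e K0 a → Orc pre' μ φ f e K0 (n a)) :
    TB pre H ψ c (fun a => f (g a)) := by
  obtain ⟨p', K', hp'⟩ := TB.of_TC (H := H) (ψ := fun _ => 0) hg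
  refine ⟨.seq p' .self, K', fun e K0 a ha hH => ((hp' e K0 a ha hH).seq
    (h2 e K0 a ha hH (g a) (h1 a ha).1 (h1 a ha).2.1)).mono ?_⟩
  have := Nat.mul_le_mul_left K0 (h1 a ha).2.2
  beta_reduce
  omega

/-- the recursion theorem -/
theorem TC.rec {μ φ : α → ℕ} {f : α → β}
    (h : TB pre (fun e K0 a => Orc pre μ φ f e K0 (μ a)) ψ c f)
    (hD : ∃ D : ℕ, ∀ a, pre a → D * ψ a + c a + sz a ≤ D * φ a) : TC pre φ f := by
  obtain ⟨b, K, hb⟩ := h
  obtain ⟨D, hD⟩ := hD
  have hK : ∀ a, pre a → D * (K + 2) * ψ a + K * (c a + sz a) + 2 ≤ D * (K + 2) * φ a := by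
    intro a ha
    have h1 := Nat.mul_le_mul_left (K + 2) (hD a ha)
    have h2 := sz_pos a
    have e1 : (K + 2) * (D * ψ a + c a + sz a) =
        D * (K + 2) * ψ a + K * (c a + sz a) + 2 * (c a + sz a) := by ring
    have e2 : (K + 2) * (D * φ a) = D * (K + 2) * φ a := by ring
    omega
  have key : ∀ n, Orc pre μ φ f b (D * (K + 2)) n := by
    intro n
    induction n with
    | zero => intro a _ h; exact absurd h (Nat.not_lt_zero _)
    | succ n ih =>
      intro a ha h
      exact (hb b _ a ha fun a' ha' h' => ih a' ha' (by omega)).self.mono (hK a ha)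
  refine ⟨.mu b, D * (K + 2), fun e a ha => ((hb b _ a ha (key _)).mu e).mono ?_⟩
  exact (hK a ha).trans (Nat.mul_le_mul_left _ (by beta_reduce; omega))

end

end Crest.Agent.R326
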