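import Crest.Agent.R326.Leaf
import Crest.Agent.R326.ImplFin

/-!
# Row 326, the tensor recursion
-/

set_option autoImplicit false

namespace Crest.Agent.R326

open Crest.Agent.PTime
open Crest.Agent.R324 (q tau)

theorem TC.listOf {α β ι : Type*} [Enc α] [Enc β] {pre : α → Prop} {c : α → ℕ} (L : List ι)
    (g : ι → α → β) (h : ∀ i, TC pre c (g i)) : TC pre c (fun a => L.map fun i => g i a) := by
  induction L with
  | nil => exact TC.const _
  | cons i L ih => exact (h i).cons ih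

namespace TRec

/-- input of the recursion -/
structure In where
  S : ℕ
  k : ℕ
  t : ℕ
  l : ℕ
  p : ℕ
  N : ℕ
  us : List ℕ
  v : ℕ → LL

instance : Enc In := ⟨fun x => enc (U.mk x.S, U.mk x.k, U.mk x.t, U.mk x.p, x.us.map U.mk,
  GArr.mk x.N fun i => Cl.mk x.p (x.v i))⟩

def In.pre (x : In) : Prop :=
  0 < x.N ∧ x.S * x.S * (WT ^ x.t * 2 ^ x.l) ∣ x.N ∧ SwOk x.S x.k x.p ∧ Units2 x.S x.us ∧
    x.us.length = mT ^ x.t * x.l

def In.out (x : In) : GArr Cl := ⟨x.N, fun i => Cl.mk x.p (Tm x.S al be x.us x.v i)⟩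

noncomputable def In.φ (x : In) : ℕ := x.N * x.p * (gT x.t * (x.l + gP x.k))

noncomputable def In.c (x : In) : ℕ := x.N * x.p * (x.l + gP x.k)

section
variable {α : Type*} [Enc α] {pre : α → Prop} {c : α → ℕ}

theorem tc_tuple {g : α → In} (h : TC pre c g) :
    TC pre c (fun a => (U.mk (g a).S, U.mk (g a).k, U.mk (g a).t, U.mk (g a).p, (g a).us.map U.mk,
      GArr.mk (g a).N fun i => Cl.mk (g a).p ((g a).v i))) :=
  h.of_enc fun _ _ => rfl

theorem tu_S {g : α → In} (h : TC pre c g) : TU pre c (fun a => (g a).S) := (tc_tuple h).fst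
theorem tu_k {g : α → In} (h : TC pre c g) : TU pre c (fun a => (g a).k) := (tc_tuple h).snd.fst
theorem tu_t {g : α → In} (h : TC pre c g) : TU pre c (fun a => (g a).t) :=
  (tc_tuple h).snd.snd.fst
theorem tu_p {g : α → In} (h : TC pre c g) : TU pre c (fun a => (g a).p) :=
  (tc_tuple h).snd.snd.snd.fst
theorem tc_us {g : α → In} (h : TC pre c g) : TC pre c (fun a => (g a).us.map U.mk) :=
  (tc_tuple h).snd.snd.snd.snd.fst
theorem tl_v {g : α → In} (h : TC pre c g) :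
    TL pre c (fun a => (g a).p) (fun a => (g a).N) (fun a => (g a).v) :=
  (tc_tuple h).snd.snd.snd.snd.snd

theorem tc_mk {S k t p N : α → ℕ} (l : α → ℕ) {us : α → List ℕ} {v : α → ℕ → LL}
    (hS : TU pre c S) (hk : TU pre c k) (ht : TU pre c t) (hp : TU pre c p)
    (hus : TC pre c (fun a => (us a).map U.mk)) (hv : TL pre c p N v) :
    TC pre c (fun a => In.mk (S a) (k a) (t a) (l a) (p a) (N a) (us a) (v a)) :=
  (TC.pair hS (TC.pair hk (TC.pair ht (TC.pair hp (TC.pair hus hv))))).of_enc fun _ _ => rfl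

end

theorem mT_pos : 0 < mT := by decide
theorem two_le_WT : 2 ≤ WT := le_trans (by decide) mT_le_WT
theorem WT_pos : 0 < WT := lt_of_lt_of_le two_pos two_le_WT

theorem In.pre.facts {x : In} (h : x.pre) : 0 < x.S ∧ 0 < x.p ∧ x.S * x.S ≤ x.N ∧ x.t ≤ x.N ∧
    x.us.length * (x.S * x.S) ≤ x.N := by
  obtain ⟨h1, h2, h3, -, h5⟩ := h
  have hS := h3.1
  have h6 := Nat.le_of_dvd h1 h2
  have h7 : x.us.length ≤ WT ^ x.t * 2 ^ x.l := by
    rw [h5]
    exact Nat.mul_le_mul (Nat.pow_le_pow_left mT_le_WT _) Nat.lt_two_pow_self.le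
  have h8 : x.t ≤ WT ^ x.t * 2 ^ x.l :=
    le_trans (Nat.lt_pow_self two_le_WT).le (Nat.le_mul_of_pos_right _ (by positivity))
  have h9 : 0 < WT ^ x.t * 2 ^ x.l := Nat.mul_pos (pow_pos WT_pos _) (by positivity)
  have h10 : 0 < x.S * x.S := Nat.mul_pos hS hS
  refine ⟨hS, h3.2.2.2.1, le_trans (Nat.le_mul_of_pos_right _ h9) h6,
    le_trans h8 (le_trans (Nat.le_mul_of_pos_left _ h10) h6), ?_⟩
  rw [mul_comm]
  exact le_trans (Nat.mul_le_mul_left _ h7) h6

theorem sz_in (x : In) : sz x = sz (U.mk x.S) + (sz (U.mk x.k) + (sz (U.mk x.t) + (sz (U.mk x.p) +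
    (sz (x.us.map U.mk) + sz (GArr.mk x.N fun i => Cl.mk x.p (x.v i)) + 1) + 1) + 1) + 1) + 1 := rfl

theorem sz_in_le {x : In} (h : x.pre) : sz x ≤ 60 * (x.N * x.p) := by
  obtain ⟨hS, hp, h1, h2, h3⟩ := h.facts
  have h4 : x.k < 3 ^ x.k := Nat.lt_pow_self (by norm_num)
  have h5 := sz_tl_le x.p x.N x.v
  have h6 := h.2.2.1.2.2.1
  have h7 : sz (x.us.map U.mk) ≤ _ := sz_list_le (B := 2 * x.S + 1) fun y hy => by
    obtain ⟨u, hu, rfl⟩ := List.mem_map.1 hy
    have := (h.2.2.2.1 u hu).1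
    rw [sz_U]; simp only; omega
  rw [List.length_map] at h7
  have h8 : x.S ≤ x.S * x.S := Nat.le_mul_self _
  have h9 : x.us.length * (2 * x.S + 1 + 1) ≤ x.us.length * (4 * (x.S * x.S)) :=
    Nat.mul_le_mul_left _ (by omega)
  have h10 : x.N ≤ x.N * x.p := Nat.le_mul_of_pos_right _ hp
  have h11 : x.p ≤ x.N * x.p := Nat.le_mul_of_pos_left _ h.1
  rw [mul_left_comm] at h9
  rw [show x.N * (8 * x.p + 4) = 8 * (x.N * x.p) + 4 * x.N by ring] at h5
  rw [sz_in, sz_U, sz_U, sz_U, sz_U]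
  have := h.1
  simp only
  omega

theorem le_sz_in (x : In) : x.N * (x.p + 1) ≤ sz x := by
  have h5 : x.N * (4 * x.p + 3 + 1) + 1 ≤ sz (GArr.mk x.N fun i => Cl.mk x.p (x.v i)) :=
    sz_arr_ge fun i _ => sz_cl_ge _ _
  have h6 : x.N * (x.p + 1) ≤ x.N * (4 * x.p + 3 + 1) := Nat.mul_le_mul_left _ (by omega)
  rw [sz_in]
  omega

/-- inputs treated by the network -/
def Big (x : In) : Prop := x.pre ∧ x.t ≠ 0

abbrev A : Type := {x : In // Big x}

noncomputable def NN (a : A) : ℕ := a.1.N / WT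
def ll (a : A) : ℕ := mT ^ (a.1.t - 1) * a.1.l

theorem big_facts (a : A) : a.1.N = NN a * WT ∧ 0 < NN a ∧
    a.1.S * a.1.S * (WT ^ (a.1.t - 1) * 2 ^ a.1.l) ∣ NN a ∧ a.1.us.length = ll a * mT := by
  obtain ⟨x, ⟨h1, h2, -, -, h5⟩, h0⟩ := a
  obtain ⟨t, ht⟩ : ∃ t, x.t = t + 1 := Nat.exists_eq_succ_of_ne_zero h0
  have e : x.S * x.S * (WT ^ x.t * 2 ^ x.l) = x.S * x.S * (WT ^ (x.t - 1) * 2 ^ x.l) * WT := by
    rw [ht, Nat.add_sub_cancel]; ring
  rw [e] at h2
  have w : WT ∣ x.N := (Dvd.intro_left _ rfl).trans h2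
  have e1 := (Nat.div_mul_cancel w).symm
  refine ⟨e1, Nat.div_pos (Nat.le_of_dvd h1 w) WT_pos, ?_, ?_⟩
  · refine Nat.dvd_of_mul_dvd_mul_right WT_pos ?_
    show _ ∣ x.N / WT * WT
    rw [← e1]; exact h2
  · show x.us.length = mT ^ (x.t - 1) * x.l * mT
    rw [h5, ht, Nat.add_sub_cancel]; ring

theorem NN_pos (a : A) : 0 < NN a := (big_facts a).2.1
theorem S_pos (a : A) : 0 < a.1.S := a.2.1.facts.1
theorem SS_dvd (a : A) : a.1.S * a.1.S ∣ NN a := (Dvd.intro _ rfl).trans (big_facts a).2.2.1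
theorem NN_le (a : A) : NN a ≤ a.1.N := Nat.div_le_self _ _
theorem N_le (a : A) : a.1.N ≤ sz a :=
  le_trans (Nat.le_mul_of_pos_right _ (Nat.succ_pos _)) (le_sz_in a.1)

/-- parameters -/
def par (a : A) : U × U × U × U × U × List U :=
  (⟨a.1.S⟩, ⟨a.1.S * a.1.S⟩, ⟨a.1.k⟩, ⟨a.1.t - 1⟩, ⟨a.1.p⟩, a.1.us.map U.mk)

/-- registers -/
noncomputable def rep (a : A) (v : ℕ → LL) : GArr Cl := ⟨NN a, fun i => Cl.mk a.1.p (v i)⟩

theorem tc_par {c : A → ℕ} : TC (fun _ => True) c par := by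
  have h : TC (fun _ => True) c (fun a : A => a.1) := TC.id.of_enc fun _ _ => rfl
  refine TC.pair (tu_S h) (TC.pair ((tu_S h).mul (tu_S h) ?_) (TC.pair (tu_k h)
    (TC.pair ((tu_t h).sub (TU.const 1)) (TC.pair (tu_p h) (tc_us h)))))
  exact (tl_v h).bd.mono fun a _ =>
    le_trans a.2.1.facts.2.2.1 (Nat.le_mul_of_pos_right _ (Nat.succ_pos _))

/-- the context of the network computation -/
noncomputable def C : Ctx LL A (ℕ → LL) (GArr Cl) (U × U × U × U × U × List U) where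
  H := fun e K0 a => Orc In.pre In.t In.φ In.out e K0 a.1.t
  ψ := fun a => NN a * a.1.p * (gT (a.1.t - 1) * (a.1.l + gP a.1.k))
  c := fun a => a.1.c
  par := par
  rep := rep
  Sc := Sc
  bd_par := Bd.sz tc_par
  bd_reg := ⟨9, fun a v => by
    have h1 : sz (rep a v) ≤ NN a * (8 * a.1.p + 4) + 1 := sz_tl_le _ _ _
    have h2 : NN a * (8 * a.1.p + 4) ≤ a.1.N * (8 * (a.1.p + 1)) :=
      Nat.mul_le_mul (NN_le a) (by omega)
    have h3 : a.1.N * (a.1.p + 1) ≤ sz a := le_sz_in a.1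
    have h4 := sz_pos a
    rw [mul_left_comm] at h2
    omega⟩
  add := by
    have h : Lin (fun x : Reg2 rep => (rep x.a x.v, rep x.a x.v')) := TC.id.of_enc fun _ _ => rfl
    have h1 : TL (fun _ => True) (fun _ => 0) (fun x : Reg2 rep => x.a.1.p) (fun x => NN x.a)
      (fun x => x.v) := h.fst
    have h2 : TL (fun _ => True) (fun _ => 0) (fun x : Reg2 rep => x.a.1.p) (fun x => NN x.a)
      (fun x => x.v') := h.snd
    exact h1.add h2
  smul := by
    intro s hs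
    have h : Lin (fun x : Reg par rep => (par x.a, rep x.a x.v)) := TC.id.of_enc fun _ _ => rfl
    have h1 : TL (fun _ => True) (fun _ => 0) (fun x : Reg par rep => x.a.1.p) (fun x => NN x.a)
      (fun x => x.v) := h.snd
    exact h1.smul hs

abbrev RG : Type := Reg C.par C.rep

section
variable {pre : RG → Prop}

theorem r_S : TU pre C.cR (fun x => x.a.1.S) := (C.tc_par).fst
theorem r_k : TU pre C.cR (fun x => x.a.1.k) := (C.tc_par).snd.snd.fst
theorem r_t : TU pre C.cR (fun x => x.a.1.t - 1) := (C.tc_par).snd.snd.snd.fst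
theorem r_p : TU pre C.cR (fun x => x.a.1.p) := (C.tc_par).snd.snd.snd.snd.fst
theorem r_us : TC pre C.cR (fun x => x.a.1.us.map U.mk) := (C.tc_par).snd.snd.snd.snd.snd
theorem r_v : TL pre C.cR (fun x => x.a.1.p) (fun x => NN x.a) (fun x => x.v) := C.tc_reg

theorem r_bd {g : RG → ℕ} (h : ∀ x, g x ≤ C.cR x) : Bd pre C.cR g := Bd.self.mono fun x _ => h x

theorem r_bdN : Bd pre C.cR (fun x => x.a.1.N) :=
  r_bd fun x => le_trans (N_le x.a) (Nat.le_add_left _ _)

theorem tc_row {m : ℕ} (b : Fin m → ZMod 2) :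
    TC (fun z : U × GArr U => z.2.N = m ∧ 0 < z.1.val ∧ ∀ t < m, (z.2.v t).val ≤ z.1.val)
      (fun z => m * (z.1.val * z.1.val))
      (fun z => U.mk ((∏ t : Fin m, (z.2.v t).val ^ (b t).val) % z.1.val)) := by
  have h1 : ∀ t : Fin m, TC (fun z : U × GArr U => z.2.N = m ∧ 0 < z.1.val ∧
      ∀ t < m, (z.2.v t).val ≤ z.1.val) (fun z => m * (z.1.val * z.1.val))
      (fun z => U.mk ((z.2.v t).val ^ (b t).val)) := by
    intro t
    rcases R324.bit_cases (b t) with h | h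
    · rw [h]; exact (TC.const (U.mk 1)).congr fun _ _ => by simp
    · rw [h]
      exact ((TA.of_tc TC.id.snd).get (TU.const t.val) fun z hz => by
        rw [hz.1]; exact t.2).congr fun _ _ => by rw [ZMod.val_one, pow_one]
  have h2 := TU.prodMod (l := fun z : U × GArr U =>
      (List.finRange m).map fun t : Fin m => (z.2.v t).val ^ (b t).val)
    ((TC.listOf (List.finRange m) _ h1).congr fun _ _ => List.map_map) (TU.val TC.id.fst)
    (fun z hz => ⟨hz.2.1, fun u hu => by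
      obtain ⟨t, -, rfl⟩ := List.mem_map.1 hu
      rcases R324.bit_cases (b t) with h | h
      · rw [h, ZMod.val_zero, pow_zero]; exact hz.2.1
      · rw [h, ZMod.val_one, pow_one]; exact hz.2.2 t t.2⟩)
    (Bd.self.mono fun z _ => by rw [List.length_map, List.length_finRange])
  exact TU.congr h2 fun z _ => by rw [Fin.prod_univ_def]

theorem r_sub (b : Fin mT → ZMod 2) :
    TC pre C.cR (fun x => (subU x.a.1.S mT (ll x.a) x.a.1.us b).map U.mk) := by
  have h1 : TA pre C.cR (fun x => ll x.a * mT) (fun x i => U.mk (x.a.1.us.getD i 1)) :=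
    TA.ofList r_us (fun x _ => by rw [List.length_map, (big_facts x.a).2.2.2]) fun x _ i hi => by
      rw [List.length_map] at hi
      rw [List.getElem_map, List.getD_eq_getElem _ _ hi]
  have h2 := (h1.rows (TU.const mT) fun _ _ => ⟨mT_pos, Dvd.intro_left _ rfl⟩).mapEnv
    (f := fun (S : U) (Z : GArr U) => U.mk ((∏ t : Fin mT, (Z.v t).val ^ (b t).val) % S.val))
    (tc_row b) r_S.tc (fun x _ i _ => ⟨rfl, S_pos _, fun t _ => by
      show x.a.1.us.getD (i * mT + t) 1 ≤ x.a.1.S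
      rcases lt_or_ge (i * mT + t) x.a.1.us.length with h | h
      · rw [List.getD_eq_getElem _ _ h]
        exact (x.a.2.1.2.2.2.1 _ (List.getElem_mem h)).1.le
      · rw [List.getD_eq_default _ _ h]; exact S_pos _⟩)
    ((r_bdN.const_mul 4).mono fun x _ => by
      have e1 := x.a.2.1.facts.2.2.2.2
      have e2 := S_pos x.a
      have e3 : x.a.1.S ≤ x.a.1.S * x.a.1.S := Nat.le_mul_self _
      have e4 : x.a.1.S * x.a.1.S ≤ mT * (x.a.1.S * x.a.1.S) := Nat.le_mul_of_pos_left _ mT_pos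
      rw [(big_facts x.a).2.2.2, mul_assoc] at e1
      simp only [Finset.sum_const, Finset.card_range, smul_eq_mul, sz_U,
        Nat.mul_div_cancel _ mT_pos]
      refine le_trans (Nat.mul_le_mul_left _
        (show _ ≤ 4 * (mT * (x.a.1.S * x.a.1.S)) by omega)) ?_
      rw [mul_left_comm]
      exact Nat.mul_le_mul_left _ e1)
  refine h2.toList.congr fun x _ => ?_
  rw [subU, List.map_map, Nat.mul_div_cancel _ mT_pos]
  rfl

end

theorem units_sub (a : A) (b : Fin mT → ZMod 2) : Units2 a.1.S (subU a.1.S mT (ll a) a.1.us b) :=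
  Units2.subU (S_pos a) a.2.1.2.2.2.1 b

theorem opI_q (b : Fin mT → ZMod 2) :
    C.OpI 1 (fun a v => Tm a.1.S al be (subU a.1.S mT (ll a) a.1.us b) v) := by
  refine TB.call (f := In.out) (n := fun x : RG => x.a.1.t)
    (tc_mk (fun x : RG => x.a.1.l) r_S r_k r_t r_p (r_sub b) r_v) (fun x _ => ?_)
    (fun e K0 x _ h => h)
  exact ⟨⟨NN_pos _, (big_facts x.a).2.2.1, x.a.2.1.2.2.1, units_sub _ _, by simp [subU, ll]⟩,
    Nat.sub_one_lt x.a.2.2, by simp [In.φ, C]⟩

theorem opI_nu (u : A → ℕ) (h1 : TU (fun _ : RG => True) C.cR (fun x => u x.a))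
    (h2 : ∀ a, u a < a.1.S ∧ u a * u a ≡ 1 [MOD a.1.S]) :
    C.OpI 0 (fun a v y => v (nu a.1.S (u a) y)) := by
  have h3 := TL.nuT (pre := fun _ : RG => True) (n0 := fun _ => 1) (tb := fun x _ => u x.a)
    r_v r_p r_S r_k (TA.const (TU.const 1) h1.tc ((Bd.sz h1.tc).mono fun _ _ => (one_mul _).le))
    (fun x _ => ⟨NN_pos _, by rw [mul_one]; exact SS_dvd _, x.a.2.1.2.2.1, fun _ _ => h2 _⟩)
    (r_bd fun x => le_trans
      (Nat.mul_le_mul (Nat.mul_le_mul_right _ (NN_le _)) (Nat.le_add_left _ _))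
      (Nat.le_add_right _ _))
  exact Ctx.OpI.of_TC h3

theorem opI_tau (b : Fin mT → ZMod 2) :
    C.OpI 0 (fun a v y => v (nu a.1.S ((subU a.1.S mT (ll a) a.1.us b).prod % a.1.S) y)) := by
  have h1 : TU (fun _ : RG => True) C.cR
      (fun x => (subU x.a.1.S mT (ll x.a) x.a.1.us b).prod % x.a.1.S) :=
    TU.prodMod (r_sub b) r_S (fun x _ => ⟨S_pos _, fun u hu => (units_sub _ _ u hu).1.le⟩)
      (r_bdN.mono fun x _ => by
        have e1 := x.a.2.1.facts.2.2.2.2
        rw [(big_facts x.a).2.2.2] at e1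
        rw [subU, List.length_map, List.length_range]
        exact le_trans (Nat.mul_le_mul_right _ (Nat.le_mul_of_pos_right _ mT_pos)) e1)
  have h2 : ∀ a : A, (subU a.1.S mT (ll a) a.1.us b).prod % a.1.S < a.1.S ∧
      (subU a.1.S mT (ll a) a.1.us b).prod % a.1.S * ((subU a.1.S mT (ll a) a.1.us b).prod % a.1.S)
        ≡ 1 [MOD a.1.S] := fun a => ⟨Nat.mod_lt _ (S_pos _), (units_sub _ _).prod⟩
  exact opI_nu _ h1 h2

/-- the action of symbols for a fixed input -/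
noncomputable def ρ1 (a : A) : ((Fin mT → ZMod 2) → ZMod 4) → (ℕ → LL) →ₗ[LL] (ℕ → LL) :=
  (exists_rho (S_pos a) (big_facts a).2.2.2 a.2.1.2.2.2.1).choose

theorem ρ1_spec (a : A) : (∀ v, ρ1 a 0 v = v) ∧ (∀ σ σ' v, ρ1 a (σ + σ') v = ρ1 a σ (ρ1 a σ' v)) ∧
    (∀ b v, ρ1 a (q b) v = Tm a.1.S al be (subU a.1.S mT (ll a) a.1.us b) v) ∧
    (∀ b v, ρ1 a (tau b) v =
      fun x => v (nu a.1.S ((subU a.1.S mT (ll a) a.1.us b).prod % a.1.S) x)) ∧
    ∀ v, ρ1 a (∑ t, q (Pi.single t 1)) v = Tm a.1.S al be a.1.us v :=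
  (exists_rho (S_pos a) (big_facts a).2.2.2 a.2.1.2.2.2.1).choose_spec

/-- the action of symbols on registers -/
noncomputable def ρ (σ : (Fin mT → ZMod 2) → ZMod 4) : (A → ℕ → LL) →ₗ[LL] (A → ℕ → LL) where
  toFun u a := ρ1 a σ (u a)
  map_add' u u' := funext fun a => map_add (ρ1 a σ) (u a) (u' a)
  map_smul' s u := funext fun a => map_smul (ρ1 a σ) s (u a)

theorem ρ_apply (σ : (Fin mT → ZMod 2) → ZMod 4) (u : A → ℕ → LL) (a : A) :
    ρ σ u a = ρ1 a σ (u a) := rfl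

theorem tb_big : TB (fun _ : A => True) C.H (fun a => rT * C.ψ a) C.c (fun a => a.1.out) := by
  have hv : TC (fun _ => True) C.c (fun a : A => a.1) := TC.id.of_enc fun _ _ => rfl
  have hSS : ∀ a : A, 0 < a.1.S * a.1.S := fun a => Nat.mul_pos (S_pos a) (S_pos a)
  have h0 : C.sys.Av 0 (Set.range fun (j : Fin WT) (a : A) (y : ℕ) =>
      a.1.v (ins (a.1.S * a.1.S) WT j y)) := by
    refine C.av_init _ tc_par fun j => ?_
    refine TA.pile WT j j.2 (tl_v hv) (TU.val tc_par.snd.fst) fun a _ => ⟨hSS a, ?_⟩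
    rw [(big_facts a).1]; exact Nat.mul_dvd_mul_right (SS_dvd a) _
  have h2 := tnet C.sys hf two_mul_hf hf_mem ρ (fun u => funext fun a => (ρ1_spec a).1 _)
    (fun σ σ' u => funext fun a => (ρ1_spec a).2.1 _ _ _)
    (fun b => by
      have h3 := (opI_q b).op
      convert h3 using 1
      funext u a
      exact (ρ1_spec a).2.2.1 _ _)
    (fun b => by
      have h3 := (opI_tau b).op
      convert h3 using 1
      funext u a
      exact (ρ1_spec a).2.2.2.1 _ _) _ 0 h0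
  rw [zero_add] at h2
  refine C.final_comp (n := WT) (fun j a =>
    Tm a.1.S al be a.1.us fun y => a.1.v (ins (a.1.S * a.1.S) WT j y)) ?_ _ ?_
  · convert h2 using 4 with j a
    rw [ρ_apply, (ρ1_spec a).2.2.2.2]
  · refine TA.congr (TA.merge WT WT_pos (C.tc_regs).snd (TU.val (C.tc_regs).fst.snd.fst)
      fun z _ => ⟨hSS _, SS_dvd _⟩) (fun z _ => (big_facts z.a).1) fun z _ i _ => ?_
    show Cl.mk z.a.1.p (Tm z.a.1.S al be z.a.1.us z.a.1.v i) = Cl.mk z.a.1.p
      (Tm z.a.1.S al be z.a.1.us (fun y => z.a.1.v (ins (z.a.1.S * z.a.1.S) WT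
        (dig (z.a.1.S * z.a.1.S) WT i) y)) (del (z.a.1.S * z.a.1.S) WT i))
    rw [← Tm_comp al be z.a.1.us z.a.1.v (fun u x => nu_ins (S_pos _) (hSS _) dvd_rfl u _ x),
      ins_del (hSS _) WT_pos]

noncomputable def ψ (x : In) : ℕ :=
  if x.t = 0 then 0 else rT * (x.N / WT * x.p * (gT (x.t - 1) * (x.l + gP x.k)))

theorem tb_body : TB In.pre (fun e K0 x => Orc In.pre In.t In.φ In.out e K0 x.t) ψ In.c
    In.out := by
  have key : TB In.pre (fun e K0 x => Orc In.pre In.t In.φ In.out e K0 x.t) ψ In.c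
      (fun x => if x.t = 0 then x.out else x.out) := by
    refine TB.ite' ((tu_t TC.id).eq (TU.const 0)) (TB.of_TC ?_) ?_
    · have e : ∀ x : In, x.pre ∧ x.t = 0 → x.us.length = x.l := fun x hx => by
        rw [hx.1.2.2.2.2, hx.2, pow_zero, one_mul]
      refine TL.leaf (tl_v TC.id) (tu_p TC.id) (tu_S TC.id) (tu_k TC.id) (tc_us TC.id)
        (fun x hx => ⟨hx.1.1, ?_, hx.1.2.2.1, hx.1.2.2.2.1⟩)
        (Bd.self.mono fun x hx => by rw [e x hx]; exact le_rfl)
      have h1 := hx.1.2.1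
      rw [hx.2, pow_zero, one_mul] at h1
      rw [e x hx]; exact h1
    · refine TB.mono (TB.of_subtype (pre := Big) (ψ := ψ) (c := In.c)
        (H := fun e K0 x => Orc In.pre In.t In.φ In.out e K0 x.t) (f := In.out) ?_)
        (fun x hx => hx) (fun _ _ _ _ h => h) (fun _ _ => le_rfl) Bd.self (fun _ _ => rfl)
      refine tb_big.mono (fun _ h => h) (fun _ _ _ _ h => h) (fun a _ => ?_) Bd.self fun _ _ => rfl
      rw [ψ, if_neg a.2.2]; rfl
  exact key.mono (fun _ h => h) (fun _ _ _ _ h => h) (fun _ _ => le_rfl) Bd.self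
    fun x _ => by simp

theorem tc_out : TC In.pre In.φ In.out := by
  refine TC.rec tb_body ⟨61, fun x hx => ?_⟩
  have h1 := sz_in_le hx
  have h3 : x.N * x.p ≤ x.c :=
    Nat.le_mul_of_pos_right _ (lt_of_lt_of_le (gP_pos _) (Nat.le_add_left _ _))
  have h2 : ψ x + x.c ≤ x.φ := by
    unfold ψ In.φ In.c
    split_ifs with h0
    · rw [h0, gT, one_mul, zero_add]
    · have h3 := (big_facts ⟨x, hx, h0⟩).1
      have h4 := gT_succ (x.t - 1)
      rw [Nat.sub_add_cancel (Nat.pos_of_ne_zero h0)] at h4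
      change x.N = x.N / WT * WT at h3
      generalize x.N / WT = N' at *
      have h5 := Nat.mul_le_mul_left (N' * x.p * (x.l + gP x.k)) h4
      rw [h3]
      refine le_trans (le_of_eq ?_) (le_trans h5 (le_of_eq ?_)) <;> ring
  omega

end TRec

variable {α : Type*} [Enc α] {pre : α → Prop} {c N S k t l p : α → ℕ} {v : α → ℕ → LL}
  {us : α → List ℕ}

theorem TL.trec (h : TL pre c p N v) (hp : TU pre c p) (hS : TU pre c S) (hk : TU pre c k)
    (ht : TU pre c t) (hus : TC pre c (fun a => (us a).map U.mk))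
    (h0 : ∀ a, pre a → 0 < N a ∧ S a * S a * (WT ^ t a * 2 ^ l a) ∣ N a ∧
      SwOk (S a) (k a) (p a) ∧ Units2 (S a) (us a) ∧ (us a).length = mT ^ t a * l a)
    (hb : Bd pre c (fun a => N a * p a * (gT (t a) * (l a + gP (k a))))) :
    TL pre c p N (fun a => Tm (S a) al be (us a) (v a)) :=
  TRec.tc_out.comp' (TRec.tc_mk l hS hk ht hp hus h) h0 hb

end Crest.Agent.R326
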