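import Crest.Agent.R326.Lists

/-!
# Row 326, unary arithmetic (task R326-Unary)

`U.mk n` is coded as `List.replicate n ()`, so `TU` facts are list facts (`TC.of_enc`).
PLAN.  add = append; sub = drop; min = take; `le`: `(drop m n).isEmpty`; mul = flatten of
`replicate`; div: `chunks` then count (for `n / d` use `n + 1 - d`-type corrections or filter the
full chunks; `(n + d - 1) / d` chunks); mod = `n - d * (n / d)`; `pow`: `TC.iterate` of `· * k`
(geometric sum; treat `k ≤ 1` separately or by the `n +` term); `ofBin`: `foldl` over the reversed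
bits, state doubles (geometric sum, use `TC.mapAcc'`); `toBin`: RAW `mapAcc` over `n` units with
state `rem`; if `rem = []` output `[]` in O(1) (`dropFst`, `pushConst`, `caseList`), otherwise
output `[parity]` and halve (`rem / 2`, linear); flatten gives `n.bits`.
`mulMod`: iterate `s ↦ (s + v) % S` `u` times.
-/

set_option autoImplicit false

namespace Crest.Agent.R326

open Crest.Agent.PTime

variable {α β : Type*} [Enc α] [Enc β] {pre : α → Prop} {c : α → ℕ} {n m k : α → ℕ}

open ListsA

namespace UnaryA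

theorem le (hn : TU pre c n) (hm : TU pre c m) : TC pre c (fun a => n a ≤ m a) :=
  (TC.drop hm (units hn)).isEmpty.of_decide fun a _ => by simp; omega

theorem geom (r n : ℕ) : ∑ i ∈ Finset.range n, r ^ i ≤ r ^ n + n := by
  rcases le_or_gt r 1 with h | h
  · calc ∑ i ∈ Finset.range n, r ^ i ≤ ∑ _i ∈ Finset.range n, 1 :=
        Finset.sum_le_sum fun i _ => pow_le_one₀ (Nat.zero_le _) h
      _ ≤ _ := by simp
  · induction n with
    | zero => simp
    | succ n ih =>
      have : r ^ n * 2 ≤ r ^ n * r := Nat.mul_le_mul_left _ h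
      rw [Finset.sum_range_succ, pow_succ]
      omega

end UnaryA

@[fun_prop] theorem TU.add (hn : TU pre c n) (hm : TU pre c m) : TU pre c (fun a => n a + m a) := by
  exact (TU.length ((units hn).append (units hm))).congr fun a _ => by simp

@[fun_prop] theorem TU.sub (hn : TU pre c n) (hm : TU pre c m) : TU pre c (fun a => n a - m a) := by
  exact (TU.length (TC.drop hm (units hn))).congr fun a _ => by simp

@[fun_prop] theorem TU.min (hn : TU pre c n) (hm : TU pre c m) :
    TU pre c (fun a => min (n a) (m a)) := by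
  exact (TU.length (TC.take hn (units hm))).congr fun a _ => by simp

theorem TU.mul (hn : TU pre c n) (hm : TU pre c m) (h : Bd pre c (fun a => n a * m a)) :
    TU pre c (fun a => n a * m a) := by
  refine (TU.length (TC.replicate hn (units hm) (((h.const_mul 2).add hn.bd).mono
    fun a _ => ?_)).flatten).congr fun a _ => by simp
  rw [sz_units]
  exact le_of_eq (by ring)

@[fun_prop] theorem TU.const_mul (r : ℕ) (hn : TU pre c n) : TU pre c (fun a => r * n a) := by
  exact (TU.const r).mul hn (hn.bd.const_mul r)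

@[fun_prop] theorem TU.mul_const (r : ℕ) (hn : TU pre c n) : TU pre c (fun a => n a * r) := by
  exact hn.mul (TU.const r) (hn.bd.mul_const r)

@[fun_prop] theorem TU.div (hn : TU pre c n) (hm : TU pre c m) : TU pre c (fun a => n a / m a) := by
  have h1 : TU (fun a => pre a ∧ ¬ m a ≤ 0) c fun a => n a / m a := by
    have hn' : TU (fun a => pre a ∧ ¬ m a ≤ 0) c n := hn.weaken fun _ h => h.1
    have hm' : TU (fun a => pre a ∧ ¬ m a ≤ 0) c m := hm.weaken fun _ h => h.1
    refine (TU.length (TC.chunks hm' (units ((hn'.add (TU.const 1)).sub hm'))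
      fun a ha => Nat.pos_of_ne_zero fun h => ha.2 h.le)).congr fun a ha => ?_
    have := ha.2
    simp only [R326.chunks, List.length_map, List.length_range, List.length_replicate]
    rcases le_total (m a) (n a + 1) with h | h
    · congr 1; omega
    · rcases h.eq_or_lt with h | h
      · congr 1; omega
      · rw [Nat.div_eq_of_lt (by omega), Nat.div_eq_of_lt (by omega)]
  refine (TC.ite' (UnaryA.le hm (TU.const 0)) (TC.const (U.mk 0)) h1).congr fun a _ => ?_
  beta_reduce
  split_ifs with h
  · rw [Nat.le_zero.1 h, Nat.div_zero]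
  · rfl

@[fun_prop] theorem TU.mod (hn : TU pre c n) (hm : TU pre c m) : TU pre c (fun a => n a % m a) := by
  exact (hn.sub (hm.mul (hn.div hm) (hn.bd.mono fun a _ => Nat.mul_div_le _ _))).congr
    fun a _ => Nat.mod_def _ _

theorem TU.pow (r : ℕ) (hn : TU pre c n) (h : Bd pre c (fun a => r ^ n a)) :
    TU pre c (fun a => r ^ n a) := by
  have h1 : Lin fun u : U => U.mk (u.val * r) := ((TU.val TC.id).mul_const r).tc
  have k1 : ∀ i, (fun u : U => U.mk (u.val * r))^[i] ⟨1⟩ = ⟨r ^ i⟩ := by
    intro i
    induction i with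
    | zero => rfl
    | succ i ih => rw [Function.iterate_succ_apply', ih, pow_succ]
  refine (TC.iterate h1 hn (TC.const ⟨1⟩) (fun _ _ _ _ => trivial)
    (((h.const_mul 2).add (hn.bd.const_mul 3)).mono fun a _ => ?_)).congr fun a _ => (k1 _).symm
  have := UnaryA.geom r (n a)
  simp only [k1, sz_U, zero_add, Finset.sum_add_distrib, ← Finset.mul_sum, Finset.sum_const,
    Finset.card_range, smul_eq_mul]
  omega

theorem TU.le (hn : TU pre c n) (hm : TU pre c m) : TC pre c (fun a => n a ≤ m a) := by
  exact UnaryA.le hn hm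

theorem TU.lt (hn : TU pre c n) (hm : TU pre c m) : TC pre c (fun a => n a < m a) := by
  exact (hn.add (TU.const 1)).le hm

theorem TU.eq (hn : TU pre c n) (hm : TU pre c m) : TC pre c (fun a => n a = m a) := by
  exact ((hn.le hm).decide.band (hm.le hn).decide).of_decide fun a _ => by simp; omega

theorem TU.ite {p : α → Prop} [∀ a, Decidable (p a)] (hp : TC pre c p) (hn : TU pre c n)
    (hm : TU pre c m) : TU pre c (fun a => if p a then n a else m a) := by
  exact (TC.ite hp hn hm).congr fun a _ => apply_ite _ _ _ _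

namespace UnaryA

/-- one step of the conversion to binary -/
def binStep (x : Unit × List Unit) : List Bool × List Unit :=
  List.casesOn x.2 ([], []) fun _ t =>
    ([decide ((t.length + 1) % 2 = 1)], List.replicate ((t.length + 1) / 2) ())

theorem raw_binStep : Raw (fun _ : Unit × List Unit => True) (fun x => 2 * x.2.length) binStep := by
  have h0 : TU (fun _ : Unit × List Unit => True) (fun _ => 0) fun y => y.2.length + 1 :=
    (TU.length TC.id.snd).add (TU.const 1)
  have h1 : Lin fun y : Unit × List Unit =>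
      ([decide ((y.2.length + 1) % 2 = 1)], List.replicate ((y.2.length + 1) / 2) ()) :=
    (((h0.mod (TU.const 2)).eq (TU.const 1)).decide.cons (TC.const [])).pair
      (units (h0.div (TU.const 2)))
  have h2 : Raw (fun _ : Unit => True) (fun _ => 0)
      fun _ => (([], []) : List Bool × List Unit) :=
    (Raw.pushConst ([] : List Bool)).mono (fun _ h => h) ⟨0, fun _ _ => le_rfl⟩ fun _ _ => rfl
  refine ((Raw.caseList0 h2 h1).comp Raw.dropFst).mono (fun x _ => ⟨trivial, ?_⟩)
    ⟨2, fun x _ => ?_⟩ fun x _ => ?_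
  all_goals
    obtain ⟨u, l⟩ := x
    cases l with
    | nil => simp [binStep]
    | cons b t =>
      have : sz t = 2 * t.length + 1 := by
        rw [← sz_units]
        congr 1
        exact List.eq_replicate_iff.2 ⟨rfl, fun _ _ => rfl⟩
      simp [binStep, this]
      try omega

theorem bin_spec (k : ℕ) : ∀ r ≤ k,
    (mapAcc binStep (List.replicate k ()) (List.replicate r ())).1.flatten = r.bits ∧
    accSum (fun y => 2 * y.2.length + sz (binStep y).1) binStep (List.replicate k ())
      (List.replicate r ()) ≤ 5 * (k + r) := by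
  induction k with
  | zero =>
    intro r hr
    obtain rfl : r = 0 := by omega
    exact ⟨rfl, Nat.zero_le _⟩
  | succ k ih =>
    intro r hr
    rw [List.replicate_succ, mapAcc, accSum]
    cases r with
    | zero =>
      obtain ⟨h1, h2⟩ := ih 0 (Nat.zero_le _)
      refine ⟨h1, ?_⟩
      change 0 + 1 + accSum _ binStep _ (List.replicate 0 ()) ≤ _
      omega
    | succ r =>
      obtain ⟨h1, h2⟩ := ih ((r + 1) / 2) (by omega)
      have e : binStep ((), List.replicate (r + 1) ()) =
          ([decide ((r + 1) % 2 = 1)], List.replicate ((r + 1) / 2) ()) := by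
        simp [binStep, List.replicate_succ]
      have e2 : (r + 1).bits = decide ((r + 1) % 2 = 1) :: ((r + 1) / 2).bits := by
        rw [← Nat.bits_append_bit _ _ fun h => by simp; omega]
        congr 1
        rw [Nat.bit_val]
        by_cases h : (r + 1) % 2 = 1 <;> simp [h] <;> omega
      have h3 := sz_bool (decide ((r + 1) % 2 = 1))
      rw [e, e2, ← h1]
      refine ⟨rfl, ?_⟩
      simp only [List.length_replicate, sz_cons, sz_nil]
      omega

theorem ofBin_spec (l : List Bool) : ∀ s : ℕ,
    (mapAcc (fun y : Bool × U => ((), U.mk (2 * y.2.val + y.1.toNat))) l ⟨s⟩).2.val =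
      l.foldl (fun t b => Nat.bit b t) s ∧
    accSum (fun y => 0 + sz y.2) (fun y : Bool × U => ((), U.mk (2 * y.2.val + y.1.toNat))) l ⟨s⟩ +
      2 * s ≤ 2 * l.foldl (fun t b => Nat.bit b t) s + l.length := by
  induction l with
  | nil => intro s; simp [mapAcc, accSum]
  | cons b l ih =>
    intro s
    obtain ⟨h1, h2⟩ := ih (2 * s + b.toNat)
    rw [mapAcc, accSum, List.foldl_cons, Nat.bit_val, sz_U, List.length_cons]
    exact ⟨h1, by simp only at h2 ⊢; omega⟩

/-- add modulo `k` -/
def amStep (x : U × U × U) : U × U × U := (⟨(x.1.val + x.2.1.val) % x.2.2.val⟩, x.2)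

theorem am_iter (s m k i : ℕ) :
    amStep^[i] (⟨s % k⟩, ⟨m⟩, ⟨k⟩) = (⟨(s + i * m) % k⟩, ⟨m⟩, ⟨k⟩) := by
  induction i with
  | zero => simp
  | succ i ih =>
    rw [Function.iterate_succ_apply', ih, amStep]
    simp only [Nat.mod_add_mod, Nat.succ_mul, add_assoc]

theorem am {s : α → ℕ} (hn : TU pre c n) (hm : TU pre c m) (hk : TU pre c k)
    (hs : TU pre c s) (h0 : ∀ a, pre a → 0 < k a ∧ m a ≤ k a)
    (h : Bd pre c (fun a => n a * k a)) :
    TC pre c (fun a => ((List.range (n a)).map fun i =>
      amStep^[i] (⟨s a % k a⟩, ⟨m a⟩, ⟨k a⟩), amStep^[n a] (⟨s a % k a⟩, ⟨m a⟩, ⟨k a⟩))) := by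
  have h1 : Lin amStep := (((TU.val TC.id.fst).add (TU.val TC.id.snd.fst)).mod
    (TU.val TC.id.snd.snd)).tc.pair TC.id.snd
  refine iter2 h1 hn ((hs.mod hk).tc.pair (hm.tc.pair hk.tc)) (fun _ _ _ _ => trivial)
    ((h.const_mul 11).mono fun a ha => ?_)
  calc ∑ i ∈ Finset.range (n a), (0 + sz (amStep^[i] (⟨s a % k a⟩, ⟨m a⟩, ⟨k a⟩)))
      ≤ ∑ _i ∈ Finset.range (n a), 11 * k a := Finset.sum_le_sum fun i _ => by
        have h2 := h0 a ha
        have h3 := Nat.mod_lt (s a + i * m a) h2.1
        simp only [am_iter, sz_pair, sz_U]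
        omega
    _ = _ := by simp; ring

end UnaryA
open UnaryA

/-- unary to binary -/
theorem TU.toBin (hn : TU pre c n) : TC pre c n := by
  refine (TC.of_raw (raw_binStep.mapAcc.comp ((units hn).pair (units hn)))
    (fun a ha => ⟨ha, accAll_true _ _ _⟩)
    ((Bd.self.add TCA.bd_sz).add (((hn.bd.const_mul 12).add (Bd.const 1)).mono
      fun a _ => ?_))).fst.flatten.of_enc fun a _ => ?_
  · have := (bin_spec (n a) (n a) le_rfl).2
    simp only [sz_units]
    omega
  · rw [(bin_spec (n a) (n a) le_rfl).1]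
    rfl

/-- binary to unary -/
theorem TU.ofBin (hn : TC pre c n) (h : Bd pre c n) : TU pre c n := by
  have h1 : Lin fun y : Bool × U => ((), U.mk (2 * y.2.val + y.1.toNat)) :=
    (TC.const ()).pair (((TU.val TC.id.snd).const_mul 2).add
      (TU.val (u := fun y : Bool × U => ⟨y.1.toNat⟩)
        ((TC.id.fst.cond (TC.const (U.mk 1)) (TC.const (U.mk 0))).congr
          fun y _ => by cases y.1 <;> rfl))).tc
  have h2 : TC pre c fun a => (n a).bits := hn.of_enc fun _ _ => rfl
  have k1 : ∀ x : ℕ, x.bits.reverse.foldl (fun t b => Nat.bit b t) 0 = x := fun x => by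
    rw [List.foldl_reverse]; exact ofBits_bits x
  refine (TU.val (TC.mapAcc' h1 h2.reverse (TC.const ⟨0⟩) (fun _ _ => accAll_true _ _ _)
    (((h.const_mul 2).add (Bd.length h2.reverse)).mono fun a _ => ?_)).snd).congr fun a _ => ?_
  · have := (ofBin_spec (n a).bits.reverse 0).2
    rw [k1] at this
    exact this
  · rw [(ofBin_spec (n a).bits.reverse 0).1, k1]

/-- `n * m % k` in time `n * k` -/
theorem TU.mulMod (hn : TU pre c n) (hm : TU pre c m) (hk : TU pre c k)
    (h0 : ∀ a, pre a → 0 < k a ∧ m a ≤ k a) (h : Bd pre c (fun a => n a * k a)) :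
    TU pre c (fun a => n a * m a % k a) := by
  exact (am hn hm hk (TU.const 0) h0 h).snd.fst.congr fun a _ => by rw [am_iter, zero_add]

/-- the table of the multiples `(s + i * m) % k`, `i < n`, in unary -/
theorem TC.multiples {s : α → ℕ} (hn : TU pre c n) (hm : TU pre c m) (hk : TU pre c k)
    (hs : TU pre c s) (h0 : ∀ a, pre a → 0 < k a ∧ m a ≤ k a)
    (h : Bd pre c (fun a => n a * k a)) :
    TC pre c (fun a => (List.range (n a)).map fun i => U.mk ((s a + i * m a) % k a)) := by
  exact (TC.map (f := Prod.fst) TC.id.fst (am hn hm hk hs h0 h).fst).congr fun a _ => by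
    simp only [am_iter, List.map_map, Function.comp_def]

/-- `[0, …, n-1]` in binary -/
theorem TC.range (hn : TU pre c n) (h : ∀ e : ℕ, Bd pre c (fun a => n a * sz (n a) ^ e)) :
    TC pre c (fun a => List.range (n a)) := by
  obtain ⟨e, he⟩ := TC.ofPT (f := fun x : ℕ => x + 1) (by fun_prop)
  have k1 : ∀ i, (fun x : ℕ => x + 1)^[i] 0 = i := by
    intro i
    induction i with
    | zero => rfl
    | succ i ih => rw [Function.iterate_succ_apply', ih]
  refine (TC.iterates he hn (TC.const 0) (fun _ _ _ _ => trivial)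
    ((((h e).const_mul (5 ^ e)).add ((h 1).const_mul 5)).mono fun a _ => ?_)).congr
    fun a _ => by simp [k1]
  calc ∑ i ∈ Finset.range (n a), (sz ((fun x : ℕ => x + 1)^[i] 0) ^ e +
        sz ((fun x : ℕ => x + 1)^[i] 0))
      ≤ ∑ _i ∈ Finset.range (n a), ((5 * sz (n a)) ^ e + 5 * sz (n a)) :=
        Finset.sum_le_sum fun i hi => by
          have h1 := sz_le_of_le (Finset.mem_range.1 hi).le
          have h2 := sz_pos (n a)
          rw [k1]
          exact add_le_add (Nat.pow_le_pow_left (by omega) e) (by omega)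
    _ = _ := by simp; ring

/-- product modulo `k` of a list of unary numbers -/
theorem TU.prodMod {l : α → List ℕ} (hl : TC pre c (fun a => (l a).map U.mk)) (hk : TU pre c k)
    (h0 : ∀ a, pre a → 0 < k a ∧ ∀ u ∈ l a, u ≤ k a)
    (h : Bd pre c (fun a => (l a).length * (k a * k a))) :
    TU pre c (fun a => (l a).prod % k a) := by
  have h1 : TC (fun x : (U × U) × U => 0 < x.1.2.val ∧ x.1.1.val ≤ x.1.2.val ∧ x.2.val ≤ x.1.2.val)
      (fun x => x.1.2.val * x.1.2.val)
      (fun x => (U.mk (x.2.val * x.1.1.val % x.1.2.val), x.1.2)) :=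
    (TU.mulMod (TU.val TC.id.snd) (TU.val TC.id.fst.fst) (TU.val TC.id.fst.snd)
      (fun x hx => ⟨hx.1, hx.2.1⟩)
      (Bd.self.mono fun x hx => Nat.mul_le_mul_right _ hx.2.2)).tc.pair TC.id.fst.snd
  have k1 : ∀ (k : ℕ) (l : List ℕ) (s : ℕ), (l.map U.mk).foldl
      (fun (t : U × U) (u : U) => (U.mk (u.val * t.1.val % t.2.val), t.2)) (⟨s % k⟩, ⟨k⟩) =
      (⟨s * l.prod % k⟩, ⟨k⟩) := by
    intro k l
    induction l with
    | nil => intro s; simp
    | cons u l ih =>
      intro s
      rw [List.map_cons, List.foldl_cons, Nat.mul_mod_mod, ih, List.prod_cons, mul_comm u s,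
        mul_assoc]
  refine (TC.foldl (f := fun (t : U × U) (u : U) => (U.mk (u.val * t.1.val % t.2.val), t.2)) h1 hl
    (((TU.const 1).mod hk).tc.pair hk.tc) (fun a t => t.2.val = k a ∧ t.1.val ≤ k a)
    (fun a _ => 8 * (k a * k a)) (fun a ha => ⟨rfl, (Nat.mod_lt _ (h0 a ha).1).le⟩)
    (fun a ha b hb t ht => ?_) ((h.const_mul 8).mono fun a _ => ?_)).fst.congr
    fun a _ => by rw [k1, one_mul]
  · obtain ⟨u, hu, rfl⟩ := List.mem_map.1 hb
    obtain ⟨h2, h3⟩ := h0 a ha
    have h4 := h3 u hu
    have h5 : k a ≤ k a * k a := Nat.le_mul_self _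
    obtain ⟨h6, h7⟩ := ht
    rw [sz_prod, sz_U, sz_U]
    simp only [h6]
    exact ⟨⟨h2, h7, h4⟩, ⟨trivial, (Nat.mod_lt _ h2).le⟩, by omega⟩
  · simp only [List.map_map, Function.comp_def, List.map_const', List.sum_replicate, smul_eq_mul]
    exact le_of_eq (by ring)

end Crest.Agent.R326
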